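import Vale.Agent.P251.F.VGen

/-!
# P251, part F: weights of the generators of the Lazard ring

Rescaling of a law: `(lin u)⁻¹ • F = u⁻¹ F(u x, u y)` multiplies the coefficient `a_{ij}` by
`u ^ (i + j - 1)`, the generators `xC F n`, `yF p F n` by `u ^ (n + 1)`, `v_k` by
`u ^ (p ^ k - 1)`.
-/

namespace Vale.Agent.P251.F

open MvPowerSeries Vale.Agent.P217 Finsupp

variable {A B : Type*} [CommRing A] [CommRing B]

theorem lin_inv_val (u : Bˣ) :
    ((InvSeries.lin u)⁻¹).val = PowerSeries.C ((u⁻¹ : Bˣ) : B) * PowerSeries.X := by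
  rw [← map_inv, InvSeries.lin_val]

theorem hasSubst_C_mul_X (b : B) :
    PowerSeries.HasSubst (PowerSeries.C b * PowerSeries.X : PowerSeries B) :=
  hasSubst_of_cc (by
    change PowerSeries.constantCoeff (PowerSeries.C b * PowerSeries.X) = 0
    simp)

theorem subst_C_mul_X {σ : Type*} {G : MvPowerSeries σ B} (hG : PowerSeries.HasSubst G) (b : B) :
    PowerSeries.subst G (PowerSeries.C b * PowerSeries.X) = MvPowerSeries.C b * G := by
  rw [PowerSeries.subst_mul hG, PowerSeries.subst_X hG, PowerSeries.subst_C]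

/-- the coefficients of `(lin u)⁻¹ • F = u⁻¹ F(u x, u y)`. -/
theorem coeff_lin_inv_smul (u : Bˣ) (F : Law B) (d : Fin 2 →₀ ℕ) :
    (u : B) * coeff d ((InvSeries.lin u)⁻¹ • F).ps = (u : B) ^ d.degree * coeff d F.ps := by
  have hX : ∀ i, PowerSeries.HasSubst (X i : MvPowerSeries (Fin 2) B) :=
    fun i => hasSubst_of_cc (by simp)
  have h1 : ((InvSeries.lin u)⁻¹ • F).ps = MvPowerSeries.C ((u⁻¹ : Bˣ) : B) *
      rescale (fun _ : Fin 2 => (u : B)) F.ps := by
    have h2 : ![(PowerSeries.subst (X 0 : MvPowerSeries (Fin 2) B)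
          (InvSeries.lin u).val : MvPowerSeries (Fin 2) B),
        (PowerSeries.subst (X 1 : MvPowerSeries (Fin 2) B) (InvSeries.lin u).val :
          MvPowerSeries (Fin 2) B)] =
        (fun _ : Fin 2 => (u : B)) • (X : Fin 2 → MvPowerSeries (Fin 2) B) := by
      ext1 i
      fin_cases i
      · change (PowerSeries.subst (X 0 : MvPowerSeries (Fin 2) B) (InvSeries.lin u).val :
          MvPowerSeries (Fin 2) B) = (u : B) • X 0
        rw [InvSeries.lin_val, subst_C_mul_X (hX 0), smul_eq_C_mul]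
      · change (PowerSeries.subst (X 1 : MvPowerSeries (Fin 2) B) (InvSeries.lin u).val :
          MvPowerSeries (Fin 2) B) = (u : B) • X 1
        rw [InvSeries.lin_val, subst_C_mul_X (hX 1), smul_eq_C_mul]
    rw [InvSeries.smul_ps, inv_inv, h2, ← rescale_eq_subst, lin_inv_val, subst_C_mul_X]
    refine hasSubst_of_cc ?_
    rw [← coeff_zero_eq_constantCoeff_apply, coeff_rescale]
    have := F.toFG.zero_constantCoeff
    rw [coeff_zero_eq_constantCoeff_apply, this, mul_zero]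
  rw [h1, coeff_C_mul, coeff_rescale, ← mul_assoc, Units.mul_inv, one_mul, Finsupp.prod_fintype _ _
    (fun _ => pow_zero _), Finset.prod_pow_eq_pow_sum, Finsupp.degree_eq_sum]

theorem coeff_e2_lin_inv_smul (u : Bˣ) (F : Law B) {n i j : ℕ} (h : i + j = n + 1) :
    coeff (e2 i j) ((InvSeries.lin u)⁻¹ • F).ps = (u : B) ^ n * coeff (e2 i j) F.ps := by
  have h1 := coeff_lin_inv_smul u F (e2 i j)
  rw [degree_e2, h, pow_succ', mul_assoc] at h1
  exact (Units.mul_right_inj u).1 h1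

theorem xC_lin_inv_smul (u : Bˣ) (F : Law B) (n : ℕ) :
    xC ((InvSeries.lin u)⁻¹ • F) n = (u : B) ^ (n + 1) * xC F n := by
  rw [xC, xC, Finset.mul_sum]
  refine Finset.sum_congr rfl fun i hi => ?_
  rw [Finset.mem_Ioo] at hi
  rw [coeff_e2_lin_inv_smul u F (n := n + 1) (by omega), mul_smul_comm]

theorem coeff_multSeries_lin_inv_smul (u : Bˣ) (F : Law B) (m n : ℕ) :
    PowerSeries.coeff (n + 1) (multSeries ((InvSeries.lin u)⁻¹ • F).toFG m) =
      (u : B) ^ n * PowerSeries.coeff (n + 1) (multSeries F.toFG m) := by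
  have h := smul_multSeries ((InvSeries.lin u)⁻¹) F m
  have hcc : PowerSeries.constantCoeff (multSeries F.toFG m) = 0 :=
    (isHom_multSeries F.toFG m).1
  rw [lin_inv_val, subst_C_mul_X (hasSubst_of_cc hcc)] at h
  have h2 := congrArg (PowerSeries.coeff (n + 1)) h
  have h3 : (PowerSeries.C ((u⁻¹ : Bˣ) : B) * PowerSeries.X : PowerSeries B) =
      ((u⁻¹ : Bˣ) : B) • PowerSeries.X := (PowerSeries.smul_eq_C_mul _ _).symm
  rw [h3, ← PowerSeries.rescale_eq_subst, PowerSeries.coeff_rescale] at h2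
  have h4 : PowerSeries.coeff (n + 1) (PowerSeries.C ((u⁻¹ : Bˣ) : B) * multSeries F.toFG m) =
      ((u⁻¹ : Bˣ) : B) * PowerSeries.coeff (n + 1) (multSeries F.toFG m) :=
    PowerSeries.coeff_C_mul _ _ _
  have h5 : ((u⁻¹ : Bˣ) : B) * PowerSeries.coeff (n + 1) (multSeries F.toFG m) =
      ((u⁻¹ : Bˣ) : B) ^ (n + 1) *
        PowerSeries.coeff (n + 1) (multSeries ((InvSeries.lin u)⁻¹ • F).toFG m) := by
    rw [← h4]
    exact h2
  have h6 : (u : B) ^ (n + 1) * ((u⁻¹ : Bˣ) : B) ^ (n + 1) = 1 := by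
    rw [← mul_pow, Units.mul_inv, one_pow]
  calc PowerSeries.coeff (n + 1) (multSeries ((InvSeries.lin u)⁻¹ • F).toFG m)
      = ((u : B) ^ (n + 1) * ((u⁻¹ : Bˣ) : B) ^ (n + 1)) *
        PowerSeries.coeff (n + 1) (multSeries ((InvSeries.lin u)⁻¹ • F).toFG m) := by
          rw [h6, one_mul]
    _ = (u : B) ^ (n + 1) * (((u⁻¹ : Bˣ) : B) * PowerSeries.coeff (n + 1)
        (multSeries F.toFG m)) := by rw [mul_assoc, ← h5]
    _ = (u : B) ^ n * ((u : B) * ((u⁻¹ : Bˣ) : B)) * PowerSeries.coeff (n + 1)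
        (multSeries F.toFG m) := by ring
    _ = _ := by rw [Units.mul_inv, mul_one]

theorem vv_lin_inv_smul {p : ℕ} (hp : p ≠ 0) (u : Bˣ) (F : Law B) (k : ℕ) :
    vv p k ((InvSeries.lin u)⁻¹ • F) = (u : B) ^ (p ^ k - 1) * vv p k F := by
  rw [vv, vv]
  obtain ⟨m, hm⟩ := Nat.exists_eq_succ_of_ne_zero (pow_ne_zero k hp)
  rw [hm]
  exact coeff_multSeries_lin_inv_smul u F p m

theorem yF_lin_inv_smul (p : ℕ) (u : Bˣ) (F : Law B) (n : ℕ) :
    yF p ((InvSeries.lin u)⁻¹ • F) n = (u : B) ^ (n + 1) * yF p F n := by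
  unfold yF
  split_ifs
  · exact coeff_multSeries_lin_inv_smul u F p (n + 1)
  · exact xC_lin_inv_smul u F n

/-- If the generators of a law over a ring with `p = 0` are fixed by the rescaling with `u` then
so is the law, i.e. `u x` is an automorphism. -/
theorem lin_smul_eq_self {p : ℕ} [Fact p.Prime] (hB : (p : B) = 0) (u : Bˣ) (F : Law B)
    (h : ∀ n, (u : B) ^ (n + 1) * yF p F n = yF p F n) : InvSeries.lin u • F = F := by
  have h1 : (InvSeries.lin u)⁻¹ • F = F :=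
    law_ext_yF hB fun n => by rw [yF_lin_inv_smul, h]
  conv_lhs => rw [← h1]
  rw [smul_inv_smul]

/-- weight of the coefficients of a law fixed by `u x`. -/
theorem pow_mul_coeff_of_lin_smul {u : Bˣ} {F : Law B} (h : InvSeries.lin u • F = F) {n i j : ℕ}
    (hij : i + j = n + 1) : (u : B) ^ n * coeff (e2 i j) F.ps = coeff (e2 i j) F.ps := by
  rw [← coeff_e2_lin_inv_smul u F hij]
  congr 2
  rw [inv_smul_eq_iff, h]

namespace Laz

/-- `x n` has weight `n + 1`. -/
theorem isWt_x (n : ℕ) :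
    Cob.IsWt (N := Laz) (n + 1 : ℕ) (MvPolynomial.C (x n) : Cob Laz 0) := by
  intro B _ c u
  rw [Cob.ev_C, Cob.ev_C]
  change LawRing.act (InvSeries.lin u)⁻¹ c.pt (x n) = _
  rw [act_eq, x, map_xC, univ_map_lift, xC_lin_inv_smul, map_xC, zpow_natCast, Units.val_pow_eq_pow_val]

/-- A coefficient `a_{ij}` has weight `i + j - 1`. -/
theorem isWt_C_coeff (n i j : ℕ) (h : i + j = n + 1) :
    Cob.IsWt (N := Laz) (n : ℕ) (MvPolynomial.C (coeff (e2 i j) univ.ps) : Cob Laz 0) := by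
  intro B _ c u
  rw [Cob.ev_C, Cob.ev_C]
  change LawRing.act (InvSeries.lin u)⁻¹ c.pt (coeff (e2 i j) univ.ps) = _
  have h1 : ∀ φ : Laz →+* B, φ (coeff (e2 i j) univ.ps) = coeff (e2 i j) (univ.map φ).ps :=
    fun φ => by rw [Law.map_ps, coeff_map]
  rw [h1, h1, act_eq, univ_map_lift, coeff_e2_lin_inv_smul u _ h, zpow_natCast,
    Units.val_pow_eq_pow_val]

/-- `v_k` has weight `p ^ k - 1`. -/
theorem isWt_C_v {p : ℕ} (hp : p ≠ 0) (k : ℕ) :
    Cob.IsWt (N := Laz) (p ^ k - 1 : ℕ) (MvPolynomial.C (v p k) : Cob Laz 0) := by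
  intro B _ c u
  rw [Cob.ev_C, Cob.ev_C]
  change LawRing.act (InvSeries.lin u)⁻¹ c.pt (v p k) = _
  rw [map_v, map_v, act_eq, univ_map_lift, vv_lin_inv_smul hp, zpow_natCast,
    Units.val_pow_eq_pow_val]

end Laz

end Vale.Agent.P251.F
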