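import Vale.Agent.P251.F.Laz
import Mathlib.Algebra.BigOperators.Fin

/-!
# P251, part F: law rings and the cobar complex

A *law ring* is a commutative ring `N` with a commutative formal group law over it, together with
an action, natural in `B`, of the group `InvSeries B` of all coordinate changes on the set
`N →+* B` of points, which covers the action on laws. Examples: `Laz`, quotients and localizations
by invariant ideals/elements, `W ⊗ N`, ….

A chain of length `n` over `N` with values in `B` is a point `F` together with strict series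
`g 0 = 1, g 1, …, g n` (homogeneous coordinates): it stands for the chain of laws and strict
isomorphisms `F_0 → F_1 → … → F_n`, `F_i = g i • F`.
`Cob N n = N[b_{i,m}]` is the ring of functions on chains of length `n`.
-/

namespace Vale.Agent.P251.F

open Vale.Agent.P217

/-- A law ring. -/
class LawRing (N : Type) [CommRing N] where
  /-- the law over `N` -/
  law : Law N
  /-- the action of coordinate changes on points -/
  act : ∀ {B : Type} [CommRing B], InvSeries B → (N →+* B) → (N →+* B)
  act_one : ∀ {B : Type} [CommRing B] (x : N →+* B), act 1 x = x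
  act_mul : ∀ {B : Type} [CommRing B] (f g : InvSeries B) (x : N →+* B),
    act (f * g) x = act f (act g x)
  comp_act : ∀ {B C : Type} [CommRing B] [CommRing C] (φ : B →+* C) (f : InvSeries B)
    (x : N →+* B), φ.comp (act f x) = act (InvSeries.map φ f) (φ.comp x)
  law_act : ∀ {B : Type} [CommRing B] (f : InvSeries B) (x : N →+* B),
    law.map (act f x) = f • law.map x

/-- The Lazard ring as a law ring. -/
noncomputable instance : LawRing Laz where
  law := Laz.univ
  act f x := Laz.lift (f • Laz.univ.map x)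
  act_one x := by rw [one_smul, Laz.lift_map_univ]
  act_mul f g x := by rw [Laz.univ_map_lift, mul_smul]
  comp_act φ f x := by
    rw [Laz.comp_lift, InvSeries.map_smul, Law.map_map]
  law_act f x := Laz.univ_map_lift _

theorem Laz.law_eq : LawRing.law (N := Laz) = Laz.univ := rfl

theorem Laz.act_eq {B : Type} [CommRing B] (f : InvSeries B) (x : Laz →+* B) :
    LawRing.act f x = Laz.lift (f • Laz.univ.map x) := rfl

open LawRing

variable {N : Type} [CommRing N]

/-- A chain `F_0 → F_1 → … → F_n` of laws and strict isomorphisms, in homogeneous coordinates: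
`F_i = g i • F_0`. -/
@[ext] structure Chain (N : Type) [CommRing N] (n : ℕ) (B : Type) [CommRing B] where
  /-- the point classifying `F_0` -/
  pt : N →+* B
  /-- the isomorphisms `F_0 → F_i` -/
  g : Fin (n + 1) → InvSeries B
  strict : ∀ i, g i ∈ Vale.Agent.P251.F.strict B
  zero : g 0 = 1

/-- The ring of functions on chains of length `n`; the variable `(i,m)` is the coefficient of
`x^{m+2}` in `g (i+1)`. -/
abbrev Cob (N : Type) [CommRing N] (n : ℕ) : Type := MvPolynomial (Fin n × ℕ) N

namespace Chain

variable {B C : Type} [CommRing B] [CommRing C] {n m l : ℕ}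

/-- base change of chains -/
noncomputable def map (φ : B →+* C) (c : Chain N n B) : Chain N n C where
  pt := φ.comp c.pt
  g i := InvSeries.map φ (c.g i)
  strict i := map_mem_strict φ (c.strict i)
  zero := by rw [c.zero, map_one]

@[simp] theorem map_pt (φ : B →+* C) (c : Chain N n B) : (c.map φ).pt = φ.comp c.pt := rfl
@[simp] theorem map_g (φ : B →+* C) (c : Chain N n B) (i : Fin (n + 1)) :
    (c.map φ).g i = InvSeries.map φ (c.g i) := rfl

variable [LawRing N]

/-- The restriction of a chain along a map `[m] → [n]` of index sets. -/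
noncomputable def res (α : Fin (m + 1) → Fin (n + 1)) (c : Chain N n B) : Chain N m B where
  pt := act (c.g (α 0)) c.pt
  g i := c.g (α i) * (c.g (α 0))⁻¹
  strict _ := mul_mem (c.strict _) (inv_mem (c.strict _))
  zero := mul_inv_cancel _

@[simp] theorem res_pt (α : Fin (m + 1) → Fin (n + 1)) (c : Chain N n B) :
    (c.res α).pt = act (c.g (α 0)) c.pt := rfl
@[simp] theorem res_g (α : Fin (m + 1) → Fin (n + 1)) (c : Chain N n B) (i : Fin (m + 1)) :
    (c.res α).g i = c.g (α i) * (c.g (α 0))⁻¹ := rfl

theorem res_id (c : Chain N n B) : c.res id = c := by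
  ext1
  · rw [res_pt, id, c.zero, act_one]
  · funext i
    rw [res_g, id, id, c.zero, inv_one, mul_one]

theorem res_res (α : Fin (m + 1) → Fin (n + 1)) (β : Fin (l + 1) → Fin (m + 1))
    (c : Chain N n B) : (c.res α).res β = c.res (α ∘ β) := by
  ext1
  · rw [res_pt, res_pt, res_g, ← act_mul, inv_mul_cancel_right, res_pt, Function.comp_apply]
  · funext i
    rw [res_g, res_g, res_g, res_g, mul_inv_rev, inv_inv, mul_assoc, inv_mul_cancel_left]
    rfl

theorem map_res (φ : B →+* C) (α : Fin (m + 1) → Fin (n + 1)) (c : Chain N n B) :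
    (c.res α).map φ = (c.map φ).res α := by
  ext1
  · rw [map_pt, res_pt, comp_act]
    rfl
  · funext i
    rw [map_g, res_g, res_g, map_mul, map_inv]
    rfl

/-- the law at the `i`-th vertex -/
noncomputable def vertex (c : Chain N n B) (i : Fin (n + 1)) : Law B := c.g i • law.map c.pt

/-- Rescaling of a chain by a unit: every law `F` is replaced by `λ⁻¹ F(λ x, λ y)`. -/
noncomputable def scale (c : Chain N n B) (u : Bˣ) : Chain N n B where
  pt := act (InvSeries.lin u)⁻¹ c.pt
  g i := (InvSeries.lin u)⁻¹ * c.g i * InvSeries.lin u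
  strict i := by
    have h := strict_normal.conj_mem (c.g i) (c.strict i) (InvSeries.lin u)⁻¹
    rwa [inv_inv] at h
  zero := by rw [c.zero, mul_one, inv_mul_cancel]

end Chain

namespace Cob

variable {B C : Type} [CommRing B] [CommRing C] {n m l : ℕ}

/-- The universal chain over `Cob N n`. -/
noncomputable def univ (N : Type) [CommRing N] (n : ℕ) : Chain N n (Cob N n) where
  pt := MvPolynomial.C
  g := Fin.cons 1 fun i => strictMk fun m => MvPolynomial.X (i, m)
  strict := by
    intro i
    refine Fin.cases ?_ (fun i => ?_) i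
    · rw [Fin.cons_zero]
      exact one_mem _
    · rw [Fin.cons_succ]
      exact strictMk_mem _
  zero := Fin.cons_zero _ _

@[simp] theorem univ_pt : (univ N n).pt = MvPolynomial.C := rfl

theorem univ_g_zero : (univ N n).g 0 = 1 := (univ N n).zero

@[simp] theorem univ_g_succ (i : Fin n) :
    (univ N n).g i.succ = strictMk fun m => MvPolynomial.X (i, m) := by
  unfold univ
  exact Fin.cons_succ (α := fun _ => InvSeries (Cob N n)) 1
    (fun i => strictMk fun m => MvPolynomial.X (i, m)) i

/-- Evaluation of functions on a chain. -/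
noncomputable def ev (c : Chain N n B) : Cob N n →+* B :=
  MvPolynomial.eval₂Hom c.pt fun im => (c.g im.1.succ).c (im.2 + 1)

@[simp] theorem ev_C (c : Chain N n B) (a : N) : ev c (MvPolynomial.C a) = c.pt a := by
  simp [ev]

@[simp] theorem ev_X (c : Chain N n B) (im : Fin n × ℕ) :
    ev c (MvPolynomial.X im) = (c.g im.1.succ).c (im.2 + 1) := by
  simp [ev]

@[simp] theorem univ_map_ev (c : Chain N n B) : (univ N n).map (ev c) = c := by
  ext1
  · ext a
    simp
  · funext i
    refine Fin.cases ?_ (fun i => ?_) i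
    · rw [Chain.map_g, c.zero, univ_g_zero, map_one]
    · rw [Chain.map_g, univ_g_succ, map_strictMk]
      simp only [ev_X]
      exact strictMk_c (c.strict _)

theorem ev_map (φ : B →+* C) (c : Chain N n B) (x : Cob N n) : ev (c.map φ) x = φ (ev c x) := by
  have : ev (c.map φ) = φ.comp (ev c) := by
    refine MvPolynomial.ringHom_ext (fun a => ?_) (fun im => ?_)
    · simp
    · simp
  rw [this, RingHom.comp_apply]

@[simp] theorem ev_univ (x : Cob N n) : ev (univ N n) x = x := by
  have : ev (univ N n) = RingHom.id (Cob N n) := by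
    refine MvPolynomial.ringHom_ext (fun a => ?_) (fun im => ?_)
    · simp
    · simp
  rw [this, RingHom.id_apply]

/-- Ring homomorphisms out of `Cob N n` are the same as chains. -/
noncomputable def equiv : (Cob N n →+* B) ≃ Chain N n B where
  toFun φ := (univ N n).map φ
  invFun c := ev c
  left_inv φ := RingHom.ext fun x => by
    change ev ((univ N n).map φ) x = φ x
    rw [ev_map, ev_univ]
  right_inv c := univ_map_ev c

/-- Extensionality of functions on chains. -/
theorem ext_ev {x y : Cob N n} (h : ∀ (B : Type) [CommRing B] (c : Chain N n B), ev c x = ev c y) :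
    x = y := by
  have := h _ (univ N n)
  rwa [ev_univ, ev_univ] at this

variable [LawRing N]

/-- The cosimplicial structure: the ring homomorphism `Cob N m → Cob N n` dual to the restriction
of chains along a map `[m] → [n]`. -/
noncomputable def map (α : Fin (m + 1) → Fin (n + 1)) : Cob N m →+* Cob N n :=
  ev ((univ N n).res α)

@[simp] theorem ev_map_res (α : Fin (m + 1) → Fin (n + 1)) (c : Chain N n B) (x : Cob N m) :
    ev c (map α x) = ev (c.res α) x := by
  rw [map, ← ev_map, Chain.map_res, univ_map_ev]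

@[simp] theorem map_id (x : Cob N n) : map id x = x := by
  apply ext_ev
  intro B _ c
  rw [ev_map_res, Chain.res_id]

theorem map_map (α : Fin (m + 1) → Fin (n + 1)) (β : Fin (l + 1) → Fin (m + 1)) (x : Cob N l) :
    map α (map β x) = map (α ∘ β) x := by
  apply ext_ev
  intro B _ c
  rw [ev_map_res, ev_map_res, ev_map_res, Chain.res_res]

/-- The differential `d = ∑ (-1)^i d^i`. -/
noncomputable def d (n : ℕ) : Cob N n →+ Cob N (n + 1) :=
  ∑ i : Fin (n + 2), ((-1 : ℤ) ^ (i : ℕ)) • (map (i.succAbove) : Cob N n →+* Cob N (n + 1)).toAddMonoidHom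

theorem d_apply (x : Cob N n) :
    d n x = ∑ i : Fin (n + 2), ((-1 : ℤ) ^ (i : ℕ)) • map i.succAbove x := by
  simp [d, AddMonoidHom.finsetSum_apply]

theorem ev_d (c : Chain N (n + 1) B) (x : Cob N n) :
    ev c (d n x) = ∑ i : Fin (n + 2), ((-1 : ℤ) ^ (i : ℕ)) • ev (c.res i.succAbove) x := by
  rw [d_apply, map_sum]
  refine Finset.sum_congr rfl fun i _ => ?_
  rw [map_zsmul, ev_map_res]

theorem parity_aux {n : ℕ} (i : Fin (n + 3)) (j : Fin (n + 2)) :
    ((i.succAbove j : Fin (n + 3)) : ℕ) + ((j.predAbove i : Fin (n + 2)) : ℕ) + 1 = i + j ∨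
    ((i.succAbove j : Fin (n + 3)) : ℕ) + ((j.predAbove i : Fin (n + 2)) : ℕ) = i + j + 1 := by
  simp only [Fin.succAbove, Fin.predAbove, Fin.lt_def, Fin.val_castSucc, apply_dite Fin.val,
    Fin.val_pred, Fin.coe_castPred, dite_eq_ite, apply_ite Fin.val, Fin.val_succ]
  split_ifs <;> omega

theorem d_d (x : Cob N n) : d (n + 1) (d n x) = 0 := by
  rw [d_apply]
  simp only [d_apply, map_sum, map_zsmul, map_map, Finset.smul_sum, smul_smul]
  rw [← Finset.sum_product' (f := fun (i : Fin (n + 3)) (j : Fin (n + 2)) =>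
    ((-1 : ℤ) ^ (i : ℕ) * (-1) ^ (j : ℕ)) • map (i.succAbove ∘ j.succAbove) x)]
  refine Finset.sum_involution (fun ij _ => (ij.1.succAbove ij.2, ij.2.predAbove ij.1))
    ?_ ?_ (fun _ _ => Finset.mem_univ _) ?_
  · rintro ⟨i, j⟩ -
    have e : (i.succAbove j).succAbove ∘ (j.predAbove i).succAbove =
        i.succAbove ∘ j.succAbove := by
      funext k
      exact Fin.succAbove_succAbove_succAbove_predAbove i j k
    dsimp only
    rw [e, ← add_smul, ← pow_add, ← pow_add]
    have : ((-1 : ℤ) ^ ((i : ℕ) + j) + (-1) ^ (((i.succAbove j : Fin (n + 3)) : ℕ) +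
        ((j.predAbove i : Fin (n + 2)) : ℕ))) = 0 := by
      rcases parity_aux i j with h | h
      · rw [← h, pow_succ]
        ring
      · rw [h, pow_succ]
        ring
    rw [this, zero_smul]
  · rintro ⟨i, j⟩ - - h
    have := congrArg Prod.fst h
    exact Fin.succAbove_ne i j this
  · rintro ⟨i, j⟩ -
    refine Prod.ext ?_ ?_
    · exact Fin.succAbove_succAbove_predAbove i j
    · dsimp only
      apply Fin.ext
      simp only [Fin.succAbove, Fin.predAbove, Fin.lt_def, Fin.val_castSucc, apply_dite Fin.val,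
        Fin.val_pred, Fin.coe_castPred, dite_eq_ite, apply_ite Fin.val, Fin.val_succ]
      split_ifs <;> omega

/-! ### weights -/

/-- `x` is homogeneous of weight `w`: rescaling the chain by a unit `u` multiplies the value of
`x` by `u ^ w`. The coefficient `a_{ij}` of the law has weight `i + j - 1`, the variable `(i,m)`
has weight `m + 1`. -/
def IsWt (w : ℤ) (x : Cob N n) : Prop :=
  ∀ (B : Type) [CommRing B] (c : Chain N n B) (u : Bˣ),
    ev (c.scale u) x = ((u ^ w : Bˣ) : B) * ev c x

theorem isWt_zero (w : ℤ) : IsWt w (0 : Cob N n) := fun B _ c u => by simp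

theorem IsWt.add {w : ℤ} {x y : Cob N n} (hx : IsWt w x) (hy : IsWt w y) : IsWt w (x + y) :=
  fun B _ c u => by rw [_root_.map_add, _root_.map_add, hx, hy, mul_add]

theorem IsWt.neg {w : ℤ} {x : Cob N n} (hx : IsWt w x) : IsWt w (-x) :=
  fun B _ c u => by rw [_root_.map_neg, _root_.map_neg, hx, mul_neg]

theorem IsWt.mul {w v : ℤ} {x y : Cob N n} (hx : IsWt w x) (hy : IsWt v y) :
    IsWt (w + v) (x * y) :=
  fun B _ c u => by
    rw [_root_.map_mul, _root_.map_mul, hx, hy, zpow_add, Units.val_mul]
    ring

theorem isWt_one : IsWt 0 (1 : Cob N n) :=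
  fun B _ c u => by rw [_root_.map_one, _root_.map_one, zpow_zero, Units.val_one, mul_one]

theorem IsWt.pow {w : ℤ} {x : Cob N n} (hx : IsWt w x) (k : ℕ) : IsWt (k * w) (x ^ k) := by
  induction k with
  | zero => simpa using isWt_one
  | succ k ih =>
    rw [pow_succ]
    have := ih.mul hx
    rwa [show ((k + 1 : ℕ) : ℤ) * w = k * w + w by push_cast; ring]

/-- The additive group of functions of weight `w` on chains of length `n`. -/
def wt (N : Type) [CommRing N] [LawRing N] (n : ℕ) (w : ℤ) : AddSubgroup (Cob N n) where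
  carrier := {x | IsWt w x}
  zero_mem' := isWt_zero w
  add_mem' := IsWt.add
  neg_mem' := IsWt.neg

theorem mem_wt {w : ℤ} {x : Cob N n} : x ∈ wt N n w ↔ IsWt w x := Iff.rfl

theorem res_scale (α : Fin (m + 1) → Fin (n + 1)) (c : Chain N n B) (u : Bˣ) :
    (c.scale u).res α = (c.res α).scale u := by
  ext1
  · change act ((InvSeries.lin u)⁻¹ * c.g (α 0) * InvSeries.lin u)
      (act (InvSeries.lin u)⁻¹ c.pt) = act (InvSeries.lin u)⁻¹ (act (c.g (α 0)) c.pt)
    rw [← act_mul, ← act_mul, mul_inv_cancel_right]
  · funext i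
    change ((InvSeries.lin u)⁻¹ * c.g (α i) * InvSeries.lin u) *
      ((InvSeries.lin u)⁻¹ * c.g (α 0) * InvSeries.lin u)⁻¹ =
      (InvSeries.lin u)⁻¹ * (c.g (α i) * (c.g (α 0))⁻¹) * InvSeries.lin u
    group

theorem map_scale (φ : B →+* C) (c : Chain N n B) (u : Bˣ) :
    (c.scale u).map φ = (c.map φ).scale (Units.map (φ : B →* C) u) := by
  ext1
  · change φ.comp (act (InvSeries.lin u)⁻¹ c.pt) =
      act (InvSeries.lin (Units.map (φ : B →* C) u))⁻¹ (φ.comp c.pt)
    rw [comp_act, _root_.map_inv, InvSeries.map_lin]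
  · funext i
    change InvSeries.map φ ((InvSeries.lin u)⁻¹ * c.g i * InvSeries.lin u) =
      (InvSeries.lin (Units.map (φ : B →* C) u))⁻¹ * InvSeries.map φ (c.g i) *
        InvSeries.lin (Units.map (φ : B →* C) u)
    rw [_root_.map_mul, _root_.map_mul, _root_.map_inv, InvSeries.map_lin]

theorem IsWt.map {w : ℤ} {x : Cob N m} (hx : IsWt w x) (α : Fin (m + 1) → Fin (n + 1)) :
    IsWt w (map α x) :=
  fun B _ c u => by rw [ev_map_res, ev_map_res, res_scale, hx]

theorem IsWt.zsmul {w : ℤ} {x : Cob N m} (hx : IsWt w x) (k : ℤ) : IsWt w (k • x) :=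
  (wt N m w).zsmul_mem hx k

theorem IsWt.d {w : ℤ} {x : Cob N n} (hx : IsWt w x) : IsWt w (d n x) := by
  rw [d_apply]
  exact (wt N (n + 1) w).sum_mem fun i _ => (hx.map _).zsmul _

/-! ### cup product -/

/-- The inclusion of the first `a+1` vertices. -/
def front (a b : ℕ) : Fin (a + 1) → Fin (a + b + 1) := fun i => ⟨i, by omega⟩

/-- The inclusion of the last `b+1` vertices. -/
def back (a b : ℕ) : Fin (b + 1) → Fin (a + b + 1) := fun i => ⟨a + i, by omega⟩

/-- The cup product `(x ∪ y)(F_0,…,F_{a+b}) = x(F_0,…,F_a) y(F_a,…,F_{a+b})`. -/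
noncomputable def cup {a b : ℕ} (x : Cob N a) (y : Cob N b) : Cob N (a + b) :=
  map (front a b) x * map (back a b) y

theorem ev_cup {a b : ℕ} (c : Chain N (a + b) B) (x : Cob N a) (y : Cob N b) :
    ev c (cup x y) = ev (c.res (front a b)) x * ev (c.res (back a b)) y := by
  rw [cup, _root_.map_mul, ev_map_res, ev_map_res]

theorem IsWt.cup {a b : ℕ} {w v : ℤ} {x : Cob N a} {y : Cob N b} (hx : IsWt w x)
    (hy : IsWt v y) : IsWt (w + v) (cup x y) := (hx.map _).mul (hy.map _)

end Cob

end Vale.Agent.P251.F
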