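import Vale.Agent.P251.F.Series

/-!
# P251, part F: the Lazard ring

`Laz` is the quotient of `ℤ[a_{i+1,j+1}]` (variable `(i,j) : ℕ × ℕ`) by the relations expressing
associativity and commutativity of the generic series
`X + Y + ∑ a_{ij} X^i Y^j`; it carries the universal law `Laz.univ`, and
`Laz.equiv : (Laz →+* B) ≃ Law B` for every commutative ring `B`.
-/

namespace Vale.Agent.P251.F

open MvPowerSeries Vale.Agent.P217

variable {A B C : Type*} [CommRing A] [CommRing B] [CommRing C]

/-- The generic series `X + Y + ∑_{i,j ≥ 1} a_{ij} X^i Y^j`; the variable `(i,j)` of the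
polynomial ring is the coefficient `a_{i+1,j+1}`. -/
noncomputable def genPS : MvPowerSeries (Fin 2) (MvPolynomial (ℕ × ℕ) ℤ) := fun d =>
  if d 0 = 0 then (if d 1 = 1 then 1 else 0)
  else if d 1 = 0 then (if d 0 = 1 then 1 else 0)
  else MvPolynomial.X (d 0 - 1, d 1 - 1)

/-- The associativity defect. -/
noncomputable def assocDef (G : MvPowerSeries (Fin 2) B) : MvPowerSeries (Fin 3) B :=
  subst ![subst ![X 0, X 1] G, X 2] G - subst ![X 0, subst ![X 1, X 2] G] G

/-- The commutativity defect. -/
noncomputable def commDef (G : MvPowerSeries (Fin 2) B) : MvPowerSeries (Fin 2) B :=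
  G - subst ![X 1, X 0] G

/-- The ideal of relations of the Lazard ring. -/
noncomputable def Laz.rels : Ideal (MvPolynomial (ℕ × ℕ) ℤ) :=
  Ideal.span (Set.range (fun d => coeff d (assocDef genPS)) ∪
    Set.range (fun d => coeff d (commDef genPS)))

/-- The Lazard ring. -/
def Laz : Type := MvPolynomial (ℕ × ℕ) ℤ ⧸ Laz.rels

noncomputable instance : CommRing Laz := inferInstanceAs (CommRing (_ ⧸ Laz.rels))

namespace Laz

/-- The projection `ℤ[a_{ij}] → Laz`. -/
noncomputable def mk : MvPolynomial (ℕ × ℕ) ℤ →+* Laz := Ideal.Quotient.mk Laz.rels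

theorem mk_surjective : Function.Surjective mk := Ideal.Quotient.mk_surjective

/-- The coefficient `a_{i+1,j+1}`. -/
noncomputable def a (i j : ℕ) : Laz := mk (MvPolynomial.X (i, j))

theorem constantCoeff_genPS : constantCoeff genPS = 0 := by
  rw [← coeff_zero_eq_constantCoeff_apply]
  simp [coeff_apply, genPS]

theorem map_assocDef (φ : A →+* B) {G : MvPowerSeries (Fin 2) A} (hG : constantCoeff G = 0) :
    (assocDef G).map φ = assocDef (G.map φ) := by
  have hX : ∀ i : Fin 3, PowerSeries.HasSubst (X i : MvPowerSeries (Fin 3) A) :=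
    fun i => hasSubst_of_cc (by simp)
  have h : ∀ i j : Fin 3, PowerSeries.HasSubst
      (subst ![X i, X j] G : MvPowerSeries (Fin 3) A) := fun i j =>
    IsNilpotent_subst (hasSubst_pair (hX i) (hX j)) (by rw [hG]; exact IsNilpotent.zero)
  rw [assocDef, map_sub, map_pair_subst φ (h 0 1) (hX 2), map_pair_subst φ (hX 0) (h 1 2),
    map_pair_subst φ (hX 0) (hX 1), map_pair_subst φ (hX 1) (hX 2)]
  simp only [map_X]
  rfl

theorem map_commDef (φ : A →+* B) (G : MvPowerSeries (Fin 2) A) :
    (commDef G).map φ = commDef (G.map φ) := by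
  have hX : ∀ i : Fin 2, PowerSeries.HasSubst (X i : MvPowerSeries (Fin 2) A) :=
    fun i => hasSubst_of_cc (by simp)
  rw [commDef, map_sub, map_pair_subst φ (hX 1) (hX 0)]
  simp only [map_X]
  rfl

theorem assocDef_law (F : Law B) : assocDef F.ps = 0 := sub_eq_zero.2 F.toFG.assoc

theorem commDef_law (F : Law B) : commDef F.ps = 0 := sub_eq_zero.2 F.comm.comm

theorem assocDef_univ : assocDef (genPS.map mk) = 0 := by
  rw [← map_assocDef mk constantCoeff_genPS]
  ext d
  rw [coeff_map, coeff_zero]
  exact Ideal.Quotient.eq_zero_iff_mem.2 (Ideal.subset_span (Or.inl ⟨d, rfl⟩))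

theorem commDef_univ : commDef (genPS.map mk) = 0 := by
  rw [← map_commDef mk]
  ext d
  rw [coeff_map, coeff_zero]
  exact Ideal.Quotient.eq_zero_iff_mem.2 (Ideal.subset_span (Or.inr ⟨d, rfl⟩))

/-- The universal law. -/
noncomputable def univ : Law Laz where
  toFG :=
    { toPowerSeries := genPS.map mk
      zero_constantCoeff := by
        rw [constantCoeff_map, constantCoeff_genPS, map_zero]
      lin_coeff_X := by
        rw [coeff_map, coeff_apply]
        simp [genPS]
      lin_coeff_Y := by
        rw [coeff_map, coeff_apply]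
        simp [genPS]
      assoc := sub_eq_zero.1 assocDef_univ }
  comm := ⟨sub_eq_zero.1 commDef_univ⟩

theorem univ_ps : univ.ps = genPS.map mk := rfl

/-- The coefficients of a law, on the polynomial ring. -/
noncomputable def liftPoly (F : Law B) : MvPolynomial (ℕ × ℕ) ℤ →+* B :=
  MvPolynomial.eval₂Hom (Int.castRingHom B)
    (fun ij => coeff (Finsupp.single 0 (ij.1 + 1) + Finsupp.single 1 (ij.2 + 1)) F.ps)

theorem genPS_map_liftPoly (F : Law B) : genPS.map (liftPoly F) = F.ps := by
  ext d
  rw [coeff_map, coeff_apply, genPS]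
  have hd : d = Finsupp.single 0 (d 0) + Finsupp.single 1 (d 1) := by
    ext i
    fin_cases i <;> simp
  split_ifs with h0 h1 h1 h2
  · rw [h0, h1, Finsupp.single_zero, zero_add] at hd
    rw [hd, F.toFG.lin_coeff_Y, map_one]
  · rw [h0, Finsupp.single_zero, zero_add] at hd
    rw [hd, coeff_single_one_FG, if_neg h1, map_zero]
  · rw [h1, h2, Finsupp.single_zero, add_zero] at hd
    rw [hd, F.toFG.lin_coeff_X, map_one]
  · rw [h1, Finsupp.single_zero, add_zero] at hd
    rw [hd, coeff_single_zero_FG, if_neg h2, map_zero]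
  · rw [liftPoly, MvPolynomial.eval₂Hom_X']
    conv_rhs => rw [hd]
    rw [Nat.sub_add_cancel (Nat.pos_of_ne_zero h0), Nat.sub_add_cancel (Nat.pos_of_ne_zero h1)]

/-- The ring homomorphism classifying a law. -/
noncomputable def lift (F : Law B) : Laz →+* B :=
  Ideal.Quotient.lift Laz.rels (liftPoly F) (by
    have key : Laz.rels ≤ RingHom.ker (liftPoly F) := by
      refine Ideal.span_le.2 ?_
      rintro _ (⟨d, rfl⟩ | ⟨d, rfl⟩)
      · rw [SetLike.mem_coe, RingHom.mem_ker, ← coeff_map, map_assocDef _ constantCoeff_genPS,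
          genPS_map_liftPoly, assocDef_law, coeff_zero]
      · rw [SetLike.mem_coe, RingHom.mem_ker, ← coeff_map, map_commDef,
          genPS_map_liftPoly, commDef_law, coeff_zero]
    exact fun x hx => key hx)

theorem lift_mk (F : Law B) (x : MvPolynomial (ℕ × ℕ) ℤ) : lift F (mk x) = liftPoly F x := rfl

theorem lift_comp_mk (F : Law B) : (lift F).comp mk = liftPoly F := rfl

/-- the value of `lift F` on the coefficients -/
@[simp] theorem lift_a (F : Law B) (i j : ℕ) :
    lift F (a i j) = coeff (Finsupp.single 0 (i + 1) + Finsupp.single 1 (j + 1)) F.ps := by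
  rw [a, lift_mk, liftPoly, MvPolynomial.eval₂Hom_X']

@[simp] theorem univ_map_lift (F : Law B) : univ.map (lift F) = F := by
  apply Law.ext_ps
  rw [Law.map_ps, univ_ps, ← genPS_map_liftPoly F, ← lift_comp_mk]
  ext d
  simp only [coeff_map, RingHom.comp_apply]

/-- Two ring homomorphisms out of `Laz` agree if they agree on the coefficients `a i j`. -/
theorem hom_ext {φ ψ : Laz →+* B} (h : ∀ i j, φ (a i j) = ψ (a i j)) : φ = ψ := by
  have : φ.comp mk = ψ.comp mk := MvPolynomial.ringHom_ext (fun r => by simp) fun ij => h ij.1 ij.2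
  ext x
  obtain ⟨y, rfl⟩ := mk_surjective x
  exact congrFun (congrArg DFunLike.coe this) y

theorem coeff_univ (i j : ℕ) :
    coeff (Finsupp.single 0 (i + 1) + Finsupp.single 1 (j + 1)) univ.ps = a i j := by
  rw [univ_ps, coeff_map, coeff_apply, genPS]
  simp [a]

@[simp] theorem lift_map_univ (φ : Laz →+* B) : lift (univ.map φ) = φ := by
  apply hom_ext
  intro i j
  rw [lift_a, Law.map_ps, coeff_map, coeff_univ]

/-- Ring homomorphisms out of the Lazard ring are the same as laws. -/
noncomputable def equiv : (Laz →+* B) ≃ Law B where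
  toFun φ := univ.map φ
  invFun F := lift F
  left_inv := lift_map_univ
  right_inv := univ_map_lift

theorem lift_injective : Function.Injective (lift : Law B → (Laz →+* B)) :=
  equiv.symm.injective

theorem comp_lift (φ : B →+* C) (F : Law B) : φ.comp (lift F) = lift (F.map φ) := by
  apply equiv.injective
  change univ.map (φ.comp (lift F)) = univ.map (lift (F.map φ))
  rw [← Law.map_map, univ_map_lift, univ_map_lift]

theorem map_lift (φ : B →+* C) (F : Law B) (x : Laz) : φ (lift F x) = lift (F.map φ) x :=
  congrFun (congrArg DFunLike.coe (comp_lift φ F)) x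

end Laz

end Vale.Agent.P251.F
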