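import Vale.Agent.P251.F.Grade
import Mathlib.RingTheory.Polynomial.Quotient
import Mathlib.RingTheory.MvPolynomial.Localization

/-!
# P251, part F: `Cob (QN p h j)` and `Cob (NN p h j)` in terms of `Cob Laz`

* `isWt_v`: `v_i` has weight `p^i - 1`;
* `Cob Laz s → Cob (QN p h j) s` is surjective (also in every weight) with kernel generated by
  `p` and `I_h^j`;
* `Cob (NN p h j) s` is the localization of `Cob (QN p h j) s` at `v_h` (also in every weight).
-/

namespace Vale.Agent.P251.F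

open Vale.Agent.P217 LawRing

section WtV

variable {B : Type*} [CommRing B]

theorem coeff_multSeries_lin (u : Bˣ) (F : Law B) (m n : ℕ) :
    PowerSeries.coeff n (multSeries (InvSeries.lin u • F).toFG m) * (u : B) ^ n =
      u * PowerSeries.coeff n (multSeries F.toFG m) := by
  have h := congrArg (PowerSeries.coeff n) (smul_multSeries (InvSeries.lin u) F m)
  rw [InvSeries.lin_val] at h
  have h1 : PowerSeries.HasSubst (PowerSeries.C (u : B) * PowerSeries.X : PowerSeries B) := by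
    have := (InvSeries.lin u).hs
    rwa [InvSeries.lin_val] at this
  have h2 : (PowerSeries.subst (PowerSeries.C (u : B) * PowerSeries.X : PowerSeries B)
      (multSeries (InvSeries.lin u • F).toFG m) : PowerSeries B) =
      PowerSeries.rescale (u : B) (multSeries (InvSeries.lin u • F).toFG m) := by
    rw [PowerSeries.rescale_eq_subst, PowerSeries.smul_eq_C_mul]
  have h3 : (PowerSeries.subst (multSeries F.toFG m)
      (PowerSeries.C (u : B) * PowerSeries.X : PowerSeries B) : PowerSeries B) =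
      PowerSeries.C (u : B) * multSeries F.toFG m := by
    have hs : PowerSeries.HasSubst (multSeries F.toFG m) :=
      hasSubst_of_cc (constantCoeff_multSeries F.toFG m)
    rw [PowerSeries.subst_mul hs, PowerSeries.subst_X hs, PowerSeries.subst_C]
    rfl
  rw [h2, h3, PowerSeries.coeff_rescale, PowerSeries.coeff_C_mul] at h
  rw [h]
  ring

/-- Rescaling multiplies `v_i` by `u^{p^i-1}`. -/
theorem vv_lin_inv (p i : ℕ) (u : Bˣ) (F : Law B) :
    vv p i ((InvSeries.lin u)⁻¹ • F) = ((u ^ ((p ^ i : ℤ) - 1) : Bˣ) : B) * vv p i F := by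
  have h := coeff_multSeries_lin u⁻¹ F p (p ^ i)
  rw [map_inv] at h
  have h1 : (((u⁻¹ : Bˣ) : B) ^ (p ^ i)) * ((u ^ (p ^ i) : Bˣ) : B) = 1 := by
    rw [← Units.val_pow_eq_pow_val, ← Units.val_mul, inv_pow, inv_mul_cancel, Units.val_one]
  have h2 : vv p i ((InvSeries.lin u)⁻¹ • F) * (((u⁻¹ : Bˣ) : B) ^ (p ^ i)) =
      ((u⁻¹ : Bˣ) : B) * vv p i F := h
  have h3 : (u ^ ((p ^ i : ℤ) - 1) : Bˣ) = u ^ (p ^ i) * u⁻¹ := by
    rw [zpow_sub_one]
    congr 1
  rw [h3, Units.val_mul, mul_assoc, ← h2, ← mul_assoc, mul_comm _ (vv p i _), mul_assoc]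
  rw [mul_comm ((u ^ (p ^ i) : Bˣ) : B), h1, mul_one]

end WtV

section WtN

variable {N : Type} [CommRing N] [LawRing N] {n : ℕ}

theorem law_map_eq (B : Type) [CommRing B] (x : N →+* B) :
    x.comp (LawRing.ofLaz N) = Laz.lift ((LawRing.law (N := N)).map x) := by
  rw [LawRing.ofLaz, Laz.comp_lift]

/-- `v_i` has weight `p^i - 1`. -/
theorem Cob.isWt_v (p i : ℕ) :
    Cob.IsWt ((p ^ i : ℤ) - 1) (MvPolynomial.C (LawRing.ofLaz N (Laz.v p i)) : Cob N n) := by
  intro B _ c u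
  rw [Cob.ev_C, Cob.ev_C]
  change ((act (InvSeries.lin u)⁻¹ c.pt).comp (LawRing.ofLaz N)) (Laz.v p i) =
    ((u ^ ((p ^ i : ℤ) - 1) : Bˣ) : B) * (c.pt.comp (LawRing.ofLaz N)) (Laz.v p i)
  rw [law_map_eq, law_map_eq, Laz.lift_v, Laz.lift_v, law_act, vv_lin_inv]

theorem ofLaz_laz : LawRing.ofLaz Laz = RingHom.id Laz := by
  have := Laz.lift_map_univ (RingHom.id Laz)
  rwa [Law.map_id] at this

end WtN

section QN

attribute [local instance] MvPolynomial.algebraMvPolynomial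

variable (p h j : ℕ) [Fact p.Prime] {n : ℕ}

theorem ofLaz_QN : LawRing.ofLaz (QN p h j) = Ideal.Quotient.mk (Laz.IJ p h j) :=
  Laz.lift_map_univ _

theorem ofLaz_NN : LawRing.ofLaz (NN p h j) =
    (algebraMap (QN p h j) (NN p h j)).comp (Ideal.Quotient.mk (Laz.IJ p h j)) := by
  have h1 : (LawRing.law (N := NN p h j)) = Laz.univ.map ((algebraMap (QN p h j)
      (NN p h j)).comp (Ideal.Quotient.mk (Laz.IJ p h j))) := by
    rw [← Law.map_map]
    rfl
  rw [LawRing.ofLaz, h1, Laz.lift_map_univ]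

theorem isLawHom_algebraMap : IsLawHom (algebraMap (QN p h j) (NN p h j)) :=
  IsLawHom.of_epi (epi_QN p h j) rfl

theorem isLawHom_mk_QN : IsLawHom (Ideal.Quotient.mk (Laz.IJ p h j)) :=
  ofLaz_QN p h j ▸ LawRing.isLawHom_ofLaz

omit [Fact p.Prime] in
/-- The kernel of `Cob Laz n → Cob (QN p h j) n`. -/
theorem Cob.mapRing_mk_eq_zero_iff (x : Cob Laz n) :
    Cob.mapRing (Ideal.Quotient.mk (Laz.IJ p h j)) n x = 0 ↔
      x ∈ (Laz.IJ p h j).map (MvPolynomial.C : Laz →+* Cob Laz n) := by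
  rw [← RingHom.mem_ker]
  have : RingHom.ker (Cob.mapRing (Ideal.Quotient.mk (Laz.IJ p h j)) n) =
      (Laz.IJ p h j).map (MvPolynomial.C : Laz →+* Cob Laz n) := by
    rw [Cob.mapRing, MvPolynomial.ker_map, Ideal.mk_ker]
  rw [this]

/-- Homogeneous elements of `Cob (QN p h j)` lift to homogeneous elements of `Cob Laz`. -/
theorem Cob.exists_isWt_mapRing_mk {w : ℤ} {y : Cob (QN p h j) n} (hy : Cob.IsWt w y) :
    ∃ x : Cob Laz n, Cob.IsWt w x ∧
      Cob.mapRing (Ideal.Quotient.mk (Laz.IJ p h j)) n x = y := by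
  obtain ⟨x, rfl⟩ := Cob.mapRing_surjective (n := n)
    (Ideal.Quotient.mk_surjective (I := Laz.IJ p h j)) y
  refine ⟨Cob.proj w x, Cob.isWt_proj w x, ?_⟩
  rw [← Cob.proj_mapRing (isLawHom_mk_QN p h j), Cob.proj_of_isWt hy, if_pos rfl]

/-- Homogeneous elements of `Cob (NN p h j)` are fractions `x / v_h^k`. -/
theorem Cob.exists_mapRing_algebraMap {w : ℤ} {y : Cob (NN p h j) n} (hy : Cob.IsWt w y) :
    ∃ (k : ℕ) (x : Cob (QN p h j) n), Cob.IsWt (w + k * ((p ^ h : ℤ) - 1)) x ∧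
      Cob.mapRing (algebraMap (QN p h j) (NN p h j)) n x =
        MvPolynomial.C (LawRing.ofLaz (NN p h j) (Laz.v p h)) ^ k * y := by
  have hinst : IsLocalization ((Submonoid.powers (Ideal.Quotient.mk (Laz.IJ p h j)
      (Laz.v p h))).map (MvPolynomial.C (σ := Fin n × ℕ))) (Cob (NN p h j) n) :=
    MvPolynomial.isLocalization _ _
  obtain ⟨⟨x, ⟨_, ⟨_, ⟨k, rfl⟩, rfl⟩⟩⟩, hx⟩ := IsLocalization.surj
    ((Submonoid.powers (Ideal.Quotient.mk (Laz.IJ p h j)
      (Laz.v p h))).map (MvPolynomial.C (σ := Fin n × ℕ))) y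
  have hv : IsWt (w + k * ((p ^ h : ℤ) - 1))
      (MvPolynomial.C (LawRing.ofLaz (NN p h j) (Laz.v p h)) ^ k * y) := by
    have := (IsWt.pow (Cob.isWt_v (N := NN p h j) (n := n) p h) k).mul hy
    rwa [add_comm] at this
  have e : Cob.mapRing (algebraMap (QN p h j) (NN p h j)) n x =
        MvPolynomial.C (LawRing.ofLaz (NN p h j) (Laz.v p h)) ^ k * y := by
    rw [mul_comm] at hx
    refine hx.symm.trans ?_
    congr 1
    simp only [map_pow]
    rw [ofLaz_NN]
    change (MvPolynomial.map (algebraMap (QN p h j) (NN p h j))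
      (MvPolynomial.C (Ideal.Quotient.mk (Laz.IJ p h j) (Laz.v p h)))) ^ k = _
    rw [MvPolynomial.map_C]
    rfl
  refine ⟨k, Cob.proj (w + k * ((p ^ h : ℤ) - 1)) x, Cob.isWt_proj _ x, ?_⟩
  rw [← Cob.proj_mapRing (isLawHom_algebraMap p h j), e, Cob.proj_of_isWt hv, if_pos rfl]

omit [Fact p.Prime] in
/-- The kernel of `Cob (QN p h j) n → Cob (NN p h j) n`. -/
theorem Cob.mapRing_algebraMap_eq_zero_iff (x : Cob (QN p h j) n) :
    Cob.mapRing (algebraMap (QN p h j) (NN p h j)) n x = 0 ↔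
      ∃ k : ℕ, MvPolynomial.C (Ideal.Quotient.mk (Laz.IJ p h j) (Laz.v p h)) ^ k * x = 0 := by
  have hinst : IsLocalization ((Submonoid.powers (Ideal.Quotient.mk (Laz.IJ p h j)
      (Laz.v p h))).map (MvPolynomial.C (σ := Fin n × ℕ))) (Cob (NN p h j) n) :=
    MvPolynomial.isLocalization _ _
  have h0 := IsLocalization.map_eq_zero_iff ((Submonoid.powers (Ideal.Quotient.mk (Laz.IJ p h j)
      (Laz.v p h))).map (MvPolynomial.C (σ := Fin n × ℕ))) (Cob (NN p h j) n) x
  refine Iff.trans h0 ?_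
  constructor
  · rintro ⟨⟨_, ⟨_, ⟨k, rfl⟩, rfl⟩⟩, hk⟩
    exact ⟨k, by simpa using hk⟩
  · rintro ⟨k, hk⟩
    exact ⟨⟨_, ⟨_, ⟨k, rfl⟩, rfl⟩⟩, by simpa using hk⟩

end QN

end Vale.Agent.P251.F
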