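import Vale.Agent.P251.F.Cob

/-!
# P251, part F: the elements `v_i`, the invariant ideals `I_h`, law rings `v_h⁻¹ Laz/(p, I_h^j)`
-/

namespace Vale.Agent.P251.F

open Vale.Agent.P217 LawRing

section VV

variable {A B : Type*} [CommRing A] [CommRing B]

/-- `v_i(F)`: the coefficient of `x^{p^i}` in `[p]_F(x)`. -/
noncomputable def vv (p i : ℕ) (F : Law B) : B := PowerSeries.coeff (p ^ i) (multSeries F.toFG p)

theorem vv_map (p i : ℕ) (φ : A →+* B) (F : Law A) : vv p i (F.map φ) = φ (vv p i F) := by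
  rw [vv, vv, Law.map_toFG, ← map_multSeries, PowerSeries.coeff_map]

theorem vv_zero (p : ℕ) (F : Law B) : vv p 0 F = p := by
  rw [vv, pow_zero, coeff_one_multSeries]

theorem smul_multSeries (f : InvSeries B) (F : Law B) (m : ℕ) :
    (PowerSeries.subst (multSeries F.toFG m) f.val : PowerSeries B) =
      PowerSeries.subst f.val (multSeries (f • F).toFG m) := by
  have hX : PowerSeries.HasSubst (PowerSeries.X : PowerSeries B) := PowerSeries.HasSubst.X'
  let x : F.toFG.Point Unit := ⟨PowerSeries.X, hX⟩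
  have h := congrArg Subtype.val (map_nsmul (homPt f.val (f.isHom_smul F)) m x)
  rw [homPt_val, nsmul_val, nsmul_val, homPt_val] at h
  change (PowerSeries.subst (PowerSeries.subst PowerSeries.X (multSeries F.toFG m) :
    PowerSeries B) f.val : PowerSeries B) = PowerSeries.subst
    (PowerSeries.subst PowerSeries.X f.val : PowerSeries B) (multSeries (f • F).toFG m) at h
  rwa [PowerSeries.X_subst, PowerSeries.X_subst] at h

/-- The leading coefficient of a composite. -/
theorem lead_subst (f : InvSeries B) (g : PowerSeries B) (N : ℕ) (hg : PowerSeries.X ^ N ∣ g) :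
    PowerSeries.X ^ N ∣ (PowerSeries.subst f.val g : PowerSeries B) ∧
      PowerSeries.coeff N (PowerSeries.subst f.val g : PowerSeries B) =
        PowerSeries.coeff N g * f.c 0 ^ N := by
  obtain ⟨h, rfl⟩ := hg
  obtain ⟨f', hf'⟩ := PowerSeries.X_dvd_iff.2 f.cc
  have hc : f.c 0 = PowerSeries.constantCoeff f' := by
    rw [InvSeries.c, hf', PowerSeries.coeff_succ_X_mul,
      PowerSeries.coeff_zero_eq_constantCoeff_apply]
  rw [PowerSeries.subst_mul f.hs, PowerSeries.subst_pow f.hs, PowerSeries.subst_X f.hs]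
  constructor
  · exact (pow_dvd_pow_of_dvd (PowerSeries.X_dvd_iff.2 f.cc) N).mul_right _
  · conv_lhs => rw [hf']
    rw [mul_pow, mul_assoc, PowerSeries.coeff_X_pow_mul', if_pos le_rfl,
      PowerSeries.coeff_X_pow_mul', if_pos le_rfl, Nat.sub_self,
      PowerSeries.coeff_zero_eq_constantCoeff_apply, PowerSeries.coeff_zero_eq_constantCoeff_apply,
      map_mul, map_pow, ← hc, mul_comm]
    congr 1
    exact HT_constantCoeff_subst_of_zero (fun _ => by rw [← hf']; exact f.cc) h

/-- If the coefficients of `x^{p^i}`, `i < h`, vanish then a homomorphism is a series in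
`x^{p^h}`. -/
theorem exists_height' (p : ℕ) [hp : Fact p.Prime] [CharP B p] {F G : FormalGroup B}
    {f : PowerSeries B} (hf : IsHom F G f)
    (h : ℕ) (hlow : ∀ i < h, PowerSeries.coeff (p ^ i) f = 0) :
    ∃ V : PowerSeries B, f = PowerSeries.subst (PowerSeries.X ^ (p ^ h) : PowerSeries B) V ∧
      IsHom (F.map (iterateFrobenius B p h)) G V := by
  have hp : p ≠ 0 := (Fact.out : p.Prime).ne_zero
  induction h with
  | zero =>
    refine ⟨f, by simp [PowerSeries.X_subst], ?_⟩
    have : F.map (iterateFrobenius B p 0) = F := by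
      ext1
      simp [FormalGroup.map, MvPowerSeries.map_id]
    rwa [this]
  | succ h ih =>
    obtain ⟨V, hV, hVhom⟩ := ih fun i hi => hlow i (by omega)
    have h1 : PowerSeries.coeff 1 V = 0 := by
      have := hlow h (Nat.lt_succ_self h)
      rw [hV, PowerSeries.coeff_subst_X_pow (pow_ne_zero h hp)] at this
      simpa only [dvd_refl, ↓reduceIte, Algebra.algebraMap_self,
        Nat.div_self (pow_pos (Fact.out : p.Prime).pos h), RingHom.id_apply] using this
    obtain ⟨W, hW⟩ := exists_expand_of_derivative_eq_zero p V (hVhom.derivative_eq_zeroL h1)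
    refine ⟨W, ?_, ?_⟩
    · rw [hV, hW, PowerSeries.expand_apply, PowerSeries.subst_comp_subst_apply
        (PowerSeries.HasSubst.X_pow hp) (PowerSeries.HasSubst.X_pow (pow_ne_zero h hp)),
        PowerSeries.subst_pow (PowerSeries.HasSubst.X_pow (pow_ne_zero h hp)),
        PowerSeries.subst_X (PowerSeries.HasSubst.X_pow (pow_ne_zero h hp)), ← pow_mul, ← pow_succ]
    · rw [hW] at hVhom
      have := IsHom.of_expandL p hp hVhom
      rw [HT_FormalGroup_map_map] at this
      have e : (frobenius B p).comp (iterateFrobenius B p h) = iterateFrobenius B p (h + 1) := by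
        ext x
        simp [iterateFrobenius_def, frobenius_def, ← pow_mul, pow_succ]
      rwa [e] at this

theorem vv_smul_of_zero (p : ℕ) [hp : Fact p.Prime] (h : ℕ) (F : Law B) (f : InvSeries B)
    (hF : ∀ i < h, vv p i F = 0) :
    (∀ i < h, vv p i (f • F) = 0) ∧
      vv p h (f • F) * f.c 0 ^ (p ^ h) = f.c 0 * vv p h F := by
  rcases Nat.eq_zero_or_pos h with rfl | hpos
  · refine ⟨fun i hi => absurd hi (Nat.not_lt_zero i), ?_⟩
    rw [vv_zero, vv_zero, pow_zero, pow_one, mul_comm]
  rcases subsingleton_or_nontrivial B with hB | hB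
  · exact ⟨fun i _ => Subsingleton.elim _ _, Subsingleton.elim _ _⟩
  have hp0 : (p : B) = 0 := by rw [← vv_zero p F]; exact hF 0 hpos
  have hchar : CharP B p := (CharP.charP_iff_prime_eq_zero hp.out).2 hp0
  have hpp : p ^ h ≠ 0 := pow_ne_zero h hp.out.ne_zero
  obtain ⟨V, hV, hVhom⟩ := exists_height' p (isHom_multSeries F.toFG p) h hF
  have hV0 : PowerSeries.constantCoeff V = 0 := hVhom.1
  have hXs : PowerSeries.HasSubst (PowerSeries.X ^ (p ^ h) : PowerSeries B) :=
    PowerSeries.HasSubst.X_pow hpp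
  -- the series `f ∘ [p]_F`
  have e1 : (PowerSeries.subst (multSeries F.toFG p) f.val : PowerSeries B) =
      PowerSeries.subst (PowerSeries.X ^ (p ^ h) : PowerSeries B)
        (PowerSeries.subst V f.val : PowerSeries B) := by
    rw [hV, PowerSeries.subst_comp_subst_apply (hasSubst_of_cc hV0) hXs]
  have hd1 : PowerSeries.X ^ (p ^ h) ∣
      (PowerSeries.subst (multSeries F.toFG p) f.val : PowerSeries B) := by
    obtain ⟨w, hw⟩ := PowerSeries.X_dvd_iff.2
      (PowerSeries.constantCoeff_subst_eq_zero hV0 _ f.cc :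
        PowerSeries.constantCoeff (PowerSeries.subst V f.val : PowerSeries B) = 0)
    rw [e1, hw, PowerSeries.subst_mul hXs, PowerSeries.subst_X hXs]
    exact dvd_mul_right _ _
  have hc1 : PowerSeries.coeff (p ^ h)
      (PowerSeries.subst (multSeries F.toFG p) f.val : PowerSeries B) = f.c 0 * vv p h F := by
    rw [e1, PowerSeries.coeff_subst_X_pow hpp, if_pos dvd_rfl, Nat.div_self (Nat.pos_of_ne_zero hpp),
      Algebra.algebraMap_self, RingHom.id_apply, coeff_one_subst hV0, vv]
    conv_rhs => rw [hV]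
    rw [PowerSeries.coeff_subst_X_pow hpp, if_pos dvd_rfl, Nat.div_self (Nat.pos_of_ne_zero hpp),
      Algebra.algebraMap_self, RingHom.id_apply, mul_comm]
    rfl
  rw [smul_multSeries] at hd1 hc1
  have hd2 : PowerSeries.X ^ (p ^ h) ∣ multSeries (f • F).toFG p := by
    have := (lead_subst f⁻¹ _ _ hd1).1
    rwa [PowerSeries.subst_comp_subst_apply f.hs (f⁻¹).hs, f.inv_subst_val,
      PowerSeries.X_subst] at this
  constructor
  · intro i hi
    exact PowerSeries.X_pow_dvd_iff.1 hd2 _ (Nat.pow_lt_pow_right hp.out.one_lt hi)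
  · rw [← hc1, (lead_subst f _ _ hd2).2]
    rfl

/-- The ideal `I_h(F) = (v_0(F), …, v_{h-1}(F))`, `v_0 = p`. -/
noncomputable def Ih (p h : ℕ) (F : Law B) : Ideal B :=
  Ideal.span {x | ∃ i < h, vv p i F = x}

theorem vv_mem_Ih {p h i : ℕ} (hi : i < h) (F : Law B) : vv p i F ∈ Ih p h F :=
  Ideal.subset_span ⟨i, hi, rfl⟩

theorem Ih_map (p h : ℕ) (φ : A →+* B) (F : Law A) : Ih p h (F.map φ) = (Ih p h F).map φ := by
  rw [Ih, Ih, Ideal.map_span]
  congr 1
  ext x
  constructor
  · rintro ⟨i, hi, rfl⟩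
    exact ⟨_, ⟨i, hi, rfl⟩, (vv_map p i φ F).symm⟩
  · rintro ⟨_, ⟨i, hi, rfl⟩, rfl⟩
    exact ⟨i, hi, vv_map p i φ F⟩

theorem vv_smul_mem (p : ℕ) [hp : Fact p.Prime] (h : ℕ) (F : Law B) (f : InvSeries B) (i : ℕ)
    (hi : i < h) : vv p i (f • F) ∈ Ih p h F := by
  rw [← Ideal.Quotient.eq_zero_iff_mem, ← vv_map, InvSeries.map_smul]
  refine (vv_smul_of_zero p h (F.map (Ideal.Quotient.mk (Ih p h F))) _ fun j hj => ?_).1 i hi
  rw [vv_map, Ideal.Quotient.eq_zero_iff_mem]
  exact vv_mem_Ih hj F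

theorem Ih_smul_le (p : ℕ) [hp : Fact p.Prime] (h : ℕ) (F : Law B) (f : InvSeries B) :
    Ih p h (f • F) ≤ Ih p h F := by
  refine Ideal.span_le.2 ?_
  rintro _ ⟨i, hi, rfl⟩
  exact vv_smul_mem p h F f i hi

/-- Invariance of `I_h`. -/
theorem Ih_smul (p : ℕ) [hp : Fact p.Prime] (h : ℕ) (F : Law B) (f : InvSeries B) :
    Ih p h (f • F) = Ih p h F := by
  refine le_antisymm (Ih_smul_le p h F f) ?_
  conv_lhs => rw [← inv_smul_smul f F]
  exact Ih_smul_le p h (f • F) f⁻¹

/-- `v_h` modulo `I_h`. -/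
theorem vv_smul_sub_mem (p : ℕ) [hp : Fact p.Prime] (h : ℕ) (F : Law B) (f : InvSeries B) :
    vv p h (f • F) * f.c 0 ^ (p ^ h) - f.c 0 * vv p h F ∈ Ih p h F := by
  rw [← Ideal.Quotient.eq_zero_iff_mem]
  have := (vv_smul_of_zero p h (F.map (Ideal.Quotient.mk (Ih p h F)))
    (InvSeries.map (Ideal.Quotient.mk (Ih p h F)) f) fun j hj => by
      rw [vv_map, Ideal.Quotient.eq_zero_iff_mem]
      exact vv_mem_Ih hj F).2
  rw [← InvSeries.map_smul, vv_map, vv_map, InvSeries.c_map] at this
  rw [map_sub, map_mul, map_mul, map_pow, this, sub_self]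

theorem isUnit_vv_smul (p : ℕ) [hp : Fact p.Prime] (h j : ℕ) (F : Law B) (f : InvSeries B)
    (hF : Ih p h F ^ j = ⊥) (hu : IsUnit (vv p h F)) : IsUnit (vv p h (f • F)) := by
  have hc : IsUnit (f.c 0) := f.isUnit
  have hnil : IsNilpotent (vv p h (f • F) * f.c 0 ^ (p ^ h) - f.c 0 * vv p h F) := by
    refine ⟨j, ?_⟩
    have := Ideal.pow_mem_pow (vv_smul_sub_mem p h F f) j
    rwa [hF] at this
  have h2 := hnil.isUnit_add_right_of_commute (hc.mul hu) (mul_comm _ _)
  rw [sub_add_cancel] at h2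
  exact isUnit_of_mul_isUnit_left h2

end VV

/-! ### the elements `v_i` of the Lazard ring -/

/-- `v_i ∈ Laz`, the coefficient of `x^{p^i}` in the `p`-series of the universal law. -/
noncomputable def Laz.v (p i : ℕ) : Laz := vv p i Laz.univ

/-- `I_h = (v_0, …, v_{h-1}) ⊆ Laz`, `v_0 = p`. -/
noncomputable def Laz.I (p h : ℕ) : Ideal Laz := Ih p h Laz.univ

theorem Laz.map_v {B : Type*} [CommRing B] (p i : ℕ) (x : Laz →+* B) :
    x (Laz.v p i) = vv p i (Laz.univ.map x) := (vv_map p i x _).symm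

theorem Laz.lift_v {B : Type*} [CommRing B] (p i : ℕ) (F : Law B) :
    Laz.lift F (Laz.v p i) = vv p i F := by
  rw [Laz.map_v, Laz.univ_map_lift]

theorem Laz.I_map {B : Type*} [CommRing B] (p h : ℕ) (x : Laz →+* B) :
    (Laz.I p h).map x = Ih p h (Laz.univ.map x) := (Ih_map p h x _).symm

/-! ### constructions of law rings -/

namespace LawRing

variable {N : Type} [CommRing N] [LawRing N]

/-- An ideal is invariant if its vanishing locus is stable under coordinate changes. -/
def Invariant (J : Ideal N) : Prop :=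
  ∀ (B : Type) [CommRing B] (f : InvSeries B) (x : N →+* B),
    (∀ a ∈ J, x a = 0) → ∀ a ∈ J, act f x a = 0

/-- The quotient of a law ring by an invariant ideal. -/
noncomputable abbrev quotient (J : Ideal N) (hJ : Invariant J) : LawRing (N ⧸ J) where
  law := (LawRing.law (N := N)).map (Ideal.Quotient.mk J)
  act f x := Ideal.Quotient.lift J (act f (x.comp (Ideal.Quotient.mk J)))
    (hJ _ f _ fun a ha => by
      rw [RingHom.comp_apply, Ideal.Quotient.eq_zero_iff_mem.2 ha, map_zero])
  act_one x := Ideal.Quotient.ringHom_ext (RingHom.ext fun a => by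
    change act 1 (x.comp (Ideal.Quotient.mk J)) a = x (Ideal.Quotient.mk J a)
    rw [act_one]
    rfl)
  act_mul f g x := Ideal.Quotient.ringHom_ext (RingHom.ext fun a => by
    change act (f * g) (x.comp (Ideal.Quotient.mk J)) a =
      act f (act g (x.comp (Ideal.Quotient.mk J))) a
    rw [act_mul])
  comp_act φ f x := Ideal.Quotient.ringHom_ext (RingHom.ext fun a => by
    change φ (act f (x.comp (Ideal.Quotient.mk J)) a) =
      act (InvSeries.map φ f) ((φ.comp x).comp (Ideal.Quotient.mk J)) a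
    rw [RingHom.comp_assoc, ← comp_act]
    rfl)
  law_act f x := by
    rw [Law.map_map, Law.map_map]
    exact law_act f (x.comp (Ideal.Quotient.mk J))

/-- The localization of a law ring at an element whose non-vanishing locus is stable. -/
noncomputable abbrev away (v : N) (hv : ∀ (B : Type) [CommRing B] (f : InvSeries B) (x : N →+* B),
    IsUnit (x v) → IsUnit (act f x v)) : LawRing (Localization.Away v) where
  law := (LawRing.law (N := N)).map (algebraMap N (Localization.Away v))
  act f x := IsLocalization.Away.lift (S := Localization.Away v) v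
    (g := act f (x.comp (algebraMap N (Localization.Away v))))
    (hv _ f _ ((IsLocalization.Away.algebraMap_isUnit v).map x))
  act_one x := IsLocalization.ringHom_ext (Submonoid.powers v) (by
    rw [IsLocalization.Away.lift_comp, act_one])
  act_mul f g x := IsLocalization.ringHom_ext (Submonoid.powers v) (by
    rw [IsLocalization.Away.lift_comp, act_mul, IsLocalization.Away.lift_comp,
      IsLocalization.Away.lift_comp])
  comp_act φ f x := IsLocalization.ringHom_ext (Submonoid.powers v) (by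
    rw [RingHom.comp_assoc, IsLocalization.Away.lift_comp, IsLocalization.Away.lift_comp,
      comp_act]
    rfl)
  law_act f x := by
    rw [Law.map_map, Law.map_map, IsLocalization.Away.lift_comp, law_act]

end LawRing

/-! ### the law rings `Laz/p` and `v_h⁻¹ Laz/(p, I_h^j)` -/

section Nhj

variable (p h j : ℕ)

/-- The ideal `(p) + I_h^j` of `Laz`. -/
noncomputable def Laz.IJ : Ideal Laz := Ideal.span {(p : Laz)} ⊔ Laz.I p h ^ j

theorem Laz.IJ_vanish_iff {B : Type} [CommRing B] (x : Laz →+* B) :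
    (∀ a ∈ Laz.IJ p h j, x a = 0) ↔
      ((p : B) = 0 ∧ Ih p h (Laz.univ.map x) ^ j = ⊥) := by
  have h1 : (∀ a ∈ Laz.IJ p h j, x a = 0) ↔ Laz.IJ p h j ≤ RingHom.ker x := Iff.rfl
  have h2 : Laz.I p h ^ j ≤ RingHom.ker x ↔ Ih p h (Laz.univ.map x) ^ j = ⊥ := by
    rw [← Laz.I_map, ← Ideal.map_pow, Ideal.map_eq_bot_iff_le_ker]
  rw [h1, Laz.IJ, sup_le_iff, h2, Ideal.span_singleton_le_iff_mem, RingHom.mem_ker, map_natCast]

theorem Laz.invariant_IJ [Fact p.Prime] : LawRing.Invariant (Laz.IJ p h j) := by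
  intro B _ f x hx
  rw [Laz.IJ_vanish_iff] at hx ⊢
  refine ⟨hx.1, ?_⟩
  have : Laz.univ.map (act f x) = f • Laz.univ.map x := law_act f x
  rw [this, Ih_smul, hx.2]

/-- `Laz/(p, I_h^j)`. -/
abbrev QN : Type := Laz ⧸ Laz.IJ p h j

/-- `v_h⁻¹ Laz/(p, I_h^j)`. -/
abbrev NN : Type := Localization.Away (Ideal.Quotient.mk (Laz.IJ p h j) (Laz.v p h))

noncomputable instance instLawRingQN [Fact p.Prime] : LawRing (QN p h j) :=
  LawRing.quotient _ (Laz.invariant_IJ p h j)

theorem isUnit_act_v [Fact p.Prime] (B : Type) [CommRing B] (f : InvSeries B)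
    (x : QN p h j →+* B) (hx : IsUnit (x (Ideal.Quotient.mk (Laz.IJ p h j) (Laz.v p h)))) :
    IsUnit (act f x (Ideal.Quotient.mk (Laz.IJ p h j) (Laz.v p h))) := by
  have h0 := (Laz.IJ_vanish_iff p h j (x.comp (Ideal.Quotient.mk (Laz.IJ p h j)))).1
    (fun a ha => by rw [RingHom.comp_apply, Ideal.Quotient.eq_zero_iff_mem.2 ha, map_zero])
  have h1 : (act f x).comp (Ideal.Quotient.mk (Laz.IJ p h j)) =
      Laz.lift (f • Laz.univ.map (x.comp (Ideal.Quotient.mk (Laz.IJ p h j)))) := rfl
  rw [← RingHom.comp_apply, h1, Laz.lift_v]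
  rw [← RingHom.comp_apply, Laz.map_v] at hx
  exact isUnit_vv_smul p h j _ f h0.2 hx

noncomputable instance instLawRingNN [Fact p.Prime] : LawRing (NN p h j) :=
  LawRing.away _ (isUnit_act_v p h j)

end Nhj

end Vale.Agent.P251.F
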