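import Mathlib.Algebra.MvPolynomial.Basic
import Mathlib.Algebra.MvPolynomial.CommRing
import Mathlib.Algebra.MvPolynomial.Supported
import Mathlib.Tactic

/-!
# P251, part F: triangular endomorphisms of polynomial rings

`θ (X n) = c_n X_n + s_n` with `s_n` a polynomial in the variables `X_k`, `k < n`.
-/

namespace Vale.Agent.P251.F

open MvPolynomial

variable {k : Type*} [CommRing k]

/-- the polynomials in the variables `X_i`, `i < n`. -/
noncomputable def below (k : Type*) [CommRing k] (n : ℕ) : Subalgebra k (MvPolynomial ℕ k) :=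
  supported k {i | i < n}

theorem X_mem_below {i n : ℕ} (h : i < n) : (X i : MvPolynomial ℕ k) ∈ below k n :=
  Algebra.subset_adjoin ⟨i, h, rfl⟩

theorem below_mono {m n : ℕ} (h : m ≤ n) : below k m ≤ below k n :=
  supported_mono fun _ hi => lt_of_lt_of_le hi h

/-- algebra homomorphisms agree on `below k n` if they agree on the variables `X_i`, `i < n`. -/
theorem aeval_congr_below {A : Type*} [CommRing A] [Algebra k A] {f g : ℕ → A} {n : ℕ}
    (h : ∀ i < n, f i = g i) {s : MvPolynomial ℕ k} (hs : s ∈ below k n) :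
    aeval f s = aeval g s := by
  refine eval₂Hom_congr' rfl ?_ rfl
  intro i hi _
  exact h i ((mem_supported.1 hs) hi)

theorem map_mem_below {k' : Type*} [CommRing k'] (φ : k →+* k') {n : ℕ} {s : MvPolynomial ℕ k}
    (hs : s ∈ below k n) : MvPolynomial.map φ s ∈ below k' n := by
  rw [below, mem_supported] at hs ⊢
  exact (Finset.coe_subset.2 (vars_map s φ)).trans hs

theorem closure_le_below (n : ℕ) {x : MvPolynomial ℕ k}
    (hx : x ∈ Subring.closure ((fun i => (X i : MvPolynomial ℕ k)) '' {i | i < n})) :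
    x ∈ below k n := by
  have h : Subring.closure ((fun i => (X i : MvPolynomial ℕ k)) '' {i | i < n}) ≤
      (below k n).toSubring := by
    rw [Subring.closure_le]
    rintro _ ⟨i, hi, rfl⟩
    exact X_mem_below hi
  exact h hx

section Inverse

variable (u : ℕ → k) (s : ℕ → MvPolynomial ℕ k)

/-- the inverse of the triangular endomorphism `X_n ↦ u_n⁻¹ X_n + s_n`. -/
noncomputable def triInv : ℕ → MvPolynomial ℕ k
  | n => C (u n) * (X n - aeval (fun i => if h : i < n then triInv i else 0) (s n))
termination_by n => n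
decreasing_by exact h

theorem triInv_eq (hs : ∀ n, s n ∈ below k n) (n : ℕ) :
    triInv u s n = C (u n) * (X n - aeval (triInv u s) (s n)) := by
  rw [triInv, aeval_congr_below (f := fun i => if h : i < n then triInv u s i else 0)
    (g := triInv u s) (fun i hi => dif_pos hi) (hs n)]

theorem triInv_comp (hs : ∀ n, s n ∈ below k n) {c : ℕ → k} (hc : ∀ n, u n * c n = 1)
    {θ : MvPolynomial ℕ k →ₐ[k] MvPolynomial ℕ k} (hθ : ∀ n, θ (X n) = C (c n) * X n + s n)
    (x : MvPolynomial ℕ k) : aeval (triInv u s) (θ x) = x := by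
  have : (aeval (triInv u s)).comp θ = AlgHom.id k _ := by
    apply MvPolynomial.algHom_ext
    intro n
    rw [AlgHom.comp_apply, hθ, map_add, map_mul, aeval_X, aeval_C, AlgHom.id_apply,
      triInv_eq u s hs, algebraMap_eq, ← mul_assoc, ← C_mul, mul_comm (c n), hc, C_1, one_mul]
    ring
  exact congrArg (fun f => f x) this

theorem triInv_mem (hs : ∀ n, s n ∈ below k n) (n : ℕ) : triInv u s n ∈ below k (n + 1) := by
  induction n using Nat.strong_induction_on with
  | _ n ih =>
    rw [triInv_eq u s hs]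
    refine Subalgebra.mul_mem _ (Subalgebra.algebraMap_mem _ _) (Subalgebra.sub_mem _
      (X_mem_below (Nat.lt_succ_self n)) ?_)
    have h1 : ∀ x ∈ below k n, aeval (triInv u s) x ∈ below k (n + 1) := by
      intro x hx
      induction hx using Algebra.adjoin_induction with
      | mem x hx =>
        obtain ⟨i, hi, rfl⟩ := hx
        rw [aeval_X]
        exact below_mono (Nat.succ_le_succ (le_of_lt hi)) (ih i hi)
      | algebraMap r =>
        rw [algebraMap_eq, aeval_C]
        exact Subalgebra.algebraMap_mem _ _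
      | add x y _ _ h1 h2 => rw [map_add]; exact Subalgebra.add_mem _ h1 h2
      | mul x y _ _ h1 h2 => rw [map_mul]; exact Subalgebra.mul_mem _ h1 h2
    exact h1 _ (hs n)

end Inverse

/-- A triangular endomorphism with unit diagonal coefficients is bijective. -/
theorem bijective_of_triangular {θ : MvPolynomial ℕ k →ₐ[k] MvPolynomial ℕ k} {c : ℕ → k}
    (hc : ∀ n, IsUnit (c n)) {s : ℕ → MvPolynomial ℕ k} (hs : ∀ n, s n ∈ below k n)
    (hθ : ∀ n, θ (X n) = C (c n) * X n + s n) : Function.Bijective θ := by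
  choose u' hu' using hc
  set u : ℕ → k := fun n => ((u' n)⁻¹ : kˣ) with hu
  have huc : ∀ n, u n * c n = 1 := fun n => by rw [hu, ← hu' n]; exact Units.inv_mul _
  have h1 := triInv_comp u s hs huc hθ
  -- the left inverse is triangular
  set ψ : MvPolynomial ℕ k →ₐ[k] MvPolynomial ℕ k := aeval (triInv u s) with hψ
  set s' : ℕ → MvPolynomial ℕ k := fun n => -(C (u n) * ψ (s n)) with hs'
  have hmem : ∀ n, ψ (s n) ∈ below k n := by
    intro n
    have h2 : ∀ x ∈ below k n, ψ x ∈ below k n := by
      intro x hx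
      induction hx using Algebra.adjoin_induction with
      | mem x hx =>
        obtain ⟨i, hi, rfl⟩ := hx
        rw [hψ, aeval_X]
        exact below_mono (Nat.succ_le_of_lt hi) (triInv_mem u s hs i)
      | algebraMap r =>
        rw [algebraMap_eq, hψ, aeval_C]
        exact Subalgebra.algebraMap_mem _ _
      | add x y _ _ h1 h2 => rw [map_add]; exact Subalgebra.add_mem _ h1 h2
      | mul x y _ _ h1 h2 => rw [map_mul]; exact Subalgebra.mul_mem _ h1 h2
    exact h2 _ (hs n)
  have h2 := triInv_comp c s' (fun n => Subalgebra.neg_mem _ (Subalgebra.mul_mem _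
    (Subalgebra.algebraMap_mem _ _) (hmem n))) (c := u) (fun n => by rw [mul_comm]; exact huc n)
    (θ := ψ) (fun n => by rw [hψ, aeval_X, triInv_eq u s hs, hs']; ring)
  have hinj : Function.Injective ψ := fun x y hxy => by rw [← h2 x, ← h2 y, hxy]
  refine ⟨fun x y hxy => by rw [← h1 x, ← h1 y, hxy], fun y => ⟨ψ y, hinj ?_⟩⟩
  rw [h1]

/-- Over the integers: a triangular endomorphism with nonzero diagonal coefficients is
injective. -/
theorem injective_of_triangular {θ : MvPolynomial ℕ ℤ →+* MvPolynomial ℕ ℤ} {c : ℕ → ℤ}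
    (hc : ∀ n, c n ≠ 0) (hθ : ∀ n, θ (X n) - C (c n) * X n ∈ below ℤ n) :
    Function.Injective θ := by
  set ι : MvPolynomial ℕ ℤ →+* MvPolynomial ℕ ℚ := MvPolynomial.map (Int.castRingHom ℚ) with hι
  have hιinj : Function.Injective ι := map_injective _ Int.cast_injective
  set s : ℕ → MvPolynomial ℕ ℚ := fun n => ι (θ (X n) - C (c n) * X n) with hs
  have hsm : ∀ n, s n ∈ below ℚ n := fun n => map_mem_below _ (hθ n)
  set u : ℕ → ℚ := fun n => (c n : ℚ)⁻¹ with hu
  have hcomp : ((aeval (triInv u s) : MvPolynomial ℕ ℚ →ₐ[ℚ] MvPolynomial ℕ ℚ) :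
      MvPolynomial ℕ ℚ →+* MvPolynomial ℕ ℚ).comp (ι.comp θ) = ι := by
    apply MvPolynomial.ringHom_ext
    · intro r
      simp
    · intro n
      have h1 : ι (θ (X n)) = C (c n : ℚ) * X n + s n := by
        rw [hs]
        simp only [map_sub, map_mul]
        rw [hι, map_C, map_X]
        simp
      rw [RingHom.comp_apply, RingHom.comp_apply, h1, RingHom.coe_coe, map_add, map_mul, aeval_X,
        aeval_C, algebraMap_eq, triInv_eq u s hsm, ← mul_assoc, ← C_mul, hu,
        mul_inv_cancel₀ (Int.cast_ne_zero.2 (hc n)), C_1, one_mul, hι, map_X]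
      ring
  intro x y hxy
  apply hιinj
  rw [← hcomp, RingHom.comp_apply, RingHom.comp_apply, RingHom.comp_apply, RingHom.comp_apply, hxy]

end Vale.Agent.P251.F
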