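import Vale.Agent.P251.F.LazGen
import Vale.Agent.P251.F.Triang

/-!
# P251, part F: Lazard's theorem

`Laz` is the polynomial ring on the `xC Laz.univ n`, and it embeds into `ℤ[b_0, b_1, …]` by the law
of the strict series `x + b_0 x^2 + b_1 x^3 + …` applied to the additive law.
-/

namespace Vale.Agent.P251.F

open MvPowerSeries Vale.Agent.P217 Finsupp

variable {A B : Type*} [CommRing A] [CommRing B]

/-- The additive law. -/
noncomputable def addLaw (B : Type*) [CommRing B] : Law B := ⟨FormalGroup.𝔾ₐ, inferInstance⟩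

theorem addLaw_ps : (addLaw B).ps = X 0 + X 1 := rfl

@[simp] theorem map_addLaw (φ : A →+* B) : (addLaw A).map φ = addLaw B := by
  apply Law.ext_ps
  rw [Law.map_ps, addLaw_ps, addLaw_ps, map_add, map_X, map_X]

/-- `f - g` for series with the same coefficients up to `x^{N-1}` -/
theorem val_sub_mem {f g : InvSeries B} {n : ℕ} (h : ∀ k < n, f.c k = g.c k) :
    f.val - g.val ∈ ordI Unit B (n + 1) := by
  rw [mem_ordI_unit]
  intro k hk
  rw [map_sub, sub_eq_zero]
  rcases k with _ | k
  · rw [PowerSeries.coeff_zero_eq_constantCoeff_apply, f.cc,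
      PowerSeries.coeff_zero_eq_constantCoeff_apply, g.cc]
  · exact h k (by omega)

theorem InvSeries.val_mem (f : InvSeries B) : f.val ∈ ordI Unit B 1 := by
  rw [mem_ordI_unit]
  intro k hk
  obtain rfl : k = 0 := by omega
  rw [PowerSeries.coeff_zero_eq_constantCoeff_apply, f.cc]

/-- If `f` and `g` are strict and agree up to `x^{n+1}` (coefficients `c 0, …, c n`), then
`f g⁻¹ = x + (c_{n+1}(f) - c_{n+1}(g)) x^{n+2} + …`. -/
theorem mul_inv_sub_mem {f g : InvSeries B} (hg : g ∈ strict B) {n : ℕ}
    (h : ∀ k ≤ n, f.c k = g.c k) :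
    (f * g⁻¹).val - (PowerSeries.X + PowerSeries.C (f.c (n + 1) - g.c (n + 1)) *
      PowerSeries.X ^ (n + 2)) ∈ ordI Unit B (n + 3) := by
  set b := f.c (n + 1) - g.c (n + 1) with hb
  -- `f = g + b x^{n+2} + …`
  have h1 : f.val - (g.val + PowerSeries.C b * PowerSeries.X ^ (n + 2)) ∈
      ordI Unit B (n + 3) := by
    rw [mem_ordI_unit]
    intro k hk
    rw [map_sub, map_add, PowerSeries.coeff_C_mul, PowerSeries.coeff_X_pow]
    rcases Nat.lt_or_ge k (n + 2) with hk2 | hk2
    · rw [if_neg (by omega), mul_zero, add_zero]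
      rw [← map_sub]
      exact mem_ordI_unit.1 (val_sub_mem (n := n + 1) fun j hj => h j (by omega)) k (by omega)
    · obtain rfl : k = n + 2 := by omega
      rw [if_pos rfl, mul_one, hb]
      change f.c (n + 1) - (g.c (n + 1) + _) = 0
      ring
  set v : PowerSeries B := (g⁻¹).val with hv
  have hv1 : v ∈ ordI Unit B 1 := (g⁻¹).val_mem
  have hs := hasSubst_of_mem hv1
  have h2 := psubst_mem_ordI hv1 h1
  rw [PowerSeries.subst_sub hs, PowerSeries.subst_add hs, PowerSeries.subst_mul hs,
    PowerSeries.subst_pow hs, PowerSeries.subst_X hs, PowerSeries.subst_C] at h2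
  have h3 : PowerSeries.subst v g.val = (PowerSeries.X : PowerSeries B) := g.inv_subst_val
  have h4 : PowerSeries.subst v f.val = (f * g⁻¹).val := rfl
  rw [h3, h4] at h2
  -- `v^{n+2} = x^{n+2} + …`
  have h5 : v - PowerSeries.X ∈ ordI Unit B 2 := by
    rw [mem_ordI_unit]
    intro k hk
    rw [map_sub]
    rcases k with _ | k
    · rw [PowerSeries.coeff_zero_eq_constantCoeff_apply, (g⁻¹).cc,
        PowerSeries.coeff_zero_eq_constantCoeff_apply, PowerSeries.constantCoeff_X, sub_zero]
    · obtain rfl : k = 0 := by omega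
      have h6 := (strict B).inv_mem hg
      rw [mem_strict] at h6
      change (g⁻¹).c 0 - PowerSeries.coeff 1 PowerSeries.X = 0
      rw [h6, PowerSeries.coeff_one_X, sub_self]
  have h7 := pow_sub_pow_mem hv1 psX_mem h5 (n + 2)
  have h8 : (f * g⁻¹).val - (PowerSeries.X + PowerSeries.C b * PowerSeries.X ^ (n + 2)) =
      ((f * g⁻¹).val - (PowerSeries.X + MvPowerSeries.C b * v ^ (n + 2))) +
        MvPowerSeries.C b * (v ^ (n + 2) - PowerSeries.X ^ (n + 2)) := by
    change _ = ((f * g⁻¹).val - (PowerSeries.X + PowerSeries.C b * v ^ (n + 2))) +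
        PowerSeries.C b * (v ^ (n + 2) - PowerSeries.X ^ (n + 2))
    ring
  rw [h8]
  exact Ideal.add_mem _ h2 (Ideal.mul_mem_left _ _ h7)

/-- a strict series whose coefficients lie in a subring acts on laws over the subring. -/
theorem coeff_smul_addLaw_mem (S : Subring B) (b : ℕ → B) (hb : ∀ i, b i ∈ S)
    (d : Fin 2 →₀ ℕ) : coeff d ((strictMk b) • addLaw B).ps ∈ S := by
  have h : (strictMk b) • addLaw B =
      ((strictMk fun i => (⟨b i, hb i⟩ : S)) • addLaw S).map S.subtype := by
    rw [InvSeries.map_smul, map_strictMk, map_addLaw]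
    rfl
  rw [h, Law.map_ps, coeff_map]
  exact Subtype.mem _

/-- the leading term of `strictMk b • addLaw` in degree `n + 2`. -/
theorem coeff_strictMk_smul (b : ℕ → B) (n i j : ℕ) (hi : 1 ≤ i) (hj : 1 ≤ j)
    (hij : i + j = n + 2) :
    coeff (e2 i j) ((strictMk b) • addLaw B).ps - ((n + 2).choose i) • b n ∈
      Subring.closure (b '' {k | k < n}) := by
  classical
  set S := Subring.closure (b '' {k | k < n}) with hS
  set b' : ℕ → B := fun k => if k < n then b k else 0 with hb'
  have hb'S : ∀ k, b' k ∈ S := fun k => by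
    rw [hb']
    dsimp only
    split_ifs with h
    · exact Subring.subset_closure ⟨k, h, rfl⟩
    · exact S.zero_mem
  set f := strictMk b with hf
  set g := strictMk b' with hg
  have h1 : (f * g⁻¹) • (g • addLaw B) = f • addLaw B := by
    rw [mul_smul, inv_smul_smul]
  have h2 := mul_inv_sub_mem (f := f) (g := g) (strictMk_mem b') (n := n) (fun k hk => by
    rcases k with _ | k
    · rw [hf, hg, c_zero_strictMk, c_zero_strictMk]
    · rw [hf, hg, c_succ_strictMk, c_succ_strictMk, hb']
      exact (if_pos (by omega)).symm)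
  rw [hf, hg, c_succ_strictMk, c_succ_strictMk, ← hf, ← hg] at h2
  have h3 : b' n = 0 := if_neg (lt_irrefl n)
  rw [h3, sub_zero] at h2
  have h4 := change_of_variable (isLaw_formalGroup (g • addLaw B).toFG)
    (isLaw_formalGroup (f • addLaw B).toFG) (by omega) h2 (by
      have h5 := (InvSeries.isHom_smul (f * g⁻¹) (g • addLaw B)).2
      rw [h1] at h5
      exact h5) (e2 i j) (by rw [degree_e2]; omega)
  have h6 : coeff (e2 i j) ((X 0 + X 1 : MvPowerSeries (Fin 2) B) ^ (n + 2) - X 0 ^ (n + 2) -
      X 1 ^ (n + 2)) = ((n + 2).choose i : B) := by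
    rw [← dC_smul_CPS (by omega), ← map_natCast (MvPowerSeries.C (σ := Fin 2) (R := B)),
      coeff_C_mul, coeff_CPS (n + 2) i j hi hj hij, ← Nat.cast_mul, dC_mul_cC hi (by omega)]
  rw [map_sub, map_sub, coeff_C_mul, h6] at h4
  have h7 : coeff (e2 i j) (f • addLaw B).ps - ((n + 2).choose i) • b n =
      coeff (e2 i j) (g • addLaw B).ps := by
    rw [nsmul_eq_mul]
    linear_combination h4
  rw [h7]
  exact coeff_smul_addLaw_mem S b' hb'S _

/-- `xC` of the law `strictMk b • addLaw` is `d_{n+2} b_n` up to polynomials in the lower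
coefficients. -/
theorem xC_strictMk_smul (b : ℕ → B) (n : ℕ) :
    xC ((strictMk b) • addLaw B) n - dC (n + 2) • b n ∈ Subring.closure (b '' {k | k < n}) := by
  set S := Subring.closure (b '' {k | k < n}) with hS
  have h1 : dC (n + 2) • b n = ∑ i ∈ Finset.Ioo 0 (n + 2), lz n i • (((n + 2).choose i) • b n) := by
    have h2 : ∀ i ∈ Finset.Ioo 0 (n + 2), lz n i • (((n + 2).choose i) • b n) =
        (lz n i * (cC (n + 2) i : ℤ)) • (dC (n + 2) • b n) := by
      intro i hi
      rw [Finset.mem_Ioo] at hi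
      rw [← dC_mul_cC (by omega) hi.2]
      simp only [zsmul_eq_mul, nsmul_eq_mul]
      push_cast
      ring
    rw [Finset.sum_congr rfl h2, ← Finset.sum_smul, lz_spec, one_smul]
  rw [h1, xC, ← Finset.sum_sub_distrib]
  refine Subring.sum_mem _ fun i hi => ?_
  rw [Finset.mem_Ioo] at hi
  rw [← smul_sub]
  exact zsmul_mem (coeff_strictMk_smul b n i (n + 2 - i) (by omega) (by omega) (by omega)) _

namespace Laz

/-- the polynomial generator of weight `n + 1`. -/
noncomputable def x (n : ℕ) : Laz := xC univ n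

/-- the homomorphism from the polynomial ring. -/
noncomputable def polyHom : MvPolynomial ℕ ℤ →+* Laz :=
  (MvPolynomial.aeval x : MvPolynomial ℕ ℤ →ₐ[ℤ] Laz).toRingHom

@[simp] theorem polyHom_X (n : ℕ) : polyHom (MvPolynomial.X n) = x n := by
  simp [polyHom]

theorem polyHom_surjective : Function.Surjective polyHom := by
  have h1 : ∀ n, subx univ n ≤ polyHom.range := by
    intro n
    rw [subx, Subring.closure_le]
    rintro _ ⟨k, _, rfl⟩
    exact ⟨MvPolynomial.X k, polyHom_X k⟩
  have h2 : ∀ i j, a i j ∈ polyHom.range := by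
    intro i j
    rw [← coeff_univ]
    have h3 := coeff_mem_subx univ (i + j + 1) (e2 (i + 1) (j + 1)) (by
      rw [degree_e2]
      omega)
    exact h1 _ h3
  intro y
  obtain ⟨y, rfl⟩ := mk_surjective y
  change mk y ∈ polyHom.range
  induction y using MvPolynomial.induction_on with
  | C r =>
    have h4 : mk (MvPolynomial.C r) = ((r : ℤ) : Laz) := by
      rw [← map_intCast mk]
      simp
    rw [h4]
    exact intCast_mem _ r
  | add p q hp hq => rw [map_add]; exact Subring.add_mem _ hp hq
  | mul_X p ij hp => rw [map_mul]; exact Subring.mul_mem _ hp (h2 ij.1 ij.2)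

/-- The law over `ℤ[b_0, b_1, …]` obtained from the additive law by the strict series
`x + b_0 x^2 + b_1 x^3 + …`. -/
noncomputable def bLaw : Law (MvPolynomial ℕ ℤ) :=
  strictMk (MvPolynomial.X : ℕ → MvPolynomial ℕ ℤ) • addLaw (MvPolynomial ℕ ℤ)

/-- the homomorphism `Laz → ℤ[b_0, b_1, …]` -/
noncomputable def toB : Laz →+* MvPolynomial ℕ ℤ := lift bLaw

theorem toB_x_sub_mem (n : ℕ) :
    toB (x n) - MvPolynomial.C (dC (n + 2) : ℤ) * MvPolynomial.X n ∈ below ℤ n := by
  rw [x, map_xC, toB, univ_map_lift]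
  have h := xC_strictMk_smul (B := MvPolynomial ℕ ℤ) MvPolynomial.X n
  have h2 := closure_le_below (k := ℤ) n h
  rw [nsmul_eq_mul] at h2
  rw [MvPolynomial.C_eq_coe_nat]
  exact h2

theorem toB_comp_polyHom_injective : Function.Injective (toB.comp polyHom) := by
  refine injective_of_triangular (c := fun n => (dC (n + 2) : ℤ)) (fun n => ?_) (fun n => ?_)
  · exact_mod_cast (dC_pos (N := n + 2)).ne'
  · rw [RingHom.comp_apply, polyHom_X]
    exact toB_x_sub_mem n

theorem polyHom_injective : Function.Injective polyHom :=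
  Function.Injective.of_comp (f := toB) toB_comp_polyHom_injective

/-- **Lazard's theorem**: `Laz` is a polynomial ring on the `x n`, `n ≥ 0` (`x n` of weight
`n + 1`). -/
noncomputable def polyEquiv : MvPolynomial ℕ ℤ ≃+* Laz :=
  RingEquiv.ofBijective polyHom ⟨polyHom_injective, polyHom_surjective⟩

@[simp] theorem polyEquiv_X (n : ℕ) : polyEquiv (MvPolynomial.X n) = x n := polyHom_X n

@[simp] theorem polyEquiv_symm_x (n : ℕ) : polyEquiv.symm (x n) = MvPolynomial.X n := by
  rw [RingEquiv.symm_apply_eq, polyEquiv_X]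

/-- `Laz → ℤ[b_0, b_1, …]` is injective. -/
theorem toB_injective : Function.Injective toB := by
  intro y z h
  obtain ⟨y, rfl⟩ := polyHom_surjective y
  obtain ⟨z, rfl⟩ := polyHom_surjective z
  congr 1
  exact toB_comp_polyHom_injective h

instance : IsDomain Laz := polyEquiv.symm.toMulEquiv.isDomain (MvPolynomial ℕ ℤ)

instance : CharZero Laz := charZero_of_injective_ringHom polyHom_injective

end Laz

end Vale.Agent.P251.F
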