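import Vale.Agent.P251.F.Transport

/-!
# P251, part F: invertible series, laws, the action by change of coordinates

`InvSeries B` is the group (under composition) of power series `c₀ x + c₁ x² + …` with `c₀` a
unit; `strict B` the subgroup `c₀ = 1`; `Law B` the set of commutative one-dimensional formal
group laws over `B`. The group `InvSeries B` acts on `Law B` by
`f • F = f (F (f⁻¹ x, f⁻¹ y))`, so that `f : F → f • F` is an isomorphism.
Everything is functorial in `B`.
-/

namespace Vale.Agent.P251.F

open MvPowerSeries Vale.Agent.P217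

variable {A B C : Type*} [CommRing A] [CommRing B] [CommRing C]

/-- Invertible power series `c₀ x + c₁ x² + …`, `c₀` a unit. -/
@[ext] structure InvSeries (B : Type*) [CommRing B] where
  /-- the underlying power series -/
  val : PowerSeries B
  cc : PowerSeries.constantCoeff val = 0
  isUnit : IsUnit (PowerSeries.coeff 1 val)

namespace InvSeries

theorem hs (f : InvSeries B) : PowerSeries.HasSubst f.val := hasSubst_of_cc f.cc

/-- Composition `f ∘ g`. -/
noncomputable instance : Mul (InvSeries B) where
  mul f g := ⟨PowerSeries.subst g.val f.val,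
    PowerSeries.constantCoeff_subst_eq_zero g.cc _ f.cc, by
      rw [coeff_one_subst g.cc]
      exact g.isUnit.mul f.isUnit⟩

noncomputable instance : One (InvSeries B) where
  one := ⟨PowerSeries.X, by simp, by simp⟩

noncomputable instance : Inv (InvSeries B) where
  inv f := ⟨PowerSeries.substInvOfIsUnit f.val f.isUnit, by simp, by
    rw [PowerSeries.coeff_one_substInvOfIsUnit]
    exact Units.isUnit _⟩

@[simp] theorem one_val : (1 : InvSeries B).val = PowerSeries.X := rfl

theorem mul_val (f g : InvSeries B) : (f * g).val = PowerSeries.subst g.val f.val := rfl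

theorem mul_one' (f : InvSeries B) : f * 1 = f := by
  ext1
  rw [mul_val, one_val, PowerSeries.X_subst]

theorem one_mul' (f : InvSeries B) : 1 * f = f := by
  ext1
  rw [mul_val, one_val, PowerSeries.subst_X f.hs]

theorem mul_assoc' (f g h : InvSeries B) : f * g * h = f * (g * h) := by
  ext1
  rw [mul_val, mul_val, mul_val, mul_val, PowerSeries.subst_comp_subst_apply g.hs h.hs]

theorem inv_mul' (f : InvSeries B) : f⁻¹ * f = 1 := by
  ext1
  exact PowerSeries.subst_substInvOfIsUnit_left _ f.cc f.isUnit

noncomputable instance : Group (InvSeries B) where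
  mul_assoc := mul_assoc'
  one_mul := one_mul'
  mul_one := mul_one'
  inv_mul_cancel := inv_mul'

theorem inv_subst_val (f : InvSeries B) :
    PowerSeries.subst (f⁻¹).val f.val = (PowerSeries.X : PowerSeries B) :=
  congrArg val (mul_inv_cancel f)

theorem subst_inv_val (f : InvSeries B) :
    PowerSeries.subst f.val (f⁻¹).val = (PowerSeries.X : PowerSeries B) :=
  congrArg val (inv_mul_cancel f)

/-- base change of invertible series -/
noncomputable def map (φ : A →+* B) : InvSeries A →* InvSeries B where
  toFun f := ⟨PowerSeries.map φ f.val, by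
      rw [← PowerSeries.coeff_zero_eq_constantCoeff_apply, PowerSeries.coeff_map,
        PowerSeries.coeff_zero_eq_constantCoeff_apply, f.cc, map_zero], by
      rw [PowerSeries.coeff_map]
      exact f.isUnit.map φ⟩
  map_one' := by
    ext1
    exact PowerSeries.map_X φ
  map_mul' f g := by
    ext1
    exact PowerSeries.map_subst g.hs f.val

@[simp] theorem map_val (φ : A →+* B) (f : InvSeries A) :
    (map φ f).val = PowerSeries.map φ f.val := rfl

@[simp] theorem map_id (f : InvSeries A) : map (RingHom.id A) f = f := by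
  ext n
  simp

theorem map_map (φ : A →+* B) (ψ : B →+* C) (f : InvSeries A) :
    map ψ (map φ f) = map (ψ.comp φ) f := by
  ext n
  simp

/-- coefficient `c_n` of `x^{n+1}` -/
noncomputable def c (f : InvSeries B) (n : ℕ) : B := PowerSeries.coeff (n + 1) f.val

@[simp] theorem c_map (φ : A →+* B) (f : InvSeries A) (n : ℕ) : (map φ f).c n = φ (f.c n) := by
  simp [c]

theorem ext_c {f g : InvSeries B} (h : ∀ n, f.c n = g.c n) : f = g := by
  ext n
  rcases n with _ | n
  · rw [PowerSeries.coeff_zero_eq_constantCoeff_apply, f.cc,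
      PowerSeries.coeff_zero_eq_constantCoeff_apply, g.cc]
  · exact h n

theorem c_zero_mul (f g : InvSeries B) : (f * g).c 0 = f.c 0 * g.c 0 := by
  change PowerSeries.coeff 1 (PowerSeries.subst g.val f.val : PowerSeries B) = _
  rw [coeff_one_subst g.cc, mul_comm]
  rfl

@[simp] theorem c_zero_one : (1 : InvSeries B).c 0 = 1 := by
  simp [c]

theorem c_one_succ (n : ℕ) : (1 : InvSeries B).c (n + 1) = 0 := by
  simp [c, PowerSeries.coeff_X]

/-- The series with given coefficients. -/
noncomputable def ofCoeff (c : ℕ → B) (h : IsUnit (c 0)) : InvSeries B where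
  val := PowerSeries.mk fun n => if n = 0 then 0 else c (n - 1)
  cc := by simp [← PowerSeries.coeff_zero_eq_constantCoeff_apply]
  isUnit := by simpa using h

@[simp] theorem c_ofCoeff (c : ℕ → B) (h : IsUnit (c 0)) (n : ℕ) : (ofCoeff c h).c n = c n := by
  simp [InvSeries.c, ofCoeff]

/-- The linear series `λ x`. -/
noncomputable def lin : Bˣ →* InvSeries B where
  toFun l := ⟨PowerSeries.C (l : B) * PowerSeries.X, by simp, by
    rw [PowerSeries.coeff_C_mul, PowerSeries.coeff_one_X, mul_one]
    exact l.isUnit⟩
  map_one' := by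
    ext1
    simp
  map_mul' l m := by
    ext1
    rw [mul_val]
    have hm : PowerSeries.HasSubst (PowerSeries.C (m : B) * PowerSeries.X : PowerSeries B) :=
      hasSubst_of_cc (by
        change PowerSeries.constantCoeff (PowerSeries.C (m : B) * PowerSeries.X) = 0
        simp)
    dsimp only
    rw [PowerSeries.subst_mul hm, PowerSeries.subst_X hm, PowerSeries.subst_C, Units.val_mul,
      map_mul, mul_assoc]
    rfl

@[simp] theorem lin_val (l : Bˣ) : (lin l).val = PowerSeries.C (l : B) * PowerSeries.X := rfl

theorem map_lin (φ : A →+* B) (l : Aˣ) : map φ (lin l) = lin (Units.map (φ : A →* B) l) := by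
  ext1
  simp

@[simp] theorem c_zero_lin (l : Bˣ) : (lin l).c 0 = l := by
  simp [c]

end InvSeries

/-- The subgroup of strict series `x + c₁ x² + …`. -/
noncomputable def strict (B : Type*) [CommRing B] : Subgroup (InvSeries B) where
  carrier := {f | f.c 0 = 1}
  one_mem' := InvSeries.c_zero_one
  mul_mem' := by
    intro f g hf hg
    change f.c 0 = 1 at hf
    change g.c 0 = 1 at hg
    change (f * g).c 0 = 1
    rw [InvSeries.c_zero_mul, hf, hg, one_mul]
  inv_mem' := by
    intro f hf
    change f.c 0 = 1 at hf
    change (f⁻¹).c 0 = 1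
    have h := InvSeries.c_zero_mul f⁻¹ f
    rw [inv_mul_cancel, hf, InvSeries.c_zero_one, mul_one] at h
    exact h.symm

theorem mem_strict {f : InvSeries B} : f ∈ strict B ↔ f.c 0 = 1 := Iff.rfl

/-- Commutative one-dimensional formal group laws. -/
@[ext] structure Law (B : Type*) [CommRing B] where
  /-- the underlying formal group law -/
  toFG : FormalGroup B
  comm : toFG.IsComm

namespace Law

instance (F : Law B) : F.toFG.IsComm := F.comm

/-- the two-variable power series -/
noncomputable abbrev ps (F : Law B) : MvPowerSeries (Fin 2) B := F.toFG.toPowerSeries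

theorem ext_ps {F G : Law B} (h : F.ps = G.ps) : F = G := by
  cases F; cases G
  congr 1
  exact FormalGroup.ext h

/-- base change -/
noncomputable def map (φ : A →+* B) (F : Law A) : Law B where
  toFG := F.toFG.map φ
  comm := inferInstance

@[simp] theorem map_toFG (φ : A →+* B) (F : Law A) : (F.map φ).toFG = F.toFG.map φ := rfl

theorem map_ps (φ : A →+* B) (F : Law A) : (F.map φ).ps = MvPowerSeries.map φ F.ps := rfl

@[simp] theorem map_id (F : Law A) : F.map (RingHom.id A) = F := by
  apply ext_ps
  ext d
  simp [map_ps]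

theorem map_map (φ : A →+* B) (ψ : B →+* C) (F : Law A) :
    (F.map φ).map ψ = F.map (ψ.comp φ) := by
  apply ext_ps
  ext d
  simp [map_ps]

end Law

namespace InvSeries

/-- The law `f (F (f⁻¹ x, f⁻¹ y))`. -/
noncomputable instance : SMul (InvSeries B) (Law B) where
  smul f F := ⟨transport F.toFG f.val (f⁻¹).val f.cc (f⁻¹).cc f.inv_subst_val f.subst_inv_val,
    isComm_transport F.toFG f.val (f⁻¹).val f.cc (f⁻¹).cc f.inv_subst_val f.subst_inv_val⟩

theorem smul_ps (f : InvSeries B) (F : Law B) :
    (f • F).ps = PowerSeries.subst (MvPowerSeries.subst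
      ![(PowerSeries.subst (X 0 : MvPowerSeries (Fin 2) B) (f⁻¹).val : MvPowerSeries (Fin 2) B),
        (PowerSeries.subst (X 1 : MvPowerSeries (Fin 2) B) (f⁻¹).val : MvPowerSeries (Fin 2) B)]
      F.ps : MvPowerSeries (Fin 2) B) f.val := rfl

theorem isHom_smul (f : InvSeries B) (F : Law B) : IsHom F.toFG (f • F).toFG f.val :=
  isHom_transport F.toFG f.val (f⁻¹).val f.cc (f⁻¹).cc f.inv_subst_val f.subst_inv_val

/-- `f : F → f • F` is an isomorphism. -/
theorem isIso_smul (f : InvSeries B) (F : Law B) : IsIso F.toFG (f • F).toFG f.val :=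
  ⟨isHom_smul f F, f.isUnit⟩

/-- `f • F = G` iff `f` is an isomorphism `F → G`. -/
theorem smul_eq_iff (f : InvSeries B) (F G : Law B) :
    f • F = G ↔ IsIso F.toFG G.toFG f.val := by
  constructor
  · rintro rfl
    exact isIso_smul f F
  · intro h
    exact Law.ext ((isIso_smul f F).targetL h)

theorem smul_eq_iff_isHom (f : InvSeries B) (F G : Law B) :
    f • F = G ↔ IsHom F.toFG G.toFG f.val := by
  rw [smul_eq_iff]
  exact ⟨fun h => h.1, fun h => ⟨h, f.isUnit⟩⟩

noncomputable instance : MulAction (InvSeries B) (Law B) where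
  one_smul F := (smul_eq_iff 1 F F).2 isIso_X
  mul_smul f g F := (smul_eq_iff (f * g) F (f • g • F)).2 ((isIso_smul g F).compL
    (isIso_smul f (g • F)))

theorem map_smul (φ : A →+* B) (f : InvSeries A) (F : Law A) :
    (f • F).map φ = map φ f • F.map φ := by
  symm
  rw [smul_eq_iff]
  exact (isIso_smul f F).mapL φ

/-- the invertible series of an isomorphism -/
noncomputable def ofIso {F G : Law B} {f : PowerSeries B} (h : IsIso F.toFG G.toFG f) :
    InvSeries B := ⟨f, h.1.1, h.2⟩

theorem ofIso_smul {F G : Law B} {f : PowerSeries B} (h : IsIso F.toFG G.toFG f) :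
    ofIso h • F = G := (smul_eq_iff _ F G).2 h

end InvSeries

/-- The strict series with given higher coefficients: `x + b₀ x² + b₁ x³ + …`. -/
noncomputable def strictMk (b : ℕ → B) : InvSeries B :=
  InvSeries.ofCoeff (fun n => if n = 0 then 1 else b (n - 1)) (by simp)

theorem strictMk_mem (b : ℕ → B) : strictMk b ∈ strict B := by
  rw [mem_strict, strictMk, InvSeries.c_ofCoeff]
  simp

@[simp] theorem c_zero_strictMk (b : ℕ → B) : (strictMk b).c 0 = 1 := strictMk_mem b

@[simp] theorem c_succ_strictMk (b : ℕ → B) (n : ℕ) : (strictMk b).c (n + 1) = b n := by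
  simp [strictMk]

theorem map_strictMk (φ : A →+* B) (b : ℕ → A) :
    InvSeries.map φ (strictMk b) = strictMk (fun n => φ (b n)) := by
  apply InvSeries.ext_c
  rintro (_ | n) <;> simp

theorem strictMk_c {f : InvSeries B} (hf : f ∈ strict B) :
    strictMk (fun n => f.c (n + 1)) = f := by
  apply InvSeries.ext_c
  rintro (_ | n)
  · rw [c_zero_strictMk, mem_strict.1 hf]
  · simp

theorem map_mem_strict (φ : A →+* B) {f : InvSeries A} (hf : f ∈ strict A) :
    InvSeries.map φ f ∈ strict B := by
  rw [mem_strict, InvSeries.c_map, mem_strict.1 hf, map_one]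

theorem strict_normal : (strict B).Normal where
  conj_mem f hf g := by
    have h := InvSeries.c_zero_mul g g⁻¹
    rw [mul_inv_cancel, InvSeries.c_zero_one] at h
    rw [mem_strict] at hf ⊢
    rw [InvSeries.c_zero_mul, InvSeries.c_zero_mul, hf, mul_one, ← h]

end Vale.Agent.P251.F
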