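/-
P251, part F (F2): heights.  For a commutative formal group law `F` over any commutative ring `R`
and a prime `p` let `v_i(F)` be the coefficient of `x^(p^i)` in `[p]_F` (so `v_0 = p`).
* if `v_i(F) = 0` for `i < h` then `[p]_F` is a series in `x^(p^h)`;
* ideal form: the coefficient of `x^n` in `[p]_F` lies in `I_h(F) = (v_0, …, v_{h-1})` unless
  `p^h ∣ n`;
* invariance: for an isomorphism `f : F → G`, `I_h(F) = I_h(G)` and
  `c^(p^h) v_h(G) = c v_h(F)` modulo `I_h`, `c = f'(0)`.
Author: helper982.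
-/
import Vale.Agent.P251.F.Series

namespace Vale.Agent.P251.F

open MvPowerSeries Vale.Agent.P217

section Height

variable {R S : Type*} [CommRing R] [CommRing S]

/-- `v_i(F)`: the coefficient of `x^(p^i)` in `[p]_F(x)`. -/
noncomputable def vF (p : ℕ) (F : FormalGroup R) (i : ℕ) : R :=
  PowerSeries.coeff (p ^ i) (multSeries F p)

/-- `I_h(F) = (v_0, …, v_{h-1})`. -/
def IF (p : ℕ) (F : FormalGroup R) (h : ℕ) : Ideal R :=
  Ideal.span {x | ∃ i < h, x = vF p F i}

theorem vF_mem (p : ℕ) (F : FormalGroup R) {i h : ℕ} (hi : i < h) : vF p F i ∈ IF p F h :=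
  Ideal.subset_span ⟨i, hi, rfl⟩

theorem IF_le_iff (p : ℕ) (F : FormalGroup R) (h : ℕ) (J : Ideal R) :
    IF p F h ≤ J ↔ ∀ i < h, vF p F i ∈ J := by
  rw [IF, Ideal.span_le]
  constructor
  · intro H i hi
    exact H ⟨i, hi, rfl⟩
  · rintro H x ⟨i, hi, rfl⟩
    exact H i hi

theorem IF_mono (p : ℕ) (F : FormalGroup R) {h h' : ℕ} (hh : h ≤ h') : IF p F h ≤ IF p F h' :=
  (IF_le_iff p F h _).2 fun _ hi => vF_mem p F (lt_of_lt_of_le hi hh)

@[simp] theorem IF_zero (p : ℕ) (F : FormalGroup R) : IF p F 0 = ⊥ := by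
  rw [eq_bot_iff, IF_le_iff]
  intro i hi
  exact absurd hi (Nat.not_lt_zero i)

theorem vF_zero (p : ℕ) (F : FormalGroup R) : vF p F 0 = (p : R) := by
  rw [vF, pow_zero, coeff_one_multSeries]

theorem vF_map (p : ℕ) (φ : R →+* S) (F : FormalGroup R) (i : ℕ) :
    vF p (F.map φ) i = φ (vF p F i) := by
  rw [vF, vF, ← map_multSeries, PowerSeries.coeff_map]

theorem IF_map (p : ℕ) (φ : R →+* S) (F : FormalGroup R) (h : ℕ) :
    (IF p F h).map φ = IF p (F.map φ) h := by
  rw [IF, Ideal.map_span, IF]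
  congr 1
  ext x
  constructor
  · rintro ⟨y, ⟨i, hi, rfl⟩, rfl⟩
    exact ⟨i, hi, (vF_map p φ F i).symm⟩
  · rintro ⟨i, hi, rfl⟩
    exact ⟨_, ⟨i, hi, rfl⟩, (vF_map p φ F i).symm⟩

/-- coefficients of a homomorphism in characteristic `p` -/
theorem exists_V_of_vanish (p : ℕ) [Fact p.Prime] [CharP R p] {F G : FormalGroup R}
    {f : PowerSeries R} (hf : IsHom F G f) (h : ℕ)
    (hv : ∀ i < h, PowerSeries.coeff (p ^ i) f = 0) :
    ∃ V : PowerSeries R, f = PowerSeries.subst (PowerSeries.X ^ (p ^ h) : PowerSeries R) V ∧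
      IsHom (F.map (iterateFrobenius R p h)) G V := by
  have hp : p ≠ 0 := (Fact.out : p.Prime).ne_zero
  refine hf.exists_heightL p h ?_
  have key : ∀ k ≤ h, ∀ j < p ^ k, PowerSeries.coeff j f = 0 := by
    intro k
    induction k with
    | zero =>
      intro _ j hj
      have : j = 0 := by simpa using hj
      subst this
      rw [PowerSeries.coeff_zero_eq_constantCoeff_apply, hf.1]
    | succ k ih =>
      intro hk j hj
      obtain ⟨V, hV, hVhom⟩ := hf.exists_heightL p k (ih (by omega))
      have h1 : PowerSeries.coeff 1 V = 0 := by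
        have := hv k (by omega)
        rw [hV, PowerSeries.coeff_subst_X_pow (pow_ne_zero k hp)] at this
        simpa only [dvd_refl, ↓reduceIte, Algebra.algebraMap_self,
          Nat.div_self (pow_pos (Fact.out : p.Prime).pos k), RingHom.id_apply] using this
      obtain ⟨W, hW⟩ := exists_expand_of_derivative_eq_zero p V (hVhom.derivative_eq_zeroL h1)
      have hW0 : PowerSeries.constantCoeff W = 0 := by
        have := hVhom.1
        rw [hW, PowerSeries.constantCoeff_expand] at this
        exact this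
      have e : f = PowerSeries.subst (PowerSeries.X ^ (p ^ (k + 1)) : PowerSeries R) W := by
        rw [hV, hW, PowerSeries.expand_apply, PowerSeries.subst_comp_subst_apply
          (PowerSeries.HasSubst.X_pow hp) (PowerSeries.HasSubst.X_pow (pow_ne_zero k hp)),
          PowerSeries.subst_pow (PowerSeries.HasSubst.X_pow (pow_ne_zero k hp)),
          PowerSeries.subst_X (PowerSeries.HasSubst.X_pow (pow_ne_zero k hp)), ← pow_mul,
          ← pow_succ]
      rw [e, PowerSeries.coeff_subst_X_pow (pow_ne_zero (k + 1) hp)]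
      split_ifs with hd
      · have : j = 0 := by
          by_contra h0
          exact absurd (Nat.le_of_dvd (Nat.pos_of_ne_zero h0) hd) (by omega)
        subst this
        rw [Nat.zero_div, PowerSeries.coeff_zero_eq_constantCoeff_apply, hW0, map_zero]
      · rfl
  exact key h le_rfl

/-- If `v_i(F) = 0` for `i < h`, then `[p]_F` is a series in `x^(p^h)`. -/
theorem coeff_multSeries_eq_zero (p : ℕ) [Fact p.Prime] (F : FormalGroup R) [F.IsComm] (h : ℕ)
    (hv : ∀ i < h, vF p F i = 0) (n : ℕ) (hn : ¬ p ^ h ∣ n) :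
    PowerSeries.coeff n (multSeries F p) = 0 := by
  rcases subsingleton_or_nontrivial R with hR | hR
  · exact Subsingleton.elim _ _
  rcases Nat.eq_zero_or_pos h with rfl | hpos
  · exact absurd (one_dvd n) (by simpa using hn)
  have hp0 : (p : R) = 0 := by
    rw [← vF_zero p F]
    exact hv 0 hpos
  have : CharP R p := (CharP.charP_iff_prime_eq_zero (Fact.out : p.Prime)).2 hp0
  obtain ⟨V, hV, -⟩ := exists_V_of_vanish p (isHom_multSeries F p) h hv
  rw [hV, PowerSeries.coeff_subst_X_pow (pow_ne_zero h (Fact.out : p.Prime).ne_zero), if_neg hn]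

/-- ideal form -/
theorem coeff_multSeries_mem (p : ℕ) [Fact p.Prime] (F : FormalGroup R) [F.IsComm] (h : ℕ)
    (n : ℕ) (hn : ¬ p ^ h ∣ n) : PowerSeries.coeff n (multSeries F p) ∈ IF p F h := by
  rw [← Ideal.Quotient.eq_zero_iff_mem, ← PowerSeries.coeff_map, map_multSeries]
  have := isComm_map (f := Ideal.Quotient.mk (IF p F h)) F
  refine coeff_multSeries_eq_zero p _ h (fun i hi => ?_) n hn
  rw [vF_map]
  exact Ideal.Quotient.eq_zero_iff_mem.2 (vF_mem p F hi)

/-- coefficients below `p^h` -/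
theorem coeff_multSeries_lt (p : ℕ) [Fact p.Prime] (F : FormalGroup R) [F.IsComm] (h : ℕ)
    (hv : ∀ i < h, vF p F i = 0) (n : ℕ) (hn : n < p ^ h) :
    PowerSeries.coeff n (multSeries F p) = 0 := by
  rcases Nat.eq_zero_or_pos n with rfl | hpos
  · rw [PowerSeries.coeff_zero_eq_constantCoeff_apply, constantCoeff_multSeries]
  · exact coeff_multSeries_eq_zero p F h hv n fun hd => by
      have := Nat.le_of_dvd hpos hd
      omega

/-- `f ∘ [m]_F = [m]_G ∘ f`. -/
theorem subst_multSeries {F G : FormalGroup R} [F.IsComm] [G.IsComm] {f : PowerSeries R}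
    (hf : IsHom F G f) (m : ℕ) :
    (PowerSeries.subst (multSeries F m) f : PowerSeries R) =
      PowerSeries.subst f (multSeries G m) := by
  have h := map_nsmul (homPt (σ := Unit) f hf) m (ptX F ())
  have h' := congrArg Subtype.val h
  have e0 : (homPt (σ := Unit) f hf (m • ptX F ())).val =
      PowerSeries.subst (PowerSeries.subst (X () : MvPowerSeries Unit R) (multSeries F m)) f := by
    rw [homPt_val, nsmul_val, ptX_val]
  have e0' : (m • homPt (σ := Unit) f hf (ptX F ())).val =
      PowerSeries.subst (PowerSeries.subst (X () : MvPowerSeries Unit R) f) (multSeries G m) := by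
    rw [nsmul_val, homPt_val, ptX_val]
  have e1 : (PowerSeries.subst (X () : MvPowerSeries Unit R) (multSeries F m) :
      MvPowerSeries Unit R) = multSeries F m := PowerSeries.X_subst _
  have e2 : (PowerSeries.subst (X () : MvPowerSeries Unit R) f :
      MvPowerSeries Unit R) = f := PowerSeries.X_subst _
  rw [e1] at e0
  rw [e2] at e0'
  exact e0.symm.trans (h'.trans e0')

/-- coefficient of `x^q` in `f(A(x))`, `A = a x^q + …` -/
theorem coeff_subst_of_le {f A : PowerSeries R} (hf : PowerSeries.constantCoeff f = 0) {q : ℕ}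
    (hq : 0 < q) (hA : ∀ j < q, PowerSeries.coeff j A = 0) :
    PowerSeries.coeff q (PowerSeries.subst A f : PowerSeries R) =
      PowerSeries.coeff 1 f * PowerSeries.coeff q A := by
  have hA0 : PowerSeries.constantCoeff A = 0 := by
    rw [← PowerSeries.coeff_zero_eq_constantCoeff_apply]
    exact hA 0 hq
  obtain ⟨B, rfl⟩ := PowerSeries.X_pow_dvd_iff.2 hA
  rw [PowerSeries.coeff_subst' (hasSubst_of_cc hA0), finsum_eq_single _ 1]
  · simp
  · intro d hd
    rcases Nat.eq_zero_or_pos d with rfl | hd'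
    · rw [PowerSeries.coeff_zero_eq_constantCoeff_apply, hf, zero_smul]
    · have : PowerSeries.coeff q ((PowerSeries.X ^ q * B : PowerSeries R) ^ d) = 0 := by
        have h2 : (PowerSeries.X : PowerSeries R) ^ (q * d) ∣
            (PowerSeries.X ^ q * B : PowerSeries R) ^ d := by
          rw [mul_pow, ← pow_mul]
          exact Dvd.intro _ rfl
        refine (PowerSeries.X_pow_dvd_iff.mp h2) q ?_
        have : 2 ≤ d := by omega
        nlinarith
      rw [this, smul_zero]

/-- coefficient of `x^q` in `A(f(x))`, `A = a x^q + …` -/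
theorem coeff_subst_of_le' {f A : PowerSeries R} (hf : PowerSeries.constantCoeff f = 0) {q : ℕ}
    (hA : ∀ j < q, PowerSeries.coeff j A = 0) :
    PowerSeries.coeff q (PowerSeries.subst f A : PowerSeries R) =
      PowerSeries.coeff 1 f ^ q * PowerSeries.coeff q A := by
  rw [PowerSeries.coeff_subst' (hasSubst_of_cc hf), finsum_eq_single _ q]
  · obtain ⟨g, hg⟩ := PowerSeries.X_dvd_iff.2 hf
    have h1 : PowerSeries.coeff q (f ^ q) = PowerSeries.coeff 1 f ^ q := by
      rw [hg, mul_pow]
      have : PowerSeries.coeff q (PowerSeries.X ^ q * g ^ q : PowerSeries R) =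
          PowerSeries.constantCoeff (g ^ q) := by
        simpa using PowerSeries.coeff_X_pow_mul (g ^ q) q 0
      rw [this, map_pow]
      congr 1
      simpa using (PowerSeries.coeff_succ_X_mul 0 g).symm
    rw [h1, smul_eq_mul, mul_comm]
  · intro d hd
    rcases lt_or_gt_of_ne hd with h | h
    · rw [hA d h, zero_smul]
    · have : PowerSeries.coeff q (f ^ d) = 0 := by
        have h2 : (PowerSeries.X : PowerSeries R) ^ d ∣ f ^ d :=
          pow_dvd_pow_of_dvd (PowerSeries.X_dvd_iff.2 hf) d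
        exact (PowerSeries.X_pow_dvd_iff.mp h2) q h
      rw [this, smul_zero]

/-- Invariance, vanishing form. -/
theorem vF_invariant (p : ℕ) [Fact p.Prime] {F G : FormalGroup R} [F.IsComm] [G.IsComm]
    {f : PowerSeries R} (hf : IsIso F G f) (h : ℕ) (hv : ∀ i < h, vF p F i = 0) :
    (∀ i < h, vF p G i = 0) ∧
      PowerSeries.coeff 1 f ^ (p ^ h) * vF p G h = PowerSeries.coeff 1 f * vF p F h := by
  have hp : 0 < p := (Fact.out : p.Prime).pos
  have key : ∀ k ≤ h, (∀ i < k, vF p G i = 0) →
      PowerSeries.coeff 1 f ^ (p ^ k) * vF p G k = PowerSeries.coeff 1 f * vF p F k := by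
    intro k hk hG
    have h1 := coeff_subst_of_le' (f := f) (A := multSeries G p) hf.1.1
      (coeff_multSeries_lt p G k hG)
    have h2 := coeff_subst_of_le (f := f) (A := multSeries F p) hf.1.1 (pow_pos hp k)
      (coeff_multSeries_lt p F k fun i hi => hv i (by omega))
    rw [subst_multSeries hf.1, h1] at h2
    exact h2
  have hG : ∀ k ≤ h, ∀ i < k, vF p G i = 0 := by
    intro k
    induction k with
    | zero => intro _ i hi; exact absurd hi (Nat.not_lt_zero i)
    | succ k ih =>
      intro hk i hi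
      rcases Nat.lt_succ_iff_lt_or_eq.1 hi with h' | rfl
      · exact ih (by omega) i h'
      · have := key i (by omega) (ih (by omega))
        rw [hv i (by omega), mul_zero] at this
        exact (hf.2.pow _).mul_right_eq_zero.1 this
  exact ⟨hG h le_rfl, key h le_rfl (hG h le_rfl)⟩

/-- Invariance: `I_h(G) ≤ I_h(F)`. -/
theorem IF_le (p : ℕ) [Fact p.Prime] {F G : FormalGroup R} [F.IsComm] [G.IsComm]
    {f : PowerSeries R} (hf : IsIso F G f) (h : ℕ) : IF p G h ≤ IF p F h := by
  rw [IF_le_iff]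
  intro i hi
  have := isComm_map (f := Ideal.Quotient.mk (IF p F h)) F
  have := isComm_map (f := Ideal.Quotient.mk (IF p F h)) G
  have := (vF_invariant p (hf.mapL (Ideal.Quotient.mk (IF p F h))) h fun j hj => by
    rw [vF_map]
    exact Ideal.Quotient.eq_zero_iff_mem.2 (vF_mem p F hj)).1 i hi
  rw [vF_map] at this
  exact Ideal.Quotient.eq_zero_iff_mem.1 this

/-- Invariance of the ideals `I_h`. -/
theorem IF_eq (p : ℕ) [Fact p.Prime] {F G : FormalGroup R} [F.IsComm] [G.IsComm]
    {f : PowerSeries R} (hf : IsIso F G f) (h : ℕ) : IF p F h = IF p G h := by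
  obtain ⟨g, hg, -, -⟩ := hf.symmL
  exact le_antisymm (IF_le p hg h) (IF_le p hf h)

/-- Invariance of `v_h` modulo `I_h`. -/
theorem vF_sub_mem (p : ℕ) [Fact p.Prime] {F G : FormalGroup R} [F.IsComm] [G.IsComm]
    {f : PowerSeries R} (hf : IsIso F G f) (h : ℕ) :
    PowerSeries.coeff 1 f ^ (p ^ h) * vF p G h - PowerSeries.coeff 1 f * vF p F h ∈
      IF p F h := by
  have := isComm_map (f := Ideal.Quotient.mk (IF p F h)) F
  have := isComm_map (f := Ideal.Quotient.mk (IF p F h)) G
  have := (vF_invariant p (hf.mapL (Ideal.Quotient.mk (IF p F h))) h fun j hj => by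
    rw [vF_map]
    exact Ideal.Quotient.eq_zero_iff_mem.2 (vF_mem p F hj)).2
  rw [vF_map, vF_map, PowerSeries.coeff_map, ← map_pow, ← map_mul, ← map_mul] at this
  rw [← Ideal.Quotient.eq_zero_iff_mem, map_sub, this, sub_self]

/-- Strict isomorphisms: `v_h(G) = v_h(F)` modulo `I_h`. -/
theorem vF_sub_mem_of_strict (p : ℕ) [Fact p.Prime] {F G : FormalGroup R} [F.IsComm] [G.IsComm]
    {f : PowerSeries R} (hf : IsHom F G f) (h1 : PowerSeries.coeff 1 f = 1) (h : ℕ) :
    vF p G h - vF p F h ∈ IF p F h := by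
  have := vF_sub_mem p (F := F) (G := G) (f := f) ⟨hf, by rw [h1]; exact isUnit_one⟩ h
  rwa [h1, one_pow, one_mul, one_mul] at this

end Height

section Law

variable {B : Type*} [CommRing B] (p : ℕ) [Fact p.Prime]

instance isComm_toFG (F : Law B) : F.toFG.IsComm := F.comm

theorem law_IF_smul (f : InvSeries B) (F : Law B) (h : ℕ) :
    IF p (f • F).toFG h = IF p F.toFG h :=
  (IF_eq p (InvSeries.isIso_smul f F) h).symm

theorem law_vF_smul (f : InvSeries B) (F : Law B) (h : ℕ) :
    f.c 0 ^ (p ^ h) * vF p (f • F).toFG h - f.c 0 * vF p F.toFG h ∈ IF p F.toFG h :=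
  vF_sub_mem p (InvSeries.isIso_smul f F) h

theorem law_vF_smul_eq_zero_iff (f : InvSeries B) (F : Law B) (h : ℕ) :
    (∀ i < h, vF p (f • F).toFG i = 0) ↔ ∀ i < h, vF p F.toFG i = 0 := by
  have : ∀ F : Law B, (∀ i < h, vF p F.toFG i = 0) ↔ IF p F.toFG h = ⊥ := by
    intro F
    rw [eq_bot_iff, IF_le_iff]
    simp
  rw [this, this, law_IF_smul]

theorem law_vF_smul_of_zero (f : InvSeries B) (F : Law B) (h : ℕ)
    (hv : ∀ i < h, vF p F.toFG i = 0) :
    f.c 0 ^ (p ^ h) * vF p (f • F).toFG h = f.c 0 * vF p F.toFG h :=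
  (vF_invariant p (InvSeries.isIso_smul f F) h hv).2

end Law

end Vale.Agent.P251.F
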