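import Vale.Agent.P251.F.Cob
import Mathlib.Algebra.Polynomial.Laurent

/-!
# P251, part F (F6b): the weight decomposition of the cobar complex

Every element of `Cob N n` is a finite sum of homogeneous elements; `Cob.pr w` is the projection
to weight `w`. Additive maps which preserve weights commute with the projections.
-/

namespace Vale.Agent.P251.F

open LawRing

section Laurent

open LaurentPolynomial

variable {B C : Type*} [CommRing B] [CommRing C]

/-- The unit `t` of `B[t,t⁻¹]`. -/
noncomputable def tU (B : Type*) [CommRing B] : (LaurentPolynomial B)ˣ where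
  val := T 1
  inv := T (-1)
  val_inv := by rw [← T_add]; exact T_zero
  inv_val := by rw [← T_add]; exact T_zero

theorem tU_zpow (n : ℤ) : ((tU B ^ n : (LaurentPolynomial B)ˣ) : LaurentPolynomial B) = T n := by
  have h : ∀ m : ℕ, ((tU B ^ m : (LaurentPolynomial B)ˣ) : LaurentPolynomial B) = T m := by
    intro m
    rw [Units.val_pow_eq_pow_val]
    change T 1 ^ m = T (m : ℤ)
    rw [T_pow, mul_one]
  rcases Int.eq_nat_or_neg n with ⟨m, rfl | rfl⟩
  · rw [zpow_natCast, h]
  · rw [zpow_neg, zpow_natCast]
    rw [Units.inv_eq_of_mul_eq_one_right]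
    rw [h, ← T_add, add_neg_cancel, T_zero]

/-- Ring homomorphism `b ↦ φ b`, `t ↦ u t`. -/
noncomputable def mapL (φ : B →+* C) (u : Cˣ) : LaurentPolynomial B →+* LaurentPolynomial C :=
  eval₂ ((LaurentPolynomial.C).comp φ)
    (Units.map ((LaurentPolynomial.C : C →+* LaurentPolynomial C) : C →* LaurentPolynomial C) u *
      tU C)

theorem mapL_C (φ : B →+* C) (u : Cˣ) (b : B) :
    mapL φ u (LaurentPolynomial.C b) = LaurentPolynomial.C (φ b) := by
  rw [mapL, eval₂_C]
  rfl

theorem mapL_T (φ : B →+* C) (u : Cˣ) (n : ℤ) :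
    mapL φ u (T n) = LaurentPolynomial.C ((u ^ n : Cˣ) : C) * T n := by
  rw [mapL, eval₂_T, mul_zpow, Units.val_mul, tU_zpow, ← map_zpow]
  rfl

theorem coeff_C_mul_TW (b : B) (n w : ℤ) :
    (LaurentPolynomial.C b * T n : LaurentPolynomial B).coeff w = if n = w then b else 0 := by
  classical
  rw [← single_eq_C_mul_T, AddMonoidAlgebra.coeff_single, Finsupp.single_apply]

theorem coeff_mapL (φ : B →+* C) (u : Cˣ) (p : LaurentPolynomial B) (w : ℤ) :
    (mapL φ u p).coeff w = ((u ^ w : Cˣ) : C) * φ (p.coeff w) := by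
  induction p using LaurentPolynomial.induction_on' with
  | add p q hp hq =>
    rw [map_add]
    simp only [AddMonoidAlgebra.coeff_add, Finsupp.add_apply, hp, hq, map_add, mul_add]
  | C_mul_T n a =>
    rw [map_mul, mapL_C, mapL_T, ← mul_assoc, ← map_mul, coeff_C_mul_TW, coeff_C_mul_TW]
    split_ifs with h
    · subst h
      ring
    · rw [map_zero, mul_zero]

theorem eval_one (p : LaurentPolynomial B) :
    eval₂ (RingHom.id B) 1 p = ∑ v ∈ p.coeff.support, p.coeff v := by
  have h : ∀ p : LaurentPolynomial B, eval₂ (RingHom.id B) 1 p = p.coeff.sum fun _ b => b := by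
    intro p
    induction p using LaurentPolynomial.induction_on' with
    | add p q hp hq =>
      rw [map_add, hp, hq]
      rw [AddMonoidAlgebra.coeff_add, Finsupp.sum_add_index']
      · intro; rfl
      · intro _ _ _; rfl
    | C_mul_T n a =>
      rw [map_mul, eval₂_C, eval₂_T, one_zpow, Units.val_one, mul_one, ← single_eq_C_mul_T,
        AddMonoidAlgebra.coeff_single, Finsupp.sum_single_index rfl]
      rfl
  exact h p

end Laurent

namespace Chain

variable {N : Type} [CommRing N] [LawRing N] {n : ℕ} {B C : Type} [CommRing B] [CommRing C]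

theorem scale_oneW (c : Chain N n B) : c.scale 1 = c := by
  ext1
  · change act (InvSeries.lin 1)⁻¹ c.pt = c.pt
    rw [map_one, inv_one, act_one]
  · funext i
    change (InvSeries.lin 1)⁻¹ * c.g i * InvSeries.lin 1 = c.g i
    rw [map_one, inv_one, one_mul, mul_one]

theorem scale_scaleW (c : Chain N n B) (u v : Bˣ) : (c.scale u).scale v = c.scale (u * v) := by
  ext1
  · change act (InvSeries.lin v)⁻¹ (act (InvSeries.lin u)⁻¹ c.pt) =
      act (InvSeries.lin (u * v))⁻¹ c.pt
    rw [← act_mul, map_mul, mul_inv_rev]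
  · funext i
    change (InvSeries.lin v)⁻¹ * ((InvSeries.lin u)⁻¹ * c.g i * InvSeries.lin u) *
      InvSeries.lin v = (InvSeries.lin (u * v))⁻¹ * c.g i * InvSeries.lin (u * v)
    rw [map_mul, mul_inv_rev]
    simp only [mul_assoc]

end Chain

namespace Cob

variable {N : Type} [CommRing N] [LawRing N] {n m : ℕ} {B C : Type} [CommRing B] [CommRing C]

/-- Evaluation at the chain rescaled by the universal unit. -/
noncomputable def chi (c : Chain N n B) : Cob N n →+* LaurentPolynomial B :=
  ev ((c.map LaurentPolynomial.C).scale (tU B))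

theorem chi_map_scale (φ : B →+* C) (u : Cˣ) (c : Chain N n B) (x : Cob N n) :
    chi ((c.map φ).scale u) x = mapL φ u (chi c x) := by
  rw [chi, chi, ← ev_map, map_scale, map_scale, Chain.scale_scaleW]
  congr 3
  · ext1
    · refine RingHom.ext fun a => ?_
      exact (mapL_C φ u _).symm
    · funext i
      rw [Chain.map_g, Chain.map_g, Chain.map_g, Chain.map_g, InvSeries.map_map,
        InvSeries.map_map]
      congr 2
      refine RingHom.ext fun a => ?_
      exact (mapL_C φ u _).symm
  · apply Units.ext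
    rw [Units.val_mul, Units.coe_map, Units.coe_map]
    change LaurentPolynomial.C (u : C) * LaurentPolynomial.T 1 = mapL φ u (LaurentPolynomial.T 1)
    rw [mapL_T, zpow_one]

/-- The projection to weight `w`. -/
noncomputable def pr (N : Type) [CommRing N] [LawRing N] (n : ℕ) (w : ℤ) : Cob N n →+ Cob N n where
  toFun x := (chi (univ N n) x).coeff w
  map_zero' := by rw [_root_.map_zero]; rfl
  map_add' x y := by rw [_root_.map_add]; rfl

theorem pr_apply (w : ℤ) (x : Cob N n) : pr N n w x = (chi (univ N n) x).coeff w := rfl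

theorem ev_pr (c : Chain N n B) (w : ℤ) (x : Cob N n) : ev c (pr N n w x) = (chi c x).coeff w := by
  have h := chi_map_scale (ev c) 1 (univ N n) x
  rw [univ_map_ev, Chain.scale_oneW] at h
  rw [h, coeff_mapL, one_zpow, Units.val_one, one_mul, pr_apply]

theorem isWt_pr (w : ℤ) (x : Cob N n) : IsWt w (pr N n w x) := by
  intro B _ c u
  rw [ev_pr, ev_pr]
  have h := chi_map_scale (RingHom.id B) u c x
  have h2 : c.map (RingHom.id B) = c := by
    ext1
    · rfl
    · funext i
      rw [Chain.map_g, InvSeries.map_id]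
  rw [h2] at h
  rw [h, coeff_mapL]
  rfl

theorem pr_of_isWt {v : ℤ} {x : Cob N n} (hx : IsWt v x) (w : ℤ) :
    pr N n w x = if v = w then x else 0 := by
  rw [pr_apply, chi, hx, tU_zpow, ev_map, ev_univ, mul_comm, coeff_C_mul_TW]

theorem pr_eq_self {w : ℤ} {x : Cob N n} (hx : IsWt w x) : pr N n w x = x := by
  rw [pr_of_isWt hx, if_pos rfl]

theorem sum_pr (x : Cob N n) : ∑ v ∈ (chi (univ N n) x).coeff.support, pr N n v x = x := by
  have h : LaurentPolynomial.eval₂ (RingHom.id (Cob N n)) 1 (chi (univ N n) x) = x := by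
    rw [chi, ← ev_map, map_scale]
    have h1 : Units.map (LaurentPolynomial.eval₂ (RingHom.id (Cob N n)) 1 :
        LaurentPolynomial (Cob N n) →* Cob N n) (tU (Cob N n)) = 1 := by
      apply Units.ext
      rw [Units.coe_map]
      change LaurentPolynomial.eval₂ (RingHom.id (Cob N n)) 1 (LaurentPolynomial.T 1) = _
      rw [LaurentPolynomial.eval₂_T, one_zpow]
    rw [h1, Chain.scale_oneW]
    have h2 : ((univ N n).map LaurentPolynomial.C).map
        (LaurentPolynomial.eval₂ (RingHom.id (Cob N n)) 1) = univ N n := by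
      ext1
      · refine RingHom.ext fun a => ?_
        exact LaurentPolynomial.eval₂_C _ _ _
      · funext i
        rw [Chain.map_g, Chain.map_g, InvSeries.map_map]
        have : (LaurentPolynomial.eval₂ (RingHom.id (Cob N n)) 1).comp LaurentPolynomial.C =
            RingHom.id (Cob N n) := RingHom.ext fun a => LaurentPolynomial.eval₂_C _ _ _
        rw [this, InvSeries.map_id]
    rw [h2, ev_univ]
  rw [eval_one] at h
  exact h

/-- Additive maps which preserve the weights commute with the projections. -/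
theorem pr_comm {N' : Type} [CommRing N'] [LawRing N'] (f : Cob N n →+ Cob N' m)
    (hf : ∀ (w : ℤ) (x : Cob N n), IsWt w x → IsWt w (f x)) (w : ℤ) (x : Cob N n) :
    pr N' m w (f x) = f (pr N n w x) := by
  classical
  have h : ∀ y : Cob N n, ∀ v : ℤ, IsWt v y → pr N' m w (f y) = f (pr N n w y) := by
    intro y v hy
    rw [pr_of_isWt (hf v y hy), pr_of_isWt hy]
    split_ifs
    · rfl
    · rw [_root_.map_zero]
  rw [← sum_pr x]
  simp only [_root_.map_sum]
  exact Finset.sum_congr rfl fun v _ => h _ v (isWt_pr v x)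

theorem pr_map (α : Fin (m + 1) → Fin (n + 1)) (w : ℤ) (x : Cob N m) :
    pr N n w (map α x) = map α (pr N m w x) :=
  pr_comm (map α : Cob N m →+* Cob N n).toAddMonoidHom (fun _ _ h => h.map α) w x

theorem pr_d (w : ℤ) (x : Cob N n) : pr N (n + 1) w (d n x) = d n (pr N n w x) :=
  pr_comm (d n) (fun _ _ h => h.d) w x

end Cob

end Vale.Agent.P251.F
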