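import Vale.Agent.P251.F.LawHom
import Mathlib.Algebra.Polynomial.Laurent

/-!
# P251, part F: the weight decomposition of the cobar complex

For a law ring `N` every `x : Cob N n` is the sum of its components `proj w x` of weight `w`
(almost all zero); `proj w` is additive, natural, and commutes with the cosimplicial structure
and the differential.
-/

namespace Vale.Agent.P251.F

open LawRing LaurentPolynomial

variable {N : Type} [CommRing N] [LawRing N] {B : Type} [CommRing B] {n m : ℕ}

namespace Chain

theorem scale_scale (c : Chain N n B) (u v : Bˣ) : (c.scale u).scale v = c.scale (u * v) := by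
  ext1
  · change act (InvSeries.lin v)⁻¹ (act (InvSeries.lin u)⁻¹ c.pt) =
      act (InvSeries.lin (u * v))⁻¹ c.pt
    rw [← act_mul, map_mul, mul_inv_rev]
  · funext i
    change (InvSeries.lin v)⁻¹ * ((InvSeries.lin u)⁻¹ * c.g i * InvSeries.lin u) *
      InvSeries.lin v = (InvSeries.lin (u * v))⁻¹ * c.g i * InvSeries.lin (u * v)
    rw [map_mul]
    group

theorem scale_one (c : Chain N n B) : c.scale 1 = c := by
  ext1
  · change act (InvSeries.lin 1)⁻¹ c.pt = c.pt
    rw [map_one, inv_one, act_one]
  · funext i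
    change (InvSeries.lin 1)⁻¹ * c.g i * InvSeries.lin 1 = c.g i
    rw [map_one, inv_one, one_mul, mul_one]

end Chain

/-- The unit `T` of the Laurent polynomial ring. -/
noncomputable def unitT (B : Type) [CommRing B] : (B[T;T⁻¹])ˣ where
  val := T 1
  inv := T (-1)
  val_inv := by rw [← T_add, add_neg_cancel, T_zero]
  inv_val := by rw [← T_add, neg_add_cancel, T_zero]

theorem unitT_zpow (B : Type) [CommRing B] (w : ℤ) : ((unitT B ^ w : (B[T;T⁻¹])ˣ) : B[T;T⁻¹]) = T w := by
  induction w using Int.induction_on with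
  | zero => simp
  | succ i ih => rw [zpow_add_one, Units.val_mul, ih, T_add]; rfl
  | pred i ih => rw [zpow_sub_one, Units.val_mul, ih, sub_eq_add_neg, T_add]; rfl

/-- Decomposition of a Laurent polynomial. -/
theorem laurent_sum (f : B[T;T⁻¹]) : f = ∑ w ∈ f.coeff.support, C (f.coeff w) * T w := by
  conv_lhs => rw [← AddMonoidAlgebra.sum_coeff_single f]
  exact Finset.sum_congr rfl fun w _ => single_eq_C_mul_T _ _

theorem coeff_C_mul_T (a : B) (v w : ℤ) :
    (C a * T v : B[T;T⁻¹]).coeff w = if v = w then a else 0 := by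
  rw [← single_eq_C_mul_T]
  exact Finsupp.single_apply

theorem eval₂_eq_sum {A : Type} [CommRing A] (φ : B →+* A) (u : Aˣ) (f : B[T;T⁻¹]) :
    LaurentPolynomial.eval₂ φ u f = ∑ w ∈ f.coeff.support, φ (f.coeff w) * ((u ^ w : Aˣ) : A) := by
  conv_lhs => rw [laurent_sum f]
  rw [map_sum]
  refine Finset.sum_congr rfl fun w _ => ?_
  rw [LaurentPolynomial.eval₂_C_mul_T]

namespace Cob

/-- The scaling coaction. -/
noncomputable def coact (x : Cob N n) : (Cob N n)[T;T⁻¹] :=
  ev (((univ N n).map (C : Cob N n →+* (Cob N n)[T;T⁻¹])).scale (unitT (Cob N n))) x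

/-- The component of weight `w`. -/
noncomputable def proj (w : ℤ) (x : Cob N n) : Cob N n := (coact x).coeff w

/-- The finitely many weights occurring in `x`. -/
noncomputable def wts (x : Cob N n) : Finset ℤ := (coact x).coeff.support

theorem proj_eq_zero {w : ℤ} {x : Cob N n} (h : w ∉ wts x) : proj w x = 0 := by
  simpa [wts, proj] using h

/-- Evaluation on a scaled chain. -/
theorem ev_scale (c : Chain N n B) (u : Bˣ) (x : Cob N n) :
    ev (c.scale u) x = ∑ w ∈ wts x, ((u ^ w : Bˣ) : B) * ev c (proj w x) := by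
  have h1 : c.scale u = (((univ N n).map (C : Cob N n →+* (Cob N n)[T;T⁻¹])).scale
      (unitT (Cob N n))).map (LaurentPolynomial.eval₂ (ev c) u) := by
    rw [map_scale]
    congr 1
    · have : ((univ N n).map (C : Cob N n →+* (Cob N n)[T;T⁻¹])).map
          (LaurentPolynomial.eval₂ (ev c) u) = (univ N n).map (ev c) := by
        have e : (LaurentPolynomial.eval₂ (ev c) u).comp (C : Cob N n →+* (Cob N n)[T;T⁻¹]) =
            ev c := by
          exact RingHom.ext fun a => by rw [RingHom.comp_apply, LaurentPolynomial.eval₂_C]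
        ext1
        · rw [Chain.map_pt, Chain.map_pt, Chain.map_pt, ← RingHom.comp_assoc, e]
        · funext i
          rw [Chain.map_g, Chain.map_g, Chain.map_g, InvSeries.map_map, e]
      rw [this, univ_map_ev]
    · apply Units.ext
      change u.val = LaurentPolynomial.eval₂ (ev c) u (T 1)
      rw [LaurentPolynomial.eval₂_T, zpow_one]
  rw [h1, ev_map, _root_.Vale.Agent.P251.F.eval₂_eq_sum]
  exact Finset.sum_congr rfl fun w _ => mul_comm _ _

/-- The components of a function evaluated on a chain are the coefficients of the value on the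
generically rescaled chain. -/
theorem coeff_ev_scale (c : Chain N n B) (x : Cob N n) (w : ℤ) :
    (ev ((c.map (C : B →+* B[T;T⁻¹])).scale (unitT B)) x).coeff w = ev c (proj w x) := by
  rw [ev_scale, AddMonoidAlgebra.coeff_sum, Finsupp.finsetSum_apply]
  simp only [ev_map, unitT_zpow]
  have : ∀ v, (T v * C (ev c (proj v x)) : B[T;T⁻¹]).coeff w =
      if v = w then ev c (proj v x) else 0 := fun v => by
    rw [mul_comm, coeff_C_mul_T]
  simp only [this]
  rw [Finset.sum_ite_eq']
  split_ifs with h
  · rfl
  · rw [proj_eq_zero h, _root_.map_zero]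

theorem isWt_proj (w : ℤ) (x : Cob N n) : IsWt w (proj w x) := by
  intro B _ c u
  rw [← coeff_ev_scale, ← coeff_ev_scale]
  have h : ((c.scale u).map (C : B →+* B[T;T⁻¹])).scale (unitT B) =
      (c.map (C : B →+* B[T;T⁻¹])).scale
        (Units.map (C : B →+* B[T;T⁻¹]) u * unitT B) := by
    rw [map_scale, Chain.scale_scale]
  rw [h, ev_scale, ev_scale, AddMonoidAlgebra.coeff_sum, AddMonoidAlgebra.coeff_sum,
    Finsupp.finsetSum_apply, Finsupp.finsetSum_apply, Finset.mul_sum]
  refine Finset.sum_congr rfl fun v _ => ?_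
  rw [mul_zpow, Units.val_mul, unitT_zpow, ev_map]
  have e : ((Units.map (C : B →+* B[T;T⁻¹]) u ^ v : (B[T;T⁻¹])ˣ) : B[T;T⁻¹]) =
      C ((u ^ v : Bˣ) : B) := by
    rw [← _root_.map_zpow, Units.coe_map]
    rfl
  rw [e]
  have e1 : (C ((u ^ v : Bˣ) : B) * T v * C (ev c (proj v x)) : B[T;T⁻¹]) =
      C (((u ^ v : Bˣ) : B) * ev c (proj v x)) * T v := by
    rw [_root_.map_mul]; ring
  have e2 : (T v * C (ev c (proj v x)) : B[T;T⁻¹]) = C (ev c (proj v x)) * T v := mul_comm _ _
  rw [e1, e2, coeff_C_mul_T, coeff_C_mul_T]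
  split_ifs with hv
  · rw [hv]
  · rw [mul_zero]

/-- Every element is the sum of its components. -/
theorem sum_proj (x : Cob N n) : ∑ w ∈ wts x, proj w x = x := by
  apply ext_ev
  intro B _ c
  have := ev_scale c 1 x
  rw [Chain.scale_one] at this
  rw [this, _root_.map_sum]
  refine Finset.sum_congr rfl fun w _ => ?_
  rw [one_zpow, Units.val_one, one_mul]

theorem proj_of_isWt {w : ℤ} {x : Cob N n} (hx : IsWt w x) (v : ℤ) :
    proj v x = if w = v then x else 0 := by
  apply ext_ev
  intro B _ c
  rw [← coeff_ev_scale, hx, unitT_zpow, ev_map, mul_comm, coeff_C_mul_T]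
  split_ifs <;> simp

theorem proj_add (w : ℤ) (x y : Cob N n) : proj w (x + y) = proj w x + proj w y := by
  simp only [proj, coact, _root_.map_add, AddMonoidAlgebra.coeff_add, Finsupp.add_apply]

/-- The projection as an additive map. -/
noncomputable def projHom (N : Type) [CommRing N] [LawRing N] (n : ℕ) (w : ℤ) :
    Cob N n →+ Cob N n := AddMonoidHom.mk' (proj w) (proj_add w)

@[simp] theorem projHom_apply (w : ℤ) (x : Cob N n) : projHom N n w x = proj w x := rfl

theorem proj_zero (w : ℤ) : proj w (0 : Cob N n) = 0 := _root_.map_zero (projHom N n w)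

theorem proj_map (w : ℤ) (α : Fin (m + 1) → Fin (n + 1)) (x : Cob N m) :
    proj w (map α x) = map α (proj w x) := by
  apply ext_ev
  intro B _ c
  rw [← coeff_ev_scale, ev_map_res, ev_map_res, ← coeff_ev_scale, res_scale, Chain.map_res]

theorem proj_d (w : ℤ) (x : Cob N n) : proj w (d n x) = d n (proj w x) := by
  have : projHom N (n + 1) w (d n x) = d n (projHom N n w x) := by
    rw [d_apply, d_apply, _root_.map_sum]
    refine Finset.sum_congr rfl fun i _ => ?_
    rw [_root_.map_zsmul, projHom_apply, proj_map, projHom_apply]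
  exact this

theorem proj_mapRing {M : Type} [CommRing M] [LawRing M] {φ : N →+* M} (hφ : IsLawHom φ) (w : ℤ)
    (x : Cob N n) : proj w (mapRing φ n x) = mapRing φ n (proj w x) := by
  apply ext_ev
  intro B _ c
  rw [← coeff_ev_scale, ev_mapRing, ev_mapRing, ← coeff_ev_scale, Chain.pre_scale hφ]
  rfl

/-- A homogeneous coboundary is the coboundary of a homogeneous cochain. -/
theorem exists_isWt_of_d {w : ℤ} {z : Cob N (n + 1)} (hz : IsWt w z) {y : Cob N n}
    (hy : d n y = z) : ∃ y' : Cob N n, IsWt w y' ∧ d n y' = z :=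
  ⟨proj w y, isWt_proj w y, by rw [← proj_d, hy, proj_of_isWt hz, if_pos rfl]⟩

/-- Two elements are equal if all their components are. -/
theorem ext_proj {x y : Cob N n} (h : ∀ w, proj w x = proj w y) : x = y := by
  rw [← sub_eq_zero]
  have h0 : ∀ w, proj w (x - y) = 0 := fun w => by
    have := _root_.map_sub (projHom N n w) x y
    rw [projHom_apply, projHom_apply, projHom_apply, h, sub_self] at this
    exact this
  rw [← sum_proj (x - y)]
  exact Finset.sum_eq_zero fun w _ => h0 w

end Cob

end Vale.Agent.P251.F
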