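/-
P251, part F (F11): the element `t_1` and the cocycle `b` (statements `T1_statement` and
`BCocycle_statement` of `I/F.lean`).  Author: helper982.
-/
import Vale.Agent.P251.I.F
import Vale.Agent.P251.F.LazPoly
import Vale.Agent.P251.F.Grade

namespace Vale.Agent.P251.F

open Vale.Agent.P217 LawRing Cob Vale.Agent.P251.I

section Torsion

variable {n : ℕ}

theorem Cob.eq_zero_of_smul {m : ℤ} (hm : m ≠ 0) {x : Cob Laz n} (h : m • x = 0) : x = 0 := by
  rcases smul_eq_zero.1 h with h | h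
  · exact absurd h hm
  · exact h

theorem Cob.eq_of_smul {m : ℤ} (hm : m ≠ 0) {x y : Cob Laz n} (h : m • x = m • y) : x = y := by
  rw [← sub_eq_zero]
  apply Cob.eq_zero_of_smul hm
  rw [smul_sub, h, sub_self]

theorem Cob.proj_zsmul (v m : ℤ) (y : Cob Laz n) : Cob.proj v (m • y) = m • Cob.proj v y :=
  map_zsmul (Cob.projHom Laz n v) m y

theorem Cob.isWt_of_smul {m : ℤ} (hm : m ≠ 0) {w : ℤ} {x : Cob Laz n} (h : IsWt w (m • x)) :
    IsWt w x := by
  have e3 : Cob.proj w (m • x) = m • x := by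
    have := Cob.proj_of_isWt h w
    simpa using this
  have : x = Cob.proj w x := by
    apply Cob.eq_of_smul hm
    rw [← Cob.proj_zsmul, e3]
  rw [this]
  exact Cob.isWt_proj w x

end Torsion

section V1

variable {B : Type} [CommRing B]

theorem vv_lin (p i : ℕ) (u : Bˣ) (F : Law B) :
    vv p i (InvSeries.lin u • F) * (u : B) ^ (p ^ i) = u * vv p i F := by
  have h := congrArg (PowerSeries.coeff (p ^ i)) (smul_multSeries (InvSeries.lin u) F p)
  have e1 : (InvSeries.lin u).val = PowerSeries.C (u : B) * PowerSeries.X := rfl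
  have hs : PowerSeries.HasSubst (multSeries F.toFG p) :=
    hasSubst_of_cc (constantCoeff_multSeries F.toFG p)
  have e2 : (PowerSeries.subst (multSeries F.toFG p) (InvSeries.lin u).val : PowerSeries B) =
      PowerSeries.C (u : B) * multSeries F.toFG p := by
    rw [e1, PowerSeries.subst_mul hs, PowerSeries.subst_C, PowerSeries.subst_X hs]
    rfl
  have e3 : (PowerSeries.subst (InvSeries.lin u).val (multSeries (InvSeries.lin u • F).toFG p) :
      PowerSeries B) = PowerSeries.rescale (u : B) (multSeries (InvSeries.lin u • F).toFG p) := by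
    rw [e1, PowerSeries.rescale_eq_subst]
    congr 1
    rw [PowerSeries.smul_eq_C_mul]
  rw [e2, e3, PowerSeries.coeff_C_mul, PowerSeries.coeff_rescale] at h
  rw [vv, vv, mul_comm, ← h]

theorem isWt_v (p i : ℕ) (hp : 0 < p) (n : ℕ) :
    IsWt ((p ^ i - 1 : ℕ) : ℤ) (MvPolynomial.C (Laz.v p i) : Cob Laz n) := by
  intro B _ c u
  rw [ev_C, ev_C, Laz.map_v, Laz.map_v]
  have e : Laz.univ.map (c.scale u).pt = (InvSeries.lin u)⁻¹ • Laz.univ.map c.pt :=
    law_act (InvSeries.lin u)⁻¹ c.pt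
  rw [e, ← _root_.map_inv]
  have h := vv_lin p i u⁻¹ (Laz.univ.map c.pt)
  have h2 : vv p i (InvSeries.lin u⁻¹ • Laz.univ.map c.pt) =
      (u : B) ^ (p ^ i) * (((u⁻¹ : Bˣ) : B) * vv p i (Laz.univ.map c.pt)) := by
    rw [← h, mul_comm, mul_assoc, ← mul_pow, Units.inv_mul, one_pow, mul_one]
  rw [h2, ← mul_assoc]
  congr 1
  obtain ⟨m, hm⟩ : ∃ m, p ^ i = m + 1 := ⟨p ^ i - 1, by have : 0 < p ^ i := pow_pos hp i; omega⟩
  rw [hm, Nat.add_sub_cancel, zpow_natCast, Units.val_pow_eq_pow_val, pow_succ, mul_assoc,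
    Units.mul_inv, mul_one]

end V1

/-- **Existence of `t_1`.** -/
theorem T1 : T1_statement := by
  intro p hp
  set F : Law (Cob Laz 1) := Laz.univ.map (MvPolynomial.C : Laz →+* Cob Laz 1) with hF
  set f : InvSeries (Cob Laz 1) := (univ Laz 1).g 1 with hf
  have hstrict : f.c 0 = 1 := (univ Laz 1).strict 1
  have h := vv_smul_sub_mem p 1 F f
  rw [hstrict, one_pow, mul_one, one_mul] at h
  have hI : Ih p 1 F ≤ Ideal.span {((p : ℤ) : Cob Laz 1)} := by
    refine Ideal.span_le.2 ?_
    rintro x ⟨i, hi, rfl⟩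
    have : i = 0 := by omega
    subst this
    rw [vv_zero]
    have : (p : Cob Laz 1) = ((p : ℤ) : Cob Laz 1) := by push_cast; rfl
    rw [this]
    exact Ideal.mem_span_singleton_self _
  obtain ⟨t, ht⟩ := Ideal.mem_span_singleton.1 (hI h)
  refine ⟨t, ?_⟩
  rw [IsT1, zsmul_eq_mul, ← ht, d_apply, Fin.sum_univ_two]
  have e0 : map (N := Laz) (Fin.succAbove (0 : Fin 2)) (MvPolynomial.C (Laz.v p 1)) =
      vv p 1 (f • F) := by
    rw [map, ev_C, Laz.map_v]
    congr 1
    exact law_act _ _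
  have e1 : map (N := Laz) (Fin.succAbove (1 : Fin 2)) (MvPolynomial.C (Laz.v p 1)) =
      vv p 1 F := by
    rw [map, ev_C, Laz.map_v]
    congr 1
    have : Laz.univ.map (((univ Laz 1).res (Fin.succAbove (1 : Fin 2))).pt) =
      ((univ Laz 1).g 0) • Laz.univ.map (univ Laz 1).pt := law_act _ _
    rw [this, univ_g_zero, one_smul]
    rfl
  rw [e0, e1]
  simp [sub_eq_add_neg]

/-- **The cocycle `b`.** -/
theorem BCocycle : BCocycle_statement := by
  intro p hp hp2 t ht
  have hp0 : (p : ℤ) ≠ 0 := by exact_mod_cast hp.out.ne_zero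
  have hpos : 0 < p := hp.out.pos
  have hwt : IsWt (p - 1 : ℕ) t := by
    apply Cob.isWt_of_smul hp0
    rw [show (p : ℤ) • t = _ from ht]
    have := (isWt_v p 1 hpos 0).d
    rwa [pow_one] at this
  have hd : Cob.d 1 t = 0 := by
    apply Cob.eq_zero_of_smul hp0
    rw [← map_zsmul, show (p : ℤ) • t = _ from ht, d_d]
  -- the two edges
  set x : Cob Laz 2 := map (Fin.succAbove (2 : Fin 3)) t with hx
  set y : Cob Laz 2 := map (Fin.succAbove (0 : Fin 3)) t with hy
  have hxy : map (Fin.succAbove (1 : Fin 3)) t = x + y := by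
    have h := hd
    rw [d_apply, Fin.sum_univ_three] at h
    simp only [Fin.val_zero, pow_zero, one_smul, Fin.val_one, pow_one, neg_smul, Fin.val_two,
      even_two, Even.neg_pow, one_pow] at h
    rw [hx, hy]
    linear_combination (-1 : Cob Laz 2) * h
  have hfront : ∀ z : Cob Laz 1, map (front 1 1) z = map (Fin.succAbove (2 : Fin 3)) z := by
    intro z
    have : front 1 1 = Fin.succAbove (2 : Fin 3) := by
      funext i
      fin_cases i <;> rfl
    rw [this]
  have hback : ∀ z : Cob Laz 1, map (back 1 1) z = map (Fin.succAbove (0 : Fin 3)) z := by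
    intro z
    have : back 1 1 = Fin.succAbove (0 : Fin 3) := by
      funext i
      fin_cases i <;> rfl
    rw [this]
  have hb : bcls p t = ∑ i ∈ Finset.Ioo 0 p, ((p.choose i / p : ℕ) : ℤ) • (x ^ i * y ^ (p - i)) := by
    rw [bcls]
    refine Finset.sum_congr rfl fun i _ => ?_
    congr 1
    change map (front 1 1) (t ^ i) * map (back 1 1) (t ^ (p - i)) = _
    rw [hfront, hback, map_pow, map_pow]
  have hpb : (p : ℤ) • bcls p t = (x + y) ^ p - x ^ p - y ^ p := by
    rw [hb, Finset.smul_sum, add_pow]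
    have hr : Finset.range (p + 1) = insert 0 (insert p (Finset.Ioo 0 p)) := by
      ext i
      simp only [Finset.mem_range, Finset.mem_insert, Finset.mem_Ioo]
      omega
    rw [hr, Finset.sum_insert, Finset.sum_insert]
    · have hs : ∀ i ∈ Finset.Ioo 0 p, (p : ℤ) • ((p.choose i / p : ℕ) : ℤ) • (x ^ i * y ^ (p - i)) =
          x ^ i * y ^ (p - i) * (p.choose i : Cob Laz 2) := by
        intro i hi
        rw [Finset.mem_Ioo] at hi
        have hdvd : p ∣ p.choose i := hp.out.dvd_choose_self hi.1.ne' hi.2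
        rw [smul_smul, zsmul_eq_mul]
        have : ((p : ℤ) * ((p.choose i / p : ℕ) : ℤ)) = ((p.choose i : ℕ) : ℤ) := by
          rw [← Nat.cast_mul, Nat.mul_div_cancel' hdvd]
        rw [this]
        push_cast
        ring
      rw [Finset.sum_congr rfl hs]
      simp
      ring
    · simp
    · simp [hpos.ne]
  have hdt : Cob.d 1 (t ^ p) = x ^ p + y ^ p - (x + y) ^ p := by
    rw [d_apply, Fin.sum_univ_three]
    simp only [Fin.val_zero, pow_zero, one_smul, Fin.val_one, pow_one, neg_smul, Fin.val_two,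
      even_two, Even.neg_pow, one_pow, map_pow, hxy]
    rw [← hx, ← hy]
    ring
  have h5 : (p : ℤ) • bcls p t = -Cob.d 1 (t ^ p) := by
    rw [hpb, hdt]
    ring
  refine ⟨hwt, hd, ?_, ?_, h5⟩
  · rw [bcls]
    refine (wt Laz 2 _).sum_mem fun i hi => ?_
    rw [Finset.mem_Ioo] at hi
    refine (wt Laz 2 _).zsmul_mem ?_ _
    have h1 := (hwt.pow i).cup (hwt.pow (p - i))
    have e : ((i : ℕ) : ℤ) * ((p - 1 : ℕ) : ℤ) + ((p - i : ℕ) : ℤ) * ((p - 1 : ℕ) : ℤ) =
        ((p * (p - 1) : ℕ) : ℤ) := by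
      rw [← add_mul, ← Nat.cast_add, ← Nat.cast_mul, Nat.add_sub_cancel' hi.2.le]
    rw [e] at h1
    exact h1
  · apply Cob.eq_zero_of_smul hp0
    rw [← map_zsmul, h5, map_neg, d_d, neg_zero]

end Vale.Agent.P251.F
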