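import Vale.Agent.P251.F.F3Main

/-! # P251 / F / F3Proof : `Laz/p` has no negative weights; proof of `F3_statement` -/

noncomputable section

namespace Vale.Agent.P251.F.F3

open Vale.Agent.P251.F LawRing MvPowerSeries
open scoped LaurentPolynomial

variable {B : Type} [CommRing B]

/-- coefficients of a rescaled law -/
theorem coeff_lin_inv_smul (u : Bˣ) (F : Law B) (d : Fin 2 →₀ ℕ) :
    coeff d ((InvSeries.lin u)⁻¹ • F).ps = ((u⁻¹ : Bˣ) : B) * ((u : B) ^ (d 0 + d 1) * coeff d F.ps) := by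
  have hX : ∀ i : Fin 2, PowerSeries.HasSubst (X i : MvPowerSeries (Fin 2) B) :=
    fun i => PowerSeries.HasSubst.X i
  have h1 : ∀ i : Fin 2, (PowerSeries.subst (X i : MvPowerSeries (Fin 2) B)
      (InvSeries.lin u).val : MvPowerSeries (Fin 2) B) = C (u : B) * X i := by
    intro i
    rw [InvSeries.lin_val, psubst_C_mul _ _ (by simp), PowerSeries.subst_X (hX i)]
  have h2 : constantCoeff (MvPowerSeries.rescale (fun _ => (u : B)) F.ps) = 0 := by
    rw [← coeff_zero_eq_constantCoeff_apply, coeff_rescale_const,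
      coeff_zero_eq_constantCoeff_apply, F.toFG.zero_constantCoeff, mul_zero]
  rw [InvSeries.smul_ps, inv_inv, h1, h1, subst_cons_C_mul, ← map_inv, InvSeries.lin_val,
    psubst_C_mul _ _ h2, PowerSeries.subst_X (PowerSeries.HasSubst.of_constantCoeff_zero h2),
    coeff_C_mul, coeff_rescale_const]

theorem lift_mem {S : Subring B} (G : Law B)
    (hG : ∀ i j, coeff (Finsupp.single 0 (i + 1) + Finsupp.single 1 (j + 1)) G.ps ∈ S) (b : Laz) :
    Laz.lift G b ∈ S := by
  obtain ⟨q, rfl⟩ := Laz.mk_surjective b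
  rw [Laz.lift_mk]
  induction q using MvPolynomial.induction_on with
  | C n =>
    rw [Laz.liftPoly, MvPolynomial.eval₂Hom_C]
    exact intCast_mem S n
  | add p q hp hq => rw [map_add]; exact add_mem hp hq
  | mul_X q ij hq =>
    rw [map_mul]
    refine mul_mem hq ?_
    rw [Laz.liftPoly, MvPolynomial.eval₂Hom_X']
    exact hG _ _

theorem noNeg_LP (p : ℕ) : NoNeg (I.LP p) := by
  intro a
  obtain ⟨b, rfl⟩ := Ideal.Quotient.mk_surjective a
  change Laz.lift ((InvSeries.lin (uT (I.LP p)))⁻¹ • Laz.univ.map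
    ((LaurentPolynomial.C : I.LP p →+* (I.LP p)[T;T⁻¹]).comp (Ideal.Quotient.mk _))) b ∈ _
  refine lift_mem _ (fun i j => ?_) b
  rw [coeff_lin_inv_smul]
  have h1 : (Finsupp.single (0 : Fin 2) (i + 1) + Finsupp.single 1 (j + 1) : Fin 2 →₀ ℕ) 0 +
      (Finsupp.single (0 : Fin 2) (i + 1) + Finsupp.single 1 (j + 1) : Fin 2 →₀ ℕ) 1 =
      1 + (i + j + 1) := by
    simp
    ring
  rw [h1, pow_add, pow_one, mul_assoc, ← mul_assoc, Units.inv_mul, one_mul]
  refine mul_mem (pow_mem ?_ _) ?_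
  · refine ⟨Polynomial.X, ?_⟩
    exact Polynomial.toLaurent_X
  · refine ⟨Polynomial.C (Ideal.Quotient.mk _ (Laz.a i j)), ?_⟩
    rw [Polynomial.toLaurent_C, Law.map_ps, coeff_map, Laz.coeff_univ]
    rfl

end Vale.Agent.P251.F.F3

namespace Vale.Agent.P251.F

open F3

/-- The vanishing line. -/
theorem F3_holds : I.F3_statement := by
  intro p hp _ w
  have hp1 : ((p - 1 : ℕ) : ℤ) = (p : ℤ) - 1 := by
    rw [Nat.cast_sub hp.out.one_le, Nat.cast_one]
  have hp0 : (p : I.LP p) = 0 := by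
    rw [← map_natCast (Ideal.Quotient.mk (Ideal.span {(p : Laz)}))]
    exact Ideal.Quotient.eq_zero_iff_mem.2 (Ideal.mem_span_singleton_self _)
  have hN : PNil p (I.LP p) := ⟨by rw [hp0]; exact IsNilpotent.zero⟩
  have hinj : PtsInj (I.LP p) := LawRing.epi_quotient LawRing.epi_laz _ (I.invariant_p p)
  have hneg := noNeg_LP p
  constructor
  · intro z hz hd h
    by_cases h1 : ((p : ℤ) - 1) ∣ w
    · exact eq_zero_of_neg hneg (by
        by_contra hw
        exact h ⟨h1, not_lt.1 hw⟩) hz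
    · exact eq_zero_of_cocycle (p := p) hinj (by rwa [hp1]) hz hd
  · intro s z hz hd h
    by_cases h1 : ((p : ℤ) - 1) ∣ w
    · exact exists_of_cocycle_of_small (p := p) hinj hneg hz hd (by
        by_contra hw
        exact h ⟨h1, not_lt.1 hw⟩)
    · exact exists_of_cocycle (p := p) hinj (by rwa [hp1]) hz hd

end Vale.Agent.P251.F

end
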