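import Vale.Agent.P251.I.F
import Vale.Agent.P251.F.Grade
import Vale.Agent.P251.F.F3Proof

/-!
# P251, part B: the vanishing line for cochains over `Laz`, modulo `p`
-/

namespace Vale.Agent.P251.F

open Vale.Agent.P251.I

namespace Cob

/-- The differential on the homogeneous parts. -/
noncomputable def dwt (N : Type) [CommRing N] [LawRing N] (s : ℕ) (w : ℤ) :
    Cob.wt N s w →+ Cob.wt N (s + 1) w :=
  ((Cob.d s).comp (Cob.wt N s w).subtype).codRestrict (Cob.wt N (s + 1) w)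
    fun x => Cob.IsWt.d x.2

@[simp] theorem coe_dwt {N : Type} [CommRing N] [LawRing N] (s : ℕ) (w : ℤ) (x : Cob.wt N s w) :
    ((dwt N s w x : Cob.wt N (s + 1) w) : Cob N (s + 1)) = Cob.d s x.1 := rfl

theorem dwt_dwt {N : Type} [CommRing N] [LawRing N] (s : ℕ) (w : ℤ) (x : Cob.wt N s w) :
    dwt N (s + 1) w (dwt N s w x) = 0 :=
  Subtype.ext (Cob.d_d x.1)

end Cob

theorem isLawHom_mkLP (p : ℕ) :
    IsLawHom (Ideal.Quotient.mk (Ideal.span {(p : Laz)}) : Laz →+* LP p) :=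
  IsLawHom.of_epi LawRing.epi_laz rfl

/-- The kernel of `Cob Laz n → Cob (Laz/p) n`. -/
theorem exists_of_mapRing_mk_eq_zero (p : ℕ) {n : ℕ} {w : ℤ} {x : Cob Laz n}
    (hx : Cob.IsWt w x)
    (h : Cob.mapRing (Ideal.Quotient.mk (Ideal.span {(p : Laz)})) n x = 0) :
    ∃ u : Cob Laz n, Cob.IsWt w u ∧ x = (p : ℤ) • u := by
  have h1 : (MvPolynomial.C (p : Laz) : Cob Laz n) ∣ x := by
    rw [MvPolynomial.C_dvd_iff_map_hom_eq_zero (Ideal.Quotient.mk (Ideal.span {(p : Laz)}))]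
    · exact h
    · intro r
      rw [Ideal.Quotient.eq_zero_iff_mem, Ideal.mem_span_singleton]
  obtain ⟨u, hu⟩ := h1
  have h2 : x = (p : ℤ) • u := by
    rw [hu, map_natCast, zsmul_eq_mul, Int.cast_natCast]
  refine ⟨Cob.proj w u, Cob.isWt_proj w u, ?_⟩
  have h3 := Cob.proj_of_isWt hx w
  rw [if_pos rfl] at h3
  rw [← Cob.projHom_apply, ← map_zsmul, ← h2, Cob.projHom_apply, h3]

/-- A cochain over `Laz` which is a cocycle modulo `p` is a coboundary modulo `p`, except in the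
weights `w` divisible by `p - 1` with `w ≥ (p - 1) (s + 1)`. -/
theorem exists_of_cocycle_modP (p : ℕ) [Fact p.Prime] (hp2 : p ≠ 2) {s : ℕ} {w : ℤ}
    (hw : ¬ (((p : ℤ) - 1) ∣ w ∧ ((p : ℤ) - 1) * (s + 1) ≤ w)) {z : Cob Laz (s + 1)}
    (hz : Cob.IsWt w z) {y : Cob Laz (s + 2)} (hd : Cob.d (s + 1) z = (p : ℤ) • y) :
    ∃ (x : Cob Laz s) (u : Cob Laz (s + 1)), Cob.IsWt w x ∧ Cob.IsWt w u ∧
      z = Cob.d s x + (p : ℤ) • u := by
  have hπ := isLawHom_mkLP p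
  have hp0 : (p : LP p) = 0 := by
    rw [← map_natCast (Ideal.Quotient.mk (Ideal.span {(p : Laz)}))]
    exact Ideal.Quotient.eq_zero_iff_mem.2 (Ideal.mem_span_singleton_self _)
  have hpc : ∀ (n : ℕ) (c : Cob (LP p) n), (p : ℤ) • c = 0 := by
    intro n c
    have h : ((p : ℕ) : Cob (LP p) n) = 0 := by
      rw [← map_natCast (MvPolynomial.C : LP p →+* Cob (LP p) n), hp0, map_zero]
    rw [zsmul_eq_mul, Int.cast_natCast, h, zero_mul]
  have h1 : Cob.d (s + 1)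
      (Cob.mapRing (Ideal.Quotient.mk (Ideal.span {(p : Laz)})) (s + 1) z) = 0 := by
    rw [← Cob.mapRing_d hπ, hd, map_zsmul, hpc]
  obtain ⟨y', hy', hdy⟩ := (F3_holds p hp2 w).2 s _ (hz.mapRing hπ) h1 hw
  obtain ⟨y'', rfl⟩ := Cob.mapRing_surjective (n := s)
    (Ideal.Quotient.mk_surjective (I := Ideal.span {(p : Laz)})) y'
  have h2 : Cob.mapRing (Ideal.Quotient.mk (Ideal.span {(p : Laz)})) s (Cob.proj w y'') =
      Cob.mapRing (Ideal.Quotient.mk (Ideal.span {(p : Laz)})) s y'' := by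
    rw [← Cob.proj_mapRing hπ, Cob.proj_of_isWt hy', if_pos rfl]
  have hx := Cob.isWt_proj w y''
  have h3 : Cob.mapRing (Ideal.Quotient.mk (Ideal.span {(p : Laz)})) (s + 1)
      (z + -Cob.d s (Cob.proj w y'')) = 0 := by
    rw [map_add, map_neg, Cob.mapRing_d hπ, h2, hdy, add_neg_cancel]
  obtain ⟨u, hu, hzu⟩ := exists_of_mapRing_mk_eq_zero p (hz.add hx.d.neg) h3
  exact ⟨_, u, hx, hu, by rw [← hzu]; abel⟩

end Vale.Agent.P251.F
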