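import Vale.Agent.P251.F.Inv

/-!
# P251, part F: morphisms of law rings, functoriality of the cobar complex, transition maps
-/

namespace Vale.Agent.P251.F

open Vale.Agent.P217 LawRing

variable {N M : Type} [CommRing N] [CommRing M] [LawRing N] [LawRing M]

/-- Morphisms of law rings: ring homomorphisms compatible with the laws and with the actions on
points. -/
structure IsLawHom (φ : N →+* M) : Prop where
  law : (LawRing.law (N := N)).map φ = LawRing.law (N := M)
  act : ∀ (B : Type) [CommRing B] (f : InvSeries B) (x : M →+* B),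
    (act f x).comp φ = act f (x.comp φ)

theorem IsLawHom.id : IsLawHom (RingHom.id N) where
  law := Law.map_id _
  act _ _ f x := by rw [RingHom.comp_id, RingHom.comp_id]

theorem IsLawHom.comp {P : Type} [CommRing P] [LawRing P] {φ : N →+* M} {ψ : M →+* P}
    (hφ : IsLawHom φ) (hψ : IsLawHom ψ) : IsLawHom (ψ.comp φ) where
  law := by rw [← Law.map_map, hφ.law, hψ.law]
  act B _ f x := by rw [← RingHom.comp_assoc, hψ.act, hφ.act, RingHom.comp_assoc]

/-- The points of `N` are determined by their laws. -/
def LawRing.Epi (N : Type) [CommRing N] [LawRing N] : Prop :=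
  ∀ (B : Type) [CommRing B] (x y : N →+* B),
    (LawRing.law (N := N)).map x = (LawRing.law (N := N)).map y → x = y

theorem LawRing.epi_laz : LawRing.Epi Laz := fun _ _ _ _ h => Laz.equiv.injective h

/-- The classifying map `Laz → N` of the law of a law ring. -/
noncomputable def LawRing.ofLaz (N : Type) [CommRing N] [LawRing N] : Laz →+* N :=
  Laz.lift (LawRing.law (N := N))

theorem LawRing.isLawHom_ofLaz : IsLawHom (LawRing.ofLaz N) where
  law := Laz.univ_map_lift _
  act B _ f x := by
    apply Laz.equiv.injective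
    change Laz.univ.map ((act f x).comp (Laz.lift LawRing.law)) =
      Laz.univ.map (Laz.lift (f • Laz.univ.map (x.comp (Laz.lift LawRing.law))))
    rw [← Law.map_map, Laz.univ_map_lift, Laz.univ_map_lift, law_act, ← Law.map_map,
      Laz.univ_map_lift]

/-- A ring homomorphism from a law ring whose points are determined by their laws is a morphism
of law rings as soon as it is compatible with the laws. -/
theorem IsLawHom.of_epi (hN : LawRing.Epi N) {φ : N →+* M}
    (h : (LawRing.law (N := N)).map φ = LawRing.law (N := M)) : IsLawHom φ where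
  law := h
  act B _ f x := by
    apply hN
    rw [← Law.map_map, h, law_act, law_act, ← Law.map_map, h]

namespace Chain

variable {B : Type} [CommRing B] {n m : ℕ}

/-- Restriction of the point of a chain along a ring homomorphism. -/
def pre (φ : N →+* M) (c : Chain M n B) : Chain N n B where
  pt := c.pt.comp φ
  g := c.g
  strict := c.strict
  zero := c.zero

theorem pre_res {φ : N →+* M} (hφ : IsLawHom φ) (α : Fin (m + 1) → Fin (n + 1))
    (c : Chain M n B) : (c.res α).pre φ = (c.pre φ).res α := by
  ext1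
  · exact hφ.act _ _ _
  · rfl

theorem pre_scale {φ : N →+* M} (hφ : IsLawHom φ) (c : Chain M n B) (u : Bˣ) :
    (c.scale u).pre φ = (c.pre φ).scale u := by
  ext1
  · exact hφ.act _ _ _
  · rfl

end Chain

namespace Cob

variable {B : Type} [CommRing B] {n m : ℕ}

/-- Functoriality of the cobar complex in the law ring. -/
noncomputable def mapRing (φ : N →+* M) (n : ℕ) : Cob N n →+* Cob M n := MvPolynomial.map φ

omit [LawRing N] [LawRing M] in
theorem ev_mapRing (φ : N →+* M) (c : Chain M n B) (x : Cob N n) :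
    ev c (mapRing φ n x) = ev (c.pre φ) x := by
  have : (ev c).comp (mapRing φ n) = ev (c.pre φ) := by
    refine MvPolynomial.ringHom_ext (fun a => ?_) (fun im => ?_)
    · rw [RingHom.comp_apply, mapRing, MvPolynomial.map_C, ev_C, ev_C]
      rfl
    · rw [RingHom.comp_apply, mapRing, MvPolynomial.map_X, ev_X, ev_X]
      rfl
  rw [← this, RingHom.comp_apply]

theorem mapRing_map {φ : N →+* M} (hφ : IsLawHom φ) (α : Fin (m + 1) → Fin (n + 1))
    (x : Cob N m) : mapRing φ n (map α x) = map α (mapRing φ m x) := by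
  apply ext_ev
  intro B _ c
  rw [ev_mapRing, ev_map_res, ev_map_res, ev_mapRing, Chain.pre_res hφ]

theorem mapRing_d {φ : N →+* M} (hφ : IsLawHom φ) (x : Cob N n) :
    mapRing φ (n + 1) (d n x) = d n (mapRing φ n x) := by
  rw [d_apply, d_apply, map_sum]
  refine Finset.sum_congr rfl fun i _ => ?_
  rw [map_zsmul, mapRing_map hφ]

theorem IsWt.mapRing {φ : N →+* M} (hφ : IsLawHom φ) {w : ℤ} {x : Cob N n} (hx : IsWt w x) :
    IsWt w (mapRing φ n x) := by
  intro B _ c u
  rw [ev_mapRing, ev_mapRing, Chain.pre_scale hφ]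
  exact hx B _ u

theorem mapRing_cup {φ : N →+* M} (hφ : IsLawHom φ) {a b : ℕ} (x : Cob N a) (y : Cob N b) :
    mapRing φ (a + b) (cup x y) = cup (mapRing φ a x) (mapRing φ b y) := by
  rw [cup, cup, _root_.map_mul, mapRing_map hφ, mapRing_map hφ]

omit [LawRing N] [LawRing M] in
theorem mapRing_mapRing {P : Type} [CommRing P] (φ : N →+* M) (ψ : M →+* P) (x : Cob N n) :
    mapRing ψ n (mapRing φ n x) = mapRing (ψ.comp φ) n x := by
  rw [mapRing, mapRing, mapRing, MvPolynomial.map_map]

omit [LawRing N] [LawRing M] in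
theorem mapRing_surjective {φ : N →+* M} (hφ : Function.Surjective φ) :
    Function.Surjective (mapRing φ n) := MvPolynomial.map_surjective φ hφ

end Cob

/-! ### quotients, localizations -/

namespace LawRing

theorem epi_quotient (hN : LawRing.Epi N) (J : Ideal N) (hJ : Invariant J) :
    @LawRing.Epi (N ⧸ J) _ (LawRing.quotient J hJ) := by
  intro B _ x y h
  refine Ideal.Quotient.ringHom_ext (hN B _ _ ?_)
  rw [← Law.map_map, ← Law.map_map]
  exact h

theorem epi_away (hN : LawRing.Epi N) (v : N) (hv : ∀ (B : Type) [CommRing B]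
    (f : InvSeries B) (x : N →+* B), IsUnit (x v) → IsUnit (act f x v)) :
    @LawRing.Epi (Localization.Away v) _ (LawRing.away v hv) := by
  intro B _ x y h
  refine IsLocalization.ringHom_ext (Submonoid.powers v) (hN B _ _ ?_)
  rw [← Law.map_map, ← Law.map_map]
  exact h

end LawRing

section Nhj

variable (p h : ℕ) [Fact p.Prime]

theorem epi_QN (j : ℕ) : LawRing.Epi (QN p h j) :=
  LawRing.epi_quotient LawRing.epi_laz _ (Laz.invariant_IJ p h j)

theorem epi_NN (j : ℕ) : LawRing.Epi (NN p h j) :=
  LawRing.epi_away (epi_QN p h j) _ (isUnit_act_v p h j)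

omit [Fact p.Prime] in
theorem Laz.IJ_anti {j j' : ℕ} (hj : j ≤ j') : Laz.IJ p h j' ≤ Laz.IJ p h j :=
  sup_le_sup_left (Ideal.pow_le_pow_right hj) _

/-- The transition map `Laz/(p, I_h^{j'}) → Laz/(p, I_h^j)`. -/
noncomputable def QN.red {j j' : ℕ} (hj : j ≤ j') : QN p h j' →+* QN p h j :=
  Ideal.Quotient.factor (Laz.IJ_anti p h hj)

/-- The transition map `v_h⁻¹ Laz/(p, I_h^{j'}) → v_h⁻¹ Laz/(p, I_h^j)`. -/
noncomputable def NN.red {j j' : ℕ} (hj : j ≤ j') : NN p h j' →+* NN p h j :=
  IsLocalization.Away.lift (S := NN p h j') (Ideal.Quotient.mk (Laz.IJ p h j') (Laz.v p h))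
    (g := (algebraMap (QN p h j) (NN p h j)).comp (QN.red p h hj)) (by
      change IsUnit (algebraMap (QN p h j) (NN p h j)
        (Ideal.Quotient.mk (Laz.IJ p h j) (Laz.v p h)))
      exact IsLocalization.Away.algebraMap_isUnit _)

theorem isLawHom_QN_red {j j' : ℕ} (hj : j ≤ j') : IsLawHom (QN.red p h hj) :=
  IsLawHom.of_epi (epi_QN p h j') (by
    change (Laz.univ.map _).map _ = Laz.univ.map _
    rw [Law.map_map]
    rfl)

theorem isLawHom_NN_red {j j' : ℕ} (hj : j ≤ j') : IsLawHom (NN.red p h hj) :=
  IsLawHom.of_epi (epi_NN p h j') (by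
    change ((Laz.univ.map _).map _).map _ = (Laz.univ.map _).map _
    rw [Law.map_map, NN.red, IsLocalization.Away.lift_comp, Law.map_map, Law.map_map]
    rfl)

end Nhj

end Vale.Agent.P251.F
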