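/-
P251, part F (F5): the ring `E[c₀^{±1}, c₁, c₂, …]` of functions on pairs (point of `E`,
invertible series). Author: helper288.

* `OInv E`, `OInv.inc : E →+* OInv E`, `OInv.f : InvSeries (OInv E)` the generic series;
* `OInv.lift x g : OInv E →+* B` for `x : E →+* B`, `g : InvSeries B`; `OInv.hom_ext`;
* `LawRing.oinv F : LawRing (OInv E)` for a law `F` over `E : Type`: the law is `f • F`, a series
  `s` acts on points by `(x, g) ↦ (x, s * g)`.
-/
import Vale.Agent.P251.F.LawHom
import Mathlib.RingTheory.Localization.Away.Basic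

namespace Vale.Agent.P251.F

universe u v

/-- The ring `E[c₀^{±1}, c₁, c₂, …]`. -/
abbrev OInv (E : Type u) [CommRing E] : Type u :=
  Localization.Away (MvPolynomial.X 0 : MvPolynomial ℕ E)

namespace OInv

variable {E : Type u} [CommRing E] {E' : Type*} [CommRing E'] {B C : Type*} [CommRing B]
  [CommRing C]

/-- the inclusion of the coefficients -/
noncomputable def inc (E : Type u) [CommRing E] : E →+* OInv E := algebraMap E (OInv E)

/-- the generic coefficients `c n` -/
noncomputable def cc (E : Type u) [CommRing E] (n : ℕ) : OInv E :=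
  algebraMap (MvPolynomial ℕ E) (OInv E) (MvPolynomial.X n)

theorem isUnit_cc : IsUnit (cc E 0) :=
  IsLocalization.Away.algebraMap_isUnit (MvPolynomial.X 0 : MvPolynomial ℕ E)

theorem inc_eq : inc E = (algebraMap (MvPolynomial ℕ E) (OInv E)).comp MvPolynomial.C :=
  IsScalarTower.algebraMap_eq E (MvPolynomial ℕ E) (OInv E)

/-- the generic invertible series -/
noncomputable def f (E : Type u) [CommRing E] : InvSeries (OInv E) :=
  InvSeries.ofCoeff (cc E) isUnit_cc

@[simp] theorem c_f (n : ℕ) : (f E).c n = cc E n := InvSeries.c_ofCoeff _ _ n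

/-- The homomorphism attached to a point of `E` and an invertible series. -/
noncomputable def lift (x : E →+* B) (g : InvSeries B) : OInv E →+* B :=
  IsLocalization.Away.lift (S := OInv E) (MvPolynomial.X 0 : MvPolynomial ℕ E)
    (g := MvPolynomial.eval₂Hom x fun n => g.c n) (by
      rw [MvPolynomial.eval₂Hom_X']
      exact g.isUnit)

theorem lift_algebraMap (x : E →+* B) (g : InvSeries B) (a : MvPolynomial ℕ E) :
    lift x g (algebraMap (MvPolynomial ℕ E) (OInv E) a) =
      MvPolynomial.eval₂Hom x (fun n => g.c n) a :=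
  IsLocalization.Away.lift_eq _ _ _

@[simp] theorem lift_cc (x : E →+* B) (g : InvSeries B) (n : ℕ) : lift x g (cc E n) = g.c n := by
  rw [cc, lift_algebraMap, MvPolynomial.eval₂Hom_X']

@[simp] theorem lift_inc (x : E →+* B) (g : InvSeries B) (e : E) : lift x g (inc E e) = x e := by
  rw [inc_eq, RingHom.comp_apply, lift_algebraMap, MvPolynomial.coe_eval₂Hom,
    MvPolynomial.eval₂_C]

@[simp] theorem lift_comp_inc (x : E →+* B) (g : InvSeries B) : (lift x g).comp (inc E) = x :=
  RingHom.ext fun e => lift_inc x g e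

@[simp] theorem map_lift_f (x : E →+* B) (g : InvSeries B) : InvSeries.map (lift x g) (f E) = g :=
  InvSeries.ext_c fun n => by rw [InvSeries.c_map, c_f, lift_cc]

theorem hom_ext {φ ψ : OInv E →+* B} (h1 : φ.comp (inc E) = ψ.comp (inc E))
    (h2 : InvSeries.map φ (f E) = InvSeries.map ψ (f E)) : φ = ψ := by
  refine IsLocalization.ringHom_ext (Submonoid.powers (MvPolynomial.X 0 : MvPolynomial ℕ E)) ?_
  refine MvPolynomial.ringHom_ext (fun e => ?_) fun n => ?_
  · have := RingHom.congr_fun h1 e
    rwa [inc_eq] at this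
  · have := congrArg (fun s => InvSeries.c s n) h2
    simp only [InvSeries.c_map, c_f] at this
    exact this

theorem lift_eta (φ : OInv E →+* B) : lift (φ.comp (inc E)) (InvSeries.map φ (f E)) = φ :=
  hom_ext (lift_comp_inc _ _) (map_lift_f _ _)

theorem comp_lift (φ : B →+* C) (x : E →+* B) (g : InvSeries B) :
    φ.comp (lift x g) = lift (φ.comp x) (InvSeries.map φ g) := by
  apply hom_ext
  · rw [RingHom.comp_assoc, lift_comp_inc, lift_comp_inc]
  · rw [← InvSeries.map_map, map_lift_f, map_lift_f]

theorem inc_injective : Function.Injective (inc E) := by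
  intro a b h
  have := congrArg (lift (RingHom.id E) 1) h
  rwa [lift_inc, lift_inc] at this

/-- functoriality -/
noncomputable def mapE (φ : E →+* E') : OInv E →+* OInv E' := lift ((inc E').comp φ) (f E')

theorem mapE_comp_inc (φ : E →+* E') : (mapE φ).comp (inc E) = (inc E').comp φ :=
  lift_comp_inc _ _

@[simp] theorem mapE_inc (φ : E →+* E') (e : E) : mapE φ (inc E e) = inc E' (φ e) :=
  lift_inc _ _ _

@[simp] theorem map_mapE_f (φ : E →+* E') : InvSeries.map (mapE φ) (f E) = f E' :=
  map_lift_f _ _

theorem lift_comp_mapE (φ : E →+* E') (x : E' →+* B) (g : InvSeries B) :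
    (lift x g).comp (mapE φ) = lift (x.comp φ) g := by
  rw [mapE, comp_lift, ← RingHom.comp_assoc, lift_comp_inc, map_lift_f]

end OInv

/-- `OInv E` as a law ring: the points are pairs `(x, g)` with law `g • F.map x`. -/
noncomputable abbrev LawRing.oinv {E : Type} [CommRing E] (F : Law E) : LawRing (OInv E) where
  law := OInv.f E • F.map (OInv.inc E)
  act s φ := OInv.lift (φ.comp (OInv.inc E)) (s * InvSeries.map φ (OInv.f E))
  act_one φ := by rw [one_mul, OInv.lift_eta]
  act_mul s t φ := by rw [OInv.lift_comp_inc, OInv.map_lift_f, mul_assoc]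
  comp_act ψ s φ := by
    rw [OInv.comp_lift, map_mul, InvSeries.map_map, RingHom.comp_assoc]
  law_act s φ := by
    rw [InvSeries.map_smul, OInv.map_lift_f, Law.map_map, OInv.lift_comp_inc, mul_smul,
      InvSeries.map_smul, Law.map_map]

end Vale.Agent.P251.F
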