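import Vale.Agent.P251.F.GCob
import Vale.Agent.P251.F.OInv
import Vale.Agent.P251.I.C

/-!
# P251, part F, task F5.3: actions on coinduced rings

`T` is the ring of functions on pairs (point of `E`, invertible series) (`CoPt`).  An endomorphism
`s` of `T` which commutes with the action of the coordinate changes is the same thing as a pair
`(φ, g)`, `φ : E →+* E`, `g` an invertible series over `E`: `(x, f) ∘ s = (x ∘ φ, f * g(x))`.
If `s` preserves the law `f • F(x)`, then `g • F.map φ = F`.  An action of a group `G` on `T` by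
such endomorphisms gives `φ_{στ} = φ_σ ∘ φ_τ`, `g_{στ} = g_σ * (g_τ).map φ_σ`, and the weight `w`
part `E c_0^w` of `T` is stable, with `σ • (e c_0^w) = (a_σ^w φ_σ(e)) c_0^w`.
-/

namespace Vale.Agent.P251.F

open LawRing Vale.Agent.P251.C

universe u

/-- `T` represents pairs (point of `E`, invertible series). -/
structure CoPt (E T : Type) [CommRing E] [CommRing T] where
  /-- the universal point of `E` -/
  ι : E →+* T
  /-- the universal series -/
  f : InvSeries T
  /-- the classifying map of a pair -/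
  lift : ∀ {B : Type} [CommRing B], (E →+* B) → InvSeries B → (T →+* B)
  lift_ι : ∀ {B : Type} [CommRing B] (x : E →+* B) (g : InvSeries B), (lift x g).comp ι = x
  lift_f : ∀ {B : Type} [CommRing B] (x : E →+* B) (g : InvSeries B),
    InvSeries.map (lift x g) f = g
  ext : ∀ {B : Type} [CommRing B] (ψ ψ' : T →+* B), ψ.comp ι = ψ'.comp ι →
    InvSeries.map ψ f = InvSeries.map ψ' f → ψ = ψ'

namespace CoPt

variable {E T : Type} [CommRing E] [CommRing T] (Z : CoPt E T)

/-- the action of a coordinate change on a point of `T` -/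
noncomputable def act {B : Type} [CommRing B] (g : InvSeries B) (ψ : T →+* B) : T →+* B :=
  Z.lift (ψ.comp Z.ι) (g * InvSeries.map ψ Z.f)

theorem act_ι {B : Type} [CommRing B] (g : InvSeries B) (ψ : T →+* B) :
    (Z.act g ψ).comp Z.ι = ψ.comp Z.ι := Z.lift_ι _ _

theorem act_f {B : Type} [CommRing B] (g : InvSeries B) (ψ : T →+* B) :
    InvSeries.map (Z.act g ψ) Z.f = g * InvSeries.map ψ Z.f := Z.lift_f _ _

theorem comp_lift {B C : Type} [CommRing B] [CommRing C] (φ : B →+* C) (x : E →+* B)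
    (g : InvSeries B) : φ.comp (Z.lift x g) = Z.lift (φ.comp x) (InvSeries.map φ g) := by
  apply Z.ext
  · rw [RingHom.comp_assoc, Z.lift_ι, Z.lift_ι]
  · rw [← InvSeries.map_map, Z.lift_f, Z.lift_f]

/-- the projection to the unit section -/
noncomputable def e : T →+* E := Z.lift (RingHom.id E) 1

theorem e_ι : Z.e.comp Z.ι = RingHom.id E := Z.lift_ι _ _

theorem e_f : InvSeries.map Z.e Z.f = 1 := Z.lift_f _ _

theorem e_ι_apply (x : E) : Z.e (Z.ι x) = x := RingHom.congr_fun Z.e_ι x

theorem ι_injective : Function.Injective Z.ι :=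
  Function.LeftInverse.injective Z.e_ι_apply

/-- the law over `T` associated to a law over `E` -/
noncomputable def law (F : Law E) : Law T := Z.f • F.map Z.ι

/-- `s` commutes with the coordinate changes. -/
def Comm (s : T →+* T) : Prop :=
  ∀ (B : Type) [CommRing B] (g : InvSeries B) (ψ : T →+* B),
    (Z.act g ψ).comp s = Z.act g (ψ.comp s)

/-- the endomorphism of `E` -/
noncomputable def phi (s : T →+* T) : E →+* E := (Z.e.comp s).comp Z.ι

/-- the invertible series -/
noncomputable def ser (s : T →+* T) : InvSeries E := InvSeries.map (Z.e.comp s) Z.f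

theorem e_comp (s : T →+* T) : Z.e.comp s = Z.lift (Z.phi s) (Z.ser s) := by
  apply Z.ext
  · rw [Z.lift_ι]; rfl
  · rw [Z.lift_f]; rfl

theorem id_eq_act : RingHom.id T = Z.act Z.f (Z.ι.comp Z.e) := by
  apply Z.ext
  · rw [act_ι, RingHom.id_comp, RingHom.comp_assoc, e_ι, RingHom.comp_id]
  · rw [act_f, ← InvSeries.map_map, e_f, map_one, mul_one, InvSeries.map_id]

/-- The structure of the endomorphisms commuting with the coordinate changes. -/
theorem Comm.eq_lift {s : T →+* T} (hs : Z.Comm s) :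
    s = Z.lift (Z.ι.comp (Z.phi s)) (Z.f * InvSeries.map Z.ι (Z.ser s)) := by
  have h1 := hs T Z.f (Z.ι.comp Z.e)
  rw [← id_eq_act, RingHom.id_comp, RingHom.comp_assoc, e_comp, comp_lift] at h1
  rw [act, Z.lift_ι, Z.lift_f] at h1
  exact h1

theorem Comm.comp_ι {s : T →+* T} (hs : Z.Comm s) : s.comp Z.ι = Z.ι.comp (Z.phi s) := by
  conv_lhs => rw [hs.eq_lift]
  rw [Z.lift_ι]

theorem Comm.map_f {s : T →+* T} (hs : Z.Comm s) :
    InvSeries.map s Z.f = Z.f * InvSeries.map Z.ι (Z.ser s) := by
  conv_lhs => rw [hs.eq_lift]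
  rw [Z.lift_f]

/-- the effect on arbitrary points -/
theorem Comm.point {s : T →+* T} (hs : Z.Comm s) {B : Type} [CommRing B] (ψ : T →+* B) :
    ψ.comp s = Z.lift ((ψ.comp Z.ι).comp (Z.phi s))
      (InvSeries.map ψ Z.f * InvSeries.map (ψ.comp Z.ι) (Z.ser s)) := by
  conv_lhs => rw [hs.eq_lift]
  rw [comp_lift, map_mul, InvSeries.map_map, RingHom.comp_assoc]

/-- The endomorphism given by a pair. -/
noncomputable def ofPair (φ : E →+* E) (g : InvSeries E) : T →+* T :=
  Z.lift (Z.ι.comp φ) (Z.f * InvSeries.map Z.ι g)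

theorem ofPair_point (φ : E →+* E) (g : InvSeries E) {B : Type} [CommRing B] (ψ : T →+* B) :
    ψ.comp (Z.ofPair φ g) = Z.lift ((ψ.comp Z.ι).comp φ)
      (InvSeries.map ψ Z.f * InvSeries.map (ψ.comp Z.ι) g) := by
  rw [ofPair, comp_lift, map_mul, InvSeries.map_map, RingHom.comp_assoc]

theorem comm_ofPair (φ : E →+* E) (g : InvSeries E) : Z.Comm (Z.ofPair φ g) := by
  intro B _ h ψ
  rw [ofPair_point, ofPair_point, act_ι, act_f, act, Z.lift_ι, Z.lift_f, mul_assoc]

theorem phi_ofPair (φ : E →+* E) (g : InvSeries E) : Z.phi (Z.ofPair φ g) = φ := by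
  rw [phi, ofPair_point, Z.lift_ι, e_ι, RingHom.id_comp]

theorem ser_ofPair (φ : E →+* E) (g : InvSeries E) : Z.ser (Z.ofPair φ g) = g := by
  rw [ser, ofPair_point, Z.lift_f, e_f, e_ι, InvSeries.map_id, one_mul]

theorem eq_ofPair {s : T →+* T} (hs : Z.Comm s) : s = Z.ofPair (Z.phi s) (Z.ser s) := hs.eq_lift

theorem comm_id : Z.Comm (RingHom.id T) := by
  intro B _ h ψ
  rw [RingHom.comp_id, RingHom.comp_id]

theorem phi_id : Z.phi (RingHom.id T) = RingHom.id E := by
  rw [phi, RingHom.comp_id, e_ι]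

theorem ser_id : Z.ser (RingHom.id T) = 1 := by
  rw [ser, RingHom.comp_id, e_f]

theorem phi_comp {s t : T →+* T} (ht : Z.Comm t) :
    Z.phi (s.comp t) = (Z.phi s).comp (Z.phi t) := by
  rw [phi, ← RingHom.comp_assoc, ht.point (Z := Z), Z.lift_ι]
  rfl

theorem ser_comp {s t : T →+* T} (ht : Z.Comm t) :
    Z.ser (s.comp t) = Z.ser s * InvSeries.map (Z.phi s) (Z.ser t) := by
  rw [ser, ← RingHom.comp_assoc, ht.point (Z := Z), Z.lift_f]
  rfl

/-- If `s` preserves the law then the series is an isomorphism `φ_* F → F`. -/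
theorem ser_smul {s : T →+* T} (F : Law E) (h : (Z.law F).map s = Z.law F) :
    Z.ser s • F.map (Z.phi s) = F := by
  have h1 := congrArg (Law.map Z.e) h
  rw [Law.map_map, law, InvSeries.map_smul, Law.map_map, InvSeries.map_smul, Law.map_map, e_f,
    e_ι, one_smul, Law.map_id] at h1
  exact h1

theorem law_ofPair (F : Law E) (φ : E →+* E) (g : InvSeries E) (h : g • F.map φ = F) :
    (Z.law F).map (Z.ofPair φ g) = Z.law F := by
  rw [law, InvSeries.map_smul, Law.map_map, ofPair, Z.lift_f, Z.lift_ι, mul_smul]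
  congr 1
  rw [← Law.map_map, ← InvSeries.map_smul, h]

/-! ### Weight parts -/

/-- the leading coefficient of the universal series -/
noncomputable def c0 : Tˣ := Z.f.isUnit.unit

theorem c0_val : (Z.c0 : T) = Z.f.c 0 := rfl

theorem lead_one' {B : Type*} [CommRing B] : (1 : InvSeries B).lead = 1 := by
  ext; rw [InvSeries.lead_val, InvSeries.c_zero_one, Units.val_one]

/-- The embedding of `E` as the weight `w` part `E c_0^w`. -/
noncomputable def emb (w : ℤ) : E →+ T where
  toFun y := Z.ι y * ((Z.c0 ^ w : Tˣ) : T)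
  map_zero' := by rw [map_zero, zero_mul]
  map_add' x y := by rw [map_add, add_mul]

theorem emb_apply (w : ℤ) (y : E) : Z.emb w y = Z.ι y * ((Z.c0 ^ w : Tˣ) : T) := rfl

theorem emb_injective (w : ℤ) : Function.Injective (Z.emb w) := by
  intro x y h
  rw [emb_apply, emb_apply] at h
  exact Z.ι_injective ((Z.c0 ^ w).isUnit.mul_left_injective h)

theorem Comm.map_c0 {s : T →+* T} (hs : Z.Comm s) :
    Units.map (s : T →* T) Z.c0 = Z.c0 * Units.map (Z.ι : E →* T) (Z.ser s).lead := by
  have h1 := congrArg InvSeries.lead hs.map_f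
  rw [InvSeries.lead_map, InvSeries.lead_mul, InvSeries.lead_map] at h1
  exact h1

theorem Comm.map_emb {s : T →+* T} (hs : Z.Comm s) (w : ℤ) (y : E) :
    s (Z.emb w y) = Z.emb w ((((Z.ser s).lead ^ w : Eˣ) : E) * Z.phi s y) := by
  rw [emb_apply, emb_apply, map_mul, map_mul]
  have h1 : s (Z.ι y) = Z.ι (Z.phi s y) := RingHom.congr_fun hs.comp_ι y
  have h2 : s ((Z.c0 ^ w : Tˣ) : T) = ((Z.c0 ^ w : Tˣ) : T) *
      Z.ι (((Z.ser s).lead ^ w : Eˣ) : E) := by
    have h3 := congrArg (fun u : Tˣ => ((u ^ w : Tˣ) : T)) hs.map_c0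
    simp only [mul_zpow, ← map_zpow] at h3
    exact h3
  rw [h1, h2]
  ring

end CoPt

/-! ### Group actions -/

/-- A twisted action of a group `G` on a ring `E`: `g : G` acts on `E u^w` by
`e u^w ↦ a_g^w φ_g(e) u^w`. -/
structure TwAct (G E : Type) [Group G] [CommRing E] where
  phi : G → E →+* E
  a : G → Eˣ
  phi_one : phi 1 = RingHom.id E
  phi_mul : ∀ g h, phi (g * h) = (phi g).comp (phi h)
  a_one : a 1 = 1
  a_mul : ∀ g h, a (g * h) = a g * Units.map (phi g : E →* E) (a h)

/-- The weight `w` part of `E[u, u⁻¹]` as a `G`-module. -/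
def TwAct.Wt {G E : Type} [Group G] [CommRing E] (_A : TwAct G E) (_w : ℤ) : Type := E

namespace TwAct

variable {G E : Type} [Group G] [CommRing E] (A : TwAct G E) (w : ℤ)

instance : AddCommGroup (A.Wt w) := inferInstanceAs (AddCommGroup E)

instance [Finite E] : Finite (A.Wt w) := inferInstanceAs (Finite E)

/-- the identity map `E → E u^w` -/
def of : E ≃+ A.Wt w := AddEquiv.refl E

/-- the underlying element -/
def val : A.Wt w ≃+ E := AddEquiv.refl E

theorem val_of (x : E) : A.val w (A.of w x) = x := rfl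

noncomputable instance : DistribMulAction G (A.Wt w) where
  smul g y := A.of w (((A.a g ^ w : Eˣ) : E) * A.phi g (A.val w y))
  one_smul y := by
    change ((A.a 1 ^ w : Eˣ) : E) * A.phi 1 (A.val w y) = _
    rw [A.a_one, A.phi_one, one_zpow, Units.val_one, one_mul]; rfl
  mul_smul g h y := by
    change ((A.a (g * h) ^ w : Eˣ) : E) * A.phi (g * h) (A.val w y) =
      ((A.a g ^ w : Eˣ) : E) * A.phi g (((A.a h ^ w : Eˣ) : E) * A.phi h (A.val w y))
    rw [A.a_mul, A.phi_mul, mul_zpow, ← map_zpow, Units.val_mul, map_mul, mul_assoc]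
    rfl
  smul_zero g := by
    change ((A.a g ^ w : Eˣ) : E) * A.phi g 0 = 0
    rw [map_zero, mul_zero]
  smul_add g x y := by
    change ((A.a g ^ w : Eˣ) : E) * A.phi g (A.val w x + A.val w y) =
      ((A.a g ^ w : Eˣ) : E) * A.phi g (A.val w x) + ((A.a g ^ w : Eˣ) : E) * A.phi g (A.val w y)
    rw [map_add, mul_add]

theorem smul_def (g : G) (y : A.Wt w) :
    A.val w (g • y) = ((A.a g ^ w : Eˣ) : E) * A.phi g (A.val w y) := rfl

theorem nsmul_eq_zero {p : ℕ} (hp : (p : E) = 0) (y : A.Wt w) : p • y = 0 := by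
  have h1 : A.val w (p • y) = p • A.val w y := map_nsmul (A.val w) p y
  have h2 : p • A.val w y = 0 := by rw [nsmul_eq_mul, hp, zero_mul]
  rw [h2] at h1
  exact (A.val w).injective (by rw [h1, map_zero])

/-- a morphism of twisted actions -/
structure Hom {E' : Type} [CommRing E'] (A' : TwAct G E') (A : TwAct G E) where
  r : E' →+* E
  phi : ∀ g x, r (A'.phi g x) = A.phi g (r x)
  a : ∀ g, Units.map (r : E' →* E) (A'.a g) = A.a g

/-- the map of modules induced by a morphism -/
def Hom.map {E' : Type} [CommRing E'] {A' : TwAct G E'} {A : TwAct G E} (f : Hom A' A) (w : ℤ) :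
    A'.Wt w →+[G] A.Wt w where
  toFun y := A.of w (f.r (A'.val w y))
  map_zero' := by rw [map_zero, map_zero, map_zero]
  map_add' x y := by rw [map_add, map_add, map_add]
  map_smul' g y := by
    apply (A.val w).injective
    rw [A.smul_def, A.val_of, A'.smul_def, map_mul, f.phi]
    change f.r ((A'.a g ^ w : E'ˣ) : E') * _ = ((A.a g ^ w : Eˣ) : E) * _
    rw [← f.a g, ← map_zpow]
    rfl

theorem Hom.map_val {E' : Type} [CommRing E'] {A' : TwAct G E'} {A : TwAct G E} (f : Hom A' A)
    (w : ℤ) (y : A'.Wt w) : A.val w (f.map w y) = f.r (A'.val w y) := rfl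

end TwAct

namespace CoPt

variable {E T : Type} [CommRing E] [CommRing T] (Z : CoPt E T) {G : Type} [Group G]
  [MulSemiringAction G T]

/-- The twisted action on `E` given by an action on `T` commuting with coordinate changes. -/
noncomputable def tw (hs : ∀ g : G, Z.Comm (MulSemiringAction.toRingHom G T g)) : TwAct G E where
  phi g := Z.phi (MulSemiringAction.toRingHom G T g)
  a g := (Z.ser (MulSemiringAction.toRingHom G T g)).lead
  phi_one := by
    have : MulSemiringAction.toRingHom G T 1 = RingHom.id T := by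
      ext x; exact one_smul G x
    rw [this, phi_id]
  phi_mul g h := by
    have : MulSemiringAction.toRingHom G T (g * h) =
        (MulSemiringAction.toRingHom G T g).comp (MulSemiringAction.toRingHom G T h) := by
      ext x; exact mul_smul g h x
    rw [this, Z.phi_comp (hs h)]
  a_one := by
    have : MulSemiringAction.toRingHom G T 1 = RingHom.id T := by
      ext x; exact one_smul G x
    rw [this, ser_id, lead_one']
  a_mul g h := by
    have : MulSemiringAction.toRingHom G T (g * h) =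
        (MulSemiringAction.toRingHom G T g).comp (MulSemiringAction.toRingHom G T h) := by
      ext x; exact mul_smul g h x
    rw [this, Z.ser_comp (hs h), InvSeries.lead_mul, InvSeries.lead_map]

variable (hs : ∀ g : G, Z.Comm (MulSemiringAction.toRingHom G T g))

theorem smul_emb (g : G) (w : ℤ) (y : (Z.tw hs).Wt w) :
    g • Z.emb w ((Z.tw hs).val w y) = Z.emb w ((Z.tw hs).val w (g • y)) :=
  Comm.map_emb Z (hs g) w _

/-- The weight `w` part as an equivariant embedding. -/
noncomputable def embG (w : ℤ) : (Z.tw hs).Wt w →+[G] T where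
  toFun y := Z.emb w ((Z.tw hs).val w y)
  map_zero' := by rw [map_zero, map_zero]
  map_add' x y := by rw [map_add, map_add]
  map_smul' g y := (Z.smul_emb hs g w y).symm

theorem embG_injective (w : ℤ) : Function.Injective (Z.embG hs w) :=
  (Z.emb_injective w).comp ((Z.tw hs).val w).injective

/-- The weight parts are discrete. -/
theorem discMod_wt [TopologicalSpace G] [DiscMod G T] (w : ℤ) :
    DiscMod G ((Z.tw hs).Wt w) where
  isOpen_stab m := by
    have h := DiscMod.isOpen_stab (G := G) (Z.embG hs w m)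
    convert h using 1
    ext g
    constructor
    · intro (hg : g • m = m)
      change g • Z.embG hs w m = Z.embG hs w m
      rw [← map_smul, hg]
    · intro (hg : g • Z.embG hs w m = Z.embG hs w m)
      apply Z.embG_injective hs w
      rw [map_smul, hg]

end CoPt

/-! ### Coinduced law rings -/

namespace CoPt

variable {E T : Type} [CommRing E] [CommRing T] (Z : CoPt E T)

/-- The law ring structure of `T` is the coinduced one. -/
structure IsCo [LawRing T] (FE : Law E) : Prop where
  law : (LawRing.law : Law T) = Z.law FE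
  act : ∀ (B : Type) [CommRing B] (g : InvSeries B) (ψ : T →+* B),
    LawRing.act g ψ = Z.act g ψ

section isco

variable {Z} [LawRing T] {FE : Law E} (H : Z.IsCo FE)

include H

theorem IsCo.comm {s : T →+* T} (hs : IsLawHom s) : Z.Comm s := by
  intro B _ g ψ
  rw [← H.act, ← H.act, hs.act]

theorem IsCo.law_map {s : T →+* T} (hs : IsLawHom s) : (Z.law FE).map s = Z.law FE := by
  rw [← H.law, hs.law]

/-- `g_s • φ_s F = F` -/
theorem IsCo.ser_smul {s : T →+* T} (hs : IsLawHom s) :
    Z.ser s • FE.map (Z.phi s) = FE := Z.ser_smul FE (H.law_map hs)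

theorem IsCo.isLawHom_ofPair (φ : E →+* E) (g : InvSeries E) (h : g • FE.map φ = FE) :
    IsLawHom (Z.ofPair φ g) where
  law := by rw [H.law, Z.law_ofPair FE φ g h]
  act B _ g' x := by rw [H.act, H.act, Z.comm_ofPair φ g B g' x]

theorem IsCo.isLawHom_of {E' T' : Type} [CommRing E'] [CommRing T'] [LawRing T']
    {Z' : CoPt E' T'} {FE' : Law E'} (H' : Z'.IsCo FE') (φ : T' →+* T) (r : E' →+* E)
    (h1 : φ.comp Z'.ι = Z.ι.comp r) (h2 : InvSeries.map φ Z'.f = Z.f) (hr : FE'.map r = FE) :
    IsLawHom φ where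
  law := by
    rw [H'.law, H.law, CoPt.law, CoPt.law, InvSeries.map_smul, Law.map_map, h1, h2,
      ← Law.map_map, hr]
  act B _ g x := by
    rw [H.act, H'.act]
    apply Z'.ext
    · rw [RingHom.comp_assoc, h1, act_ι, RingHom.comp_assoc, h1, ← RingHom.comp_assoc,
        ← RingHom.comp_assoc, act_ι]
    · rw [← InvSeries.map_map, h2, act_f, act_f, ← InvSeries.map_map, h2]

end isco

theorem act_emb {B : Type} [CommRing B] (g : InvSeries B) (ψ : T →+* B) (w : ℤ) (y : E) :
    Z.act g ψ (Z.emb w y) = ((g.lead ^ w : Bˣ) : B) * ψ (Z.emb w y) := by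
  rw [emb_apply, map_mul, map_mul]
  have h1 : Z.act g ψ (Z.ι y) = ψ (Z.ι y) := RingHom.congr_fun (Z.act_ι g ψ) y
  have h2 : Units.map (Z.act g ψ : T →* B) Z.c0 = g.lead * Units.map (ψ : T →* B) Z.c0 := by
    have h3 := congrArg InvSeries.lead (Z.act_f g ψ)
    rw [InvSeries.lead_map, InvSeries.lead_mul, InvSeries.lead_map] at h3
    exact h3
  have h3 : Z.act g ψ ((Z.c0 ^ w : Tˣ) : T) = ((g.lead ^ w : Bˣ) : B) *
      ψ ((Z.c0 ^ w : Tˣ) : T) := by
    have h4 := congrArg (fun u : Bˣ => ((u ^ w : Bˣ) : B)) h2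
    simp only [mul_zpow, ← map_zpow] at h4
    exact h4
  rw [h1, h3]
  ring

/-- a point as a chain of length `0` -/
noncomputable def ch0 {B : Type} [CommRing B] (ψ : T →+* B) : Chain T 0 B where
  pt := ψ
  g _ := 1
  strict _ := one_mem _
  zero := rfl

/-- a point and a strict series as a chain of length `1` -/
noncomputable def ch1 {B : Type} [CommRing B] (ψ : T →+* B) (g : InvSeries B) (hg : g ∈ strict B) :
    Chain T 1 B where
  pt := ψ
  g := ![1, g]
  strict i := by
    fin_cases i
    · exact one_mem _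
    · exact hg
  zero := rfl

variable [LawRing T]

theorem d_C_eq_zero_iff (t : T) : Cob.d 0 (MvPolynomial.C t : Cob T 0) = 0 ↔
    ∀ (B : Type) [CommRing B] (ψ : T →+* B) (g : InvSeries B), g ∈ strict B →
      LawRing.act g ψ t = ψ t := by
  have key : ∀ (B : Type) [CommRing B] (c : Chain T 1 B),
      Cob.ev c (Cob.d 0 (MvPolynomial.C t : Cob T 0)) = LawRing.act (c.g 1) c.pt t - c.pt t := by
    intro B _ c
    rw [Cob.ev_d, Fin.sum_univ_two, Cob.ev_C, Cob.ev_C, Chain.res_pt, Chain.res_pt]
    have e0 : (0 : Fin 2).succAbove 0 = 1 := rfl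
    have e1 : (1 : Fin 2).succAbove 0 = 0 := rfl
    rw [e0, e1, c.zero, LawRing.act_one]
    simp [sub_eq_add_neg]
  constructor
  · intro h B _ ψ g hg
    have h1 := key B (ch1 ψ g hg)
    rw [h, map_zero] at h1
    exact sub_eq_zero.mp h1.symm
  · intro h
    apply Cob.ext_ev
    intro B _ c
    rw [key, map_zero, h B c.pt (c.g 1) (c.strict 1), sub_self]

theorem isWt_C_iff (t : T) (w : ℤ) : Cob.IsWt w (MvPolynomial.C t : Cob T 0) ↔
    ∀ (B : Type) [CommRing B] (ψ : T →+* B) (u : Bˣ),
      LawRing.act (InvSeries.lin u)⁻¹ ψ t = ((u ^ w : Bˣ) : B) * ψ t := by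
  constructor
  · intro h B _ ψ u
    have := h B (ch0 ψ) u
    rw [Cob.ev_C, Cob.ev_C] at this
    exact this
  · intro h B _ c u
    rw [Cob.ev_C, Cob.ev_C]
    exact h B c.pt u

/-- Primitive elements of weight `w` are the `e c_0^(-w)`, `e ∈ E`. -/
theorem prim_iff {FE : Law E} (H : Z.IsCo FE) (t : T) (w : ℤ) :
    (Cob.IsWt w (MvPolynomial.C t : Cob T 0) ∧ Cob.d 0 (MvPolynomial.C t : Cob T 0) = 0) ↔
      t = Z.emb (-w) (Z.e t) := by
  rw [isWt_C_iff, d_C_eq_zero_iff]
  constructor
  · rintro ⟨h1, h2⟩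
    have e1 : t = Z.act Z.f (Z.ι.comp Z.e) t := by
      rw [← id_eq_act]; rfl
    have e2 : Z.f = Z.f.str * InvSeries.lin Z.c0 := by
      rw [InvSeries.str]
      change Z.f = Z.f * (InvSeries.lin Z.f.lead)⁻¹ * InvSeries.lin Z.f.lead
      rw [inv_mul_cancel_right]
    have e3 : Z.act Z.f (Z.ι.comp Z.e) =
        LawRing.act Z.f.str (LawRing.act (InvSeries.lin Z.c0) (Z.ι.comp Z.e)) := by
      rw [← LawRing.act_mul, ← e2, H.act]
    have e4 : InvSeries.lin Z.c0 = (InvSeries.lin Z.c0⁻¹)⁻¹ := by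
      rw [map_inv, inv_inv]
    rw [e3, h2 _ _ _ (InvSeries.str_mem _), e4, h1] at e1
    conv_lhs => rw [e1]
    rw [emb_apply, inv_zpow, zpow_neg, mul_comm]
    rfl
  · intro h
    constructor
    · intro B _ ψ u
      rw [h, H.act, act_emb, InvSeries.lead_inv, InvSeries.lead_lin, inv_zpow, zpow_neg, inv_inv]
    · intro B _ ψ g hg
      rw [h, H.act, act_emb, InvSeries.lead_eq_one hg, one_zpow, Units.val_one, one_mul]

omit [LawRing T] in
theorem e_emb (w : ℤ) (y : E) : Z.e (Z.emb w y) = y := by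
  rw [emb_apply, map_mul, e_ι_apply]
  have h1 : Units.map (Z.e : T →* E) Z.c0 = 1 := by
    have := congrArg InvSeries.lead Z.e_f
    rw [InvSeries.lead_map, lead_one'] at this
    exact this
  have h2 : Z.e ((Z.c0 ^ w : Tˣ) : T) = 1 := by
    have := congrArg (fun u : Eˣ => ((u ^ w : Eˣ) : E)) h1
    simp only [one_zpow, Units.val_one, ← map_zpow] at this
    exact this
  rw [h2, mul_one]

section prim

variable {FE : Law E} (H : Z.IsCo FE) (w : ℤ)

/-- The primitive element `y c_0^(-w)`. -/
noncomputable def primMk (y : E) : Prim T w :=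
  ⟨⟨MvPolynomial.C (Z.emb (-w) y), ((Z.prim_iff H _ w).mpr (by rw [e_emb])).1⟩,
    ((Z.prim_iff H _ w).mpr (by rw [e_emb])).2⟩

theorem primMk_val (y : E) : (Z.primMk H w y).1.1 = MvPolynomial.C (Z.emb (-w) y) := rfl

theorem primMk_injective : Function.Injective (Z.primMk H w) := by
  intro x y h
  have h1 := congrArg (fun z : Prim T w => z.1.1) h
  exact Z.emb_injective (-w) (MvPolynomial.C_injective _ _ h1)

theorem primMk_surjective : Function.Surjective (Z.primMk H w) := by
  rintro ⟨⟨x, hx⟩, hdx⟩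
  obtain ⟨t, rfl⟩ : ∃ t, x = MvPolynomial.C t := ⟨_, MvPolynomial.eq_C_of_isEmpty x⟩
  refine ⟨Z.e t, ?_⟩
  apply Subtype.ext
  apply Subtype.ext
  change MvPolynomial.C (Z.emb (-w) (Z.e t)) = MvPolynomial.C t
  rw [← (Z.prim_iff H t w).mp ⟨hx, hdx⟩]

variable {G : Type} [Group G] [MulSemiringAction G T] [LawAction G T]

theorem comm_of_lawAction (H : Z.IsCo FE) (g : G) :
    Z.Comm (MulSemiringAction.toRingHom G T g) := H.comm (LawAction.isLawHom g)

/-- The twisted action of `G` on `E`. -/
noncomputable def twist (G : Type) [Group G] [MulSemiringAction G T] [LawAction G T]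
    (H : Z.IsCo FE) : TwAct G E := Z.tw (fun g : G => Z.comm_of_lawAction H g)

/-- The weight `w` primitives as a `G`-module: `E` with the action twisted by `a^(-w)`. -/
noncomputable def primHom (G : Type) [Group G] [MulSemiringAction G T] [LawAction G T] :
    (Z.twist G H).Wt (-w) →+[G] Prim T w where
  toFun y := Z.primMk H w ((Z.twist G H).val (-w) y)
  map_zero' := by
    apply Subtype.ext; apply Subtype.ext
    rw [primMk_val, map_zero, map_zero, map_zero]; rfl
  map_add' x y := by
    apply Subtype.ext; apply Subtype.ext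
    rw [primMk_val, map_add, map_add, map_add]; rfl
  map_smul' g y := by
    apply Subtype.ext; apply Subtype.ext
    change MvPolynomial.C (Z.emb (-w) ((Z.twist G H).val (-w) (g • y))) =
      g • (MvPolynomial.C (Z.emb (-w) ((Z.twist G H).val (-w) y)) : Cob T 0)
    rw [smul_cob]
    change _ = MvPolynomial.map _ (MvPolynomial.C _)
    rw [MvPolynomial.map_C]
    congr 1
    exact (Z.smul_emb (fun g : G => Z.comm_of_lawAction H g) g (-w) y).symm

theorem primHom_bijective : Function.Bijective (Z.primHom H w G) :=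
  ⟨(Z.primMk_injective H w).comp ((Z.twist G H).val (-w)).injective,
    (Z.primMk_surjective H w).comp ((Z.twist G H).val (-w)).surjective⟩

end prim

/-! ### Naturality -/

section nat

variable {E' T' : Type} [CommRing E'] [CommRing T'] [LawRing T'] (Z' : CoPt E' T')
  (φ : T' →+* T) (r : E' →+* E) (h1 : φ.comp Z'.ι = Z.ι.comp r) (h2 : InvSeries.map φ Z'.f = Z.f)

include h1 h2

omit [LawRing T] [LawRing T'] in
theorem map_emb (w : ℤ) (y : E') : φ (Z'.emb w y) = Z.emb w (r y) := by
  rw [emb_apply, emb_apply, map_mul]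
  have e1 : φ (Z'.ι y) = Z.ι (r y) := RingHom.congr_fun h1 y
  have e2 : Units.map (φ : T' →* T) Z'.c0 = Z.c0 := by
    have := congrArg InvSeries.lead h2
    rw [InvSeries.lead_map] at this
    exact this
  have e3 : φ ((Z'.c0 ^ w : T'ˣ) : T') = ((Z.c0 ^ w : Tˣ) : T) := by
    have := congrArg (fun u : Tˣ => ((u ^ w : Tˣ) : T)) e2
    simp only [← map_zpow] at this
    exact this
  rw [e1, e3]

omit [LawRing T] [LawRing T'] in
theorem e_nat : Z.e.comp φ = r.comp Z'.e := by
  apply Z'.ext
  · rw [RingHom.comp_assoc, h1, ← RingHom.comp_assoc, e_ι, RingHom.id_comp, RingHom.comp_assoc,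
      e_ι, RingHom.comp_id]
  · rw [← InvSeries.map_map, h2, e_f, ← InvSeries.map_map, e_f, map_one]

omit [LawRing T] [LawRing T'] in
theorem phi_nat {s' : T' →+* T'} {s : T →+* T} (hs : φ.comp s' = s.comp φ) :
    r.comp (Z'.phi s') = (Z.phi s).comp r := by
  have e1 : ∀ t, Z.e (φ t) = r (Z'.e t) := fun t => RingHom.congr_fun (Z.e_nat Z' φ r h1 h2) t
  have e2 : ∀ t, φ (s' t) = s (φ t) := fun t => RingHom.congr_fun hs t
  have e3 : ∀ x, φ (Z'.ι x) = Z.ι (r x) := fun x => RingHom.congr_fun h1 x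
  ext x
  change r (Z'.e (s' (Z'.ι x))) = Z.e (s (Z.ι (r x)))
  rw [← e1, e2, e3]

omit [LawRing T] [LawRing T'] in
theorem ser_nat {s' : T' →+* T'} {s : T →+* T} (hs : φ.comp s' = s.comp φ) :
    InvSeries.map r (Z'.ser s') = Z.ser s := by
  have e1 := Z.e_nat Z' φ r h1 h2
  rw [ser, ser, InvSeries.map_map, ← RingHom.comp_assoc, ← e1, RingHom.comp_assoc, hs,
    ← RingHom.comp_assoc, ← InvSeries.map_map, h2]

variable {G : Type} [Group G] [MulSemiringAction G T] [LawAction G T] [MulSemiringAction G T']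
  [LawAction G T'] {FE : Law E} {FE' : Law E'} (H : Z.IsCo FE) (H' : Z'.IsCo FE')
  (hG : ∀ (γ : G) (t : T'), φ (γ • t) = γ • φ t)

/-- The morphism of twisted actions. -/
noncomputable def twHom : TwAct.Hom (Z'.twist G H') (Z.twist G H) where
  r := r
  phi g x := RingHom.congr_fun (Z.phi_nat Z' φ r h1 h2
    (s' := MulSemiringAction.toRingHom G T' g) (s := MulSemiringAction.toRingHom G T g)
    (RingHom.ext fun t => hG g t)) x
  a g := by
    have := congrArg InvSeries.lead (Z.ser_nat Z' φ r h1 h2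
      (s' := MulSemiringAction.toRingHom G T' g) (s := MulSemiringAction.toRingHom G T g)
      (RingHom.ext fun t => hG g t))
    rw [InvSeries.lead_map] at this
    exact this

theorem primMap_primHom (hφ : IsLawHom φ) (w : ℤ) (y : (Z'.twist G H').Wt (-w)) :
    primMap hφ hG w (Z'.primHom H' w G y) =
      Z.primHom H w G ((Z.twHom Z' φ r h1 h2 H H' hG).map (-w) y) := by
  apply Subtype.ext
  apply Subtype.ext
  change Cob.mapRing φ 0 (MvPolynomial.C (Z'.emb (-w) _)) = MvPolynomial.C (Z.emb (-w) _)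
  rw [Cob.mapRing, MvPolynomial.map_C, Z.map_emb Z' φ r h1 h2]
  rfl

end nat

end CoPt

/-! ### Transport of vanishing statements along isomorphisms of modules -/

section transport

variable {G : Type*} [Group G] {M N M' N' : Type*} [AddCommGroup M] [AddCommGroup N]
  [AddCommGroup M'] [AddCommGroup N'] [DistribMulAction G M] [DistribMulAction G N]
  [DistribMulAction G M'] [DistribMulAction G N']

theorem hmapZero_transport [TopologicalSpace G] (a : M →+[G] M') (ha : Function.Bijective a)
    (b : N →+[G] N') (u : M →+[G] N) (u' : M' →+[G] N') (h : ∀ x, u' (a x) = b (u x)) {s : ℕ}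
    (hu : HMapZero G s u) : HMapZero G s u' := by
  intro F hF hdF
  obtain ⟨a', ha1, ha2⟩ := Function.bijective_iff_has_inverse.mp ha
  have hF' : IsCoch G (a' ∘ F) := by
    refine ⟨hF.lc.comp a', fun g x => ?_⟩
    apply ha.1
    change a (a' (F fun i => g * x i)) = a (g • a' (F x))
    rw [ha2, hF.equi, map_smul, ha2]
  have hd : dd (a' ∘ F) = 0 := by
    funext x
    apply ha.1
    have h1 : a (dd (a' ∘ F) x) = dd F x := by
      have h2 := congrFun (dd_map' (a : M →+ M') (a' ∘ F)) x
      have h3 : (a : M →+ M') ∘ (a' ∘ F) = F := by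
        funext y; exact ha2 (F y)
      rw [h3] at h2
      exact h2.symm
    rw [h1, hdF, Pi.zero_apply, Pi.zero_apply, map_zero]
  obtain ⟨Y, hY, hdY⟩ := hu (a' ∘ F) hF' hd
  refine ⟨b ∘ Y, hY.map b, ?_⟩
  have h4 : dd (b ∘ Y) = b ∘ dd Y := dd_map' (b : N →+ N') Y
  rw [h4, hdY]
  funext x
  change b (u (a' (F x))) = u' (F x)
  rw [← h, ha2]

theorem cycZero_transport {p : ℕ} (a : M →+[G] M') (ha : Function.Bijective a)
    (b : N →+[G] N') (u : M →+[G] N) (u' : M' →+[G] N') (h : ∀ x, u' (a x) = b (u x))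
    (hu : Vale.Agent.P251.I.CycZero p G u) : Vale.Agent.P251.I.CycZero p G u' := by
  intro σ hσ
  obtain ⟨h1, h2⟩ := hu σ hσ
  constructor
  · intro m hm
    obtain ⟨m, rfl⟩ := ha.2 m
    obtain ⟨z, hz⟩ := h1 m (ha.1 (by rw [map_smul, hm]))
    refine ⟨b z, ?_⟩
    rw [h, hz, map_sum]
    exact Finset.sum_congr rfl fun i _ => map_smul b _ _
  · intro m hm
    obtain ⟨m, rfl⟩ := ha.2 m
    obtain ⟨z, hz⟩ := h2 m (ha.1 (by
      rw [map_sum, map_zero, ← hm]
      exact Finset.sum_congr rfl fun i _ => map_smul a _ _))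
    refine ⟨b z, ?_⟩
    rw [h, hz, map_sub, map_smul]

end transport

/-! ### The instances -/

/-- `OInv E` represents pairs (point of `E`, invertible series). -/
noncomputable def OInv.coPt (E : Type) [CommRing E] : CoPt E (OInv E) where
  ι := OInv.inc E
  f := OInv.f E
  lift x g := OInv.lift x g
  lift_ι x g := OInv.lift_comp_inc x g
  lift_f x g := OInv.map_lift_f x g
  ext _ _ h1 h2 := OInv.hom_ext h1 h2

theorem OInv.isCo {E : Type} [CommRing E] (F : Law E) :
    @CoPt.IsCo E (OInv E) _ _ (OInv.coPt E) (LawRing.oinv F) F :=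
  @CoPt.IsCo.mk E (OInv E) _ _ (OInv.coPt E) (LawRing.oinv F) F rfl fun _ _ _ _ => rfl

end Vale.Agent.P251.F
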