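import Mathlib.Topology.MetricSpace.PiNat
import Mathlib.Topology.Algebra.Group.Basic
import Mathlib.Topology.LocallyConstant.Basic
import Mathlib.Topology.Connected.TotallyDisconnected
import Mathlib.Tactic

/-!
# P251, part F: the coefficient topology

For a type `A` with coefficient functions `c : A → ℕ → R` the coefficient topology is induced by
the product topology of `ℕ → R`, where `R` is discrete.
-/

namespace Vale.Agent.P251.F

open Topology Filter

variable {A B R S : Type*}

/-- The topology on `A` induced by the coefficient functions `c : A → ℕ → R`, `R` discrete. -/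
@[reducible] def coeffTop (c : A → ℕ → R) : TopologicalSpace A :=
  TopologicalSpace.induced c (@Pi.topologicalSpace ℕ (fun _ => R) fun _ => ⊥)

/-- agreement of the coefficients of index `< m`. -/
def Agr (c : A → ℕ → R) (m : ℕ) (f g : A) : Prop := ∀ i < m, c g i = c f i

theorem Agr.refl (c : A → ℕ → R) (m : ℕ) (f : A) : Agr c m f f := fun _ _ => rfl

theorem Agr.symm {c : A → ℕ → R} {m : ℕ} {f g : A} (h : Agr c m f g) : Agr c m g f :=
  fun i hi => (h i hi).symm

theorem Agr.trans {c : A → ℕ → R} {m : ℕ} {f g k : A} (h : Agr c m f g) (h' : Agr c m g k) :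
    Agr c m f k := fun i hi => (h' i hi).trans (h i hi)

theorem Agr.mono {c : A → ℕ → R} {m n : ℕ} (hmn : n ≤ m) {f g : A} (h : Agr c m f g) :
    Agr c n f g := fun i hi => h i (lt_of_lt_of_le hi hmn)

theorem coeffTop_isOpen_iff {c : A → ℕ → R} {U : Set A} :
    IsOpen[coeffTop c] U ↔ ∀ f ∈ U, ∃ m, ∀ g, Agr c m f g → g ∈ U := by
  letI : TopologicalSpace R := ⊥
  haveI : DiscreteTopology R := ⟨rfl⟩
  have hb := PiNat.isTopologicalBasis_cylinders (fun _ : ℕ => R)
  constructor
  · intro h f hf
    obtain ⟨V, hV, rfl⟩ := isOpen_induced_iff.1 h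
    obtain ⟨W, ⟨x, n, rfl⟩, hW1, hW2⟩ := hb.exists_subset_of_mem_open hf hV
    refine ⟨n, fun g hg => hW2 ?_⟩
    rw [PiNat.mem_cylinder_iff] at hW1 ⊢
    intro i hi
    rw [hg i hi, hW1 i hi]
  · intro h
    choose! m hm using h
    refine isOpen_induced_iff.2 ⟨⋃ f ∈ U, PiNat.cylinder (c f) (m f), ?_, ?_⟩
    · exact isOpen_biUnion fun f _ => PiNat.isOpen_cylinder _ _ _
    · ext g
      simp only [Set.mem_preimage, Set.mem_iUnion, PiNat.mem_cylinder_iff]
      constructor
      · rintro ⟨f, hf, hg⟩
        exact hm f hf g hg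
      · intro hg
        exact ⟨g, hg, fun i _ => rfl⟩

theorem coeffTop_isOpen_ball (c : A → ℕ → R) (m : ℕ) (f : A) :
    IsOpen[coeffTop c] {g | Agr c m f g} :=
  coeffTop_isOpen_iff.2 fun g hg => ⟨m, fun _ hk => Agr.trans hg hk⟩

theorem coeffTop_hasBasis (c : A → ℕ → R) (f : A) :
    (@nhds A (coeffTop c) f).HasBasis (fun _ : ℕ => True) fun m => {g | Agr c m f g} := by
  letI := coeffTop c
  rw [Filter.hasBasis_iff]
  intro t
  rw [mem_nhds_iff]
  constructor
  · rintro ⟨U, hUt, hU, hf⟩
    obtain ⟨m, hm⟩ := coeffTop_isOpen_iff.1 hU f hf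
    exact ⟨m, trivial, fun g hg => hUt (hm g hg)⟩
  · rintro ⟨m, -, hm⟩
    exact ⟨_, hm, coeffTop_isOpen_ball c m f, Agr.refl c m f⟩

/-- continuity of a map between two coefficient topologies. -/
theorem coeffTop_continuous {c : A → ℕ → R} {d : B → ℕ → S} {φ : A → B}
    (h : ∀ f m, ∃ n, ∀ g, Agr c n f g → Agr d m (φ f) (φ g)) :
    @Continuous A B (coeffTop c) (coeffTop d) φ := by
  letI := coeffTop c
  letI := coeffTop d
  rw [continuous_iff_continuousAt]
  intro f
  rw [ContinuousAt, (coeffTop_hasBasis c f).tendsto_iff (coeffTop_hasBasis d (φ f))]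
  intro m _
  obtain ⟨n, hn⟩ := h f m
  exact ⟨n, trivial, fun g hg => hn g hg⟩

/-- continuity of a map of two variables. -/
theorem coeffTop_continuous₂ {c : A → ℕ → R} {φ : A × A → A}
    (h : ∀ f g m, ∃ n, ∀ f' g', Agr c n f f' → Agr c n g g' → Agr c m (φ (f, g)) (φ (f', g'))) :
    @Continuous (A × A) A (@instTopologicalSpaceProd A A (coeffTop c) (coeffTop c)) (coeffTop c)
      φ := by
  letI := coeffTop c
  rw [continuous_iff_continuousAt]
  rintro ⟨f, g⟩
  rw [ContinuousAt, ((coeffTop_hasBasis c f).prod_nhds (coeffTop_hasBasis c g)).tendsto_iff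
    (coeffTop_hasBasis c (φ (f, g)))]
  intro m _
  obtain ⟨n, hn⟩ := h f g m
  exact ⟨(n, n), ⟨trivial, trivial⟩, fun x hx => hn x.1 x.2 hx.1 hx.2⟩

/-- a function with arbitrary values is locally constant iff it depends, near every point, on
finitely many coefficients. -/
theorem coeffTop_isLocallyConstant_iff {c : A → ℕ → R} {φ : A → B} :
    @IsLocallyConstant A B (coeffTop c) φ ↔
      ∀ f, ∃ n, ∀ g, Agr c n f g → φ g = φ f := by
  letI := coeffTop c
  rw [IsLocallyConstant.iff_eventually_eq]
  refine forall_congr' fun f => ?_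
  rw [(coeffTop_hasBasis c f).eventually_iff]
  simp

theorem coeffTop_isEmbedding {c : A → ℕ → R} (hc : Function.Injective c) :
    @IsEmbedding A (ℕ → R) (coeffTop c) (@Pi.topologicalSpace ℕ (fun _ => R) fun _ => ⊥) c := by
  letI := coeffTop c
  letI : TopologicalSpace R := ⊥
  exact ⟨⟨rfl⟩, hc⟩

theorem coeffTop_t2 {c : A → ℕ → R} (hc : Function.Injective c) : @T2Space A (coeffTop c) := by
  letI := coeffTop c
  letI : TopologicalSpace R := ⊥
  haveI : DiscreteTopology R := ⟨rfl⟩
  exact (coeffTop_isEmbedding hc).t2Space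

theorem coeffTop_totallyDisconnected {c : A → ℕ → R} (hc : Function.Injective c) :
    @TotallyDisconnectedSpace A (coeffTop c) := by
  letI := coeffTop c
  letI : TopologicalSpace R := ⊥
  haveI : DiscreteTopology R := ⟨rfl⟩
  haveI : TotallySeparatedSpace A := by
    rw [totallySeparatedSpace_iff_exists_isClopen]
    intro f g hfg
    have h1 : ∃ i, c f i ≠ c g i := by
      by_contra h
      push Not at h
      exact hfg (hc (funext h))
    obtain ⟨i, hi⟩ := h1
    refine ⟨{k | c k i = c f i}, ?_, rfl, fun h => hi h.symm⟩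
    have h2 : Continuous fun k : A => c k i :=
      (continuous_apply i).comp (coeffTop_isEmbedding hc).continuous
    exact (isClopen_discrete ({c f i} : Set R)).preimage h2
  infer_instance

/-- compactness: `R` finite, and the image is closed. -/
theorem coeffTop_compact [Finite R] {c : A → ℕ → R} (hc : Function.Injective c)
    (h : ∀ x : ℕ → R, (∀ m, ∃ f : A, ∀ i < m, c f i = x i) → ∃ f : A, c f = x) :
    @CompactSpace A (coeffTop c) := by
  letI := coeffTop c
  letI : TopologicalSpace R := ⊥
  haveI : DiscreteTopology R := ⟨rfl⟩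
  haveI : CompactSpace R := Finite.compactSpace
  have hcl : IsClosed (Set.range c) := by
    rw [← isOpen_compl_iff, (PiNat.isTopologicalBasis_cylinders (fun _ : ℕ => R)).isOpen_iff]
    intro x hx
    by_contra hcon
    apply hx
    refine h x fun m => ?_
    by_contra hm
    push Not at hm
    apply hcon
    refine ⟨PiNat.cylinder x m, ⟨x, m, rfl⟩, PiNat.self_mem_cylinder _ _, ?_⟩
    rintro y hy ⟨f, rfl⟩
    obtain ⟨i, hi, hne⟩ := hm f
    exact hne (PiNat.mem_cylinder_iff.1 hy i hi)
  exact (IsClosedEmbedding.mk (coeffTop_isEmbedding hc) hcl).compactSpace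

end Vale.Agent.P251.F
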