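import Vale.Agent.P251.F.Hom
import Vale.Agent.P251.F.CoeffTop
import Mathlib.Topology.Algebra.Ring.Basic

/-!
# P251, part F: endomorphisms and automorphisms of a formal group law

`EndF H` is the ring of endomorphisms, `AutF H` the group of automorphisms; both carry the
coefficient topology.
-/

namespace Vale.Agent.P251.F

open MvPowerSeries Vale.Agent.P217

section Congr

variable {R : Type*} [CommRing R] {σ : Type*}

/-- the ideal of the power series of order at least `m`. -/
noncomputable def ordIdeal (σ R : Type*) [CommRing R] (m : ℕ) : Ideal (MvPowerSeries σ R) where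
  carrier := {f | (m : ℕ∞) ≤ f.order}
  zero_mem' := by
    show (m : ℕ∞) ≤ (0 : MvPowerSeries σ R).order
    rw [order_zero]
    exact le_top
  add_mem' := by
    intro a b ha hb
    exact le_trans (le_min ha hb) min_order_le_add
  smul_mem' := by
    intro c a ha
    show (m : ℕ∞) ≤ (c * a).order
    exact le_trans (le_trans ha le_add_self) le_order_mul

theorem mem_ordIdeal {m : ℕ} {f : MvPowerSeries σ R} :
    f ∈ ordIdeal σ R m ↔ (m : ℕ∞) ≤ f.order := Iff.rfl

theorem one_le_order_of_cc {f : MvPowerSeries σ R} (hf : constantCoeff f = 0) :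
    (1 : ℕ∞) ≤ f.order := by
  refine le_order fun d hd => ?_
  have h1 : d.degree = 0 := by
    have : (d.degree : ℕ∞) < 1 := hd
    exact_mod_cast Nat.lt_one_iff.mp (by exact_mod_cast this)
  rw [(Finsupp.degree_eq_zero_iff d).mp h1, coeff_zero_eq_constantCoeff_apply, hf]

theorem pow_mem_ordIdeal {f : MvPowerSeries σ R} (hf : constantCoeff f = 0) (m : ℕ) :
    f ^ m ∈ ordIdeal σ R m := by
  rw [mem_ordIdeal]
  refine le_trans ?_ (le_order_pow m)
  rw [nsmul_eq_mul]
  calc (m : ℕ∞) = m * 1 := (mul_one _).symm
    _ ≤ _ := mul_le_mul_right (one_le_order_of_cc hf) _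

/-- two univariate series which agree modulo `X^m` give, after substitution, series which agree
in degrees `< m`. -/
theorem psubst_sub_mem {m : ℕ} {f g : PowerSeries R}
    (h : ∀ i < m, PowerSeries.coeff i f = PowerSeries.coeff i g) {a : MvPowerSeries σ R}
    (ha : constantCoeff a = 0) :
    (PowerSeries.subst a f : MvPowerSeries σ R) - PowerSeries.subst a g ∈ ordIdeal σ R m := by
  obtain ⟨k, hk⟩ : (PowerSeries.X : PowerSeries R) ^ m ∣ f - g := by
    rw [PowerSeries.X_pow_dvd_iff]
    intro i hi
    rw [map_sub, h i hi, sub_self]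
  have hs : PowerSeries.HasSubst a := hasSubst_of_cc ha
  rw [← PowerSeries.subst_sub hs, hk, PowerSeries.subst_mul hs, PowerSeries.subst_pow hs,
    PowerSeries.subst_X hs]
  exact Ideal.mul_mem_right _ _ (pow_mem_ordIdeal ha m)

/-- composition is continuous. -/
theorem coeff_subst_agr {m : ℕ} {f f' g g' : PowerSeries R}
    (hg : PowerSeries.constantCoeff g = 0) (hg' : PowerSeries.constantCoeff g' = 0)
    (hf : ∀ i < m, PowerSeries.coeff i f' = PowerSeries.coeff i f)
    (hgg : ∀ i < m, PowerSeries.coeff i g' = PowerSeries.coeff i g) :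
    ∀ i < m, PowerSeries.coeff i (PowerSeries.subst g' f' : PowerSeries R) =
      PowerSeries.coeff i (PowerSeries.subst g f) := by
  intro i hi
  have h1 := coeff_subst_congr (σ := Unit) (a := fun _ => g') (b := fun _ => g)
    (hasSubst_of_cc hg').const (hasSubst_of_cc hg).const (fun _ => hgg) f' i hi
  obtain ⟨k, hk⟩ : (PowerSeries.X : PowerSeries R) ^ m ∣ f' - f := by
    rw [PowerSeries.X_pow_dvd_iff]
    intro i hi
    rw [map_sub, hf i hi, sub_self]
  have hs : PowerSeries.HasSubst g := hasSubst_of_cc hg
  have h2 : (PowerSeries.X : PowerSeries R) ^ m ∣ PowerSeries.subst g f' - PowerSeries.subst g f := by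
    rw [← PowerSeries.subst_sub hs, hk, PowerSeries.subst_mul hs, PowerSeries.subst_pow hs,
      PowerSeries.subst_X hs]
    exact Dvd.dvd.mul_right (pow_dvd_pow_of_dvd (PowerSeries.X_dvd_iff.2 hg) m) _
  have h3 := (PowerSeries.X_pow_dvd_iff.1 h2) i hi
  rw [map_sub, sub_eq_zero] at h3
  exact h1.trans h3

/-- the formal sum is continuous. -/
theorem coeff_FG_agr (H : FormalGroup R) {m : ℕ} {f f' g g' : PowerSeries R}
    (hf0 : PowerSeries.constantCoeff f = 0) (hf0' : PowerSeries.constantCoeff f' = 0)
    (hg : PowerSeries.constantCoeff g = 0) (hg' : PowerSeries.constantCoeff g' = 0)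
    (hf : ∀ i < m, PowerSeries.coeff i f' = PowerSeries.coeff i f)
    (hgg : ∀ i < m, PowerSeries.coeff i g' = PowerSeries.coeff i g) :
    ∀ i < m, PowerSeries.coeff i (subst ![f', g'] H.toPowerSeries : PowerSeries R) =
      PowerSeries.coeff i (subst ![f, g] H.toPowerSeries : PowerSeries R) := by
  refine coeff_subst_congr (hasSubst_pair (hasSubst_of_cc hf0') (hasSubst_of_cc hg'))
    (hasSubst_pair (hasSubst_of_cc hf0) (hasSubst_of_cc hg)) ?_ _
  intro s i hi
  fin_cases s
  · exact hf i hi
  · exact hgg i hi

/-- the condition of being a homomorphism is closed. -/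
theorem isHom_of_agr {F G : FormalGroup R} {f : PowerSeries R}
    (h : ∀ m, ∃ g, IsHom F G g ∧ ∀ i < m, PowerSeries.coeff i g = PowerSeries.coeff i f) :
    IsHom F G f := by
  have h0 : PowerSeries.constantCoeff f = 0 := by
    obtain ⟨g, hg, hgf⟩ := h 1
    rw [← PowerSeries.coeff_zero_eq_constantCoeff_apply, ← hgf 0 one_pos,
      PowerSeries.coeff_zero_eq_constantCoeff_apply, hg.1]
  refine ⟨h0, ?_⟩
  rw [← sub_eq_zero, ← order_eq_top_iff]
  refine ENat.eq_top_iff_forall_ge.mpr fun m => ?_
  obtain ⟨g, hg, hgf⟩ := h m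
  change _ ∈ ordIdeal (Fin 2) R m
  have hX : ∀ i : Fin 2, constantCoeff (X i : MvPowerSeries (Fin 2) R) = 0 := by simp
  have e1 := psubst_sub_mem (f := f) (g := g) (fun i hi => (hgf i hi).symm) F.zero_constantCoeff
  have e2 : ∀ i : Fin 2, (PowerSeries.subst (X i : MvPowerSeries (Fin 2) R) g :
      MvPowerSeries (Fin 2) R) - PowerSeries.subst (X i : MvPowerSeries (Fin 2) R) f ∈
      ordIdeal (Fin 2) R m := fun i => psubst_sub_mem hgf (hX i)
  have c1 : ∀ (k : PowerSeries R), PowerSeries.constantCoeff k = 0 → ∀ i : Fin 2,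
      constantCoeff (PowerSeries.subst (X i : MvPowerSeries (Fin 2) R) k :
        MvPowerSeries (Fin 2) R) = 0 := fun k hk i =>
    PowerSeries.constantCoeff_subst_eq_zero (hX i) k hk
  have e3 : (subst ![(PowerSeries.subst (X 0 : MvPowerSeries (Fin 2) R) g :
      MvPowerSeries (Fin 2) R), PowerSeries.subst (X 1 : MvPowerSeries (Fin 2) R) g]
      G.toPowerSeries) - subst ![(PowerSeries.subst (X 0 : MvPowerSeries (Fin 2) R) f :
      MvPowerSeries (Fin 2) R), PowerSeries.subst (X 1 : MvPowerSeries (Fin 2) R) f]
      G.toPowerSeries ∈ ordIdeal (Fin 2) R m := by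
    refine subst_sub_subst_mem _ (hasSubst_cons (c1 g hg.1 0) (c1 g hg.1 1))
      (hasSubst_cons (c1 f h0 0) (c1 f h0 1)) ?_ ?_ _
    · intro i
      fin_cases i
      · exact e2 0
      · exact e2 1
    · intro i
      refine ⟨m, ?_⟩
      fin_cases i
      · exact pow_mem_ordIdeal (c1 g hg.1 0) m
      · exact pow_mem_ordIdeal (c1 g hg.1 1) m
  have e4 := Ideal.add_mem _ e1 e3
  rw [hg.2] at e4
  convert e4 using 1
  ring

end Congr

section EndF

variable {R : Type*} [CommRing R]

/-- the endomorphisms of a formal group law. -/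
def EndF (H : FormalGroup R) : Type _ := {f : PowerSeries R // IsHom H H f}

namespace EndF

variable {H : FormalGroup R}

/-- the underlying series. -/
def val (f : EndF H) : PowerSeries R := (show {f : PowerSeries R // IsHom H H f} from f).1

theorem isHom (f : EndF H) : IsHom H H f.val :=
  (show {f : PowerSeries R // IsHom H H f} from f).2

/-- make an endomorphism. -/
def mk (f : PowerSeries R) (hf : IsHom H H f) : EndF H :=
  (⟨f, hf⟩ : {f : PowerSeries R // IsHom H H f})

@[simp] theorem val_mk (f : PowerSeries R) (hf : IsHom H H f) : (mk f hf).val = f := rfl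

@[ext] theorem ext {f g : EndF H} (h : f.val = g.val) : f = g := Subtype.ext h

theorem constantCoeff_val (f : EndF H) : PowerSeries.constantCoeff f.val = 0 := f.isHom.1

theorem hasSubst (f : EndF H) : PowerSeries.HasSubst f.val := hasSubst_of_cc f.constantCoeff_val

noncomputable instance : Zero (EndF H) := ⟨mk 0 isHom_zero⟩

noncomputable instance : One (EndF H) := ⟨mk PowerSeries.X isHom_X⟩

noncomputable instance : Mul (EndF H) :=
  ⟨fun f g => mk (PowerSeries.subst g.val f.val) (g.isHom.compL f.isHom)⟩

@[simp] theorem val_zero : (0 : EndF H).val = 0 := rfl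

@[simp] theorem val_one : (1 : EndF H).val = PowerSeries.X := rfl

theorem val_mul (f g : EndF H) : (f * g).val = PowerSeries.subst g.val f.val := rfl

theorem mul_assoc' (f g k : EndF H) : f * g * k = f * (g * k) := by
  apply ext
  rw [val_mul, val_mul, val_mul, val_mul, PowerSeries.subst_comp_subst_apply g.hasSubst k.hasSubst]

theorem one_mul' (f : EndF H) : 1 * f = f := by
  apply ext
  rw [val_mul, val_one, PowerSeries.subst_X f.hasSubst]

theorem mul_one' (f : EndF H) : f * 1 = f := by
  apply ext
  rw [val_mul, val_one, PowerSeries.X_subst]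

section Comm

variable [H.IsComm]

noncomputable instance : Add (EndF H) :=
  ⟨fun f g => mk (subst ![f.val, g.val] H.toPowerSeries : PowerSeries R) (f.isHom.addL g.isHom)⟩

theorem val_add (f g : EndF H) :
    (f + g).val = (subst ![f.val, g.val] H.toPowerSeries : PowerSeries R) := rfl

/-- the endomorphism as a point. -/
def toPt (f : EndF H) : ZPt H Unit := ZPt.mk H f.val f.constantCoeff_val

omit [H.IsComm] in
theorem toPt_val (f : EndF H) : f.toPt.val = f.val := rfl

omit [H.IsComm] in
theorem toPt_injective : Function.Injective (toPt : EndF H → ZPt H Unit) := by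
  intro f g h
  exact ext (congrArg ZPt.val h)

theorem toPt_add (f g : EndF H) : (f + g).toPt = f.toPt + g.toPt := rfl

omit [H.IsComm] in
theorem toPt_zero : (0 : EndF H).toPt = 0 := rfl

theorem exists_neg (f : EndF H) : ∃ g : EndF H, g + f = 0 := by
  obtain ⟨ι, hι0, hι⟩ := exists_inv H
  have hιh : IsHom H H ι := by
    -- `ι` is the negative of the identity
    have hX : ∀ i : Fin 2, constantCoeff (X i : MvPowerSeries (Fin 2) R) = 0 := by simp
    have key : ∀ a : ZPt H (Fin 2), (PowerSeries.subst a.val ι : MvPowerSeries (Fin 2) R) =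
        (-a).val := by
      intro a
      have h1 : ZPt.mk H (PowerSeries.subst a.val ι)
          (PowerSeries.constantCoeff_subst_eq_zero a.constantCoeff_val ι hι0) + a = 0 := by
        apply ZPt.ext
        rw [ZPt.val_add, ZPt.val_mk, ZPt.val_zero]
        have h1 := congrArg (PowerSeries.subst (R := R) a.val) hι
        rw [PowerSeries.subst_def, subst_comp_subst_apply
          (hasSubst_cons hι0 PowerSeries.constantCoeff_X) (hs a.constantCoeff_val).const] at h1
        have h2 : (fun s : Fin 2 => MvPowerSeries.subst (fun _ : Unit => a.val)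
            ((![ι, (PowerSeries.X : PowerSeries R)] : Fin 2 → MvPowerSeries Unit R) s)) =
            ![ι.subst a.val, a.val] := by
          funext s
          fin_cases s
          · rfl
          · exact PowerSeries.subst_X (hs a.constantCoeff_val)
        rw [h2] at h1
        rw [h1, ← PowerSeries.coe_substAlgHom (hs a.constantCoeff_val), map_zero]
      have h2 := eq_neg_of_add_eq_zero_left h1
      exact congrArg ZPt.val h2
    refine ⟨hι0, ?_⟩
    have e0 := key (ZPt.mk H (X 0) (hX 0))
    have e1 := key (ZPt.mk H (X 1) (hX 1))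
    have e2 := key (ZPt.mk H (X 0) (hX 0) + ZPt.mk H (X 1) (hX 1))
    have e3 : (ZPt.mk H (X 0) (hX 0) + ZPt.mk H (X 1) (hX 1)).val = H.toPowerSeries := by
      rw [ZPt.val_add, ZPt.val_mk, ZPt.val_mk]
      have : (![(X 0 : MvPowerSeries (Fin 2) R), X 1] : Fin 2 → MvPowerSeries (Fin 2) R) = X := by
        funext s; fin_cases s <;> rfl
      rw [this, subst_self]
      rfl
    rw [e3, neg_add, ZPt.val_add] at e2
    rw [ZPt.val_mk] at e0 e1
    rw [e2, e0, e1]
  refine ⟨mk ι hιh * f, ?_⟩
  apply ext
  rw [val_add, val_mul, val_mk, val_zero]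
  have h1 := congrArg (PowerSeries.subst (R := R) f.val) hι
  rw [PowerSeries.subst_def, subst_comp_subst_apply
    (hasSubst_cons hι0 PowerSeries.constantCoeff_X) f.hasSubst.const] at h1
  have h2 : (fun s : Fin 2 => MvPowerSeries.subst (fun _ : Unit => f.val)
      ((![ι, (PowerSeries.X : PowerSeries R)] : Fin 2 → MvPowerSeries Unit R) s)) =
      ![ι.subst f.val, f.val] := by
    funext s
    fin_cases s
    · rfl
    · exact PowerSeries.subst_X f.hasSubst
  rw [h2] at h1
  refine h1.trans ?_
  rw [← PowerSeries.coe_substAlgHom f.hasSubst, map_zero]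

noncomputable instance : Neg (EndF H) := ⟨fun f => (exists_neg f).choose⟩

theorem right_distrib' (f g k : EndF H) : (f + g) * k = f * k + g * k := by
  apply ext
  rw [val_mul, val_add, val_add, val_mul, val_mul, PowerSeries.subst_def,
    subst_pair_subst f.hasSubst g.hasSubst k.hasSubst.const]
  rfl

theorem left_distrib' (f g k : EndF H) : f * (g + k) = f * g + f * k := by
  apply ext
  rw [val_mul, val_add, val_add, val_mul, val_mul]
  exact f.isHom.substL g.hasSubst k.hasSubst

theorem zero_mul' (f : EndF H) : 0 * f = 0 := by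
  apply ext
  rw [val_mul, val_zero]
  exact ps_subst_zero f.hasSubst

theorem mul_zero' (f : EndF H) : f * 0 = 0 := by
  apply ext
  rw [val_mul, val_zero]
  exact PowerSeries.subst_zero_of_constantCoeff_zero f.constantCoeff_val

/-- the endomorphism ring. -/
noncomputable instance : Ring (EndF H) where
  add_assoc f g k := toPt_injective (add_assoc f.toPt g.toPt k.toPt)
  zero_add f := toPt_injective (zero_add f.toPt)
  add_zero f := toPt_injective (add_zero f.toPt)
  add_comm f g := toPt_injective (add_comm f.toPt g.toPt)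
  nsmul := nsmulRec
  zsmul := zsmulRec
  neg_add_cancel f := (exists_neg f).choose_spec
  mul_assoc := mul_assoc'
  one_mul := one_mul'
  mul_one := mul_one'
  left_distrib := left_distrib'
  right_distrib := right_distrib'
  zero_mul := zero_mul'
  mul_zero := mul_zero'

/-- the underlying series of a natural number is the multiplication series. -/
theorem val_natCast (m : ℕ) : (m : EndF H).val = multSeries H m := by
  induction m with
  | zero =>
    rw [Nat.cast_zero, val_zero]
    rfl
  | succ m ih =>
    rw [Nat.cast_succ, val_add, ih, multSeries_succ]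
    rfl

end Comm

end EndF

end EndF

section TopEnd

variable {R : Type*} [CommRing R]

namespace EndF

variable {H : FormalGroup R}

/-- the coefficients of an endomorphism. -/
noncomputable def cf (f : EndF H) (n : ℕ) : R := PowerSeries.coeff n f.val

theorem cf_injective : Function.Injective (cf : EndF H → ℕ → R) := by
  intro f g h
  exact ext (PowerSeries.ext fun n => congrFun h n)

noncomputable instance : TopologicalSpace (EndF H) := coeffTop cf

theorem isOpen_iff {U : Set (EndF H)} :
    IsOpen U ↔ ∀ f ∈ U, ∃ m, ∀ g, Agr cf m f g → g ∈ U := coeffTop_isOpen_iff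

instance : T2Space (EndF H) := coeffTop_t2 cf_injective

instance : TotallyDisconnectedSpace (EndF H) := coeffTop_totallyDisconnected cf_injective

/-- limits of endomorphisms. -/
theorem exists_of_agr {x : ℕ → R} (h : ∀ m, ∃ f : EndF H, ∀ i < m, f.cf i = x i) :
    ∃ f : EndF H, f.cf = x := by
  refine ⟨mk (PowerSeries.mk x) (isHom_of_agr fun m => ?_), ?_⟩
  · obtain ⟨f, hf⟩ := h m
    refine ⟨f.val, f.isHom, fun i hi => ?_⟩
    rw [PowerSeries.coeff_mk]
    exact hf i hi
  · funext n
    exact PowerSeries.coeff_mk _ _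

instance [Finite R] : CompactSpace (EndF H) :=
  coeffTop_compact cf_injective fun _ h => exists_of_agr h

theorem agr_mul {m : ℕ} {f f' g g' : EndF H} (h : Agr cf m f f') (h' : Agr cf m g g') :
    Agr cf m (f * g) (f' * g') := fun i hi =>
  coeff_subst_agr g.constantCoeff_val g'.constantCoeff_val h h' i hi

theorem agr_add [H.IsComm] {m : ℕ} {f f' g g' : EndF H} (h : Agr cf m f f')
    (h' : Agr cf m g g') : Agr cf m (f + g) (f' + g') := fun i hi =>
  coeff_FG_agr H f.constantCoeff_val f'.constantCoeff_val g.constantCoeff_val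
    g'.constantCoeff_val h h' i hi

theorem agr_neg [H.IsComm] {m : ℕ} {f g : EndF H} (h : Agr cf m f g) :
    Agr cf m (-f) (-g) := by
  have h1 : Agr cf m (-f + f + -g) (-f + g + -g) :=
    agr_add (agr_add (Agr.refl _ _ _) h) (Agr.refl _ _ _)
  rw [neg_add_cancel, zero_add, add_assoc, add_neg_cancel, add_zero] at h1
  exact h1.symm

noncomputable instance [H.IsComm] : IsTopologicalRing (EndF H) where
  continuous_add := coeffTop_continuous₂ fun _ _ m => ⟨m, fun _ _ h h' => agr_add h h'⟩
  continuous_mul := coeffTop_continuous₂ fun _ _ m => ⟨m, fun _ _ h h' => agr_mul h h'⟩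
  continuous_neg := coeffTop_continuous fun _ m => ⟨m, fun _ h => agr_neg h⟩

end EndF

end TopEnd

section AutF

variable {R : Type*} [CommRing R]

/-- the automorphisms of a formal group law. -/
def AutF (H : FormalGroup R) : Type _ := {f : PowerSeries R // IsIso H H f}

namespace AutF

variable {H : FormalGroup R}

/-- the underlying series. -/
def val (f : AutF H) : PowerSeries R := (show {f : PowerSeries R // IsIso H H f} from f).1

theorem isIso (f : AutF H) : IsIso H H f.val :=
  (show {f : PowerSeries R // IsIso H H f} from f).2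

/-- make an automorphism. -/
def mk (f : PowerSeries R) (hf : IsIso H H f) : AutF H :=
  (⟨f, hf⟩ : {f : PowerSeries R // IsIso H H f})

@[simp] theorem val_mk (f : PowerSeries R) (hf : IsIso H H f) : (mk f hf).val = f := rfl

@[ext] theorem ext {f g : AutF H} (h : f.val = g.val) : f = g := Subtype.ext h

theorem constantCoeff_val (f : AutF H) : PowerSeries.constantCoeff f.val = 0 := f.isIso.1.1

theorem hasSubst (f : AutF H) : PowerSeries.HasSubst f.val := hasSubst_of_cc f.constantCoeff_val

noncomputable instance : One (AutF H) := ⟨mk PowerSeries.X isIso_X⟩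

noncomputable instance : Mul (AutF H) :=
  ⟨fun f g => mk (PowerSeries.subst g.val f.val) (g.isIso.compL f.isIso)⟩

@[simp] theorem val_one : (1 : AutF H).val = PowerSeries.X := rfl

theorem val_mul (f g : AutF H) : (f * g).val = PowerSeries.subst g.val f.val := rfl

theorem exists_inv' (f : AutF H) : ∃ g : AutF H, g * f = 1 := by
  obtain ⟨g, hg, h1, -⟩ := f.isIso.symmL
  exact ⟨mk g hg, ext h1⟩

noncomputable instance : Inv (AutF H) := ⟨fun f => (exists_inv' f).choose⟩

/-- the group of automorphisms; the product is composition. -/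
noncomputable instance : Group (AutF H) where
  mul_assoc f g k := by
    apply ext
    rw [val_mul, val_mul, val_mul, val_mul,
      PowerSeries.subst_comp_subst_apply g.hasSubst k.hasSubst]
  one_mul f := by
    apply ext
    rw [val_mul, val_one, PowerSeries.subst_X f.hasSubst]
  mul_one f := by
    apply ext
    rw [val_mul, val_one, PowerSeries.X_subst]
  inv_mul_cancel f := (exists_inv' f).choose_spec

theorem subst_inv_val (f : AutF H) :
    (PowerSeries.subst f.val (f⁻¹).val : PowerSeries R) = PowerSeries.X :=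
  congrArg val (inv_mul_cancel f)

theorem subst_val_inv (f : AutF H) :
    (PowerSeries.subst (f⁻¹).val f.val : PowerSeries R) = PowerSeries.X :=
  congrArg val (mul_inv_cancel f)

/-- the coefficients of an automorphism. -/
noncomputable def cf (f : AutF H) (n : ℕ) : R := PowerSeries.coeff n f.val

theorem cf_injective : Function.Injective (cf : AutF H → ℕ → R) := by
  intro f g h
  exact ext (PowerSeries.ext fun n => congrFun h n)

theorem cf_zero (f : AutF H) : f.cf 0 = 0 := by
  rw [cf, PowerSeries.coeff_zero_eq_constantCoeff_apply, f.constantCoeff_val]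

theorem cf_one_isUnit (f : AutF H) : IsUnit (f.cf 1) := f.isIso.2

theorem cf_one_mul (f g : AutF H) : (f * g).cf 1 = f.cf 1 * g.cf 1 := by
  rw [cf, val_mul, coeff_one_subst g.constantCoeff_val, mul_comm]
  rfl

theorem cf_one_one : (1 : AutF H).cf 1 = 1 := by
  rw [cf, val_one, PowerSeries.coeff_one_X]

noncomputable instance : TopologicalSpace (AutF H) := coeffTop cf

theorem isOpen_iff {U : Set (AutF H)} :
    IsOpen U ↔ ∀ f ∈ U, ∃ m, ∀ g, Agr cf m f g → g ∈ U := coeffTop_isOpen_iff

theorem isLocallyConstant_iff {B : Type*} {φ : AutF H → B} :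
    IsLocallyConstant φ ↔ ∀ f, ∃ n, ∀ g, Agr cf n f g → φ g = φ f :=
  coeffTop_isLocallyConstant_iff

instance : T2Space (AutF H) := coeffTop_t2 cf_injective

instance : TotallyDisconnectedSpace (AutF H) := coeffTop_totallyDisconnected cf_injective

/-- limits of automorphisms. -/
theorem exists_of_agr {x : ℕ → R} (h : ∀ m, ∃ f : AutF H, ∀ i < m, f.cf i = x i) :
    ∃ f : AutF H, f.cf = x := by
  refine ⟨mk (PowerSeries.mk x) ⟨isHom_of_agr fun m => ?_, ?_⟩, ?_⟩
  · obtain ⟨f, hf⟩ := h m
    refine ⟨f.val, f.isIso.1, fun i hi => ?_⟩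
    rw [PowerSeries.coeff_mk]
    exact hf i hi
  · obtain ⟨f, hf⟩ := h 2
    rw [PowerSeries.coeff_mk, ← hf 1 one_lt_two]
    exact f.cf_one_isUnit
  · funext n
    exact PowerSeries.coeff_mk _ _

instance [Finite R] : CompactSpace (AutF H) :=
  coeffTop_compact cf_injective fun _ h => exists_of_agr h

theorem agr_mul {m : ℕ} {f f' g g' : AutF H} (h : Agr cf m f f') (h' : Agr cf m g g') :
    Agr cf m (f * g) (f' * g') := fun i hi =>
  coeff_subst_agr g.constantCoeff_val g'.constantCoeff_val h h' i hi

theorem agr_inv {m : ℕ} {f g : AutF H} (h : Agr cf m f g) : Agr cf m (f⁻¹) (g⁻¹) := by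
  have h1 : Agr cf m (f⁻¹ * f * g⁻¹) (f⁻¹ * g * g⁻¹) :=
    agr_mul (agr_mul (Agr.refl _ _ _) h) (Agr.refl _ _ _)
  rw [inv_mul_cancel, one_mul, mul_assoc, mul_inv_cancel, mul_one] at h1
  exact h1.symm

noncomputable instance : IsTopologicalGroup (AutF H) where
  continuous_mul := coeffTop_continuous₂ fun _ _ m => ⟨m, fun _ _ h h' => agr_mul h h'⟩
  continuous_inv := coeffTop_continuous fun _ m => ⟨m, fun _ h => agr_inv h⟩

/-- the open normal subgroup of the automorphisms congruent to `X` modulo `X^m`. -/
noncomputable def congr (H : FormalGroup R) (m : ℕ) : Subgroup (AutF H) where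
  carrier := {f | Agr cf m 1 f}
  one_mem' := Agr.refl _ _ _
  mul_mem' := by
    intro f g hf hg
    have := agr_mul (show Agr cf m 1 f from hf) (show Agr cf m 1 g from hg)
    rwa [mul_one] at this
  inv_mem' := by
    intro f hf
    have := agr_inv (show Agr cf m 1 f from hf)
    rwa [inv_one] at this

theorem mem_congr {m : ℕ} {f : AutF H} : f ∈ congr H m ↔ Agr cf m 1 f := Iff.rfl

instance (m : ℕ) : (congr H m).Normal where
  conj_mem f hf g := by
    have h1 : Agr cf m (g * 1 * g⁻¹) (g * f * g⁻¹) :=
      agr_mul (agr_mul (Agr.refl _ _ _) hf) (Agr.refl _ _ _)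
    rw [mul_one, mul_inv_cancel] at h1
    exact h1

theorem isOpen_congr (m : ℕ) : IsOpen (congr H m : Set (AutF H)) :=
  coeffTop_isOpen_ball cf m 1

/-- two automorphisms agree modulo `X^m` iff their quotient is congruent to `1`. -/
theorem agr_iff_inv_mul_mem {m : ℕ} {f g : AutF H} : Agr cf m f g ↔ f⁻¹ * g ∈ congr H m := by
  rw [mem_congr]
  constructor
  · intro h
    have h1 : Agr cf m (f⁻¹ * f) (f⁻¹ * g) := agr_mul (Agr.refl _ _ _) h
    rwa [inv_mul_cancel] at h1
  · intro h
    have h1 : Agr cf m (f * 1) (f * (f⁻¹ * g)) := agr_mul (Agr.refl _ _ _) h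
    rwa [mul_one, mul_inv_cancel_left] at h1

/-- open subgroups contain a congruence subgroup. -/
theorem exists_congr_le {U : Subgroup (AutF H)} (hU : IsOpen (U : Set (AutF H))) :
    ∃ m, congr H m ≤ U := by
  obtain ⟨m, hm⟩ := isOpen_iff.1 hU 1 U.one_mem
  exact ⟨m, fun f hf => hm f hf⟩

/-- automorphisms are the units of the endomorphism ring. -/
noncomputable def toUnits [H.IsComm] : AutF H ≃* (EndF H)ˣ where
  toFun f := ⟨EndF.mk f.val f.isIso.1, EndF.mk (f⁻¹).val (f⁻¹).isIso.1,
    EndF.ext (subst_val_inv f), EndF.ext (subst_inv_val f)⟩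
  invFun u := mk u.val.val ⟨u.val.isHom, by
    have h1 : (u.val * u.inv).val = (1 : EndF H).val := congrArg EndF.val u.val_inv
    rw [EndF.val_mul, EndF.val_one] at h1
    have h2 := congrArg (PowerSeries.coeff 1) h1
    rw [coeff_one_subst u.inv.constantCoeff_val, PowerSeries.coeff_one_X, mul_comm] at h2
    exact IsUnit.of_mul_eq_one _ h2⟩
  left_inv f := rfl
  right_inv u := by
    apply Units.ext
    rfl
  map_mul' f g := by
    apply Units.ext
    rfl

theorem toUnits_val [H.IsComm] (f : AutF H) : ((toUnits f : (EndF H)ˣ) : EndF H).val = f.val :=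
  rfl

end AutF

end AutF

end Vale.Agent.P251.F
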