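import Vale.Agent.P251.F.Stone
import Vale.Agent.P251.F.Aut
import Mathlib.RingTheory.PowerSeries.Expand

/-!
# P251, part F: the functor of automorphisms of a formal group law over a finite field

`k` is a finite field with `q` elements, `H` a commutative formal group law over `k` with
`[m]_H = X ^ q` for some `m`. Then `LocallyConstant (AutF H) k` represents the functor
`B ↦ Aut(H_B)` on `k`-algebras:

* `exists_autRep`: for every automorphism `f` of `H_B` there is
  `θ : LocallyConstant (AutF H) k →ₐ[k] B` mapping the coefficient functions to the coefficients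
  of `f`;
* `autRep_ext`: uniqueness;
* `isIso_univAut`: the universal automorphism.
-/

namespace Vale.Agent.P251.F

open MvPowerSeries Vale.Agent.P217 TensorProduct Topology

universe u v w

section Hom

variable {R : Type*} [CommRing R] {S : Type*} [CommRing S]

/-- homomorphisms commute with multiplication by `m`. -/
theorem IsHom_multSeries {F G : FormalGroup R} [F.IsComm] [G.IsComm] {f : PowerSeries R}
    (hf : IsHom F G f) (m : ℕ) :
    (PowerSeries.subst (multSeries F m) f : PowerSeries R) =
      PowerSeries.subst f (multSeries G m) := by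
  let x : F.Point Unit := ⟨PowerSeries.X, HT_psubst_of_zero PowerSeries.constantCoeff_X⟩
  have h := congrArg Subtype.val (map_nsmul (homPt f hf) m x)
  have h0 : constantCoeff (homPt f hf x).val = 0 := by
    rw [homPt_val]
    exact HT_constantCoeff_psubst PowerSeries.constantCoeff_X hf.1
  rw [homPt_val, HT_nsmul_point F x PowerSeries.constantCoeff_X, HT_nsmul_point G _ h0,
    homPt_val] at h
  have e1 : ∀ g : PowerSeries R, (PowerSeries.subst x.val g : PowerSeries R) = g :=
    fun g => PowerSeries.X_subst g
  have e2 : (PowerSeries.subst (PowerSeries.subst x.val (multSeries F m) : PowerSeries R) f :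
    PowerSeries R) = PowerSeries.subst (PowerSeries.subst x.val f : PowerSeries R)
      (multSeries G m) := h
  rwa [e1, e1] at e2

theorem FG_map_congr_injective {φ : R →+* S} (hφ : Function.Injective φ) {σ : Type*} :
    Function.Injective (MvPowerSeries.map (σ := σ) φ) := by
  intro f g h
  ext d
  apply hφ
  have := congrArg (MvPowerSeries.coeff d) h
  rwa [coeff_map, coeff_map] at this

/-- being a homomorphism can be checked after an injective ring homomorphism. -/
theorem IsHom_of_map {F G : FormalGroup R} {f : PowerSeries R} {φ : R →+* S}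
    (hφ : Function.Injective φ) (hf : IsHom (F.map φ) (G.map φ) (PowerSeries.map φ f)) :
    IsHom F G f := by
  have hX0 : PowerSeries.HasSubst (X 0 : MvPowerSeries (Fin 2) R) := hasSubst_of_cc (by simp)
  have hX1 : PowerSeries.HasSubst (X 1 : MvPowerSeries (Fin 2) R) := hasSubst_of_cc (by simp)
  have hFs : PowerSeries.HasSubst F.toPowerSeries := hasSubst_of_cc F.zero_constantCoeff
  have hf0 : PowerSeries.constantCoeff f = 0 := by
    apply hφ
    have h := hf.1
    rw [← PowerSeries.coeff_zero_eq_constantCoeff_apply, PowerSeries.coeff_map,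
      PowerSeries.coeff_zero_eq_constantCoeff_apply] at h
    rw [h, map_zero]
  refine ⟨hf0, ?_⟩
  apply FG_map_congr_injective hφ
  rw [PowerSeries.map_subst hFs, map_pair_subst φ (subst_hasSubst hf0 hX0)
    (subst_hasSubst hf0 hX1), PowerSeries.map_subst hX0, PowerSeries.map_subst hX1, map_X, map_X]
  exact hf.2

end Hom

section Frob

variable (k : Type*) [Field k] [Finite k] (B : Type*) [CommRing B] [Algebra k B]

/-- The subalgebra of the elements with `x ^ q = x`. -/
noncomputable def fixSub : Subalgebra k B where
  carrier := {b | b ^ Nat.card k = b}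
  mul_mem' := by
    intro a b ha hb
    show (a * b) ^ _ = _
    rw [mul_pow, show a ^ Nat.card k = a from ha, show b ^ Nat.card k = b from hb]
  add_mem' := by
    intro a b ha hb
    have := Fintype.ofFinite k
    have h := map_add (FiniteField.frobeniusAlgHom k B) a b
    simp only [FiniteField.coe_frobeniusAlgHom, ← Nat.card_eq_fintype_card] at h
    show (a + b) ^ _ = _
    rw [h, show a ^ Nat.card k = a from ha, show b ^ Nat.card k = b from hb]
  algebraMap_mem' := by
    intro c
    have := Fintype.ofFinite k
    show (algebraMap k B c) ^ _ = _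
    rw [← map_pow, Nat.card_eq_fintype_card, FiniteField.pow_card]

variable {k B}

theorem mem_fixSub {b : B} : b ∈ fixSub k B ↔ b ^ Nat.card k = b := Iff.rfl

theorem fixSub_pow (x : fixSub k B) : x ^ Nat.card k = x := Subtype.ext x.2

variable (k) in
theorem coeff_pow_card (f : PowerSeries B) (n : ℕ) :
    PowerSeries.coeff (Nat.card k * n) (f ^ Nat.card k) = PowerSeries.coeff n f ^ Nat.card k := by
  classical
  have := Fintype.ofFinite k
  have hq : 0 < Nat.card k := Nat.card_pos
  have hfr : ∀ a b : PowerSeries B, (a + b) ^ Nat.card k = a ^ Nat.card k + b ^ Nat.card k := by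
    intro a b
    have h := map_add (FiniteField.frobeniusAlgHom k (PowerSeries B)) a b
    simpa only [FiniteField.coe_frobeniusAlgHom, ← Nat.card_eq_fintype_card] using h
  have hz : ∀ s : Finset ℕ, (∑ i ∈ s, PowerSeries.monomial i (PowerSeries.coeff i f)) ^
      Nat.card k = ∑ i ∈ s, PowerSeries.monomial (Nat.card k * i)
        (PowerSeries.coeff i f ^ Nat.card k) := by
    intro s
    induction s using Finset.induction_on with
    | empty => rw [Finset.sum_empty, Finset.sum_empty, zero_pow hq.ne']
    | insert a s ha ih =>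
      rw [Finset.sum_insert ha, Finset.sum_insert ha, hfr, ih, PowerSeries.monomial_pow]
  obtain ⟨g, hg⟩ : (PowerSeries.X : PowerSeries B) ^ (n + 1) ∣
      f - ∑ i ∈ Finset.range (n + 1), PowerSeries.monomial i (PowerSeries.coeff i f) := by
    rw [PowerSeries.X_pow_dvd_iff]
    intro m hm
    rw [map_sub, map_sum, Finset.sum_eq_single m]
    · rw [PowerSeries.coeff_monomial_same, sub_self]
    · intro i _ hi
      rw [PowerSeries.coeff_monomial, if_neg hi.symm]
    · intro h
      exact absurd (Finset.mem_range.2 hm) h
  have hf : f = ∑ i ∈ Finset.range (n + 1), PowerSeries.monomial i (PowerSeries.coeff i f) +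
      PowerSeries.X ^ (n + 1) * g := by rw [← hg]; ring
  have h1 : f ^ Nat.card k = ∑ i ∈ Finset.range (n + 1), PowerSeries.monomial (Nat.card k * i)
        (PowerSeries.coeff i f ^ Nat.card k) +
      PowerSeries.X ^ (Nat.card k * (n + 1)) * g ^ Nat.card k := by
    conv_lhs => rw [hf]
    rw [hfr, hz, mul_pow, ← pow_mul, mul_comm (n + 1)]
  have h2 : Nat.card k * n < Nat.card k * (n + 1) := Nat.mul_lt_mul_of_pos_left (Nat.lt_succ_self n) hq
  rw [h1, map_add, PowerSeries.coeff_X_pow_mul', if_neg (not_le.2 h2), add_zero, map_sum,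
    Finset.sum_eq_single n]
  · rw [PowerSeries.coeff_monomial_same]
  · intro i _ hi
    rw [PowerSeries.coeff_monomial, if_neg]
    intro h
    exact hi (Nat.eq_of_mul_eq_mul_left hq h).symm
  · intro h
    exact absurd (Finset.mem_range.2 (Nat.lt_succ_self n)) h

/-- The coefficients of a homomorphism between formal group laws with `[m] = X ^ q` satisfy
`c ^ q = c`. -/
theorem coeff_mem_fixSub {F G : FormalGroup B} [F.IsComm] [G.IsComm] {m : ℕ}
    (hF : multSeries F m = PowerSeries.X ^ Nat.card k)
    (hG : multSeries G m = PowerSeries.X ^ Nat.card k) {f : PowerSeries B} (hf : IsHom F G f)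
    (n : ℕ) : PowerSeries.coeff n f ∈ fixSub k B := by
  have hq : 0 < Nat.card k := Nat.card_pos
  rw [mem_fixSub, ← coeff_pow_card k f n]
  have h := IsHom_multSeries hf m
  rw [hF, hG, PowerSeries.subst_pow (hasSubst_of_cc hf.1), PowerSeries.subst_X
    (hasSubst_of_cc hf.1)] at h
  rw [← h, PowerSeries.coeff_subst_X_pow hq.ne', if_pos (dvd_mul_right _ _),
    Nat.mul_div_cancel_left _ hq]
  rfl

theorem isUnit_fixSub {x : fixSub k B} (hx : IsUnit (x : B)) : IsUnit x := by
  have hq : 2 ≤ Nat.card k := by
    have := Fintype.ofFinite k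
    rw [Nat.card_eq_fintype_card]
    exact Fintype.one_lt_card
  refine IsUnit.of_mul_eq_one (x ^ (Nat.card k - 2)) (Subtype.ext ?_)
  have h1 : (x : B) * (x : B) ^ (Nat.card k - 1) = x * 1 := by
    rw [mul_one, ← pow_succ', show Nat.card k - 1 + 1 = Nat.card k by omega]
    exact x.2
  have h2 := hx.mul_left_cancel h1
  have h3 : (((x * x ^ (Nat.card k - 2) : fixSub k B)) : B) = (x : B) ^ (Nat.card k - 1) := by
    rw [← pow_succ', show Nat.card k - 2 + 1 = Nat.card k - 1 by omega]
    rfl
  rw [h3, h2]
  rfl

end Frob

section Rep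

variable {k : Type u} [Field k] {H : FormalGroup k}

/-- The coefficient functions on the group of automorphisms. -/
noncomputable def cfLC (H : FormalGroup k) (n : ℕ) : LocallyConstant (AutF H) k :=
  ⟨fun g => g.cf n, AutF.isLocallyConstant_iff.2 fun _ => ⟨n + 1, fun _ h => h n (Nat.lt_succ_self n)⟩⟩

@[simp] theorem cfLC_apply (n : ℕ) (g : AutF H) : cfLC H n g = g.cf n := rfl

/-- The coefficient functions generate. -/
theorem adjoin_cfLC [Finite k] :
    Algebra.adjoin k (Set.range (cfLC H)) = (⊤ : Subalgebra k (LocallyConstant (AutF H) k)) := by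
  apply subalgebra_eq_top_of_separates
  intro x y hxy
  have : ∃ n, x.cf n ≠ y.cf n := by
    by_contra h
    push Not at h
    exact hxy (AutF.cf_injective (funext h))
  obtain ⟨n, hn⟩ := this
  exact ⟨cfLC H n, Algebra.subset_adjoin ⟨n, rfl⟩, hn⟩

theorem autRep_ext [Finite k] {B : Type v} [Semiring B] [Algebra k B]
    {θ θ' : LocallyConstant (AutF H) k →ₐ[k] B} (h : ∀ n, θ (cfLC H n) = θ' (cfLC H n)) :
    θ = θ' := by
  refine AlgHom.ext_of_adjoin_eq_top adjoin_cfLC ?_
  rintro _ ⟨n, rfl⟩
  exact h n

/-- **The functor of automorphisms is represented by the locally constant functions.** -/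
theorem exists_autRep [Finite k] [H.IsComm] {m : ℕ}
    (hH : multSeries H m = PowerSeries.X ^ Nat.card k) {B : Type v} [CommRing B] [Algebra k B]
    {f : PowerSeries B}
    (hf : IsIso (H.map (algebraMap k B)) (H.map (algebraMap k B)) f) :
    ∃ θ : LocallyConstant (AutF H) k →ₐ[k] B, ∀ n, θ (cfLC H n) = PowerSeries.coeff n f := by
  have hHB : multSeries (H.map (algebraMap k B)) m = PowerSeries.X ^ Nat.card k := by
    have h := map_multSeries (algebraMap k B) H m
    rw [hH, map_pow, PowerSeries.map_X] at h
    exact h.symm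
  have hc : ∀ n, PowerSeries.coeff n f ∈ fixSub k B := coeff_mem_fixSub hHB hHB hf.1
  let f' : PowerSeries (fixSub k B) := PowerSeries.mk fun n => ⟨PowerSeries.coeff n f, hc n⟩
  have hf' : PowerSeries.map (fixSub k B).val.toRingHom f' = f := by
    ext n
    rw [PowerSeries.coeff_map, PowerSeries.coeff_mk]
    rfl
  have hinj : Function.Injective (fixSub k B).val.toRingHom := Subtype.val_injective
  have hiso : IsIso (H.map (algebraMap k (fixSub k B))) (H.map (algebraMap k (fixSub k B))) f' := by
    have e : (H.map (algebraMap k (fixSub k B))).map (fixSub k B).val.toRingHom =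
        H.map (algebraMap k B) := by
      rw [FG_map_map]
      rfl
    refine ⟨IsHom_of_map hinj ?_, ?_⟩
    · rw [e, hf']
      exact hf.1
    · apply isUnit_fixSub
      have h := hf.2
      rw [← hf', PowerSeries.coeff_map] at h
      exact h
  -- the map of spaces
  have hpt : ∀ φ : Pts k (fixSub k B), IsIso H H
      (PowerSeries.map (φ : (fixSub k B) →ₐ[k] k).toRingHom f') := by
    intro φ
    have h := hiso.mapL (φ : (fixSub k B) →ₐ[k] k).toRingHom
    rw [FG_map_map] at h
    have e : (φ : (fixSub k B) →ₐ[k] k).toRingHom.comp (algebraMap k (fixSub k B)) =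
        RingHom.id k := by
      ext c
      exact (φ : (fixSub k B) →ₐ[k] k).commutes c
    rwa [e, FG_map_id] at h
  let P : Pts k (fixSub k B) → AutF H := fun φ => AutF.mk _ (hpt φ)
  have hP : ∀ φ n, (P φ).cf n = φ (PowerSeries.coeff n f') := by
    intro φ n
    show PowerSeries.coeff n (PowerSeries.map _ f') = _
    rw [PowerSeries.coeff_map]
    rfl
  have hcont : Continuous P := by
    let _ : TopologicalSpace k := ⊥
    have _ : DiscreteTopology k := ⟨rfl⟩
    refine continuous_induced_rng.2 (continuous_pi fun n => ?_)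
    have : (fun φ : Pts k (fixSub k B) => (P φ).cf n) =
        fun φ => φ (PowerSeries.coeff n f') := funext fun φ => hP φ n
    exact this ▸ (IsLocallyConstant.iff_continuous _).1 (Pts.isLocallyConstant_eval _)
  let ε : fixSub k B ≃ₐ[k] LocallyConstant (Pts k (fixSub k B)) k :=
    AlgEquiv.ofBijective (stone k (fixSub k B)) (stone_bijective fixSub_pow)
  refine ⟨((fixSub k B).val.comp ε.symm.toAlgHom).comp
    (LocallyConstant.comapₐ k ⟨P, hcont⟩), fun n => ?_⟩
  have h1 : LocallyConstant.comapₐ k ⟨P, hcont⟩ (cfLC H n) = ε (PowerSeries.coeff n f') := by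
    ext φ
    exact hP φ n
  show (fixSub k B).val (ε.symm (LocallyConstant.comapₐ k ⟨P, hcont⟩ (cfLC H n))) = _
  rw [h1, AlgEquiv.symm_apply_apply, PowerSeries.coeff_mk]
  rfl

/-- The universal automorphism, over a `k`-algebra `B`: coefficients `g ↦ g.cf n`. -/
noncomputable def univAut (H : FormalGroup k) (B : Type v) [CommRing B] [Algebra k B] :
    PowerSeries (LocallyConstant (AutF H) B) :=
  PowerSeries.mk fun n => (cfLC H n).map (algebraMap k B)

theorem map_eval_univAut (B : Type v) [CommRing B] [Algebra k B] (g : AutF H) :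
    PowerSeries.map (LocallyConstant.evalRingHom g) (univAut H B) =
      PowerSeries.map (algebraMap k B) g.val := by
  ext n
  rw [PowerSeries.coeff_map, univAut, PowerSeries.coeff_mk, PowerSeries.coeff_map]
  rfl

/-- Equality in `LocallyConstant X B` of coefficients can be checked pointwise. -/
theorem lc_map_injective {X : Type*} [TopologicalSpace X] {B : Type*} [CommRing B] {σ : Type*}
    {P Q : MvPowerSeries σ (LocallyConstant X B)}
    (h : ∀ x, MvPowerSeries.map (LocallyConstant.evalRingHom x) P =
      MvPowerSeries.map (LocallyConstant.evalRingHom x) Q) : P = Q := by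
  ext d x
  have := congrArg (MvPowerSeries.coeff d) (h x)
  rwa [coeff_map, coeff_map] at this

theorem lc_isUnit {X : Type*} [TopologicalSpace X] {B : Type*} [CommRing B]
    {u : LocallyConstant X B} (h : ∀ x, IsUnit (u x)) : IsUnit u := by
  have h1 : ∀ x, ∃ y, u x * y = 1 := fun x => (h x).exists_right_inv
  refine IsUnit.of_mul_eq_one (u.map fun y => Ring.inverse y) ?_
  ext x
  exact Ring.mul_inverse_cancel _ (h x)

/-- A series over `LocallyConstant X B` which is pointwise a homomorphism is a homomorphism. -/
theorem isHom_of_pointwise {Y : Type*} [TopologicalSpace Y] {B : Type*} [CommRing B]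
    {F G : FormalGroup (LocallyConstant Y B)} {f : PowerSeries (LocallyConstant Y B)}
    (h : ∀ x, IsHom (F.map (LocallyConstant.evalRingHom x)) (G.map (LocallyConstant.evalRingHom x))
      (PowerSeries.map (LocallyConstant.evalRingHom x) f)) : IsHom F G f := by
  have hX0 : PowerSeries.HasSubst (X 0 : MvPowerSeries (Fin 2) (LocallyConstant Y B)) :=
    hasSubst_of_cc (by simp)
  have hX1 : PowerSeries.HasSubst (X 1 : MvPowerSeries (Fin 2) (LocallyConstant Y B)) :=
    hasSubst_of_cc (by simp)
  have hFs : PowerSeries.HasSubst F.toPowerSeries := hasSubst_of_cc F.zero_constantCoeff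
  have hf0 : PowerSeries.constantCoeff f = 0 := by
    ext x
    have h1 := (h x).1
    rw [← PowerSeries.coeff_zero_eq_constantCoeff_apply, PowerSeries.coeff_map,
      PowerSeries.coeff_zero_eq_constantCoeff_apply] at h1
    exact h1
  refine ⟨hf0, ?_⟩
  apply lc_map_injective
  intro x
  rw [PowerSeries.map_subst hFs, map_pair_subst _ (subst_hasSubst hf0 hX0)
    (subst_hasSubst hf0 hX1), PowerSeries.map_subst hX0, PowerSeries.map_subst hX1, map_X, map_X]
  exact (h x).2

theorem isIso_univAut (B : Type v) [CommRing B] [Algebra k B] :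
    IsIso (H.map (algebraMap k (LocallyConstant (AutF H) B)))
      (H.map (algebraMap k (LocallyConstant (AutF H) B))) (univAut H B) := by
  have e : ∀ g : AutF H, (LocallyConstant.evalRingHom g : LocallyConstant (AutF H) B →+* B).comp
      (algebraMap k (LocallyConstant (AutF H) B)) = algebraMap k B := fun g => rfl
  refine ⟨isHom_of_pointwise fun g => ?_, lc_isUnit fun g => ?_⟩
  · rw [map_eval_univAut, FG_map_map, e]
    exact (g.isIso.mapL (algebraMap k B)).1
  · have h := (g.isIso.mapL (algebraMap k B)).2
    rw [PowerSeries.coeff_map] at h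
    rw [univAut, PowerSeries.coeff_mk]
    exact h

end Rep

end Vale.Agent.P251.F
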