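import Vale.Agent.P251.F.Grade

/-!
# P251, part F: coinduced law rings

For a commutative ring `E` with a law `FE`, `CoInd E FE = E[c_0^{±1}, c_1, c_2, …]` is the law
ring whose points with values in `B` are the pairs `(x, f)`, `x : E →+* B`, `f : InvSeries B`;
the law at `(x, f)` is `f • FE.map x` and `act g (x, f) = (x, g * f)`.

The cobar complex of a coinduced law ring has a contraction `Cob.contr` preserving weights.
-/

namespace Vale.Agent.P251.F

open LawRing

/-- The coinduced law ring `E[c_0^{±1}, c_1, …]`. -/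
def CoInd (E : Type) [CommRing E] (_FE : Law E) : Type :=
  Localization.Away (MvPolynomial.X 0 : MvPolynomial ℕ E)

namespace CoInd

variable {E : Type} [CommRing E] {FE : Law E} {B C : Type} [CommRing B] [CommRing C]

noncomputable instance : CommRing (CoInd E FE) :=
  inferInstanceAs (CommRing (Localization.Away (MvPolynomial.X 0 : MvPolynomial ℕ E)))

noncomputable instance : Algebra (MvPolynomial ℕ E) (CoInd E FE) :=
  inferInstanceAs (Algebra (MvPolynomial ℕ E)
    (Localization.Away (MvPolynomial.X 0 : MvPolynomial ℕ E)))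

instance : IsLocalization.Away (MvPolynomial.X 0 : MvPolynomial ℕ E) (CoInd E FE) :=
  inferInstanceAs (IsLocalization.Away (MvPolynomial.X 0 : MvPolynomial ℕ E)
    (Localization.Away (MvPolynomial.X 0 : MvPolynomial ℕ E)))

/-- The inclusion `E → CoInd E FE`. -/
noncomputable def incl (E : Type) [CommRing E] (FE : Law E) : E →+* CoInd E FE :=
  (algebraMap (MvPolynomial ℕ E) (CoInd E FE)).comp MvPolynomial.C

/-- The universal invertible series. -/
noncomputable def ser (E : Type) [CommRing E] (FE : Law E) : InvSeries (CoInd E FE) :=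
  InvSeries.ofCoeff (fun n => algebraMap (MvPolynomial ℕ E) (CoInd E FE) (MvPolynomial.X n))
    (IsLocalization.Away.algebraMap_isUnit _)

@[simp] theorem c_ser (n : ℕ) : (ser E FE).c n =
    algebraMap (MvPolynomial ℕ E) (CoInd E FE) (MvPolynomial.X n) := by
  rw [ser, InvSeries.c_ofCoeff]

/-- The point `(x, f)`. -/
noncomputable def pt (x : E →+* B) (f : InvSeries B) : CoInd E FE →+* B :=
  IsLocalization.Away.lift (MvPolynomial.X 0 : MvPolynomial ℕ E)
    (g := MvPolynomial.eval₂Hom x fun n => f.c n) (by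
      rw [MvPolynomial.eval₂Hom_X']
      exact f.isUnit)

theorem pt_algebraMap (x : E →+* B) (f : InvSeries B) (a : MvPolynomial ℕ E) :
    (pt x f : CoInd E FE →+* B) (algebraMap _ _ a) =
      MvPolynomial.eval₂Hom x (fun n => f.c n) a :=
  IsLocalization.Away.lift_eq _ _ a

@[simp] theorem pt_comp_incl (x : E →+* B) (f : InvSeries B) :
    (pt x f : CoInd E FE →+* B).comp (incl E FE) = x := by
  ext a
  rw [RingHom.comp_apply, incl, RingHom.comp_apply, pt_algebraMap, MvPolynomial.eval₂Hom_C]

@[simp] theorem pt_incl (x : E →+* B) (f : InvSeries B) (a : E) :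
    (pt x f : CoInd E FE →+* B) (incl E FE a) = x a := by
  rw [← RingHom.comp_apply, pt_comp_incl]

@[simp] theorem map_pt_ser (x : E →+* B) (f : InvSeries B) :
    InvSeries.map (pt x f : CoInd E FE →+* B) (ser E FE) = f := by
  apply InvSeries.ext_c
  intro n
  rw [InvSeries.c_map, c_ser, pt_algebraMap, MvPolynomial.eval₂Hom_X']

/-- A ring homomorphism is determined by its restriction to `E` and the image of the universal
series. -/
theorem hom_ext {φ ψ : CoInd E FE →+* B} (h1 : φ.comp (incl E FE) = ψ.comp (incl E FE))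
    (h2 : InvSeries.map φ (ser E FE) = InvSeries.map ψ (ser E FE)) : φ = ψ := by
  refine IsLocalization.ringHom_ext (Submonoid.powers (MvPolynomial.X 0 : MvPolynomial ℕ E)) ?_
  refine MvPolynomial.ringHom_ext (fun a => ?_) (fun n => ?_)
  · exact congrFun (congrArg DFunLike.coe h1) a
  · have := congrArg (fun f => InvSeries.c f n) h2
    rwa [InvSeries.c_map, InvSeries.c_map, c_ser] at this

theorem eq_pt (φ : CoInd E FE →+* B) :
    φ = pt (φ.comp (incl E FE)) (InvSeries.map φ (ser E FE)) :=
  hom_ext (by rw [pt_comp_incl]) (by rw [map_pt_ser])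

theorem comp_pt (φ : B →+* C) (x : E →+* B) (f : InvSeries B) :
    φ.comp (pt x f : CoInd E FE →+* B) = pt (φ.comp x) (InvSeries.map φ f) :=
  hom_ext (by rw [RingHom.comp_assoc, pt_comp_incl, pt_comp_incl])
    (by rw [← InvSeries.map_map, map_pt_ser, map_pt_ser])

@[simp] theorem pt_univ : pt (incl E FE) (ser E FE) = RingHom.id (CoInd E FE) := by
  rw [eq_pt (RingHom.id (CoInd E FE)), InvSeries.map_id, RingHom.id_comp]

noncomputable instance : LawRing (CoInd E FE) where
  law := ser E FE • FE.map (incl E FE)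
  act f x := pt (x.comp (incl E FE)) (f * InvSeries.map x (ser E FE))
  act_one x := by rw [one_mul]; exact (eq_pt x).symm
  act_mul f g x := by rw [pt_comp_incl, map_pt_ser, mul_assoc]
  comp_act φ f x := by rw [comp_pt, map_mul, InvSeries.map_map, RingHom.comp_assoc]
  law_act f x := by
    rw [InvSeries.map_smul, InvSeries.map_smul, Law.map_map, Law.map_map, pt_comp_incl,
      map_pt_ser, mul_smul]

theorem law_eq : (LawRing.law : Law (CoInd E FE)) = ser E FE • FE.map (incl E FE) := rfl

theorem act_pt (g : InvSeries B) (x : E →+* B) (f : InvSeries B) :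
    act g (pt x f : CoInd E FE →+* B) = pt x (g * f) := by
  change pt ((pt x f : CoInd E FE →+* B).comp (incl E FE))
    (g * InvSeries.map (pt x f : CoInd E FE →+* B) (ser E FE)) = _
  rw [pt_comp_incl, map_pt_ser]

theorem law_map_pt (x : E →+* B) (f : InvSeries B) :
    (LawRing.law : Law (CoInd E FE)).map (pt x f) = f • FE.map x := by
  rw [law_eq, InvSeries.map_smul, map_pt_ser, Law.map_map, pt_comp_incl]

/-- Functoriality in `E`. -/
noncomputable def map {E' : Type} [CommRing E'] {FE' : Law E'} (r : E →+* E')  :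
    CoInd E FE →+* CoInd E' FE' := pt ((incl E' FE').comp r) (ser E' FE')

theorem pt_comp_map {E' : Type} [CommRing E'] {FE' : Law E'} (r : E →+* E') (x : E' →+* B)
    (f : InvSeries B) : (pt x f : CoInd E' FE' →+* B).comp (map r : CoInd E FE →+* CoInd E' FE') =
      pt (x.comp r) f := by
  rw [map, comp_pt, ← RingHom.comp_assoc, pt_comp_incl, map_pt_ser]

theorem isLawHom_map {E' : Type} [CommRing E'] {FE' : Law E'} (r : E →+* E')
    (hr : FE.map r = FE') : IsLawHom (map r : CoInd E FE →+* CoInd E' FE') where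
  law := by
    rw [map, law_map_pt, ← Law.map_map, hr]
    rfl
  act B _ f x := by
    rw [eq_pt x, act_pt, pt_comp_map, pt_comp_map, act_pt]

/-! ### contraction -/

/-- The linear part of a point `(x, f)`: the unit `c_0(f)`. -/
noncomputable def lead (φ : CoInd E FE →+* B) : Bˣ := (InvSeries.map φ (ser E FE)).isUnit.unit

theorem lead_val (φ : CoInd E FE →+* B) : (lead φ : B) = (InvSeries.map φ (ser E FE)).c 0 := rfl

theorem lead_pt (x : E →+* B) (f : InvSeries B) :
    lead (pt x f : CoInd E FE →+* B) = f.isUnit.unit := by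
  apply Units.ext
  rw [lead_val, map_pt_ser]
  rfl

theorem map_lead (ψ : B →+* C) (φ : CoInd E FE →+* B) :
    Units.map (ψ : B →* C) (lead φ) = lead (ψ.comp φ) := by
  apply Units.ext
  rw [lead_val, ← InvSeries.map_map, InvSeries.c_map]
  rfl

/-- The point `(x, c_0 x)` attached to `(x, f)`. -/
noncomputable def base (φ : CoInd E FE →+* B) : CoInd E FE →+* B :=
  pt (φ.comp (incl E FE)) (InvSeries.lin (lead φ))

/-- The strict part `f ∘ (c_0 x)⁻¹`. -/
noncomputable def sPart (φ : CoInd E FE →+* B) : InvSeries B :=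
  InvSeries.map φ (ser E FE) * (InvSeries.lin (lead φ))⁻¹

theorem sPart_mem (φ : CoInd E FE →+* B) : sPart φ ∈ strict B := by
  have h := InvSeries.c_zero_mul (InvSeries.lin (lead φ)) (InvSeries.lin (lead φ))⁻¹
  rw [mul_inv_cancel, InvSeries.c_zero_one, InvSeries.c_zero_lin] at h
  rw [mem_strict, sPart, InvSeries.c_zero_mul, ← lead_val, ← h]

theorem act_sPart (φ : CoInd E FE →+* B) : act (sPart φ) (base φ) = φ := by
  rw [base, act_pt, sPart, inv_mul_cancel_right]
  exact (eq_pt φ).symm

theorem comp_base (ψ : B →+* C) (φ : CoInd E FE →+* B) :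
    ψ.comp (base φ) = base (ψ.comp φ) := by
  rw [base, comp_pt, InvSeries.map_lin, map_lead]
  rfl

theorem map_sPart (ψ : B →+* C) (φ : CoInd E FE →+* B) :
    InvSeries.map ψ (sPart φ) = sPart (ψ.comp φ) := by
  rw [sPart, _root_.map_mul, _root_.map_inv, InvSeries.map_lin, map_lead, InvSeries.map_map]
  rfl

theorem lead_act {g : InvSeries B} (hg : g ∈ strict B) (φ : CoInd E FE →+* B) :
    lead (act g φ) = lead φ := by
  apply Units.ext
  rw [lead_val, lead_val]
  conv_lhs => rw [eq_pt φ, act_pt, map_pt_ser, InvSeries.c_zero_mul, mem_strict.1 hg, one_mul]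

theorem base_act {g : InvSeries B} (hg : g ∈ strict B) (φ : CoInd E FE →+* B) :
    base (act g φ) = base φ := by
  rw [base, lead_act hg, base]
  congr 1
  conv_lhs => rw [eq_pt φ, act_pt, pt_comp_incl]

theorem sPart_act {g : InvSeries B} (hg : g ∈ strict B) (φ : CoInd E FE →+* B) :
    sPart (act g φ) = g * sPart φ := by
  rw [sPart, lead_act hg, sPart, ← mul_assoc]
  congr 1
  conv_lhs => rw [eq_pt φ, act_pt, map_pt_ser]

theorem lead_act_lin (u : Bˣ) (φ : CoInd E FE →+* B) :
    lead (act (InvSeries.lin u)⁻¹ φ) = u⁻¹ * lead φ := by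
  have h1 : (InvSeries.lin u)⁻¹ = InvSeries.lin u⁻¹ := (map_inv InvSeries.lin u).symm
  apply Units.ext
  rw [lead_val, Units.val_mul, lead_val]
  conv_lhs => rw [eq_pt φ, act_pt, map_pt_ser, InvSeries.c_zero_mul, h1, InvSeries.c_zero_lin]

end CoInd

/-! ### the extended chain -/

section Contr

variable {E : Type} [CommRing E] {FE : Law E} {B C : Type} [CommRing B] [CommRing C] {n m : ℕ}

namespace Chain

/-- The chain `(x, c_0 x) → (x, f) → (x, g_1 f) → …` extending a chain starting at `(x, f)`. -/
noncomputable def extend (c : Chain (CoInd E FE) n B) : Chain (CoInd E FE) (n + 1) B where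
  pt := CoInd.base c.pt
  g := Fin.cons 1 fun i => c.g i * CoInd.sPart c.pt
  strict := by
    intro i
    refine Fin.cases ?_ (fun i => ?_) i
    · rw [Fin.cons_zero]
      exact one_mem _
    · rw [Fin.cons_succ]
      exact mul_mem (c.strict i) (CoInd.sPart_mem _)
  zero := Fin.cons_zero _ _

@[simp] theorem extend_pt (c : Chain (CoInd E FE) n B) : c.extend.pt = CoInd.base c.pt := rfl

@[simp] theorem extend_g_zero (c : Chain (CoInd E FE) n B) : c.extend.g 0 = 1 := c.extend.zero

@[simp] theorem extend_g_succ (c : Chain (CoInd E FE) n B) (i : Fin (n + 1)) :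
    c.extend.g i.succ = c.g i * CoInd.sPart c.pt := by
  unfold extend
  exact Fin.cons_succ (α := fun _ => InvSeries B) 1 (fun i => c.g i * CoInd.sPart c.pt) i

theorem map_extend (φ : B →+* C) (c : Chain (CoInd E FE) n B) :
    c.extend.map φ = (c.map φ).extend := by
  ext1
  · rw [map_pt, extend_pt, extend_pt, CoInd.comp_base, map_pt]
  · funext i
    refine Fin.cases ?_ (fun i => ?_) i
    · rw [map_g, extend_g_zero, extend_g_zero, _root_.map_one]
    · rw [map_g, extend_g_succ, extend_g_succ, _root_.map_mul, CoInd.map_sPart, map_g, map_pt]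

/-- Dropping the new vertex gives back the chain. -/
theorem extend_res_zero (c : Chain (CoInd E FE) n B) :
    c.extend.res (Fin.succAbove 0) = c := by
  have h0 : ∀ i : Fin (n + 1), Fin.succAbove 0 i = i.succ := fun i => Fin.succAbove_zero_apply i
  ext1
  · rw [res_pt, h0, extend_g_succ, extend_pt, c.zero, one_mul, CoInd.act_sPart]
  · funext i
    rw [res_g, h0, h0, extend_g_succ, extend_g_succ, c.zero, one_mul, mul_inv_cancel_right]

/-- Dropping another vertex commutes with the extension. -/
theorem extend_res_succ (c : Chain (CoInd E FE) (n + 1) B) (j : Fin (n + 2)) :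
    c.extend.res (Fin.succAbove j.succ) = (c.res (Fin.succAbove j)).extend := by
  have h0 : (Fin.succAbove j.succ (0 : Fin (n + 2)) : Fin (n + 3)) = 0 :=
    Fin.succ_succAbove_zero j
  have h1 : ∀ i : Fin (n + 1), Fin.succAbove j.succ i.succ = (Fin.succAbove j i).succ :=
    fun i => Fin.succ_succAbove_succ j i
  ext1
  · rw [res_pt, h0, extend_g_zero, act_one, extend_pt, extend_pt, res_pt,
      CoInd.base_act (c.strict _)]
  · funext i
    refine Fin.cases ?_ (fun i => ?_) i
    · rw [res_g, h0, mul_inv_cancel, extend_g_zero]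
    · rw [res_g, h0, h1, extend_g_succ, extend_g_zero, inv_one, mul_one, extend_g_succ, res_g,
        res_pt, CoInd.sPart_act (c.strict _), mul_assoc, inv_mul_cancel_left]

theorem extend_scale (c : Chain (CoInd E FE) n B) (u : Bˣ) :
    (c.scale u).extend = c.extend.scale u := by
  have hl : CoInd.lead (act (InvSeries.lin u)⁻¹ c.pt) = u⁻¹ * CoInd.lead c.pt :=
    CoInd.lead_act_lin u c.pt
  ext1
  · change CoInd.base (act (InvSeries.lin u)⁻¹ c.pt) =
      act (InvSeries.lin u)⁻¹ (CoInd.base c.pt)
    rw [CoInd.base, CoInd.base, CoInd.act_pt, hl, _root_.map_mul, _root_.map_inv]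
    congr 1
    conv_lhs => rw [CoInd.eq_pt c.pt, CoInd.act_pt, CoInd.pt_comp_incl]
  · funext i
    refine Fin.cases ?_ (fun i => ?_) i
    · rw [extend_g_zero]
      change 1 = (InvSeries.lin u)⁻¹ * c.extend.g 0 * InvSeries.lin u
      rw [extend_g_zero, mul_one, inv_mul_cancel]
    · rw [extend_g_succ]
      change ((InvSeries.lin u)⁻¹ * c.g i * InvSeries.lin u) *
        CoInd.sPart (act (InvSeries.lin u)⁻¹ c.pt) =
        (InvSeries.lin u)⁻¹ * c.extend.g i.succ * InvSeries.lin u
      have hs : CoInd.sPart (act (InvSeries.lin u)⁻¹ c.pt) =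
          (InvSeries.lin u)⁻¹ * CoInd.sPart c.pt * InvSeries.lin u := by
        have he : InvSeries.map (act (InvSeries.lin u)⁻¹ c.pt) (CoInd.ser E FE) =
            (InvSeries.lin u)⁻¹ * InvSeries.map c.pt (CoInd.ser E FE) := CoInd.map_pt_ser _ _
        rw [CoInd.sPart, hl, he, CoInd.sPart, _root_.map_mul, _root_.map_inv]
        group
      rw [hs, extend_g_succ]
      group

end Chain

namespace Cob

/-- The contraction of the cobar complex of a coinduced law ring. -/
noncomputable def contr (n : ℕ) : Cob (CoInd E FE) (n + 1) →+* Cob (CoInd E FE) n :=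
  ev (univ (CoInd E FE) n).extend

theorem ev_contr (c : Chain (CoInd E FE) n B) (x : Cob (CoInd E FE) (n + 1)) :
    ev c (contr n x) = ev c.extend x := by
  rw [contr, ← ev_map, Chain.map_extend, univ_map_ev]

theorem IsWt.contr {w : ℤ} {x : Cob (CoInd E FE) (n + 1)} (hx : IsWt w x) :
    IsWt w (contr n x) := by
  intro B _ c u
  rw [ev_contr, ev_contr, Chain.extend_scale, hx]

/-- `contr` is a contracting homotopy in positive degrees. -/
theorem contr_d (x : Cob (CoInd E FE) (n + 1)) :
    contr (n + 1) (d (n + 1) x) + d n (contr n x) = x := by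
  apply ext_ev
  intro B _ c
  rw [_root_.map_add, ev_contr, ev_d, ev_d, Fin.sum_univ_succ (n := n + 2)]
  have h : ∀ i : Fin (n + 2), ((-1 : ℤ) ^ ((i.succ : Fin (n + 3)) : ℕ)) •
      ev (c.extend.res (Fin.succAbove i.succ)) x =
      - (((-1 : ℤ) ^ (i : ℕ)) • ev (c.res i.succAbove) (contr n x)) := by
    intro i
    rw [ev_contr, Chain.extend_res_succ, Fin.val_succ, pow_succ, mul_neg, mul_one, neg_smul]
  rw [Finset.sum_congr rfl fun i _ => h i, Finset.sum_neg_distrib, Chain.extend_res_zero]
  simp

/-- Every cocycle of positive degree of a coinduced law ring is a coboundary. -/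
theorem exists_of_cocycle_coInd {x : Cob (CoInd E FE) (n + 1)} (hx : d (n + 1) x = 0) :
    d n (contr n x) = x := by
  have := contr_d x
  rwa [hx, _root_.map_zero, zero_add] at this

/-- The homogeneous element `e c_0^{-w}` of weight `w`. -/
noncomputable def homog (w : ℤ) (e : E) : Cob (CoInd E FE) 0 :=
  MvPolynomial.C (CoInd.incl E FE e *
    ((CoInd.lead (RingHom.id (CoInd E FE)) ^ (-w) : (CoInd E FE)ˣ) : CoInd E FE))

theorem ev_homog (w : ℤ) (e : E) (c : Chain (CoInd E FE) 0 B) :
    ev c (homog w e) = c.pt (CoInd.incl E FE e) * ((CoInd.lead c.pt ^ (-w) : Bˣ) : B) := by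
  rw [homog, ev_C, _root_.map_mul]
  congr 1
  have : Units.map (c.pt : CoInd E FE →* B) (CoInd.lead (RingHom.id (CoInd E FE)) ^ (-w)) =
      CoInd.lead c.pt ^ (-w) := by
    rw [_root_.map_zpow, CoInd.map_lead, RingHom.comp_id]
  rw [← this]
  rfl

end Cob

end Contr

end Vale.Agent.P251.F
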