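import Mathlib.RingTheory.SimpleModule.Basic
import Mathlib.Algebra.CharP.Lemmas
import Mathlib.Data.Nat.Choose.Lucas
import Mathlib.Data.Nat.Choose.Dvd
import Mathlib.Algebra.IsPrimePow
import Mathlib.Tactic

/-!
# P251, part F: symmetric 2-cocycles of the additive group (Lazard's lemma)

The first half (over a field of characteristic `p`) is taken from the Starting files (P217).
The second half is the version over an arbitrary abelian group.
-/

namespace Vale.Agent.P251.F

open scoped Classical in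
/-- the coefficients of `C_N(X,Y) = ((X+Y)^N - X^N - Y^N)/p` (`N` a power of `p`), resp.
`(X+Y)^N - X^N - Y^N` (`N` not a power of `p`). -/
noncomputable def cbar (p N i : ℕ) : ℕ :=
  if ∃ r, N = p ^ r then N.choose i / p else N.choose i

section Lazard

theorem lz_dvd_choose {p : ℕ} (t a m : ℕ) (hm : Nat.Coprime p m) :
    p ^ t ∣ (p ^ t * a).choose m := by
  rcases Nat.eq_zero_or_pos m with rfl | hm0
  · rw [Nat.coprime_zero_right] at hm
    rw [hm, one_pow]
    exact one_dvd _
  rcases Nat.eq_zero_or_pos (p ^ t * a) with h0 | h0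
  · rw [h0, Nat.choose_eq_zero_of_lt hm0]
    exact dvd_zero _
  obtain ⟨k, rfl⟩ : ∃ k, m = k + 1 := ⟨m - 1, by omega⟩
  obtain ⟨n, hn⟩ : ∃ n, p ^ t * a = n + 1 := ⟨p ^ t * a - 1, by omega⟩
  have h1 := Nat.add_one_mul_choose_eq n k
  refine (Nat.Coprime.pow_left t hm).dvd_of_dvd_mul_right ?_
  rw [hn, ← h1, ← hn, mul_assoc]
  exact dvd_mul_right _ _

theorem lz_choose_sq {p : ℕ} (hp : p.Prime) (a b : ℕ) :
    (p * a).choose (p * b) ≡ a.choose b [MOD p ^ 2] := by
  induction a generalizing b with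
  | zero =>
    rcases Nat.eq_zero_or_pos b with rfl | hb
    · exact Nat.ModEq.refl _
    · rw [mul_zero, Nat.choose_eq_zero_of_lt (Nat.mul_pos hp.pos hb),
        Nat.choose_eq_zero_of_lt hb]
  | succ a ih =>
    rcases b with _ | b
    · rw [mul_zero, Nat.choose_zero_right, Nat.choose_zero_right]
    · have h1 : p * (a + 1) = p + p * a := by ring
      rw [h1, Nat.add_choose_eq, Finset.Nat.sum_antidiagonal_eq_sum_range_succ_mk,
        ← ZMod.natCast_eq_natCast_iff, Nat.cast_sum]
      rw [Finset.sum_eq_add (0 : ℕ) p hp.ne_zero.symm]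
      · have h2 : p * (b + 1) - p = p * b := by
          rw [mul_add, mul_one, Nat.add_sub_cancel]
        rw [Nat.choose_zero_right, Nat.choose_self, one_mul, one_mul, Nat.sub_zero, h2,
          Nat.choose_succ_succ, Nat.cast_add, add_comm,
          (ZMod.natCast_eq_natCast_iff _ _ _).2 (ih b),
          (ZMod.natCast_eq_natCast_iff _ _ _).2 (ih (b + 1))]
      · intro k hk hkk
        rw [ZMod.natCast_eq_zero_iff]
        rcases lt_or_ge p k with h | h
        · rw [Nat.choose_eq_zero_of_lt h, zero_mul]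
          exact dvd_zero _
        · have hkp : k < p := lt_of_le_of_ne h hkk.2
          rw [sq]
          refine mul_dvd_mul (hp.dvd_choose_self hkk.1 hkp) ?_
          have h3 : Nat.Coprime p (p * (b + 1) - k) := by
            rw [Nat.Prime.coprime_iff_not_dvd hp]
            intro h4
            have h5 : p ∣ k := by
              have h6 : p ∣ p * (b + 1) := dvd_mul_right _ _
              have h7 : k ≤ p * (b + 1) := by nlinarith only [hkp]
              exact (Nat.dvd_sub_iff_right h7 h6).1 h4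
            exact hkk.1 (Nat.eq_zero_of_dvd_of_lt h5 hkp)
          have h8 := lz_dvd_choose 1 a (p * (b + 1) - k) h3
          rwa [pow_one] at h8
      · intro h
        exact absurd (Finset.mem_range.2 (Nat.succ_pos _)) h
      · intro h
        refine absurd (Finset.mem_range.2 ?_) h
        nlinarith only []

theorem lz_choose_pow {p : ℕ} (hp : p.Prime) (s a b : ℕ) :
    (p ^ s * a).choose (p ^ s * b) ≡ a.choose b [MOD p ^ 2] := by
  induction s with
  | zero => rw [pow_zero, one_mul, one_mul]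
  | succ s ih =>
    have h1 : ∀ c, p ^ (s + 1) * c = p * (p ^ s * c) := fun c => by ring
    rw [h1, h1]
    exact (lz_choose_sq hp _ _).trans ih

theorem lz_sq_dvd {p : ℕ} (hp : p.Prime) (r s : ℕ) (hr : 1 ≤ r) (i : ℕ) (hi : ¬ p ^ s ∣ i) :
    p ^ 2 ∣ (p ^ (r + s)).choose i := by
  have hi0 : i ≠ 0 := fun h => hi (h ▸ dvd_zero _)
  obtain ⟨v, m, hm, rfl⟩ := Nat.exists_eq_pow_mul_and_not_dvd hi0 p hp.ne_one
  have hv : v < s := by
    by_contra hv
    exact hi (Dvd.dvd.mul_right (pow_dvd_pow p (not_lt.1 hv)) m)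
  have h1 : p ^ (r + s) = p ^ v * (p ^ (r + s - v) * 1) := by
    rw [mul_one, ← pow_add]
    congr 1
    (clear * - hr hv; omega)
  rw [h1]
  have h2 := lz_choose_pow hp v (p ^ (r + s - v) * 1) m
  have h3 := lz_dvd_choose (r + s - v) 1 m ((Nat.Prime.coprime_iff_not_dvd hp).2 hm)
  have h4 : p ^ 2 ∣ (p ^ (r + s - v) * 1).choose m :=
    (pow_dvd_pow p (by omega)).trans h3
  exact (h2.dvd_iff (dvd_refl _)).2 h4

theorem lz_cbar_pow (p r i : ℕ) : cbar p (p ^ r) i = (p ^ r).choose i / p := by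
  unfold cbar
  rw [if_pos ⟨r, rfl⟩]

theorem lz_cbar_of_not {p N : ℕ} (h : ¬ ∃ r, N = p ^ r) (i : ℕ) : cbar p N i = N.choose i := by
  unfold cbar
  rw [if_neg h]

theorem lz_cbar_pow_modEq {p : ℕ} (hp : p.Prime) (r s : ℕ) (b : ℕ)
    (hb : b < p ^ r) : cbar p (p ^ (r + s)) (p ^ s * b) ≡ cbar p (p ^ r) b [MOD p] := by
  rw [lz_cbar_pow, lz_cbar_pow]
  rcases Nat.eq_zero_or_pos b with rfl | hb0
  · rw [mul_zero, Nat.choose_zero_right, Nat.choose_zero_right]
  have h1 : p ∣ (p ^ r).choose b := hp.dvd_choose_pow hb0.ne' hb.ne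
  have h2 : p ∣ (p ^ (r + s)).choose (p ^ s * b) := by
    refine hp.dvd_choose_pow (Nat.mul_pos (pow_pos hp.pos s) hb0).ne' ?_
    rw [pow_add, mul_comm]
    intro h
    exact hb.ne (Nat.eq_of_mul_eq_mul_right (pow_pos hp.pos s) h)
  obtain ⟨x, hx⟩ := h1
  obtain ⟨y, hy⟩ := h2
  rw [hx, hy, Nat.mul_div_cancel_left _ hp.pos, Nat.mul_div_cancel_left _ hp.pos]
  have h3 := lz_choose_pow hp s (p ^ r) b
  rw [← pow_add, add_comm s r, hx, hy, sq] at h3
  exact Nat.ModEq.mul_left_cancel' hp.ne_zero h3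

variable {κ : Type*} [Field κ]

/-- 27b -/
theorem cbar_pow_mul (p : ℕ) [Fact p.Prime] [CharP κ p] (r s : ℕ) (hr : 1 ≤ r) (i : ℕ)
    (hi : i < p ^ (r + s)) :
    (cbar p (p ^ (r + s)) i : κ) =
      if p ^ s ∣ i then (cbar p (p ^ r) (i / p ^ s) : κ) else 0 := by
  have hp : p.Prime := Fact.out
  split_ifs with h
  · obtain ⟨b, rfl⟩ := h
    rw [Nat.mul_div_cancel_left _ (pow_pos hp.pos s)]
    have hb : b < p ^ r := by
      rw [pow_add, mul_comm] at hi
      exact Nat.lt_of_mul_lt_mul_right hi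
    exact (CharP.natCast_eq_natCast κ p).2 (lz_cbar_pow_modEq hp r s b hb)
  · rw [CharP.cast_eq_zero_iff κ p, lz_cbar_pow]
    obtain ⟨x, hx⟩ := lz_sq_dvd hp r s hr i h
    rw [hx, sq, mul_assoc, Nat.mul_div_cancel_left _ hp.pos]
    exact dvd_mul_right _ _

/-- 27b -/
theorem exists_cbar_ne_zero (p : ℕ) [Fact p.Prime] [CharP κ p] (N : ℕ) (hN : 2 ≤ N) :
    ∃ i, 1 ≤ i ∧ i < N ∧ (cbar p N i : κ) ≠ 0 := by
  have hp : p.Prime := Fact.out
  obtain ⟨v, m, hm, rfl⟩ := Nat.exists_eq_pow_mul_and_not_dvd (show N ≠ 0 by omega) p hp.ne_one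
  have hm0 : m ≠ 0 := fun h => hm (h ▸ dvd_zero _)
  by_cases h1 : m = 1
  · subst h1
    rw [mul_one] at hN ⊢
    have hv : v ≠ 0 := by
      rintro rfl
      rw [pow_zero] at hN
      omega
    obtain ⟨w, rfl⟩ : ∃ w, v = w + 1 := ⟨v - 1, by omega⟩
    refine ⟨p ^ w, Nat.one_le_pow _ _ hp.pos, Nat.pow_lt_pow_right hp.one_lt (Nat.lt_succ_self w),
      ?_⟩
    rw [add_comm w 1, cbar_pow_mul p 1 w le_rfl (p ^ w)
      (Nat.pow_lt_pow_right hp.one_lt (by omega)), if_pos (dvd_refl _),
      Nat.div_self (pow_pos hp.pos w), lz_cbar_pow, pow_one, Nat.choose_one_right,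
      Nat.div_self hp.pos, Nat.cast_one]
    exact one_ne_zero
  · refine ⟨p ^ v, Nat.one_le_pow _ _ hp.pos, ?_, ?_⟩
    · exact lt_mul_of_one_lt_right (pow_pos hp.pos v) (by omega)
    · have h2 : ¬ ∃ r, p ^ v * m = p ^ r := by
        rintro ⟨r, hr⟩
        rcases le_or_gt r v with h | h
        · have h3 : p ^ r ≤ p ^ v := Nat.pow_le_pow_right hp.pos h
          have h4 : p ^ v < p ^ v * m := lt_mul_of_one_lt_right (pow_pos hp.pos v) (by (clear * - hm0 h1; omega))
          omega
        · obtain ⟨w, rfl⟩ : ∃ w, r = v + (w + 1) := ⟨r - v - 1, by omega⟩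
          rw [pow_add] at hr
          have h5 := Nat.eq_of_mul_eq_mul_left (pow_pos hp.pos v) hr
          exact hm (h5 ▸ dvd_pow_self p (Nat.succ_ne_zero w))
      rw [lz_cbar_of_not h2, Ne, CharP.cast_eq_zero_iff κ p]
      have h3 := lz_choose_pow hp v m 1
      rw [mul_one, Nat.choose_one_right] at h3
      intro h4
      exact hm ((h3.dvd_iff (dvd_pow_self p two_ne_zero)).1 h4)

theorem lz_rel {N : ℕ} {a : ℕ → κ}
    (hcoc : ∀ i j k, 1 ≤ i → 1 ≤ j → 1 ≤ k → i + j + k = N →
      a i * ((j + k).choose j : κ) = a (i + j) * ((i + j).choose i : κ))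
    {i : ℕ} (hi : 1 ≤ i) (hiN : i < N) :
    (i : κ) * a i = a 1 * ((N - 1).choose (i - 1) : κ) := by
  rcases eq_or_lt_of_le hi with h | h
  · subst h
    rw [Nat.sub_self, Nat.choose_zero_right, Nat.cast_one, one_mul, mul_one]
  · have h1 := hcoc 1 (i - 1) (N - i) le_rfl (by omega) (by omega) (by omega)
    have h2 : i - 1 + (N - i) = N - 1 := by (clear * - hiN h; omega)
    have h3 : 1 + (i - 1) = i := by omega
    rw [h2, h3, Nat.choose_one_right] at h1
    rw [h1, mul_comm]

theorem lz_mul_choose {N i : ℕ} (hi : 1 ≤ i) (hiN : i < N) :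
    (i : κ) * (N.choose i : κ) = N * ((N - 1).choose (i - 1) : κ) := by
  have h1 := Nat.add_one_mul_choose_eq (N - 1) (i - 1)
  have h2 : N - 1 + 1 = N := by omega
  have h3 : i - 1 + 1 = i := by omega
  rw [h2, h3] at h1
  rw [mul_comm, ← Nat.cast_mul, ← Nat.cast_mul, h1]

/-- 27b **Lazard's lemma** on symmetric cocycles of the additive group over a field of
characteristic `p` in degree `N`: `a i` is the coefficient of `X^i Y^(N-i)`. -/
theorem lazard_lemma (p : ℕ) [Fact p.Prime] [CharP κ p] (N : ℕ) (hN : 2 ≤ N) (a : ℕ → κ)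
    (hsymm : ∀ i, 1 ≤ i → i < N → a i = a (N - i))
    (hcoc : ∀ i j k, 1 ≤ i → 1 ≤ j → 1 ≤ k → i + j + k = N →
      a i * ((j + k).choose j : κ) = a (i + j) * ((i + j).choose i : κ)) :
    ∃ c : κ, ∀ i, 1 ≤ i → i < N → a i = c * (cbar p N i : κ) := by
  have hp : p.Prime := Fact.out
  induction N using Nat.strong_induction_on generalizing a with
  | _ N ih =>
  by_cases hpN : p ∣ N
  · obtain ⟨N', rfl⟩ := hpN
    by_cases h1 : N' = 1
    · subst h1
      rw [mul_one] at *
      refine ⟨a 1, fun i hi hip => ?_⟩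
      have hi0 : (i : κ) ≠ 0 := by
        rw [Ne, CharP.cast_eq_zero_iff κ p]
        exact fun h => absurd (Nat.le_of_dvd hi h) (not_le.2 hip)
      refine mul_left_cancel₀ hi0 ?_
      rw [lz_rel hcoc hi hip]
      have h2 := Nat.add_one_mul_choose_eq (p - 1) (i - 1)
      have h3 : p - 1 + 1 = p := by (clear * - hN; omega)
      have h4 : i - 1 + 1 = i := by omega
      rw [h3, h4] at h2
      have h5 : cbar p p i = p.choose i / p := by
        have := lz_cbar_pow p 1 i
        rwa [pow_one] at this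
      obtain ⟨x, hx⟩ := hp.dvd_choose_self (show i ≠ 0 by omega) hip
      rw [h5, hx, Nat.mul_div_cancel_left _ hp.pos]
      rw [hx, mul_assoc] at h2
      have h6 := Nat.eq_of_mul_eq_mul_left hp.pos h2
      rw [h6, Nat.cast_mul]
      ring
    · have hN' : 2 ≤ N' := by
        rcases N' with _ | _ | N'
        · omega
        · exact absurd rfl h1
        · omega
      have hp2 := hp.two_le
      have hlt : p < p * N' := by nlinarith
      have ha1 : a 1 = 0 := by
        have h2 := hcoc 1 (p - 1) (p * N' - p) le_rfl (by omega) (by omega) (by (clear * - hp2 hlt; omega))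
        have h3 : p - 1 + (p * N' - p) = p * N' - 1 := by omega
        have h4 : 1 + (p - 1) = p := by omega
        rw [h3, h4, Nat.choose_one_right, CharP.cast_eq_zero κ p, mul_zero] at h2
        have h5 : (((p * N' - 1).choose (p - 1) : ℕ) : κ) = 1 := by
          refine Eq.trans ?_ (Nat.cast_one (R := κ))
          rw [CharP.natCast_eq_natCast κ p]
          have h6 := Choose.choose_modEq_choose_mod_mul_choose_div_nat (n := p * N' - 1)
            (k := p - 1) (p := p)
          have h7 : p * N' - 1 = p * (N' - 1) + (p - 1) := by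
            obtain ⟨M, rfl⟩ : ∃ M, N' = M + 1 := ⟨N' - 1, by omega⟩
            rw [Nat.add_sub_cancel, mul_add, mul_one]
            omega
          have h8 : (p * N' - 1) % p = p - 1 := by
            rw [h7, Nat.mul_add_mod, Nat.mod_eq_of_lt (by omega)]
          have h9 : (p - 1) % p = p - 1 := Nat.mod_eq_of_lt (by omega)
          have h10 : (p - 1) / p = 0 := Nat.div_eq_of_lt (by omega)
          rw [h8, h9, h10, Nat.choose_self, Nat.choose_zero_right, one_mul] at h6
          exact h6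
        rwa [h5, mul_one] at h2
      have ha : ∀ i, 1 ≤ i → i < p * N' → ¬ p ∣ i → a i = 0 := by
        intro i hi hiN hpi
        have hi0 : (i : κ) ≠ 0 := by
          rwa [Ne, CharP.cast_eq_zero_iff κ p]
        have h2 := lz_rel hcoc hi hiN
        rw [ha1, zero_mul] at h2
        exact (mul_eq_zero.1 h2).resolve_left hi0
      have hch : ∀ x y, (((p * x).choose (p * y) : ℕ) : κ) = (x.choose y : κ) := by
        intro x y
        rw [CharP.natCast_eq_natCast κ p]
        exact (lz_choose_sq hp x y).of_dvd (dvd_pow_self p two_ne_zero)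
      have hlt' : ∀ i, i < N' → p * i < p * N' := fun i hi => Nat.mul_lt_mul_of_pos_left hi hp.pos
      obtain ⟨c, hc⟩ := ih N' (by nlinarith only [hp2, hlt]) hN' (fun i => a (p * i)) (fun i hi hiN => by
          have h2 := hsymm (p * i) (Nat.mul_pos hp.pos hi) (hlt' i hiN)
          rw [← Nat.mul_sub] at h2
          exact h2) (fun i j k hi hj hk hijk => by
          have h2 := hcoc (p * i) (p * j) (p * k) (Nat.mul_pos hp.pos hi) (Nat.mul_pos hp.pos hj)
            (Nat.mul_pos hp.pos hk) (by rw [← mul_add, ← mul_add, hijk])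
          rw [← mul_add, ← mul_add, hch, hch] at h2
          exact h2)
      refine ⟨c, fun i hi hiN => ?_⟩
      by_cases hN'p : ∃ r, N' = p ^ r
      · obtain ⟨r, rfl⟩ := hN'p
        have hr : 1 ≤ r := by
          by_contra hr
          have : r = 0 := by omega
          rw [this, pow_zero] at hN'
          omega
        have h2 : p * p ^ r = p ^ (r + 1) := by ring
        rw [h2] at hiN ⊢
        rw [cbar_pow_mul p r 1 hr i hiN, pow_one]
        split_ifs with hpi
        · obtain ⟨j, rfl⟩ := hpi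
          rw [Nat.mul_div_cancel_left _ hp.pos]
          refine hc j ?_ ?_
          · rcases Nat.eq_zero_or_pos j with rfl | hj
            · omega
            · exact hj
          · rw [← h2] at hiN
            exact Nat.lt_of_mul_lt_mul_left hiN
        · rw [mul_zero]
          exact ha i hi (by rw [h2]; exact hiN) hpi
      · have hNp : ¬ ∃ r, p * N' = p ^ r := by
          rintro ⟨r, hr⟩
          rcases r with _ | r
          · rw [pow_zero] at hr
            linarith
          · rw [pow_succ, mul_comm (p ^ r)] at hr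
            exact hN'p ⟨r, Nat.eq_of_mul_eq_mul_left hp.pos hr⟩
        rw [lz_cbar_of_not hNp]
        by_cases hpi : p ∣ i
        · obtain ⟨j, rfl⟩ := hpi
          rw [hch, ← lz_cbar_of_not hN'p]
          refine hc j ?_ (Nat.lt_of_mul_lt_mul_left hiN)
          rcases Nat.eq_zero_or_pos j with rfl | hj
          · omega
          · exact hj
        · rw [ha i hi hiN hpi]
          have h2 := lz_dvd_choose 1 N' i ((Nat.Prime.coprime_iff_not_dvd hp).2 hpi)
          rw [pow_one] at h2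
          rw [(CharP.cast_eq_zero_iff κ p _).2 h2, mul_zero]
  · have hN0 : (N : κ) ≠ 0 := by rwa [Ne, CharP.cast_eq_zero_iff κ p]
    have hNp : ¬ ∃ r, N = p ^ r := by
      rintro ⟨r, rfl⟩
      rcases r with _ | r
      · rw [pow_zero] at hN
        omega
      · exact hpN (dvd_pow_self p (Nat.succ_ne_zero r))
    have key : ∀ i, 1 ≤ i → i < N → ¬ p ∣ i → a i = a 1 / N * (N.choose i : κ) := by
      intro i hi hiN hpi
      have hi0 : (i : κ) ≠ 0 := by rwa [Ne, CharP.cast_eq_zero_iff κ p]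
      refine mul_left_cancel₀ hi0 ?_
      rw [lz_rel hcoc hi hiN, mul_left_comm, lz_mul_choose hi hiN]
      field_simp
    refine ⟨a 1 / N, fun i hi hiN => ?_⟩
    rw [lz_cbar_of_not hNp]
    by_cases hpi : p ∣ i
    · rw [hsymm i hi hiN, key (N - i) (by omega) (by omega), Nat.choose_symm hiN.le]
      intro h
      exact hpN (by
        have h2 : N = (N - i) + i := by omega
        rw [h2]
        exact dvd_add h hpi)
    · exact key i hi hiN hpi

end Lazard

section Abelian

/-- the number `d_N`: `p` if `N` is a positive power of the prime `p`, and `1` otherwise. -/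
def dC (N : ℕ) : ℕ := if IsPrimePow N then N.minFac else 1

/-- `cC N i` is the coefficient of `X^i Y^(N-i)` in Lazard's polynomial
`C_N(X,Y) = ((X+Y)^N - X^N - Y^N)/d_N`, for `0 < i < N`. -/
def cC (N i : ℕ) : ℕ := N.choose i / dC N

theorem dC_pow {p : ℕ} (hp : p.Prime) {k : ℕ} (hk : k ≠ 0) : dC (p ^ k) = p := by
  rw [dC, if_pos (hp.isPrimePow.pow hk), hp.pow_minFac hk]

theorem dC_of_not {N : ℕ} (h : ¬ IsPrimePow N) : dC N = 1 := if_neg h

theorem dC_pos {N : ℕ} : 0 < dC N := by
  unfold dC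
  split_ifs with h
  · exact Nat.minFac_pos N
  · exact one_pos

theorem dC_dvd_choose {N i : ℕ} (hi : 1 ≤ i) (hiN : i < N) : dC N ∣ N.choose i := by
  by_cases h : IsPrimePow N
  · obtain ⟨p, k, hp, hk, rfl⟩ := (isPrimePow_nat_iff N).1 h
    rw [dC_pow hp hk.ne']
    exact hp.dvd_choose_pow (by omega) (by omega)
  · rw [dC_of_not h]
    exact one_dvd _

theorem dC_mul_cC {N i : ℕ} (hi : 1 ≤ i) (hiN : i < N) : dC N * cC N i = N.choose i :=
  Nat.mul_div_cancel' (dC_dvd_choose hi hiN)

/-- `C_N` is primitive modulo every prime. -/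
theorem exists_not_dvd_cC {q : ℕ} (hq : q.Prime) {N : ℕ} (hN : 2 ≤ N) :
    ∃ i, 1 ≤ i ∧ i < N ∧ ¬ q ∣ cC N i := by
  have := Fact.mk hq
  obtain ⟨i, hi, hiN, h⟩ := exists_cbar_ne_zero (κ := ZMod q) q N hN
  refine ⟨i, hi, hiN, fun hd => h ?_⟩
  rw [CharP.cast_eq_zero_iff (ZMod q) q]
  by_cases h1 : ∃ r, N = q ^ r
  · obtain ⟨r, rfl⟩ := h1
    have hr : r ≠ 0 := by rintro rfl; rw [pow_zero] at hN; omega
    rw [lz_cbar_pow]
    rwa [cC, dC_pow hq hr] at hd
  · rw [lz_cbar_of_not h1, ← dC_mul_cC hi hiN]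
    exact Dvd.dvd.mul_left hd _

/-- Bezout: the coefficients of `C_N` generate the unit ideal. -/
theorem exists_bezout {N : ℕ} (hN : 2 ≤ N) :
    ∃ l : ℕ → ℤ, ∑ i ∈ Finset.Ioo 0 N, l i * (cC N i : ℤ) = 1 := by
  have h1 : Ideal.span ((fun i => (cC N i : ℤ)) '' (Finset.Ioo 0 N : Set ℕ)) = ⊤ := by
    by_contra hne
    obtain ⟨m, hm, hle⟩ := Ideal.exists_le_maximal _ hne
    have hmp := hm.isPrime
    have hmb : m ≠ ⊥ := by
      rintro rfl
      obtain ⟨i, hi, hiN, h2⟩ := exists_not_dvd_cC Nat.prime_two hN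
      have h3 : (cC N i : ℤ) ∈ (⊥ : Ideal ℤ) :=
        hle (Ideal.subset_span ⟨i, by simp only [Finset.coe_Ioo, Set.mem_Ioo]; omega, rfl⟩)
      rw [Ideal.mem_bot] at h3
      exact h2 (by rw [Int.natCast_eq_zero.1 h3]; exact dvd_zero 2)
    obtain ⟨g, hg⟩ := (IsPrincipalIdealRing.principal m).principal
    have hg' : m = Ideal.span {g} := hg
    have hgp : Prime g := by
      rw [← Ideal.span_singleton_prime]
      · rw [← hg']; exact hmp
      · rintro rfl
        exact hmb (by rw [hg']; simp)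
    have hq : g.natAbs.Prime := Int.prime_iff_natAbs_prime.1 hgp
    obtain ⟨i, hi, hiN, h2⟩ := exists_not_dvd_cC hq hN
    have h3 : (cC N i : ℤ) ∈ m :=
      hle (Ideal.subset_span ⟨i, by simp only [Finset.coe_Ioo, Set.mem_Ioo]; omega, rfl⟩)
    rw [hg', Ideal.mem_span_singleton, ← Int.natAbs_dvd_natAbs, Int.natAbs_natCast] at h3
    exact h2 h3
  have h2 : (1 : ℤ) ∈ Submodule.span ℤ ((fun i => (cC N i : ℤ)) '' (Finset.Ioo 0 N : Set ℕ)) := by
    have : (1 : ℤ) ∈ (⊤ : Ideal ℤ) := trivial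
    rwa [← h1] at this
  rw [Submodule.mem_span_image_finset_iff_exists_fun'] at h2
  obtain ⟨l, hl⟩ := h2
  exact ⟨l, by simpa only [smul_eq_mul] using hl⟩

/-- **Lazard's lemma** over an arbitrary abelian group: a symmetric 2-cocycle of the additive group
of degree `N` with values in `M` is a multiple of `C_N`. Here `a i` is the coefficient of
`X^i Y^(N-i)`. -/
theorem lazard_abelian {M : Type*} [AddCommGroup M] (N : ℕ) (hN : 2 ≤ N) (a : ℕ → M)
    (hsymm : ∀ i, 1 ≤ i → i < N → a i = a (N - i))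
    (hcoc : ∀ i j k, 1 ≤ i → 1 ≤ j → 1 ≤ k → i + j + k = N →
      ((j + k).choose j) • a i = ((i + j).choose i) • a (i + j))
    (l : ℕ → ℤ) (hl : ∑ i ∈ Finset.Ioo 0 N, l i * (cC N i : ℤ) = 1) :
    ∀ i, 1 ≤ i → i < N → a i = cC N i • ∑ j ∈ Finset.Ioo 0 N, l j • a j := by
  set m := ∑ j ∈ Finset.Ioo 0 N, l j • a j with hm
  -- the corrected cocycle
  let b : ℕ → M := fun i => a i - cC N i • m
  have hcCsymm : ∀ i, 1 ≤ i → i < N → cC N i = cC N (N - i) := fun i _ hiN => by
    rw [cC, cC, Nat.choose_symm hiN.le]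
  have hcCcoc : ∀ i j k, 1 ≤ i → 1 ≤ j → 1 ≤ k → i + j + k = N →
      (j + k).choose j * cC N i = (i + j).choose i * cC N (i + j) := by
    intro i j k hi hj hk hijk
    have h1 := dC_mul_cC (N := N) hi (by omega)
    have h2 := dC_mul_cC (N := N) (i := i + j) (by omega) (by omega)
    refine Nat.eq_of_mul_eq_mul_left (dC_pos (N := N)) ?_
    calc dC N * ((j + k).choose j * cC N i) = (j + k).choose j * (dC N * cC N i) := by ring
      _ = N.choose i * (N - i).choose j := by
        rw [h1, mul_comm, show N - i = j + k by omega]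
      _ = N.choose (i + j) * (i + j).choose i := by
        rw [Nat.choose_mul (n := N) (k := i + j) (s := i) (by omega), Nat.add_sub_cancel_left]
      _ = dC N * ((i + j).choose i * cC N (i + j)) := by rw [← h2]; ring
  have hbsymm : ∀ i, 1 ≤ i → i < N → b i = b (N - i) := fun i hi hiN => by
    simp only [b]
    rw [← hsymm i hi hiN, ← hcCsymm i hi hiN]
  have hbcoc : ∀ i j k, 1 ≤ i → 1 ≤ j → 1 ≤ k → i + j + k = N →
      ((j + k).choose j) • b i = ((i + j).choose i) • b (i + j) := by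
    intro i j k hi hj hk hijk
    simp only [b]
    rw [smul_sub, smul_sub, hcoc i j k hi hj hk hijk, smul_smul, smul_smul,
      hcCcoc i j k hi hj hk hijk]
  have hbsum : ∑ j ∈ Finset.Ioo 0 N, l j • b j = 0 := by
    simp only [b, smul_sub, Finset.sum_sub_distrib]
    rw [← hm, sub_eq_zero]
    have : ∀ j, l j • (cC N j • m) = (l j * (cC N j : ℤ)) • m := fun j => by
      rw [mul_smul, natCast_zsmul]
    simp only [this]
    rw [← Finset.sum_smul, hl, one_smul]
  suffices hb : ∀ i, 1 ≤ i → i < N → b i = 0 by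
    intro i hi hiN
    exact sub_eq_zero.1 (hb i hi hiN)
  -- the subgroup generated by `b`
  by_contra hcon
  push Not at hcon
  obtain ⟨i0, hi0, hi0N, hbi0⟩ := hcon
  let K : Submodule ℤ M := Submodule.span ℤ (b '' (Finset.Ioo 0 N : Set ℕ))
  have hbK : ∀ i, 1 ≤ i → i < N → b i ∈ K := fun i hi hiN =>
    Submodule.subset_span ⟨i, by simp only [Finset.coe_Ioo, Set.mem_Ioo]; omega, rfl⟩
  have hKfin : Module.Finite ℤ K := by
    classical
    rw [Module.Finite.iff_fg]
    exact ⟨(Finset.Ioo 0 N).image b, by rw [Finset.coe_image]⟩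
  have hKnt : Nontrivial K := ⟨⟨⟨b i0, hbK i0 hi0 hi0N⟩, 0, fun h => hbi0 (congrArg Subtype.val h)⟩⟩
  obtain ⟨P, hP⟩ : ∃ P : Submodule ℤ K, IsCoatom P := IsCoatomic.exists_coatom _
  have hsimple : IsSimpleModule ℤ (K ⧸ P) := isSimpleModule_iff_isCoatom.2 hP
  obtain ⟨I, hI, ⟨e⟩⟩ := isSimpleModule_iff_quot_maximal.1 hsimple
  let _ : Field (ℤ ⧸ I) := Ideal.Quotient.field I
  let f : K →+ ℤ ⧸ I := (e.toLinearMap.comp P.mkQ).toAddMonoidHom
  have hfs : Function.Surjective f := e.surjective.comp P.mkQ_surjective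
  -- the characteristic
  obtain ⟨p, hp⟩ := CharP.exists (ℤ ⧸ I)
  have hp0 : p ≠ 0 := by
    rintro rfl
    have hc0 : CharZero (ℤ ⧸ I) := CharP.charP_to_charZero _
    have hIb : I = ⊥ := by
      rw [eq_bot_iff]
      intro x hx
      rw [Ideal.mem_bot]
      have h1 : ((x : ℤ) : ℤ ⧸ I) = 0 := by
        rw [← map_intCast (Ideal.Quotient.mk I), Int.cast_id]
        exact Ideal.Quotient.eq_zero_iff_mem.2 hx
      exact_mod_cast h1
    have h2 := Ring.ne_bot_of_isMaximal_of_not_isField hI Int.not_isField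
    exact h2 hIb
  have hpp : p.Prime := (CharP.char_is_prime_or_zero (ℤ ⧸ I) p).resolve_right hp0
  have := Fact.mk hpp
  let c : ℕ → ℤ ⧸ I := fun i => if h : 1 ≤ i ∧ i < N then f ⟨b i, hbK i h.1 h.2⟩ else 0
  have hc : ∀ i (hi : 1 ≤ i) (hiN : i < N), c i = f ⟨b i, hbK i hi hiN⟩ := fun i hi hiN =>
    dif_pos ⟨hi, hiN⟩
  obtain ⟨t, ht⟩ := lazard_lemma p N hN c (fun i hi hiN => by
      rw [hc i hi hiN, hc (N - i) (by omega) (by omega)]
      congr 1
      exact Subtype.ext (hbsymm i hi hiN)) (fun i j k hi hj hk hijk => by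
      rw [hc i hi (by omega), hc (i + j) (by omega) (by omega), mul_comm, mul_comm (f _),
        ← nsmul_eq_mul, ← nsmul_eq_mul, ← map_nsmul, ← map_nsmul]
      congr 1
      exact Subtype.ext (hbcoc i j k hi hj hk hijk))
  have hsum : ∑ j ∈ Finset.Ioo 0 N, (l j : ℤ ⧸ I) * c j = 0 := by
    have h1 : (∑ j ∈ (Finset.Ioo 0 N).attach, l j.1 • (⟨b j.1, hbK j.1
        (by have := j.2; rw [Finset.mem_Ioo] at this; omega)
        (by have := j.2; rw [Finset.mem_Ioo] at this; omega)⟩ : K)) = 0 := by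
      apply Subtype.ext
      rw [AddSubmonoidClass.coe_finsetSum, ZeroMemClass.coe_zero, ← hbsum,
        ← Finset.sum_attach (Finset.Ioo 0 N)]
      rfl
    have h2 := congrArg f h1
    rw [map_sum, map_zero] at h2
    rw [← Finset.sum_attach (Finset.Ioo 0 N), ← h2]
    refine Finset.sum_congr rfl fun j _ => ?_
    have hj := j.2
    rw [Finset.mem_Ioo] at hj
    rw [map_zsmul, zsmul_eq_mul, hc j.1 (by omega) hj.2]
  have ht0 : t = 0 := by
    have h1 : t * ∑ j ∈ Finset.Ioo 0 N, (l j : ℤ ⧸ I) * (cbar p N j : ℤ ⧸ I) = 0 := by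
      rw [← hsum, Finset.mul_sum]
      refine Finset.sum_congr rfl fun j hj => ?_
      rw [Finset.mem_Ioo] at hj
      rw [ht j (by omega) hj.2]
      ring
    have hl' : ∑ j ∈ Finset.Ioo 0 N, (l j : ℤ ⧸ I) * (cC N j : ℤ ⧸ I) = 1 := by
      have := congrArg (Int.cast : ℤ → ℤ ⧸ I) hl
      push_cast at this
      exact this
    by_cases hNp : ∃ r, N = p ^ r
    · obtain ⟨r, hr⟩ := hNp
      have hr0 : r ≠ 0 := by rintro rfl; rw [pow_zero] at hr; omega
      have h2 : ∀ j, cbar p N j = cC N j := fun j => by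
        rw [hr, lz_cbar_pow, cC, dC_pow hpp hr0]
      simp only [h2] at h1
      rwa [hl', mul_one] at h1
    · have h2 : ∀ j ∈ Finset.Ioo 0 N, (l j : ℤ ⧸ I) * (cbar p N j : ℤ ⧸ I) =
          (dC N : ℤ ⧸ I) * ((l j : ℤ ⧸ I) * (cC N j : ℤ ⧸ I)) := fun j hj => by
        rw [Finset.mem_Ioo] at hj
        rw [lz_cbar_of_not hNp, ← dC_mul_cC (by omega) hj.2]
        push_cast
        ring
      rw [Finset.sum_congr rfl h2, ← Finset.mul_sum, hl', mul_one] at h1
      refine (mul_eq_zero.1 h1).resolve_right ?_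
      intro hd
      rw [CharP.cast_eq_zero_iff (ℤ ⧸ I) p] at hd
      by_cases hNq : IsPrimePow N
      · obtain ⟨q, k, hq, hk, rfl⟩ := (isPrimePow_nat_iff N).1 hNq
        rw [dC_pow hq hk.ne', Nat.prime_dvd_prime_iff_eq hpp hq] at hd
        exact hNp ⟨k, by rw [hd]⟩
      · rw [dC_of_not hNq] at hd
        exact hpp.one_lt.ne' (Nat.dvd_one.1 hd)
  have hc0 : ∀ i, 1 ≤ i → i < N → c i = 0 := fun i hi hiN => by
    rw [ht i hi hiN, ht0, zero_mul]
  -- `f` vanishes
  have hker : ∀ x : M, ∀ hx : x ∈ K, f ⟨x, hx⟩ = 0 := by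
    intro x hx
    induction hx using Submodule.span_induction with
    | mem x hx =>
      obtain ⟨i, hi, rfl⟩ := hx
      simp only [Finset.coe_Ioo, Set.mem_Ioo] at hi
      rw [← hc i (by omega) hi.2]
      exact hc0 i (by omega) hi.2
    | zero => exact map_zero f
    | add x y hx hy h1 h2 =>
      have h3 := map_add f ⟨x, hx⟩ ⟨y, hy⟩
      rw [h1, h2, add_zero] at h3
      exact h3
    | smul n x hx h1 =>
      have h3 := map_zsmul f n ⟨x, hx⟩
      rw [h1, smul_zero] at h3
      exact h3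
  obtain ⟨x, hx⟩ := hfs 1
  rw [show x = ⟨x.1, x.2⟩ from rfl, hker] at hx
  exact zero_ne_one hx

end Abelian

end Vale.Agent.P251.F
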