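import Mathlib.RingTheory.FormalGroup.Basic
import Mathlib.RingTheory.MvPowerSeries.Order
import Mathlib.Tactic

/-!
# P251, part F: congruences of power series modulo total degree

`ordI τ R N` is the ideal of the power series in the variables `τ` all of whose coefficients in
total degree `< N` vanish.
-/

namespace Vale.Agent.P251.F

open MvPowerSeries Finsupp

section Ord

variable {σ τ : Type*} {R : Type*} [CommRing R]

/-- power series all of whose coefficients in total degree `< N` vanish. -/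
def ordI (τ : Type*) (R : Type*) [CommRing R] (N : ℕ) : Ideal (MvPowerSeries τ R) where
  carrier := {f | ∀ d : τ →₀ ℕ, d.degree < N → coeff d f = 0}
  add_mem' {f g} hf hg d hd := by rw [map_add, hf d hd, hg d hd, add_zero]
  zero_mem' d _ := map_zero _
  smul_mem' c f hf d hd := by
    classical
    rw [smul_eq_mul, coeff_mul]
    refine Finset.sum_eq_zero fun x hx => ?_
    rw [Finset.mem_antidiagonal] at hx
    rw [hf x.2 ?_, mul_zero]
    refine lt_of_le_of_lt ?_ hd
    rw [← hx, map_add]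
    exact Nat.le_add_left _ _

theorem mem_ordI {N : ℕ} {f : MvPowerSeries τ R} :
    f ∈ ordI τ R N ↔ ∀ d : τ →₀ ℕ, d.degree < N → coeff d f = 0 := Iff.rfl

theorem mem_ordI_iff_le_order {N : ℕ} {f : MvPowerSeries τ R} :
    f ∈ ordI τ R N ↔ (N : ℕ∞) ≤ f.order := by
  rw [mem_ordI]
  constructor
  · intro h
    exact nat_le_order h
  · intro h d hd
    exact coeff_of_lt_order (lt_of_lt_of_le (by exact_mod_cast hd) h)

theorem ordI_anti {M N : ℕ} (h : M ≤ N) : ordI τ R N ≤ ordI τ R M :=
  fun _ hf d hd => hf d (hd.trans_le h)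

theorem ordI_zero : ordI τ R 0 = ⊤ := by
  rw [eq_top_iff]
  intro f _ d hd
  exact absurd hd (Nat.not_lt_zero _)

theorem mem_ordI_zero (f : MvPowerSeries τ R) : f ∈ ordI τ R 0 := by
  rw [ordI_zero]; trivial

theorem mem_ordI_one {f : MvPowerSeries τ R} : f ∈ ordI τ R 1 ↔ constantCoeff f = 0 := by
  constructor
  · intro h
    rw [← coeff_zero_eq_constantCoeff_apply]
    exact h 0 (by simp)
  · intro h d hd
    have : d = 0 := by
      rw [← Finsupp.degree_eq_zero_iff]
      omega
    rw [this, coeff_zero_eq_constantCoeff_apply, h]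

theorem ordI_mul {M N : ℕ} {f g : MvPowerSeries τ R} (hf : f ∈ ordI τ R M)
    (hg : g ∈ ordI τ R N) : f * g ∈ ordI τ R (M + N) := by
  classical
  intro d hd
  rw [coeff_mul]
  refine Finset.sum_eq_zero fun x hx => ?_
  rw [Finset.mem_antidiagonal] at hx
  have h1 : x.1.degree + x.2.degree = d.degree := by rw [← map_add, hx]
  rcases lt_or_ge x.1.degree M with h | h
  · rw [hf x.1 h, zero_mul]
  · rw [hg x.2 (by omega), mul_zero]

theorem ordI_pow {f : MvPowerSeries τ R} (hf : f ∈ ordI τ R 1) (n : ℕ) :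
    f ^ n ∈ ordI τ R n := by
  induction n with
  | zero => exact mem_ordI_zero _
  | succ n ih => rw [pow_succ]; exact ordI_mul ih hf

theorem ordI_X (i : τ) : (X i : MvPowerSeries τ R) ∈ ordI τ R 1 :=
  mem_ordI_one.2 (constantCoeff_X i)

theorem ordI_map {S : Type*} [CommRing S] (φ : R →+* S) {N : ℕ} {f : MvPowerSeries τ R}
    (hf : f ∈ ordI τ R N) : MvPowerSeries.map φ f ∈ ordI τ S N := fun d hd => by
  rw [coeff_map, hf d hd, map_zero]

/-- an element lying in all `ordI N` vanishes. -/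
theorem eq_zero_of_forall_ordI {f : MvPowerSeries τ R} (h : ∀ N, f ∈ ordI τ R N) : f = 0 := by
  ext d
  exact h (d.degree + 1) d (Nat.lt_succ_self _)

theorem eq_of_forall_ordI {f g : MvPowerSeries τ R} (h : ∀ N, f - g ∈ ordI τ R N) : f = g :=
  sub_eq_zero.1 (eq_zero_of_forall_ordI h)

theorem coeff_eq_of_sub_mem {N : ℕ} {f g : MvPowerSeries τ R} (h : f - g ∈ ordI τ R N)
    {d : τ →₀ ℕ} (hd : d.degree < N) : coeff d f = coeff d g := by
  have := h d hd
  rwa [map_sub, sub_eq_zero] at this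

variable [Finite σ]

theorem hasSubst_of_ordI {a : σ → MvPowerSeries τ R} (ha : ∀ i, a i ∈ ordI τ R 1) :
    HasSubst a := hasSubst_of_constantCoeff_zero fun i => mem_ordI_one.1 (ha i)

omit [Finite σ] in
/-- the monomials in series without constant term. -/
theorem prod_mem_ordI {a : σ → MvPowerSeries τ R} (ha : ∀ i, a i ∈ ordI τ R 1) (d : σ →₀ ℕ) :
    (d.prod fun s e => a s ^ e) ∈ ordI τ R d.degree := by
  classical
  induction d using Finsupp.induction_linear with
  | zero => exact mem_ordI_zero _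
  | add f g hf hg =>
    rw [Finsupp.prod_add_index' (fun _ => pow_zero _) (fun _ _ _ => pow_add _ _ _), map_add]
    exact ordI_mul hf hg
  | single i n =>
    rw [Finsupp.prod_single_index (h := fun s e => a s ^ e) (pow_zero _), degree_single]
    exact ordI_pow (ha i) n

/-- differences of monomials in series without constant term. -/
theorem prod_sub_prod_mem {a b : σ → MvPowerSeries τ R} (ha : ∀ i, a i ∈ ordI τ R 1)
    (hb : ∀ i, b i ∈ ordI τ R 1) {N : ℕ} (hab : ∀ i, a i - b i ∈ ordI τ R (N + 1))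
    (d : σ →₀ ℕ) :
    (d.prod fun s e => a s ^ e) - (d.prod fun s e => b s ^ e) ∈ ordI τ R (N + d.degree) := by
  classical
  induction d using Finsupp.induction_linear with
  | zero =>
    rw [Finsupp.prod_zero_index, Finsupp.prod_zero_index, sub_self]
    exact Ideal.zero_mem _
  | add f g hf hg =>
    rw [Finsupp.prod_add_index' (fun _ => pow_zero _) (fun _ _ _ => pow_add _ _ _),
      Finsupp.prod_add_index' (fun _ => pow_zero _) (fun _ _ _ => pow_add _ _ _), map_add]
    have h1 : (f.prod fun s e => a s ^ e) * (g.prod fun s e => a s ^ e) -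
        (f.prod fun s e => b s ^ e) * (g.prod fun s e => b s ^ e) =
        ((f.prod fun s e => a s ^ e) - (f.prod fun s e => b s ^ e)) *
          (g.prod fun s e => a s ^ e) +
        (f.prod fun s e => b s ^ e) * ((g.prod fun s e => a s ^ e) -
          (g.prod fun s e => b s ^ e)) := by ring
    rw [h1]
    refine Ideal.add_mem _ ?_ ?_
    · have := ordI_mul hf (prod_mem_ordI ha g)
      rwa [add_assoc] at this
    · have := ordI_mul (prod_mem_ordI hb f) hg
      rwa [← add_assoc, add_comm f.degree N, add_assoc] at this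
  | single i n =>
    rw [Finsupp.prod_single_index (h := fun s e => a s ^ e) (pow_zero _),
      Finsupp.prod_single_index (h := fun s e => b s ^ e) (pow_zero _), degree_single]
    induction n with
    | zero => rw [pow_zero, pow_zero, sub_self]; exact Ideal.zero_mem _
    | succ n ih =>
      have h1 : a i ^ (n + 1) - b i ^ (n + 1) =
          (a i ^ n - b i ^ n) * a i + b i ^ n * (a i - b i) := by ring
      rw [h1]
      refine Ideal.add_mem _ ?_ ?_
      · have := ordI_mul ih (ha i)
        rwa [add_assoc] at this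
      · have := ordI_mul (ordI_pow (hb i) n) (hab i)
        rwa [← add_assoc, add_comm n N, add_assoc] at this

/-- substitution of series without constant term does not lower the order. -/
theorem subst_mem_ordI {a : σ → MvPowerSeries τ R} (ha : ∀ i, a i ∈ ordI τ R 1) {k : ℕ}
    {F : MvPowerSeries σ R} (hF : F ∈ ordI σ R k) : subst a F ∈ ordI τ R k := by
  intro e he
  rw [coeff_subst (hasSubst_of_ordI ha), finsum_eq_zero_of_forall_eq_zero]
  intro d
  rcases lt_or_ge d.degree k with h | h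
  · rw [hF d h, zero_smul]
  · rw [prod_mem_ordI ha d e (he.trans_le h), smul_zero]

/-- substitution of `a ≡ b mod degree N+1` in a series of order `≥ k`. -/
theorem subst_sub_subst_mem_ordI {a b : σ → MvPowerSeries τ R} (ha : ∀ i, a i ∈ ordI τ R 1)
    (hb : ∀ i, b i ∈ ordI τ R 1) {N : ℕ} (hab : ∀ i, a i - b i ∈ ordI τ R (N + 1)) {k : ℕ}
    {F : MvPowerSeries σ R} (hF : F ∈ ordI σ R k) :
    subst a F - subst b F ∈ ordI τ R (N + k) := by
  intro e he
  rw [map_sub, coeff_subst (hasSubst_of_ordI ha), coeff_subst (hasSubst_of_ordI hb), sub_eq_zero]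
  refine finsum_congr fun d => ?_
  rcases lt_or_ge d.degree k with h | h
  · rw [hF d h, zero_smul, zero_smul]
  · congr 1
    have := prod_sub_prod_mem ha hb hab d e (by omega)
    rwa [map_sub, sub_eq_zero] at this

end Ord

section Pair

variable {τ : Type*} {R : Type*} [CommRing R]

theorem pair_mem {a b : MvPowerSeries τ R} {N : ℕ} (ha : a ∈ ordI τ R N) (hb : b ∈ ordI τ R N) :
    ∀ i, (![a, b] : Fin 2 → MvPowerSeries τ R) i ∈ ordI τ R N := by
  intro i
  fin_cases i
  · exact ha
  · exact hb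

theorem pair_sub_mem {a b a' b' : MvPowerSeries τ R} {N : ℕ} (ha : a - a' ∈ ordI τ R N)
    (hb : b - b' ∈ ordI τ R N) :
    ∀ i, (![a, b] : Fin 2 → MvPowerSeries τ R) i - (![a', b'] : Fin 2 → MvPowerSeries τ R) i ∈
      ordI τ R N := by
  intro i
  fin_cases i
  · exact ha
  · exact hb

/-- `F(X,Y) = X + Y + (terms of degree ≥ 2)`. -/
def IsLaw (F : MvPowerSeries (Fin 2) R) : Prop := F - (X 0 + X 1) ∈ ordI (Fin 2) R 2

theorem IsLaw.mem_one {F : MvPowerSeries (Fin 2) R} (hF : IsLaw F) : F ∈ ordI (Fin 2) R 1 := by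
  have h1 : F = (F - (X 0 + X 1)) + (X 0 + X 1) := by ring
  rw [h1]
  exact Ideal.add_mem _ (ordI_anti one_le_two hF) (Ideal.add_mem _ (ordI_X 0) (ordI_X 1))

theorem isLaw_formalGroup (F : FormalGroup R) : IsLaw F.toPowerSeries := by
  classical
  intro d hd
  have h1 : d = 0 ∨ d = single 0 1 ∨ d = single 1 1 := by
    have h2 : d.degree = d 0 + d 1 := by
      rw [Finsupp.degree_eq_sum, Fin.sum_univ_two]
    rw [h2] at hd
    have h3 : (d 0 = 0 ∧ d 1 = 0) ∨ (d 0 = 1 ∧ d 1 = 0) ∨ (d 0 = 0 ∧ d 1 = 1) := by omega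
    rcases h3 with h | h | h
    · left; ext i; fin_cases i <;> simp [h.1, h.2]
    · right; left; ext i; fin_cases i <;> simp [h.1, h.2]
    · right; right; ext i; fin_cases i <;> simp [h.1, h.2]
  have h01 : (single (0 : Fin 2) 1 : Fin 2 →₀ ℕ) ≠ single 1 1 := by
    intro h
    have := DFunLike.congr_fun h 0
    simp at this
  rcases h1 with rfl | rfl | rfl
  · simp [F.zero_constantCoeff]
  · rw [map_sub, map_add, F.lin_coeff_X, coeff_X, coeff_X, if_pos rfl, if_neg h01]
    simp
  · rw [map_sub, map_add, F.lin_coeff_Y, coeff_X, coeff_X, if_pos rfl, if_neg h01.symm]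
    simp

theorem subst_X_pair_add {a b : MvPowerSeries τ R} (ha : a ∈ ordI τ R 1) (hb : b ∈ ordI τ R 1)
    (F : MvPowerSeries (Fin 2) R) :
    subst ![a, b] F = subst ![a, b] (F - (X 0 + X 1)) + (a + b) := by
  have hs : HasSubst ![a, b] := hasSubst_of_ordI (pair_mem ha hb)
  rw [subst_sub hs, subst_add hs, subst_X hs, subst_X hs]
  simp

/-- the first order expansion of a law under perturbation of the arguments. -/
theorem IsLaw.perturb {F : MvPowerSeries (Fin 2) R} (hF : IsLaw F) {a b a' b' : MvPowerSeries τ R}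
    (ha : a ∈ ordI τ R 1) (hb : b ∈ ordI τ R 1) (ha' : a' ∈ ordI τ R 1) (hb' : b' ∈ ordI τ R 1)
    {N : ℕ} (h1 : a - a' ∈ ordI τ R N) (h2 : b - b' ∈ ordI τ R N) :
    subst ![a, b] F - subst ![a', b'] F - ((a - a') + (b - b')) ∈ ordI τ R (N + 1) := by
  rw [subst_X_pair_add ha hb, subst_X_pair_add ha' hb']
  have h3 : subst ![a, b] (F - (X 0 + X 1)) + (a + b) -
      (subst ![a', b'] (F - (X 0 + X 1)) + (a' + b')) - ((a - a') + (b - b')) =
      subst ![a, b] (F - (X 0 + X 1)) - subst ![a', b'] (F - (X 0 + X 1)) := by ring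
  rw [h3]
  rcases Nat.eq_zero_or_pos N with rfl | hN
  · exact ordI_anti (by omega) (Ideal.sub_mem _ (subst_mem_ordI (pair_mem ha hb) hF)
      (subst_mem_ordI (pair_mem ha' hb') hF))
  · obtain ⟨M, rfl⟩ : ∃ M, N = M + 1 := ⟨N - 1, by omega⟩
    have := subst_sub_subst_mem_ordI (pair_mem ha hb) (pair_mem ha' hb') (pair_sub_mem h1 h2) hF
    rwa [show M + 2 = M + 1 + 1 by ring] at this

/-- a law evaluated at two series is their sum up to degree 2. -/
theorem IsLaw.subst_sub {F : MvPowerSeries (Fin 2) R} (hF : IsLaw F) {a b : MvPowerSeries τ R}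
    (ha : a ∈ ordI τ R 1) (hb : b ∈ ordI τ R 1) :
    subst ![a, b] F - (a + b) ∈ ordI τ R 2 := by
  rw [subst_X_pair_add ha hb, add_sub_cancel_right]
  exact subst_mem_ordI (pair_mem ha hb) hF

theorem IsLaw.subst_mem {F : MvPowerSeries (Fin 2) R} (hF : IsLaw F) {a b : MvPowerSeries τ R}
    {N : ℕ} (hN : 1 ≤ N) (ha : a ∈ ordI τ R N) (hb : b ∈ ordI τ R N) :
    subst ![a, b] F ∈ ordI τ R N := by
  obtain ⟨M, rfl⟩ : ∃ M, N = M + 1 := ⟨N - 1, by omega⟩
  have h := subst_sub_subst_mem_ordI (a := ![a, b]) (b := ![0, 0])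
    (pair_mem (ordI_anti (by omega) ha) (ordI_anti (by omega) hb))
    (pair_mem (Ideal.zero_mem _) (Ideal.zero_mem _)) (N := M)
    (pair_sub_mem (by rwa [sub_zero]) (by rwa [sub_zero])) hF.mem_one
  have h0 : subst (![0, 0] : Fin 2 → MvPowerSeries τ R) F = 0 := by
    have : (![0, 0] : Fin 2 → MvPowerSeries τ R) = 0 := by
      ext1 i; fin_cases i <;> rfl
    rw [this]
    exact subst_zero_of_constantCoeff_zero (mem_ordI_one.1 hF.mem_one)
  rwa [h0, sub_zero] at h

/-- perturbation of a homogeneous part. -/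
theorem subst_perturb_of_mem {Γ : MvPowerSeries (Fin 2) R} {N : ℕ} (hΓ : Γ ∈ ordI (Fin 2) R N)
    {a b a' b' : MvPowerSeries τ R} (ha : a ∈ ordI τ R 1) (hb : b ∈ ordI τ R 1)
    (ha' : a' ∈ ordI τ R 1) (hb' : b' ∈ ordI τ R 1)
    (h1 : a - a' ∈ ordI τ R 2) (h2 : b - b' ∈ ordI τ R 2) :
    subst ![a, b] Γ - subst ![a', b'] Γ ∈ ordI τ R (N + 1) := by
  have := subst_sub_subst_mem_ordI (pair_mem ha hb) (pair_mem ha' hb') (pair_sub_mem h1 h2) hΓ
  rwa [add_comm 1 N] at this

end Pair

end Vale.Agent.P251.F
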