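import Vale.Agent.P251.F.Cocycle
import Vale.Agent.P251.F.Ord

/-!
# P251, part F: the comparison lemma for formal group laws

If two laws agree in total degrees `< N`, their difference in degree `N` is a symmetric 2-cocycle.
Everything is stated modulo an additive subgroup `S` of the coefficient ring, so that it can be
used both with `S = 0` (comparison of two formal group laws) and with `S` a subring (generation of
the Lazard ring).
-/

namespace Vale.Agent.P251.F

open MvPowerSeries Finsupp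

/-- the exponent of `X^i Y^j`. -/
noncomputable def e2 (i j : ℕ) : Fin 2 →₀ ℕ := single 0 i + single 1 j

/-- the exponent of `X^i Y^j Z^k`. -/
noncomputable def e3 (i j k : ℕ) : Fin 3 →₀ ℕ := single 0 i + single 1 j + single 2 k

theorem e2_zero (i j : ℕ) : e2 i j 0 = i := by simp [e2]
theorem e2_one (i j : ℕ) : e2 i j 1 = j := by simp [e2]
theorem e3_zero (i j k : ℕ) : e3 i j k 0 = i := by simp [e3]
theorem e3_one (i j k : ℕ) : e3 i j k 1 = j := by simp [e3]
theorem e3_two (i j k : ℕ) : e3 i j k 2 = k := by simp [e3]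

theorem degree_e2 (i j : ℕ) : (e2 i j).degree = i + j := by
  rw [e2, map_add, degree_single, degree_single]

theorem degree_e3 (i j k : ℕ) : (e3 i j k).degree = i + j + k := by
  rw [e3, map_add, map_add, degree_single, degree_single, degree_single]

theorem e2_eta (d : Fin 2 →₀ ℕ) : e2 (d 0) (d 1) = d := by
  ext i; fin_cases i
  · exact e2_zero _ _
  · exact e2_one _ _

theorem e2_inj {i j i' j' : ℕ} : e2 i j = e2 i' j' ↔ i = i' ∧ j = j' := by
  constructor
  · intro h
    have h0 := DFunLike.congr_fun h 0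
    have h1 := DFunLike.congr_fun h 1
    rw [e2_zero, e2_zero] at h0
    rw [e2_one, e2_one] at h1
    exact ⟨h0, h1⟩
  · rintro ⟨rfl, rfl⟩; rfl

theorem e3_inj {i j k i' j' k' : ℕ} : e3 i j k = e3 i' j' k' ↔ i = i' ∧ j = j' ∧ k = k' := by
  constructor
  · intro h
    have h0 := DFunLike.congr_fun h 0
    have h1 := DFunLike.congr_fun h 1
    have h2 := DFunLike.congr_fun h 2
    rw [e3_zero, e3_zero] at h0
    rw [e3_one, e3_one] at h1
    rw [e3_two, e3_two] at h2
    exact ⟨h0, h1, h2⟩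
  · rintro ⟨rfl, rfl, rfl⟩; rfl

theorem e2_degree_eta (d : Fin 2 →₀ ℕ) : d.degree = d 0 + d 1 := by
  conv_lhs => rw [← e2_eta d]
  exact degree_e2 _ _

section

variable {τ : Type*} {R : Type*} [CommRing R]

theorem coeff_subst_pair {a b : MvPowerSeries τ R} (ha : a ∈ ordI τ R 1) (hb : b ∈ ordI τ R 1)
    (Γ : MvPowerSeries (Fin 2) R) (e : τ →₀ ℕ) :
    coeff e (subst ![a, b] Γ) = ∑ᶠ d : Fin 2 →₀ ℕ, coeff d Γ * coeff e (a ^ d 0 * b ^ d 1) := by
  rw [coeff_subst (hasSubst_of_ordI (pair_mem ha hb))]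
  refine finsum_congr fun d => ?_
  rw [smul_eq_mul, Finsupp.prod_fintype _ _ (fun _ => pow_zero _), Fin.prod_univ_two]
  rfl

theorem X_pow_mul3 (i j k : ℕ) :
    (X 0 : MvPowerSeries (Fin 3) R) ^ i * X 1 ^ j * X 2 ^ k = monomial (e3 i j k) 1 := by
  rw [X_pow_eq, X_pow_eq, X_pow_eq, monomial_mul_monomial, monomial_mul_monomial, one_mul,
    one_mul, e3]

/-- coefficients of `(X+Y)^a Z^b`. -/
theorem coeff_add_pow_mul (i j k a b : ℕ) :
    coeff (e3 i j k) (((X 0 : MvPowerSeries (Fin 3) R) + X 1) ^ a * X 2 ^ b) =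
      if a = i + j ∧ b = k then (((i + j).choose i : ℕ) : R) else 0 := by
  classical
  rw [add_pow, Finset.sum_mul, map_sum]
  have h1 : ∀ m ∈ Finset.range (a + 1), coeff (e3 i j k)
      ((X 0 : MvPowerSeries (Fin 3) R) ^ m * X 1 ^ (a - m) * ((a.choose m : ℕ) :
        MvPowerSeries (Fin 3) R) * X 2 ^ b) =
      if m = i ∧ (a = i + j ∧ b = k) then ((a.choose i : ℕ) : R) else 0 := by
    intro m hm
    rw [Finset.mem_range] at hm
    have h2 : (X 0 : MvPowerSeries (Fin 3) R) ^ m * X 1 ^ (a - m) * ((a.choose m : ℕ) :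
        MvPowerSeries (Fin 3) R) * X 2 ^ b = (a.choose m) • monomial (e3 m (a - m) b) (1 : R) := by
      rw [← X_pow_mul3, nsmul_eq_mul]
      ring
    rw [h2, map_nsmul, coeff_monomial]
    by_cases h3 : m = i ∧ (a = i + j ∧ b = k)
    · rw [if_pos h3, if_pos (e3_inj.2 (by omega)), nsmul_eq_mul, mul_one, h3.1]
    · rw [if_neg h3, if_neg (fun h4 => h3 (by rw [e3_inj] at h4; omega)), smul_zero]
  rw [Finset.sum_congr rfl h1]
  by_cases h3 : a = i + j ∧ b = k
  · simp only [h3, and_self, and_true, if_true]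
    rw [Finset.sum_ite_eq' (Finset.range (i + j + 1)) i, if_pos (by rw [Finset.mem_range]; omega)]
  · simp only [h3, and_false, if_false]
    exact Finset.sum_const_zero

/-- coefficients of `X^a (Y+Z)^b`. -/
theorem coeff_mul_add_pow (i j k a b : ℕ) :
    coeff (e3 i j k) ((X 0 : MvPowerSeries (Fin 3) R) ^ a * (X 1 + X 2) ^ b) =
      if a = i ∧ b = j + k then (((j + k).choose j : ℕ) : R) else 0 := by
  classical
  rw [add_pow, Finset.mul_sum, map_sum]
  have h1 : ∀ m ∈ Finset.range (b + 1), coeff (e3 i j k)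
      ((X 0 : MvPowerSeries (Fin 3) R) ^ a * (X 1 ^ m * X 2 ^ (b - m) * ((b.choose m : ℕ) :
        MvPowerSeries (Fin 3) R))) =
      if m = j ∧ (a = i ∧ b = j + k) then ((b.choose j : ℕ) : R) else 0 := by
    intro m hm
    rw [Finset.mem_range] at hm
    have h2 : (X 0 : MvPowerSeries (Fin 3) R) ^ a * (X 1 ^ m * X 2 ^ (b - m) * ((b.choose m : ℕ) :
        MvPowerSeries (Fin 3) R)) = (b.choose m) • monomial (e3 a m (b - m)) (1 : R) := by
      rw [← X_pow_mul3, nsmul_eq_mul]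
      ring
    rw [h2, map_nsmul, coeff_monomial]
    by_cases h3 : m = j ∧ (a = i ∧ b = j + k)
    · rw [if_pos h3, if_pos (e3_inj.2 (by omega)), nsmul_eq_mul, mul_one, h3.1]
    · rw [if_neg h3, if_neg (fun h4 => h3 (by rw [e3_inj] at h4; omega)), smul_zero]
  rw [Finset.sum_congr rfl h1]
  by_cases h3 : a = i ∧ b = j + k
  · simp only [h3, and_self, and_true, if_true]
    rw [Finset.sum_ite_eq' (Finset.range (j + k + 1)) j, if_pos (by rw [Finset.mem_range]; omega)]
  · simp only [h3, and_false, if_false]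
    exact Finset.sum_const_zero

theorem add_X_mem (i j : τ) : (X i + X j : MvPowerSeries τ R) ∈ ordI τ R 1 :=
  Ideal.add_mem _ (ordI_X i) (ordI_X j)

/-- coefficients of `Γ(X+Y, Z)`. -/
theorem coeff_subst_left (Γ : MvPowerSeries (Fin 2) R) (i j k : ℕ) :
    coeff (e3 i j k) (subst ![(X 0 + X 1 : MvPowerSeries (Fin 3) R), X 2] Γ) =
      ((i + j).choose i) • coeff (e2 (i + j) k) Γ := by
  rw [coeff_subst_pair (add_X_mem 0 1) (ordI_X 2), finsum_eq_single _ (e2 (i + j) k)]
  · rw [e2_zero, e2_one, coeff_add_pow_mul, if_pos ⟨rfl, rfl⟩, nsmul_eq_mul, mul_comm]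
  · intro d hd
    rw [coeff_add_pow_mul, if_neg, mul_zero]
    rintro ⟨h1, h2⟩
    exact hd (by rw [← e2_eta d, h1, h2])

/-- coefficients of `Γ(X, Y+Z)`. -/
theorem coeff_subst_right (Γ : MvPowerSeries (Fin 2) R) (i j k : ℕ) :
    coeff (e3 i j k) (subst ![(X 0 : MvPowerSeries (Fin 3) R), X 1 + X 2] Γ) =
      ((j + k).choose j) • coeff (e2 i (j + k)) Γ := by
  rw [coeff_subst_pair (ordI_X 0) (add_X_mem 1 2), finsum_eq_single _ (e2 i (j + k))]
  · rw [e2_zero, e2_one, coeff_mul_add_pow, if_pos ⟨rfl, rfl⟩, nsmul_eq_mul, mul_comm]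
  · intro d hd
    rw [coeff_mul_add_pow, if_neg, mul_zero]
    rintro ⟨h1, h2⟩
    exact hd (by rw [← e2_eta d, h1, h2])

/-- `Γ(X, Y)` does not involve `Z`. -/
theorem coeff_subst_XY (Γ : MvPowerSeries (Fin 2) R) (i j k : ℕ) (hk : k ≠ 0) :
    coeff (e3 i j k) (subst ![(X 0 : MvPowerSeries (Fin 3) R), X 1] Γ) = 0 := by
  classical
  rw [coeff_subst_pair (ordI_X 0) (ordI_X 1), finsum_eq_zero_of_forall_eq_zero]
  intro d
  have h1 : (X 0 : MvPowerSeries (Fin 3) R) ^ d 0 * X 1 ^ d 1 = monomial (e3 (d 0) (d 1) 0) 1 := by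
    rw [← X_pow_mul3, pow_zero, mul_one]
  rw [h1, coeff_monomial, if_neg, mul_zero]
  rw [e3_inj]
  omega

/-- `Γ(Y, Z)` does not involve `X`. -/
theorem coeff_subst_YZ (Γ : MvPowerSeries (Fin 2) R) (i j k : ℕ) (hi : i ≠ 0) :
    coeff (e3 i j k) (subst ![(X 1 : MvPowerSeries (Fin 3) R), X 2] Γ) = 0 := by
  classical
  rw [coeff_subst_pair (ordI_X 1) (ordI_X 2), finsum_eq_zero_of_forall_eq_zero]
  intro d
  have h1 : (X 1 : MvPowerSeries (Fin 3) R) ^ d 0 * X 2 ^ d 1 = monomial (e3 0 (d 0) (d 1)) 1 := by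
    rw [← X_pow_mul3, pow_zero, one_mul]
  rw [h1, coeff_monomial, if_neg, mul_zero]
  rw [e3_inj]
  omega

/-- `F(F(X,Y),Z)`. -/
noncomputable def asL (F : MvPowerSeries (Fin 2) R) : MvPowerSeries (Fin 3) R :=
  subst ![(subst ![(X 0 : MvPowerSeries (Fin 3) R), X 1] F : MvPowerSeries (Fin 3) R), X 2] F

/-- `F(X,F(Y,Z))`. -/
noncomputable def asR (F : MvPowerSeries (Fin 2) R) : MvPowerSeries (Fin 3) R :=
  subst ![(X 0 : MvPowerSeries (Fin 3) R), subst ![(X 1 : MvPowerSeries (Fin 3) R), X 2] F] F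

theorem asL_eq_asR (F : FormalGroup R) : asL F.toPowerSeries = asR F.toPowerSeries := F.assoc

variable {F F' : MvPowerSeries (Fin 2) R}

theorem asL_sub_asL (hF : IsLaw F) (hF' : IsLaw F') {N : ℕ}
    (h : F - F' ∈ ordI (Fin 2) R N) :
    asL F - asL F' - (subst ![(X 0 : MvPowerSeries (Fin 3) R), X 1] (F - F') +
      subst ![(X 0 + X 1 : MvPowerSeries (Fin 3) R), X 2] (F - F')) ∈ ordI (Fin 3) R (N + 1) := by
  have hX : ∀ i, (X i : MvPowerSeries (Fin 3) R) ∈ ordI (Fin 3) R 1 := ordI_X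
  set A : MvPowerSeries (Fin 3) R := subst ![(X 0 : MvPowerSeries (Fin 3) R), X 1] F with hA
  set A' : MvPowerSeries (Fin 3) R := subst ![(X 0 : MvPowerSeries (Fin 3) R), X 1] F' with hA'
  have hA1 : A ∈ ordI (Fin 3) R 1 := hF.subst_mem le_rfl (hX 0) (hX 1)
  have hA1' : A' ∈ ordI (Fin 3) R 1 := hF'.subst_mem le_rfl (hX 0) (hX 1)
  have hAA : A - A' = subst ![(X 0 : MvPowerSeries (Fin 3) R), X 1] (F - F') := by
    rw [subst_sub (hasSubst_of_ordI (pair_mem (hX 0) (hX 1)))]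
  have h1 := hF.perturb hA1 (hX 2) hA1' (hX 2) (N := N)
    (by rw [hAA]; exact subst_mem_ordI (pair_mem (hX 0) (hX 1)) h)
    (by rw [sub_self]; exact Ideal.zero_mem _)
  have h2 := subst_perturb_of_mem h hA1' (hX 2) (add_X_mem 0 1) (hX 2)
    (hF'.subst_sub (hX 0) (hX 1)) (by rw [sub_self]; exact Ideal.zero_mem _)
  have h3 : asL F - asL F' - (subst ![(X 0 : MvPowerSeries (Fin 3) R), X 1] (F - F') +
      subst ![(X 0 + X 1 : MvPowerSeries (Fin 3) R), X 2] (F - F')) =
      (subst ![A, X 2] F - subst ![A', X 2] F - ((A - A') + (X 2 - X 2))) +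
      (subst ![A', X 2] (F - F') - subst ![(X 0 + X 1 : MvPowerSeries (Fin 3) R), X 2] (F - F')) := by
    rw [← hAA, subst_sub (hasSubst_of_ordI (pair_mem hA1' (hX 2)))]
    change subst ![A, X 2] F - subst ![A', X 2] F' - _ = _
    ring
  rw [h3]
  exact Ideal.add_mem _ h1 h2

theorem asR_sub_asR (hF : IsLaw F) (hF' : IsLaw F') {N : ℕ}
    (h : F - F' ∈ ordI (Fin 2) R N) :
    asR F - asR F' - (subst ![(X 1 : MvPowerSeries (Fin 3) R), X 2] (F - F') +
      subst ![(X 0 : MvPowerSeries (Fin 3) R), X 1 + X 2] (F - F')) ∈ ordI (Fin 3) R (N + 1) := by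
  have hX : ∀ i, (X i : MvPowerSeries (Fin 3) R) ∈ ordI (Fin 3) R 1 := ordI_X
  set A : MvPowerSeries (Fin 3) R := subst ![(X 1 : MvPowerSeries (Fin 3) R), X 2] F with hA
  set A' : MvPowerSeries (Fin 3) R := subst ![(X 1 : MvPowerSeries (Fin 3) R), X 2] F' with hA'
  have hA1 : A ∈ ordI (Fin 3) R 1 := hF.subst_mem le_rfl (hX 1) (hX 2)
  have hA1' : A' ∈ ordI (Fin 3) R 1 := hF'.subst_mem le_rfl (hX 1) (hX 2)
  have hAA : A - A' = subst ![(X 1 : MvPowerSeries (Fin 3) R), X 2] (F - F') := by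
    rw [subst_sub (hasSubst_of_ordI (pair_mem (hX 1) (hX 2)))]
  have h1 := hF.perturb (hX 0) hA1 (hX 0) hA1' (N := N)
    (by rw [sub_self]; exact Ideal.zero_mem _)
    (by rw [hAA]; exact subst_mem_ordI (pair_mem (hX 1) (hX 2)) h)
  have h2 := subst_perturb_of_mem h (hX 0) hA1' (hX 0) (add_X_mem 1 2)
    (by rw [sub_self]; exact Ideal.zero_mem _) (hF'.subst_sub (hX 1) (hX 2))
  have h3 : asR F - asR F' - (subst ![(X 1 : MvPowerSeries (Fin 3) R), X 2] (F - F') +
      subst ![(X 0 : MvPowerSeries (Fin 3) R), X 1 + X 2] (F - F')) =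
      (subst ![X 0, A] F - subst ![X 0, A'] F - ((X 0 - X 0) + (A - A'))) +
      (subst ![X 0, A'] (F - F') - subst ![(X 0 : MvPowerSeries (Fin 3) R), X 1 + X 2] (F - F')) := by
    rw [← hAA, subst_sub (hasSubst_of_ordI (pair_mem (hX 0) hA1'))]
    change subst ![X 0, A] F - subst ![X 0, A'] F' - _ = _
    ring
  rw [h3]
  exact Ideal.add_mem _ h1 h2

/-- The difference of two laws agreeing in degrees `< N` is a 2-cocycle in degree `N`, up to the
failure of associativity. -/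
theorem cocycle_of_laws (hF : IsLaw F) (hF' : IsLaw F') {N : ℕ}
    (h : F - F' ∈ ordI (Fin 2) R N) {i j k : ℕ} (hi : 1 ≤ i) (hk : 1 ≤ k)
    (hijk : i + j + k = N) :
    ((i + j).choose i) • coeff (e2 (i + j) k) (F - F') -
      ((j + k).choose j) • coeff (e2 i (j + k)) (F - F') =
      coeff (e3 i j k) (asL F - asR F) - coeff (e3 i j k) (asL F' - asR F') := by
  have hd : (e3 i j k).degree < N + 1 := by rw [degree_e3]; omega
  have h1 := asL_sub_asL hF hF' h _ hd
  have h2 := asR_sub_asR hF hF' h _ hd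
  rw [map_sub, map_add, coeff_subst_XY _ _ _ _ (by omega), coeff_subst_left, zero_add,
    sub_eq_zero] at h1
  rw [map_sub, map_add, coeff_subst_YZ _ _ _ _ (by omega), coeff_subst_right, zero_add,
    sub_eq_zero] at h2
  rw [← h1, ← h2]
  simp only [map_sub]
  ring

/-- **Comparison lemma** modulo an additive subgroup `S` of the coefficients. -/
theorem compare_mod (hF : IsLaw F) (hF' : IsLaw F') {N : ℕ} (hN : 2 ≤ N)
    (h : F - F' ∈ ordI (Fin 2) R N) (S : AddSubgroup R)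
    (hassoc : ∀ i j k, 1 ≤ i → 1 ≤ j → 1 ≤ k → i + j + k = N →
      coeff (e3 i j k) (asL F - asR F) - coeff (e3 i j k) (asL F' - asR F') ∈ S)
    (hcomm : ∀ i, 1 ≤ i → i < N →
      coeff (e2 i (N - i)) (F - F') - coeff (e2 (N - i) i) (F - F') ∈ S)
    (l : ℕ → ℤ) (hl : ∑ i ∈ Finset.Ioo 0 N, l i * (cC N i : ℤ) = 1) :
    ∀ i, 1 ≤ i → i < N → coeff (e2 i (N - i)) (F - F') -
      cC N i • ∑ j ∈ Finset.Ioo 0 N, l j • coeff (e2 j (N - j)) (F - F') ∈ S := by
  intro i hi hiN
  have key := lazard_abelian (M := R ⧸ S) N hN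
    (fun i => (QuotientAddGroup.mk (coeff (e2 i (N - i)) (F - F')) : R ⧸ S)) (fun i hi hiN => by
      have h1 : N - (N - i) = i := by omega
      rw [h1, ← sub_eq_zero, ← QuotientAddGroup.mk_sub, QuotientAddGroup.eq_zero_iff]
      exact hcomm i hi hiN) (fun i j k hi hj hk hijk => by
      have h1 : N - i = j + k := by omega
      have h2 : N - (i + j) = k := by omega
      rw [h1, h2, ← QuotientAddGroup.mk_nsmul, ← QuotientAddGroup.mk_nsmul, eq_comm,
        ← sub_eq_zero, ← QuotientAddGroup.mk_sub, QuotientAddGroup.eq_zero_iff,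
        cocycle_of_laws hF hF' h hi hk hijk]
      exact hassoc i j k hi hj hk hijk) l hl i hi hiN
  rw [← QuotientAddGroup.eq_zero_iff, QuotientAddGroup.mk_sub, sub_eq_zero, key]
  rw [QuotientAddGroup.mk_nsmul]
  congr 1
  rw [← QuotientAddGroup.mk'_apply, map_sum]
  refine Finset.sum_congr rfl fun j _ => ?_
  rw [map_zsmul]
  rfl

end

section Laws

variable {R : Type*} [CommRing R]

theorem coeff_comm (F : FormalGroup R) [hF : F.IsComm] (i j : ℕ) :
    coeff (e2 i j) F.toPowerSeries = coeff (e2 j i) F.toPowerSeries := by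
  classical
  have h := hF.comm
  conv_lhs => rw [h]
  rw [coeff_subst_pair (ordI_X 1) (ordI_X 0), finsum_eq_single _ (e2 j i)]
  · have h1 : (X 1 : MvPowerSeries (Fin 2) R) ^ (e2 j i 0) * X 0 ^ (e2 j i 1) =
        monomial (e2 i j) 1 := by
      rw [e2_zero, e2_one, X_pow_eq, X_pow_eq, monomial_mul_monomial, one_mul, add_comm, e2]
    rw [h1, coeff_monomial_same, mul_one]
  · intro d hd
    have h1 : (X 1 : MvPowerSeries (Fin 2) R) ^ (d 0) * X 0 ^ (d 1) = monomial (e2 (d 1) (d 0)) 1 := by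
      rw [X_pow_eq, X_pow_eq, monomial_mul_monomial, one_mul, add_comm, e2]
    rw [h1, coeff_monomial, if_neg, mul_zero]
    rw [e2_inj]
    rintro ⟨h2, h3⟩
    exact hd (by rw [← e2_eta d, ← h2, ← h3])

/-- `F(X,0) = X`. -/
theorem coeff_e2_zero (F : FormalGroup R) (i : ℕ) :
    coeff (e2 i 0) F.toPowerSeries = if i = 1 then 1 else 0 := by
  classical
  have h := F.Xzero_eq_X
  have h1 := congrArg (PowerSeries.coeff i) h
  rw [PowerSeries.coeff_X] at h1
  rw [← h1]
  have hX : (PowerSeries.X : PowerSeries R) ∈ ordI Unit R 1 := ordI_X (τ := Unit) ()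
  change _ = coeff (single () i) (subst ![PowerSeries.X, 0] F.toPowerSeries)
  rw [coeff_subst_pair hX (Ideal.zero_mem _), finsum_eq_single _ (e2 i 0)]
  · rw [e2_zero, e2_one, pow_zero, mul_one, PowerSeries.X, X_pow_eq, coeff_monomial,
      if_pos rfl, mul_one]
  · intro d hd
    by_cases h2 : d 1 = 0
    · rw [h2, pow_zero, mul_one, PowerSeries.X, X_pow_eq, coeff_monomial, if_neg, mul_zero]
      intro h3
      have h4 : i = d 0 := by
        have := DFunLike.congr_fun h3 ()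
        simpa using this
      exact hd (by rw [← e2_eta d, h2, ← h4])
    · rw [zero_pow h2, mul_zero, map_zero, mul_zero]

end Laws

end Vale.Agent.P251.F
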