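import Vale.Agent.P251.F.Compare

/-!
# P251, part F: comparison of formal group laws, strict changes of variables, multiplication by `m`
-/

namespace Vale.Agent.P251.F

open MvPowerSeries Finsupp

theorem sum_Ioo_eq {A : Type*} [AddCommMonoid A] (f : ℕ → A) (M : ℕ) :
    ∑ i ∈ Finset.Ioo 0 (M + 1), f i = ∑ i ∈ Finset.range M, f (i + 1) := by
  refine Finset.sum_bij' (fun i _ => i - 1) (fun i _ => i + 1) ?_ ?_ ?_ ?_ ?_
  · intro i hi; rw [Finset.mem_Ioo] at hi; rw [Finset.mem_range]; omega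
  · intro i hi; rw [Finset.mem_range] at hi; rw [Finset.mem_Ioo]; omega
  · intro i hi; rw [Finset.mem_Ioo] at hi; omega
  · intro i _; omega
  · intro i hi; rw [Finset.mem_Ioo] at hi; congr 1; omega

section

variable {R : Type*} [CommRing R]

/-- Lazard's polynomial `C_N(X,Y) = ((X+Y)^N - X^N - Y^N)/d_N` as a power series. -/
noncomputable def CPS (R : Type*) [CommRing R] (N : ℕ) : MvPowerSeries (Fin 2) R :=
  ∑ i ∈ Finset.Ioo 0 N, monomial (e2 i (N - i)) (cC N i : R)

theorem coeff_CPS (N i j : ℕ) (hi : 1 ≤ i) (hj : 1 ≤ j) (hij : i + j = N) :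
    coeff (e2 i j) (CPS R N) = (cC N i : R) := by
  classical
  rw [CPS, map_sum, Finset.sum_eq_single i]
  · rw [coeff_monomial, if_pos (by rw [e2_inj]; omega)]
  · intro k _ hk
    rw [coeff_monomial, if_neg (by rw [e2_inj]; omega)]
  · intro h
    exact absurd (Finset.mem_Ioo.2 (by omega)) h

theorem coeff_CPS_of_not (N i j : ℕ) (h : ¬ (1 ≤ i ∧ 1 ≤ j ∧ i + j = N)) :
    coeff (e2 i j) (CPS R N) = 0 := by
  classical
  rw [CPS, map_sum]
  refine Finset.sum_eq_zero fun k hk => ?_
  rw [Finset.mem_Ioo] at hk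
  rw [coeff_monomial, if_neg (by rw [e2_inj]; omega)]

theorem CPS_mem (N : ℕ) : CPS R N ∈ ordI (Fin 2) R N := by
  intro d hd
  rw [← e2_eta d]
  refine coeff_CPS_of_not _ _ _ ?_
  rw [e2_degree_eta] at hd
  omega

theorem map_CPS {S : Type*} [CommRing S] (φ : R →+* S) (N : ℕ) :
    MvPowerSeries.map φ (CPS R N) = CPS S N := by
  rw [CPS, CPS, map_sum]
  refine Finset.sum_congr rfl fun i _ => ?_
  rw [map_monomial, map_natCast]

/-- `d_N C_N = (X+Y)^N - X^N - Y^N`. -/
theorem dC_smul_CPS {N : ℕ} (hN : 1 ≤ N) :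
    (dC N : MvPowerSeries (Fin 2) R) * CPS R N = (X 0 + X 1) ^ N - X 0 ^ N - X 1 ^ N := by
  classical
  rw [add_pow, CPS, Finset.mul_sum]
  have h1 : ∀ m ∈ Finset.range (N + 1), (X 0 : MvPowerSeries (Fin 2) R) ^ m * X 1 ^ (N - m) *
      ((N.choose m : ℕ) : MvPowerSeries (Fin 2) R) = monomial (e2 m (N - m)) (N.choose m : R) := by
    intro m _
    rw [X_pow_eq, X_pow_eq, monomial_mul_monomial, one_mul, mul_comm, ← nsmul_eq_mul,
      ← map_nsmul, nsmul_eq_mul, mul_one]
    rfl
  rw [Finset.sum_congr rfl h1]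
  obtain ⟨M, rfl⟩ : ∃ M, N = M + 1 := ⟨N - 1, by omega⟩
  rw [Finset.sum_range_succ, Finset.sum_range_succ', Nat.choose_self, Nat.choose_zero_right,
    Nat.sub_self, Nat.sub_zero]
  have h2 : (monomial (e2 0 (M + 1)) ((1 : ℕ) : R)) = (X 1 : MvPowerSeries (Fin 2) R) ^ (M + 1) := by
    rw [X_pow_eq, e2, single_zero, zero_add, Nat.cast_one]
  have h3 : (monomial (e2 (M + 1) 0) ((1 : ℕ) : R)) = (X 0 : MvPowerSeries (Fin 2) R) ^ (M + 1) := by
    rw [X_pow_eq, e2, single_zero, add_zero, Nat.cast_one]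
  rw [h2, h3, add_sub_cancel_right, add_sub_cancel_right]
  rw [sum_Ioo_eq]
  refine Finset.sum_congr rfl fun i hi => ?_
  rw [Finset.mem_range] at hi
  rw [← nsmul_eq_mul, ← map_nsmul, nsmul_eq_mul, ← Nat.cast_mul, dC_mul_cC (by omega) (by omega)]

/-- **Comparison lemma**: two commutative formal group laws which agree in degrees `< N` differ in
degree `N` by a multiple of `C_N`. -/
theorem exists_compare (F G : FormalGroup R) [F.IsComm] [G.IsComm] {N : ℕ} (hN : 2 ≤ N)
    (h : F.toPowerSeries - G.toPowerSeries ∈ ordI (Fin 2) R N) :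
    ∃ m : R, F.toPowerSeries - G.toPowerSeries - C m * CPS R N ∈ ordI (Fin 2) R (N + 1) := by
  obtain ⟨l, hl⟩ := exists_bezout hN
  set m : R := ∑ j ∈ Finset.Ioo 0 N, l j • coeff (e2 j (N - j)) (F.toPowerSeries - G.toPowerSeries)
    with hm
  have key := compare_mod (isLaw_formalGroup F) (isLaw_formalGroup G) hN h ⊥
    (fun i j k _ _ _ _ => by
      rw [asL_eq_asR, asL_eq_asR, sub_self, sub_self, map_zero, sub_self]
      exact AddSubgroup.zero_mem _)
    (fun i hi hiN => by
      rw [map_sub, map_sub, coeff_comm F, coeff_comm G, sub_self]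
      exact AddSubgroup.zero_mem _) l hl
  refine ⟨m, fun d hd => ?_⟩
  rcases Nat.lt_or_ge d.degree N with h1 | h1
  · rw [map_sub, h d h1, coeff_C_mul, CPS_mem N d h1, mul_zero, sub_zero]
  · have h2 : d 0 + d 1 = N := by rw [e2_degree_eta] at h1 hd; omega
    rw [← e2_eta d, map_sub, coeff_C_mul]
    rcases Nat.eq_zero_or_pos (d 1) with h3 | h3
    · rw [h3, coeff_CPS_of_not _ _ _ (by omega), mul_zero, sub_zero, map_sub, coeff_e2_zero,
        coeff_e2_zero, sub_self]
    rcases Nat.eq_zero_or_pos (d 0) with h4 | h4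
    · rw [h4, coeff_CPS_of_not _ _ _ (by omega), mul_zero, sub_zero, map_sub, coeff_comm F,
        coeff_comm G, coeff_e2_zero, coeff_e2_zero, sub_self]
    · rw [coeff_CPS N _ _ h4 h3 h2]
      have h5 := key (d 0) h4 (by omega)
      rw [AddSubgroup.mem_bot, ← hm, show N - d 0 = d 1 by omega, nsmul_eq_mul] at h5
      rw [mul_comm]
      exact h5

end

section Change

variable {R : Type*} [CommRing R] {τ : Type*}

theorem psubst_mem_ordI {a : MvPowerSeries τ R} (ha : a ∈ ordI τ R 1) {k : ℕ} {f : PowerSeries R}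
    (hf : f ∈ ordI Unit R k) : PowerSeries.subst a f ∈ ordI τ R k :=
  subst_mem_ordI (a := fun _ : Unit => a) (fun _ => ha) hf

theorem psubst_sub_mem_ordI {a b : MvPowerSeries τ R} (ha : a ∈ ordI τ R 1) (hb : b ∈ ordI τ R 1)
    {N : ℕ} (hab : a - b ∈ ordI τ R (N + 1)) {k : ℕ} {f : PowerSeries R}
    (hf : f ∈ ordI Unit R k) :
    PowerSeries.subst a f - PowerSeries.subst b f ∈ ordI τ R (N + k) :=
  subst_sub_subst_mem_ordI (a := fun _ : Unit => a) (b := fun _ : Unit => b) (fun _ => ha)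
    (fun _ => hb) (fun _ => hab) hf

theorem hasSubst_of_mem {a : MvPowerSeries τ R} (ha : a ∈ ordI τ R 1) :
    PowerSeries.HasSubst a := PowerSeries.HasSubst.of_constantCoeff_zero (mem_ordI_one.1 ha)

theorem mem_ordI_unit {N : ℕ} {f : PowerSeries R} :
    f ∈ ordI Unit R N ↔ ∀ n < N, PowerSeries.coeff n f = 0 := by
  constructor
  · intro h n hn
    exact h (single () n) (by rwa [degree_single])
  · intro h d hd
    have h1 : d = single () (d ()) := by
      ext; simp
    rw [h1]
    rw [h1, degree_single] at hd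
    exact h _ hd

/-- `f(a) = a + b a^N + ...` for `f = X + b X^N + ...`. -/
theorem psubst_expand {a : MvPowerSeries τ R} (ha : a ∈ ordI τ R 1) {N : ℕ} {f : PowerSeries R}
    {b : R} (hf : f - (PowerSeries.X + PowerSeries.C b * PowerSeries.X ^ N) ∈ ordI Unit R (N + 1)) :
    PowerSeries.subst a f - (a + C b * a ^ N) ∈ ordI τ R (N + 1) := by
  have hs := hasSubst_of_mem ha
  have h1 := psubst_mem_ordI ha hf
  rw [PowerSeries.subst_sub hs, PowerSeries.subst_add hs, PowerSeries.subst_mul hs,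
    PowerSeries.subst_pow hs, PowerSeries.subst_X hs, PowerSeries.subst_C] at h1
  exact h1

theorem pow_sub_pow_mem {a b : MvPowerSeries τ R} (ha : a ∈ ordI τ R 1) (hb : b ∈ ordI τ R 1)
    (hab : a - b ∈ ordI τ R 2) (N : ℕ) : a ^ N - b ^ N ∈ ordI τ R (N + 1) := by
  induction N with
  | zero => rw [pow_zero, pow_zero, sub_self]; exact Ideal.zero_mem _
  | succ n ih =>
    have h1 : a ^ (n + 1) - b ^ (n + 1) = (a ^ n - b ^ n) * a + b ^ n * (a - b) := by ring
    rw [h1]
    have h2 := ordI_mul (ordI_pow hb n) hab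
    exact Ideal.add_mem _ (ordI_mul ih ha) h2

/-- The effect of a strict change of variables `f = X + b X^N + ...` in degree `N`: if
`f(F(X,Y)) = G(f(X), f(Y))` then `G = F + b ((X+Y)^N - X^N - Y^N) + ...`. -/
theorem change_of_variable {F G : MvPowerSeries (Fin 2) R} (hF : IsLaw F) (hG : IsLaw G) {N : ℕ}
    (hN : 2 ≤ N) {f : PowerSeries R} {b : R}
    (hf : f - (PowerSeries.X + PowerSeries.C b * PowerSeries.X ^ N) ∈ ordI Unit R (N + 1))
    (h : (PowerSeries.subst F f : MvPowerSeries (Fin 2) R) =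
      subst ![(PowerSeries.subst (X 0 : MvPowerSeries (Fin 2) R) f : MvPowerSeries (Fin 2) R),
        (PowerSeries.subst (X 1 : MvPowerSeries (Fin 2) R) f : MvPowerSeries (Fin 2) R)] G) :
    G - F - C b * ((X 0 + X 1) ^ N - X 0 ^ N - X 1 ^ N) ∈ ordI (Fin 2) R (N + 1) := by
  have hX : ∀ i, (X i : MvPowerSeries (Fin 2) R) ∈ ordI (Fin 2) R 1 := ordI_X
  have h1 := psubst_expand hF.mem_one hf
  have h2 : ∀ i, PowerSeries.subst (X i : MvPowerSeries (Fin 2) R) f - (X i + C b * X i ^ N) ∈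
      ordI (Fin 2) R (N + 1) := fun i => psubst_expand (hX i) hf
  have h3 := pow_sub_pow_mem hF.mem_one (add_X_mem 0 1) hF N
  have h4 : ∀ i, PowerSeries.subst (X i : MvPowerSeries (Fin 2) R) f - X i ∈
      ordI (Fin 2) R N := fun i => by
    have : PowerSeries.subst (X i : MvPowerSeries (Fin 2) R) f - X i =
        (PowerSeries.subst (X i : MvPowerSeries (Fin 2) R) f - (X i + C b * X i ^ N)) +
          C b * X i ^ N := by ring
    rw [this]
    exact Ideal.add_mem _ (ordI_anti (by omega) (h2 i)) (Ideal.mul_mem_left _ _ (ordI_pow (hX i) N))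
  have h5 : ∀ i, PowerSeries.subst (X i : MvPowerSeries (Fin 2) R) f ∈
      ordI (Fin 2) R 1 := fun i => by
    have : PowerSeries.subst (X i : MvPowerSeries (Fin 2) R) f =
        (PowerSeries.subst (X i : MvPowerSeries (Fin 2) R) f - X i) + X i := by ring
    rw [this]
    exact Ideal.add_mem _ (ordI_anti (by omega) (h4 i)) (hX i)
  have h6 := hG.perturb (h5 0) (h5 1) (hX 0) (hX 1) (h4 0) (h4 1)
  have h7 : subst ![(X 0 : MvPowerSeries (Fin 2) R), X 1] G = G := by
    have : (![(X 0 : MvPowerSeries (Fin 2) R), X 1] : Fin 2 → MvPowerSeries (Fin 2) R) = X := by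
      ext1 i; fin_cases i <;> rfl
    rw [this, subst_self]
    rfl
  rw [← h, h7] at h6
  have h8 : G - F - C b * ((X 0 + X 1) ^ N - X 0 ^ N - X 1 ^ N) =
      -(PowerSeries.subst F f - G -
        (PowerSeries.subst (X 0 : MvPowerSeries (Fin 2) R) f - X 0 +
          (PowerSeries.subst (X 1 : MvPowerSeries (Fin 2) R) f - X 1))) +
      (PowerSeries.subst F f - (F + C b * F ^ N)) + C b * (F ^ N - (X 0 + X 1) ^ N) -
      (PowerSeries.subst (X 0 : MvPowerSeries (Fin 2) R) f - (X 0 + C b * X 0 ^ N)) -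
      (PowerSeries.subst (X 1 : MvPowerSeries (Fin 2) R) f - (X 1 + C b * X 1 ^ N)) := by ring
  rw [h8]
  exact Ideal.sub_mem _ (Ideal.sub_mem _ (Ideal.add_mem _ (Ideal.add_mem _ ((Ideal.neg_mem_iff _).2 h6)
    h1) (Ideal.mul_mem_left _ _ h3)) (h2 0)) (h2 1)

end Change

section Mult

variable {R : Type*} [CommRing R]

/-- `[m]_F(X)` for a power series `F`: `[0]_F = 0`, `[m+1]_F = F([m]_F, X)`. For the power series
of a formal group law this is `P217.multSeries`. -/
noncomputable def mulS (F : MvPowerSeries (Fin 2) R) (m : ℕ) : PowerSeries R :=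
  (fun f : PowerSeries R => subst ![f, PowerSeries.X] F)^[m] 0

theorem mulS_succ (F : MvPowerSeries (Fin 2) R) (m : ℕ) :
    mulS F (m + 1) = subst ![mulS F m, PowerSeries.X] F := by
  rw [mulS, Function.iterate_succ_apply']
  rfl

theorem psX_mem : (PowerSeries.X : PowerSeries R) ∈ ordI Unit R 1 := ordI_X (τ := Unit) ()

variable {F F' : MvPowerSeries (Fin 2) R}

theorem mulS_mem (hF : IsLaw F) (m : ℕ) : mulS F m ∈ ordI Unit R 1 := by
  induction m with
  | zero => exact Ideal.zero_mem _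
  | succ m ih => rw [mulS_succ]; exact hF.subst_mem le_rfl ih psX_mem

theorem mulS_sub_mem (hF : IsLaw F) (m : ℕ) :
    mulS F m - (m : PowerSeries R) * PowerSeries.X ∈ ordI Unit R 2 := by
  induction m with
  | zero =>
    rw [Nat.cast_zero, zero_mul, sub_zero]
    exact Ideal.zero_mem _
  | succ m ih =>
    rw [mulS_succ]
    have h1 := hF.subst_sub (mulS_mem hF m) psX_mem
    have h2 : subst ![mulS F m, PowerSeries.X] F - ((m + 1 : ℕ) : PowerSeries R) * PowerSeries.X =
        (subst ![mulS F m, PowerSeries.X] F - (mulS F m + PowerSeries.X)) +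
          (mulS F m - (m : PowerSeries R) * PowerSeries.X) := by
      push_cast
      ring
    rw [h2]
    exact Ideal.add_mem _ h1 ih

theorem natCast_mul_X_mem (m : ℕ) : (m : PowerSeries R) * PowerSeries.X ∈ ordI Unit R 1 :=
  Ideal.mul_mem_left _ _ psX_mem

/-- `[m]_F - [m]_{F'} = ∑_{j<m} Γ(jX, X)` up to higher order, `Γ = F - F'`. -/
theorem mulS_sub_mulS (hF : IsLaw F) (hF' : IsLaw F') {N : ℕ}
    (h : F - F' ∈ ordI (Fin 2) R N) (m : ℕ) :
    mulS F m - mulS F' m - ∑ j ∈ Finset.range m,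
      subst ![(j : PowerSeries R) * PowerSeries.X, PowerSeries.X] (F - F') ∈
      ordI Unit R (N + 1) := by
  have hsum : ∀ m, ∑ j ∈ Finset.range m,
      subst ![(j : PowerSeries R) * PowerSeries.X, PowerSeries.X] (F - F') ∈ ordI Unit R N :=
    fun m => Ideal.sum_mem _ fun j _ => subst_mem_ordI
      (pair_mem (natCast_mul_X_mem j) psX_mem) h
  induction m with
  | zero =>
    rw [Finset.range_zero, Finset.sum_empty, sub_zero]
    change (0 : PowerSeries R) - 0 ∈ _
    rw [sub_zero]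
    exact Ideal.zero_mem _
  | succ m ih =>
    have h0 : mulS F m - mulS F' m ∈ ordI Unit R N := by
      have := Ideal.add_mem _ (ordI_anti (Nat.le_succ N) ih) (hsum m)
      rwa [sub_add_cancel] at this
    have h1 := hF.perturb (mulS_mem hF m) psX_mem (mulS_mem hF' m) psX_mem h0
      (b := PowerSeries.X) (b' := PowerSeries.X) (by rw [sub_self]; exact Ideal.zero_mem _)
    have h2 := subst_perturb_of_mem h (mulS_mem hF' m) psX_mem (natCast_mul_X_mem m) psX_mem
      (mulS_sub_mem hF' m) (by rw [sub_self]; exact Ideal.zero_mem _)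
    rw [mulS_succ, mulS_succ, Finset.sum_range_succ]
    have h3 : subst ![mulS F m, PowerSeries.X] F - subst ![mulS F' m, PowerSeries.X] F' -
        (∑ j ∈ Finset.range m,
          subst ![(j : PowerSeries R) * PowerSeries.X, PowerSeries.X] (F - F') +
          subst ![(m : PowerSeries R) * PowerSeries.X, PowerSeries.X] (F - F')) =
        (subst ![mulS F m, PowerSeries.X] F - subst ![mulS F' m, PowerSeries.X] F -
          ((mulS F m - mulS F' m) + (PowerSeries.X - PowerSeries.X))) +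
        (subst ![mulS F' m, PowerSeries.X] (F - F') -
          subst ![(m : PowerSeries R) * PowerSeries.X, PowerSeries.X] (F - F')) +
        (mulS F m - mulS F' m - ∑ j ∈ Finset.range m,
          subst ![(j : PowerSeries R) * PowerSeries.X, PowerSeries.X] (F - F')) := by
      rw [subst_sub (hasSubst_of_ordI (pair_mem (mulS_mem hF' m) psX_mem))]
      ring
    rw [h3]
    exact Ideal.add_mem _ (Ideal.add_mem _ h1 h2) ih

/-- the coefficients of `Γ(jX, X)`. -/
theorem coeff_subst_natCast (Γ : MvPowerSeries (Fin 2) R) (j N : ℕ) :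
    PowerSeries.coeff N (subst ![(j : PowerSeries R) * PowerSeries.X, PowerSeries.X] Γ) =
      ∑ i ∈ Finset.range (N + 1), (j : R) ^ i * coeff (e2 i (N - i)) Γ := by
  classical
  change coeff (single () N) _ = _
  rw [coeff_subst_pair (natCast_mul_X_mem j) psX_mem]
  have h1 : ∀ d : Fin 2 →₀ ℕ, coeff (single () N)
      (((j : PowerSeries R) * PowerSeries.X) ^ d 0 * PowerSeries.X ^ d 1) =
      if d 0 + d 1 = N then (j : R) ^ d 0 else 0 := by
    intro d
    have h2 : ((j : PowerSeries R) * PowerSeries.X) ^ d 0 * PowerSeries.X ^ d 1 =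
        PowerSeries.C ((j : R) ^ d 0) * PowerSeries.X ^ (d 0 + d 1) := by
      rw [map_pow, map_natCast]
      ring
    rw [h2]
    change PowerSeries.coeff N _ = _
    rw [PowerSeries.coeff_C_mul, PowerSeries.coeff_X_pow]
    by_cases h3 : d 0 + d 1 = N
    · rw [if_pos h3, if_pos h3.symm, mul_one]
    · rw [if_neg h3, if_neg (Ne.symm h3), mul_zero]
  simp only [h1]
  rw [finsum_eq_sum_of_support_subset (s := (Finset.range (N + 1)).image fun i => e2 i (N - i))]
  · rw [Finset.sum_image (fun a ha b hb hab => (e2_inj.1 hab).1)]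
    refine Finset.sum_congr rfl fun i hi => ?_
    rw [Finset.mem_range] at hi
    rw [e2_zero, e2_one, if_pos (by omega), mul_comm]
  · intro d hd
    rw [Function.mem_support] at hd
    have h3 : d 0 + d 1 = N := by
      by_contra h4
      rw [if_neg h4, mul_zero] at hd
      exact hd rfl
    rw [Finset.coe_image, Set.mem_image]
    refine ⟨d 0, by rw [Finset.mem_coe, Finset.mem_range]; omega, ?_⟩
    have h5 : N - d 0 = d 1 := by omega
    rw [h5, e2_eta]

/-- `∑_{j<m} C_N(j,1) = (m^N - m)/d_N`. -/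
theorem dC_mul_sum {N : ℕ} (hN : 1 ≤ N) (m : ℕ) :
    dC N * ∑ j ∈ Finset.range m, ∑ i ∈ Finset.Ioo 0 N, cC N i * j ^ i + m = m ^ N := by
  induction m with
  | zero => rw [Finset.range_zero, Finset.sum_empty, mul_zero, zero_add, zero_pow (by omega)]
  | succ m ih =>
    rw [Finset.sum_range_succ, mul_add, add_pow m 1 N]
    simp only [Nat.cast_id]
    have h1 : dC N * ∑ i ∈ Finset.Ioo 0 N, cC N i * m ^ i + (m ^ N + 1) =
        ∑ k ∈ Finset.range (N + 1), m ^ k * 1 ^ (N - k) * N.choose k := by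
      obtain ⟨M, rfl⟩ : ∃ M, N = M + 1 := ⟨N - 1, by omega⟩
      rw [Finset.sum_range_succ, Finset.sum_range_succ', Nat.choose_self, Nat.choose_zero_right,
        pow_zero, one_pow, mul_one, one_pow, mul_one, mul_one, mul_one]
      rw [sum_Ioo_eq, Finset.mul_sum]
      have h5 : ∀ i ∈ Finset.range M, dC (M + 1) * (cC (M + 1) (i + 1) * m ^ (i + 1)) =
          m ^ (i + 1) * 1 ^ (M + 1 - (i + 1)) * (M + 1).choose (i + 1) := by
        intro i hi
        rw [Finset.mem_range] at hi
        rw [← mul_assoc, dC_mul_cC (by omega) (by omega), one_pow]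
        ring
      rw [Finset.sum_congr rfl h5]
      ring
    rw [← h1, ← ih]
    ring

/-- The comparison of `[m]_F` and `[m]_{F'}` in degree `N`, modulo an additive subgroup `S`. -/
theorem coeff_mulS_compare (hF : IsLaw F) (hF' : IsLaw F') {N : ℕ} (hN : 2 ≤ N)
    (h : F - F' ∈ ordI (Fin 2) R N) (S : AddSubgroup R) (x : R)
    (h0 : coeff (e2 0 N) (F - F') ∈ S) (h1 : coeff (e2 N 0) (F - F') ∈ S)
    (hx : ∀ i, 1 ≤ i → i < N → coeff (e2 i (N - i)) (F - F') - cC N i • x ∈ S) (m : ℕ) :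
    PowerSeries.coeff N (mulS F m) - PowerSeries.coeff N (mulS F' m) -
      (∑ j ∈ Finset.range m, ∑ i ∈ Finset.Ioo 0 N, cC N i * j ^ i) • x ∈ S := by
  have key := mulS_sub_mulS hF hF' h m (single () N) (by rw [degree_single]; omega)
  rw [map_sub, map_sub, sub_eq_zero] at key
  change PowerSeries.coeff N (mulS F m) - PowerSeries.coeff N (mulS F' m) =
    PowerSeries.coeff N _ at key
  rw [key, map_sum, Finset.sum_smul, ← Finset.sum_sub_distrib]
  refine AddSubgroup.sum_mem _ fun j _ => ?_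
  rw [coeff_subst_natCast]
  obtain ⟨M, rfl⟩ : ∃ M, N = M + 1 := ⟨N - 1, by omega⟩
  rw [Finset.sum_range_succ, Finset.sum_range_succ', Nat.sub_self, Nat.sub_zero, pow_zero, one_mul]
  rw [sum_Ioo_eq, Finset.sum_smul]
  have hmul : ∀ (k : ℕ) {s : R}, s ∈ S → (k : R) * s ∈ S := fun k s hs => by
    rw [← nsmul_eq_mul]; exact AddSubgroup.nsmul_mem _ hs k
  have h5 : ∑ i ∈ Finset.range M, (j : R) ^ (i + 1) * coeff (e2 (i + 1) (M + 1 - (i + 1))) (F - F') +
      coeff (e2 0 (M + 1)) (F - F') + (j : R) ^ (M + 1) * coeff (e2 (M + 1) 0) (F - F') -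
      ∑ i ∈ Finset.range M, (cC (M + 1) (i + 1) * j ^ (i + 1)) • x =
      ∑ i ∈ Finset.range M, ((j ^ (i + 1) : ℕ) : R) *
        (coeff (e2 (i + 1) (M + 1 - (i + 1))) (F - F') - cC (M + 1) (i + 1) • x) +
      coeff (e2 0 (M + 1)) (F - F') + ((j ^ (M + 1) : ℕ) : R) * coeff (e2 (M + 1) 0) (F - F') := by
    simp only [mul_sub, Finset.sum_sub_distrib, nsmul_eq_mul]
    push_cast
    have : ∀ i, (j : R) ^ (i + 1) * ((cC (M + 1) (i + 1) : R) * x) =
        (cC (M + 1) (i + 1) : R) * (j : R) ^ (i + 1) * x := fun i => by ring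
    simp only [this]
    ring
  rw [h5]
  refine AddSubgroup.add_mem _ (AddSubgroup.add_mem _ (AddSubgroup.sum_mem _ fun i hi => ?_) h0)
    (hmul _ h1)
  rw [Finset.mem_range] at hi
  exact hmul _ (hx (i + 1) (by omega) (by omega))

end Mult

end Vale.Agent.P251.F
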