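import Vale.Agent.P251.F.CpSeries
import Mathlib.RingTheory.LocalRing.MaximalIdeal.Basic
import Mathlib.RingTheory.Nakayama

/-!
# P251, F8: coordinates on Lubin–Tate space given by an element of order `p`, height `h = p - 1`

`E` is a local ring with maximal ideal `𝔪 = (V_0, …, V_{h-1})`, `V_0 = p`, `V_h` a unit;
`(φ, a)` describes the action `e u^w ↦ a^w φ(e) u^w` of an automorphism of order `p` on
`E_* = E[u, u⁻¹]` and `T u^(p-1)` is the value of `t_1`. We show that `𝔪` is generated by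
`(σ - 1)^k T`, `1 ≤ k ≤ h` (in weight `p - 1`).
-/

namespace Vale.Agent.P251.F

open IsLocalRing

noncomputable section

variable {E : Type*} [CommRing E]

/-- The operator `σ - 1` in weight `w`: `e ↦ a^w φ(e) - e`. -/
def sm (φ : E →+* E) (a : E) (w : ℕ) (e : E) : E := a ^ w * φ e - e

/-- `(σ - 1)^k T` in weight `p - 1`. -/
def yy (p : ℕ) (φ : E →+* E) (a T : E) (k : ℕ) : E := (sm φ a (p - 1))^[k] T

theorem yy_zero (p : ℕ) (φ : E →+* E) (a T : E) : yy p φ a T 0 = T := rfl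

theorem yy_succ (p : ℕ) (φ : E →+* E) (a T : E) (k : ℕ) :
    yy p φ a T (k + 1) = a ^ (p - 1) * φ (yy p φ a T k) - yy p φ a T k := by
  rw [yy, Function.iterate_succ_apply']
  rfl

/-- The ideal `(V_0, …, V_{i-1})`. -/
def JV (V : ℕ → E) (i : ℕ) : Ideal E := Ideal.span {x | ∃ j < i, x = V j}

theorem V_mem_JV (V : ℕ → E) {i j : ℕ} (h : j < i) : V j ∈ JV V i :=
  Ideal.subset_span ⟨j, h, rfl⟩

theorem JV_mono (V : ℕ → E) {i j : ℕ} (h : i ≤ j) : JV V i ≤ JV V j :=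
  Ideal.span_mono fun _ ⟨k, hk, hx⟩ => ⟨k, lt_of_lt_of_le hk h, hx⟩

theorem JV_fg (V : ℕ → E) (i : ℕ) : (JV V i).FG := by
  classical
  refine ⟨(Finset.range i).image V, ?_⟩
  rw [JV]
  congr 1
  ext x
  simp [eq_comm]

variable [IsLocalRing E]

/-- The data described in the header. -/
structure CpData (p : ℕ) (φ : E →+* E) (a : E) (V : ℕ → E) (T : E) : Prop where
  V0 : V 0 = p
  hm : maximalIdeal E = JV V (p - 1)
  Vh : IsUnit (V (p - 1))
  hφ : ∀ x, φ x - x ∈ maximalIdeal E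
  ha : a - 1 ∈ maximalIdeal E
  hT : IsUnit T
  res : ∀ x, ∃ c, φ c = c ∧ x - c ∈ maximalIdeal E
  rel : ∀ i < p - 1, a ^ (p ^ (i + 1) - 1) * φ (V (i + 1)) -
    (V (i + 1) + T * V i ^ p - V i * T ^ (p ^ i)) ∈ JV V i

namespace CpData

variable {p : ℕ} {φ : E →+* E} {a : E} {V : ℕ → E} {T : E}

/-- The ideal `(V_0, …, V_{i-1}) + 𝔪²`. -/
def KV (V : ℕ → E) (i : ℕ) : Ideal E := JV V i ⊔ maximalIdeal E ^ 2

theorem sq_le_KV (V : ℕ → E) (i : ℕ) : maximalIdeal E ^ 2 ≤ KV V i := le_sup_right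

theorem JV_le_KV (V : ℕ → E) (i : ℕ) : JV V i ≤ KV V i := le_sup_left

theorem KV_mono (V : ℕ → E) {i j : ℕ} (h : i ≤ j) : KV V i ≤ KV V j :=
  sup_le_sup_right (JV_mono V h) _

theorem mul_mem_sq {x y : E} (hx : x ∈ maximalIdeal E) (hy : y ∈ maximalIdeal E) :
    x * y ∈ maximalIdeal E ^ 2 := by
  rw [sq]
  exact Ideal.mul_mem_mul hx hy

theorem one_add_pow_sub {α : E} (hα : α ∈ maximalIdeal E) (N : ℕ) :
    (1 + α) ^ N - (1 + N * α) ∈ maximalIdeal E ^ 2 := by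
  induction N with
  | zero => simp
  | succ N ih =>
    have h1 := Ideal.mul_mem_right (1 + α) _ ih
    have h2 : (N : E) * (α * α) ∈ maximalIdeal E ^ 2 :=
      Ideal.mul_mem_left _ _ (mul_mem_sq hα hα)
    convert Ideal.add_mem _ h1 h2 using 1
    push_cast
    ring

variable (H : CpData p φ a V T)

include H

theorem map_mem {x : E} (hx : x ∈ maximalIdeal E) : φ x ∈ maximalIdeal E := by
  have := Ideal.add_mem _ (H.hφ x) hx
  rwa [sub_add_cancel] at this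

theorem p_mem (hp : 2 ≤ p) : (p : E) ∈ maximalIdeal E := by
  rw [H.hm, ← H.V0]
  exact V_mem_JV V (by omega)

theorem V_mem {j : ℕ} (hj : j < p - 1) : V j ∈ maximalIdeal E := by
  rw [H.hm]
  exact V_mem_JV V hj

theorem JV_le {j : ℕ} (hj : j ≤ p - 1) : JV V j ≤ maximalIdeal E := by
  rw [H.hm]
  exact JV_mono V hj

theorem KV_le {j : ℕ} (hj : j ≤ p - 1) : KV V j ≤ maximalIdeal E :=
  sup_le (H.JV_le hj) (Ideal.pow_le_self two_ne_zero)

theorem le_KV : maximalIdeal E ≤ KV V (p - 1) := H.hm.le.trans (JV_le_KV V _)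

/-- `a ^ N = 1 - (a - 1)` modulo `𝔪²` if `p ∣ N + 1`. -/
theorem pow_a (hp : 2 ≤ p) {N : ℕ} (hN : p ∣ N + 1) :
    a ^ N - (1 - (a - 1)) ∈ maximalIdeal E ^ 2 := by
  obtain ⟨M, hM⟩ := hN
  have h1 := one_add_pow_sub H.ha N
  rw [add_sub_cancel] at h1
  have h2 : ((M : E) * (p * (a - 1))) ∈ maximalIdeal E ^ 2 :=
    Ideal.mul_mem_left _ _ (mul_mem_sq (H.p_mem hp) H.ha)
  convert Ideal.add_mem _ h1 h2 using 1
  have h3 : (N : E) = p * M - 1 := by
    have := congrArg (Nat.cast : ℕ → E) hM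
    push_cast at this
    rw [← this]
    ring
  rw [h3]
  ring

theorem a_pow_sub_one (N : ℕ) : a ^ N - 1 ∈ maximalIdeal E := by
  have h := sub_dvd_pow_sub_pow a 1 N
  rw [one_pow] at h
  exact Ideal.mem_of_dvd _ h H.ha

/-- `φ(V_n) - V_n = - T^(p^(n-1)) V_{n-1}` modulo `(V_0, …, V_{n-2}) + 𝔪²`, for `1 ≤ n < h`. -/
theorem D_V (hp : 3 ≤ p) {n : ℕ} (hn : n + 1 < p - 1) :
    φ (V (n + 1)) - V (n + 1) + V n * T ^ (p ^ n) ∈ KV V n := by
  have h1 := JV_le_KV V n (H.rel n (by omega))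
  have h2 : (a ^ (p ^ (n + 1) - 1) - 1) * φ (V (n + 1)) ∈ KV V n :=
    sq_le_KV V n (mul_mem_sq (H.a_pow_sub_one _) (H.map_mem (H.V_mem hn)))
  have h3 : T * V n ^ p ∈ KV V n := by
    refine sq_le_KV V n (Ideal.mul_mem_left _ _ ?_)
    exact Ideal.pow_le_pow_right (by omega : 2 ≤ p)
      (Ideal.pow_mem_pow (H.V_mem (by omega)) p)
  convert Ideal.add_mem _ (Ideal.sub_mem _ h1 h2) h3 using 1
  ring

/-- `φ - 1` maps `(V_0, …, V_n) + 𝔪²` to `(V_0, …, V_{n-1}) + 𝔪²`. -/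
theorem D_KV (hp : 3 ≤ p) {n : ℕ} (hn : n < p - 1) {x : E} (hx : x ∈ KV V (n + 1)) :
    φ x - x ∈ KV V n := by
  have hsq : ∀ y ∈ maximalIdeal E ^ 2, φ y - y ∈ KV V n := by
    intro y hy
    refine sq_le_KV V n (Ideal.sub_mem _ ?_ hy)
    have h1 : (maximalIdeal E).map φ ≤ maximalIdeal E :=
      Ideal.map_le_iff_le_comap.2 fun z hz => H.map_mem hz
    have h2 : φ y ∈ (maximalIdeal E ^ 2).map φ := Ideal.mem_map_of_mem φ hy
    rw [Ideal.map_pow] at h2
    exact Ideal.pow_right_mono h1 2 h2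
  have hJ : ∀ y ∈ JV V (n + 1), φ y - y ∈ KV V n := by
    intro y hy
    refine Submodule.span_induction (p := fun y _ => φ y - y ∈ KV V n) ?_ ?_ ?_ ?_ hy
    · rintro _ ⟨j, hj, rfl⟩
      rcases Nat.eq_zero_or_pos j with rfl | hj0
      · rw [H.V0, map_natCast, sub_self]
        exact zero_mem _
      · obtain ⟨i, rfl⟩ : ∃ i, j = i + 1 := ⟨j - 1, by omega⟩
        have h1 := KV_mono V (by omega : i ≤ n) (H.D_V hp (by omega : i + 1 < p - 1))
        have h2 : V i * T ^ (p ^ i) ∈ KV V n :=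
          Ideal.mul_mem_right _ _ (JV_le_KV V n (V_mem_JV V (by omega)))
        convert Ideal.sub_mem _ h1 h2 using 1
        ring
    · rw [map_zero, sub_self]
      exact zero_mem _
    · intro x y _ _ hx hy
      convert Ideal.add_mem _ hx hy using 1
      rw [map_add]
      ring
    · intro c x hx1 hx
      have hxm : x ∈ maximalIdeal E := H.JV_le (by omega : n + 1 ≤ p - 1) hx1
      have h1 : (φ c - c) * x ∈ KV V n := sq_le_KV V n (mul_mem_sq (H.hφ c) hxm)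
      have h2 := Ideal.mul_mem_left _ (φ c) hx
      convert Ideal.add_mem _ h1 h2 using 1
      rw [smul_eq_mul, map_mul]
      ring
  obtain ⟨y, hy, z, hz, rfl⟩ := Submodule.mem_sup.1 hx
  convert Ideal.add_mem _ (hJ y hy) (hsq z hz) using 1
  rw [map_add]
  ring

/-- `φ(x) - x` for arbitrary `x`. -/
theorem D_all (hp : 3 ≤ p) (x : E) : φ x - x ∈ KV V (p - 2) := by
  obtain ⟨c, hc, hxc⟩ := H.res x
  have h1 : x - c ∈ KV V (p - 2 + 1) := by
    rw [show p - 2 + 1 = p - 1 by omega]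
    exact H.le_KV hxc
  have h2 := H.D_KV hp (by omega) h1
  rw [map_sub, hc] at h2
  convert h2 using 1
  ring

/-- `a - 1` is `V_h⁻¹ T^(p^(h-1)) V_{h-1}` modulo `(V_0, …, V_{h-2}) + 𝔪²`. -/
theorem a_lead (hp : 3 ≤ p) :
    V (p - 1) * (a - 1) - V (p - 2) * T ^ (p ^ (p - 2)) ∈ KV V (p - 2) := by
  have h1 := JV_le_KV V (p - 2) (H.rel (p - 2) (by omega))
  rw [show p - 2 + 1 = p - 1 by omega] at h1
  have hdiv : p ∣ p ^ (p - 1) - 1 + 1 := by
    rw [Nat.sub_add_cancel (Nat.one_le_pow _ _ (by omega))]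
    exact dvd_pow_self p (by omega)
  have h2 := Ideal.mul_mem_right (φ (V (p - 1))) _ (H.pow_a (by omega) hdiv)
  have h3 := H.D_all hp (V (p - 1))
  have h4 : (a - 1) * (φ (V (p - 1)) - V (p - 1)) ∈ KV V (p - 2) :=
    Ideal.mul_mem_left _ _ h3
  have h5 : T * V (p - 2) ^ p ∈ KV V (p - 2) := by
    refine sq_le_KV V _ (Ideal.mul_mem_left _ _ ?_)
    exact Ideal.pow_le_pow_right (by omega : 2 ≤ p)
      (Ideal.pow_mem_pow (H.V_mem (by omega)) p)
  have h6 := sq_le_KV V (p - 2) h2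
  -- `-α V_h + V_{h-1} T^q ∈ KV`
  have h7 := Ideal.add_mem _ (Ideal.sub_mem _ (Ideal.add_mem _ (Ideal.sub_mem _ h1 h6) h5)
    (Ideal.sub_mem _ h3 h4)) (zero_mem _)
  have h8 := Ideal.neg_mem_iff _ |>.2 h7
  convert h8 using 1
  ring

/-- The leading term of `(σ - 1)^k T`: it is `c V_{h-k}` modulo `(V_0, …, V_{h-k-1}) + 𝔪²`, `c` a
unit. -/
theorem yy_lead (hp : 3 ≤ p) (k : ℕ) (hk : k < p - 1) :
    ∃ c : E, IsUnit c ∧ yy p φ a T (k + 1) - c * V (p - 2 - k) ∈ KV V (p - 2 - k) := by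
  induction k with
  | zero =>
    obtain ⟨v, hv⟩ := H.Vh
    refine ⟨-T * (((v⁻¹ : Eˣ) : E) * T ^ (p ^ (p - 2))), ?_, ?_⟩
    · exact H.hT.neg.mul ((Units.isUnit _).mul (H.hT.pow _))
    · rw [yy_succ, yy_zero, Nat.sub_zero]
      have h1 := Ideal.mul_mem_right (φ T) _ (H.pow_a (by omega : 2 ≤ p)
        (N := p - 1) (by rw [Nat.sub_add_cancel (by omega)]))
      have h2 := sq_le_KV V (p - 2) h1
      have h3 := H.D_all hp T
      have h4 : (a - 1) * (φ T - T) ∈ KV V (p - 2) := Ideal.mul_mem_left _ _ h3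
      have h5 := Ideal.mul_mem_left _ (T * ((v⁻¹ : Eˣ) : E)) (H.a_lead hp)
      have h6 : V (p - 1) * ((v⁻¹ : Eˣ) : E) = 1 := by
        rw [← hv]
        exact Units.mul_inv v
      have h7 := Ideal.sub_mem _ (Ideal.add_mem _ h2 (Ideal.sub_mem _ h3 h4)) h5
      convert h7 using 1
      linear_combination (T * (a - 1)) * h6
  | succ k ih =>
    obtain ⟨c, hc, h⟩ := ih (by omega)
    obtain ⟨n, hn⟩ : ∃ n, p - 2 - k = n + 1 := ⟨p - 2 - k - 1, by omega⟩
    have hn' : p - 2 - (k + 1) = n := by omega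
    rw [hn] at h
    rw [hn']
    refine ⟨-(c * T ^ (p ^ n)), (hc.mul (H.hT.pow _)).neg, ?_⟩
    rw [yy_succ]
    set y := yy p φ a T (k + 1) with hy
    have hVm : V (n + 1) ∈ maximalIdeal E := H.V_mem (by omega)
    have hym : y ∈ maximalIdeal E := by
      have h1 := Ideal.add_mem _ (H.KV_le (by omega) h) (Ideal.mul_mem_left _ c hVm)
      rwa [sub_add_cancel] at h1
    have h1 : (a ^ (p - 1) - 1) * φ y ∈ KV V n :=
      sq_le_KV V n (mul_mem_sq (H.a_pow_sub_one _) (H.map_mem hym))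
    have h2 : φ (y - c * V (n + 1)) - (y - c * V (n + 1)) ∈ KV V n :=
      H.D_KV hp (by omega) h
    have h3 : (φ c - c) * φ (V (n + 1)) ∈ KV V n :=
      sq_le_KV V n (mul_mem_sq (H.hφ c) (H.map_mem hVm))
    have h4 := Ideal.mul_mem_left _ c (H.D_V hp (by omega : n + 1 < p - 1))
    rw [map_sub, map_mul] at h2
    convert Ideal.add_mem _ (Ideal.add_mem _ (Ideal.add_mem _ h1 h2) h3) h4 using 1
    ring

/-- `𝔪` is generated by the `(σ - 1)^k T`, `1 ≤ k ≤ h = p - 1`. -/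
theorem maximalIdeal_eq_span (hp : 3 ≤ p) :
    maximalIdeal E = Ideal.span {x | ∃ k < p - 1, x = yy p φ a T (k + 1)} := by
  set Y : Ideal E := Ideal.span {x | ∃ k < p - 1, x = yy p φ a T (k + 1)} with hY
  have hYm : Y ≤ maximalIdeal E := by
    refine Ideal.span_le.2 ?_
    rintro _ ⟨k, hk, rfl⟩
    obtain ⟨c, hc, h⟩ := H.yy_lead hp k hk
    have h1 := Ideal.add_mem _ (H.KV_le (by omega) h)
      (Ideal.mul_mem_left _ c (H.V_mem (by omega : p - 2 - k < p - 1)))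
    rwa [sub_add_cancel] at h1
  have key : ∀ n ≤ p - 1, KV V n ≤ Y ⊔ maximalIdeal E ^ 2 := by
    intro n
    induction n with
    | zero =>
      intro _
      refine sup_le ?_ le_sup_right
      rw [JV, Ideal.span_le]
      rintro x ⟨j, hj, -⟩
      omega
    | succ n ih =>
      intro hn
      have ih' := ih (by omega)
      refine sup_le ?_ le_sup_right
      rw [JV, Ideal.span_le]
      rintro _ ⟨j, hj, rfl⟩
      rcases Nat.lt_succ_iff_lt_or_eq.1 hj with h1 | rfl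
      · exact ih' (JV_le_KV V n (V_mem_JV V h1))
      · obtain ⟨c, hc, h⟩ := H.yy_lead hp (p - 2 - j) (by omega)
        rw [show p - 2 - (p - 2 - j) = j by omega] at h
        have h2 := ih' h
        have h3 : yy p φ a T (p - 2 - j + 1) ∈ Y ⊔ maximalIdeal E ^ 2 :=
          Ideal.mem_sup_left (Ideal.subset_span ⟨p - 2 - j, by omega, rfl⟩)
        have h4 := Ideal.sub_mem _ h3 h2
        rw [sub_sub_cancel] at h4
        exact (Ideal.unit_mul_mem_iff_mem _ hc).1 h4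
  have h1 : maximalIdeal E ≤ Y ⊔ maximalIdeal E • maximalIdeal E := by
    rw [smul_eq_mul, ← sq]
    exact H.le_KV.trans (key _ le_rfl)
  refine le_antisymm ?_ hYm
  have hfg : (maximalIdeal E).FG := by
    rw [H.hm]
    exact JV_fg V _
  exact Submodule.le_of_le_smul_of_le_jacobson_bot hfg (IsLocalRing.maximalIdeal_le_jacobson _) h1

end CpData

end

end Vale.Agent.P251.F
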