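import Vale.Agent.P251.F.Pt

/-!
# P251, part F: homomorphisms of formal group laws

Light copy of the material of P217 (bundle B1): chain rule, homomorphisms with vanishing linear
coefficient in characteristic `p`, heights, composition, sums, inverses and base change of
homomorphisms. Names of the form `IsHom.compC` of P217 are `IsHom.compL` here.
-/

namespace Vale.Agent.P251.F

open MvPowerSeries Vale.Agent.P217

section Chain

variable {R : Type*} [CommRing R]

/-- Chain rule for multivariate power series. -/
theorem HT_pderiv_subst {σ τ : Type*} [Fintype σ] (a : σ → MvPowerSeries τ R)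
    (ha : ∀ i, constantCoeff (a i) = 0) (f : MvPowerSeries σ R) (t : τ) :
    pderiv R t (subst a f) = ∑ j, subst a (pderiv R j f) * pderiv R t (a j) := by
  classical
  have hs : HasSubst a := hasSubst_of_constantCoeff_zero ha
  -- difference
  let E : MvPowerSeries σ R → MvPowerSeries τ R := fun f =>
    pderiv R t (subst a f) - ∑ j, subst a (pderiv R j f) * pderiv R t (a j)
  have hE : ∀ f, E f = pderiv R t (subst a f) - ∑ j, subst a (pderiv R j f) * pderiv R t (a j) :=
    fun f => rfl
  have hstep : ∀ (c : R) (g : σ → MvPowerSeries σ R),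
      E (C c + ∑ i, X i * g i) = ∑ i, a i * E (g i) := by
    intro c g
    have h1 : ∀ j, pderiv R j (C c + ∑ i, X i * g i) = g j + ∑ i, X i * pderiv R j (g i) := by
      intro j
      rw [map_add, pderiv_C, zero_add, map_sum]
      simp only [Derivation.leibniz, smul_eq_mul]
      rw [Finset.sum_add_distrib, add_comm]
      congr 1
      rw [Finset.sum_eq_single j]
      · simp
      · intro i _ hij
        rw [pderiv_X_of_ne hij]
        simp
      · simp only [Finset.mem_univ, not_true_eq_false, pderiv_X_self, mul_one, IsEmpty.forall_iff]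
    have h2 : subst a (C c + ∑ i, X i * g i) = C c + ∑ i, a i * subst a (g i) := by
      rw [← substAlgHom_apply hs, map_add, map_sum, substAlgHom_apply, subst_C]
      congr 1
      refine Finset.sum_congr rfl fun i _ => ?_
      rw [map_mul, substAlgHom_apply, subst_X hs, substAlgHom_apply]
    have h3 : ∀ j, subst a (g j + ∑ i, X i * pderiv R j (g i)) =
        subst a (g j) + ∑ i, a i * subst a (pderiv R j (g i)) := by
      intro j
      rw [← substAlgHom_apply hs, map_add, map_sum, substAlgHom_apply]
      congr 1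
      refine Finset.sum_congr rfl fun i _ => ?_
      rw [map_mul, substAlgHom_apply, subst_X hs, substAlgHom_apply]
    rw [hE, h2, map_add, pderiv_C, zero_add, map_sum]
    simp only [Derivation.leibniz, smul_eq_mul, h1, h3, hE, mul_sub, Finset.sum_sub_distrib,
      Finset.sum_add_distrib, add_mul, Finset.sum_mul, Finset.mul_sum]
    rw [Finset.sum_comm (f := fun (i j : σ) => a j * subst a (pderiv R i (g j)) *
      pderiv R t (a i))]
    simp only [mul_assoc]
    ring
  have key : ∀ N : ℕ, ∀ f, (N : ℕ∞) ≤ (E f).order := by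
    intro N
    induction N with
    | zero => intro f; simp
    | succ N ih =>
      intro f
      obtain ⟨g, hg⟩ := exists_decomp f
      rw [hg, hstep]
      refine le_order fun d hd => ?_
      rw [map_sum]
      refine Finset.sum_eq_zero fun i _ => ?_
      refine coeff_of_lt_order (lt_of_lt_of_le hd ?_)
      refine le_trans ?_ (le_order_mul (f := a i) (g := E (g i)))
      push_cast
      rw [add_comm]
      refine add_le_add ?_ (ih (g i))
      refine le_order fun d hd => ?_
      have : d = 0 := by
        have : d.degree = 0 := by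
          have : (d.degree : ℕ∞) < 1 := hd
          exact_mod_cast Nat.lt_one_iff.mp (by exact_mod_cast this)
        exact (Finsupp.degree_eq_zero_iff d).mp this
      rw [this, coeff_zero_eq_constantCoeff_apply, ha]
  have h0 : E f = 0 := by
    rw [← order_eq_top_iff]
    refine ENat.eq_top_iff_forall_ge.mpr fun N => key N f
  exact sub_eq_zero.mp h0

end Chain

section Hom

variable {R : Type*} [CommRing R]

/-- Chain rule for a one-variable power series evaluated at a multivariate one. -/
theorem HT_pderiv_psubst {τ : Type*} (a : MvPowerSeries τ R) (ha : constantCoeff a = 0)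
    (f : PowerSeries R) (t : τ) :
    pderiv R t (PowerSeries.subst a f) =
      PowerSeries.subst a (PowerSeries.derivative R f) * pderiv R t a := by
  have := HT_pderiv_subst (fun _ : Unit => a) (fun _ => ha) f t
  rw [Fintype.sum_unique] at this
  exact this

theorem HT_constantCoeff_subst_of_zero {σ τ : Type*} [Finite σ] {c : σ → MvPowerSeries τ R}
    (hc : ∀ i, constantCoeff (c i) = 0) (g : MvPowerSeries σ R) :
    constantCoeff (subst c g) = constantCoeff g := by
  have hs : HasSubst c := hasSubst_of_constantCoeff_zero hc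
  have h1 : constantCoeff (subst c (g - C (constantCoeff g))) = 0 :=
    constantCoeff_subst_eq_zero hs hc (by simp only [map_sub, constantCoeff_C, sub_self])
  rw [subst_sub hs, subst_C, map_sub, constantCoeff_C, sub_eq_zero] at h1
  exact h1

theorem HT_hasSubst_pair {τ : Type*} {a b : MvPowerSeries τ R} (ha : constantCoeff a = 0)
    (hb : constantCoeff b = 0) : HasSubst ![a, b] :=
  hasSubst_of_constantCoeff_zero (by intro i; fin_cases i <;> simpa)

theorem HT_psubst_of_zero {τ : Type*} {a : MvPowerSeries τ R} (ha : constantCoeff a = 0) :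
    PowerSeries.HasSubst a := PowerSeries.HasSubst.of_constantCoeff_zero ha

theorem HT_constantCoeff_psubst {τ : Type*} {a : MvPowerSeries τ R} (ha : constantCoeff a = 0)
    {f : PowerSeries R} (hf : PowerSeries.constantCoeff f = 0) :
    constantCoeff (PowerSeries.subst a f : MvPowerSeries τ R) = 0 :=
  constantCoeff_subst_eq_zero (hasSubst_of_constantCoeff_zero (fun _ => ha)) (fun _ => ha) hf

/-- setting `Y = 0` in a substitution. -/
theorem HT_subst_pair_comp {τ υ : Type*} {a b : MvPowerSeries τ R} (ha : constantCoeff a = 0)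
    (hb : constantCoeff b = 0) {c : τ → MvPowerSeries υ R} (hc : HasSubst c)
    (G : MvPowerSeries (Fin 2) R) :
    subst c (subst ![a, b] G) = subst ![subst c a, subst c b] G := by
  rw [subst_comp_subst_apply (HT_hasSubst_pair ha hb) hc]
  congr! 2 with i
  fin_cases i <;> rfl

theorem HT_subst_psubst {τ υ : Type*} {a : MvPowerSeries τ R} (ha : constantCoeff a = 0)
    {c : τ → MvPowerSeries υ R} (hc : HasSubst c) (f : PowerSeries R) :
    subst c (PowerSeries.subst a f) = PowerSeries.subst (subst c a) f := by
  rw [PowerSeries.subst, PowerSeries.subst, subst_comp_subst_apply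
    (hasSubst_of_constantCoeff_zero (fun _ => ha)) hc]

/-- A homomorphism with vanishing linear coefficient has vanishing derivative. -/
theorem _root_.Vale.Agent.P217.IsHom.derivative_eq_zeroL {F G : FormalGroup R} {f : PowerSeries R} (hf : IsHom F G f)
    (h1 : PowerSeries.coeff 1 f = 0) : PowerSeries.derivative R f = 0 := by
  have hX : ∀ i : Fin 2, constantCoeff (X i : MvPowerSeries (Fin 2) R) = 0 := by simp
  have hfX : ∀ i : Fin 2, constantCoeff
      (PowerSeries.subst (X i : MvPowerSeries (Fin 2) R) f : MvPowerSeries (Fin 2) R) = 0 :=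
    fun i => HT_constantCoeff_psubst (hX i) hf.1
  have h := congrArg (pderiv R 1) hf.2
  rw [HT_pderiv_psubst _ F.zero_constantCoeff, HT_pderiv_subst _ (by
    intro i; fin_cases i
    · exact hfX 0
    · exact hfX 1), Fin.sum_univ_two] at h
  simp only [Matrix.cons_val_zero, Matrix.cons_val_one] at h
  rw [HT_pderiv_psubst _ (hX 0), HT_pderiv_psubst _ (hX 1), pderiv_X_self,
    pderiv_X_of_ne (show (0 : Fin 2) ≠ 1 by decide), mul_zero, mul_zero, zero_add, mul_one] at h
  -- set `Y = 0`
  let c : Fin 2 → PowerSeries R := ![PowerSeries.X, 0]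
  have hc : HasSubst c := HasSubst.X_zero
  have h2 := congrArg (subst c) h
  rw [← substAlgHom_apply hc, ← substAlgHom_apply hc, map_mul, map_mul, substAlgHom_apply,
    substAlgHom_apply, substAlgHom_apply, substAlgHom_apply, HT_subst_psubst F.zero_constantCoeff hc,
    HT_subst_psubst (hX 1) hc, subst_X hc] at h2
  have e1 : subst c F.toPowerSeries = (PowerSeries.X : PowerSeries R) := F.Xzero_eq_X
  have e2 : (PowerSeries.subst (c 1) (PowerSeries.derivative R f) : PowerSeries R) = 0 := by
    change (PowerSeries.subst (0 : PowerSeries R) (PowerSeries.derivative R f) :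
      PowerSeries R) = 0
    rw [PowerSeries.subst_zero_of_constantCoeff_zero]
    rw [← PowerSeries.coeff_zero_eq_constantCoeff_apply, PowerSeries.coeff_derivative]
    simp only [zero_add, h1, Nat.cast_zero, mul_one]
  rw [e1, e2, mul_zero, PowerSeries.X_subst] at h2
  have hu : IsUnit (subst c (pderiv R 1 F.toPowerSeries) : PowerSeries R) := by
    rw [PowerSeries.isUnit_iff_constantCoeff]
    have : PowerSeries.constantCoeff (subst c (pderiv R 1 F.toPowerSeries) : PowerSeries R) =
        constantCoeff (pderiv R 1 F.toPowerSeries) := by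
      refine HT_constantCoeff_subst_of_zero (fun i => ?_) _
      fin_cases i
      · exact PowerSeries.constantCoeff_X
      · exact map_zero _
    rw [this, ← coeff_zero_eq_constantCoeff_apply, coeff_pderiv]
    simp only [Fin.isValue, zero_add, F.lin_coeff_Y, Finsupp.coe_zero, Pi.zero_apply, Nat.cast_zero, mul_one, isUnit_one]
  exact (hu.mul_left_eq_zero).mp h2

variable (p : ℕ) [Fact p.Prime] [CharP R p]

/-- In characteristic `p`, a power series with vanishing derivative is a series in `X^p`. -/
theorem exists_expand_of_derivative_eq_zero (f : PowerSeries R)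
    (h : PowerSeries.derivative R f = 0) :
    ∃ g : PowerSeries R, f = PowerSeries.expand p (Fact.out : p.Prime).ne_zero g := by
  refine ⟨PowerSeries.mk fun j => PowerSeries.coeff (p * j) f, ?_⟩
  ext j
  rw [PowerSeries.coeff_expand]
  split_ifs with hj
  · obtain ⟨i, rfl⟩ := hj
    rw [Nat.mul_div_cancel_left _ (Fact.out : p.Prime).pos, PowerSeries.coeff_mk]
  · have hj0 : j ≠ 0 := by rintro rfl; exact hj (dvd_zero p)
    obtain ⟨i, rfl⟩ := Nat.exists_eq_succ_of_ne_zero hj0
    have h1 := congrArg (PowerSeries.coeff i) h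
    rw [PowerSeries.coeff_derivative, map_zero] at h1
    have hu : IsUnit ((i.succ : ℕ) : R) := (CharP.isUnit_natCast_iff (Fact.out : p.Prime)).mpr hj
    have h2 : ((i.succ : ℕ) : R) = (i : R) + 1 := by push_cast; ring
    rw [h2] at hu
    exact (hu.mul_left_eq_zero).mp h1

theorem HT_expand_injective {k : ℕ} (hk : k ≠ 0) {σ : Type*} :
    Function.Injective (MvPowerSeries.expand (σ := σ) (R := R) k hk) := by
  intro f g h
  ext d
  rw [← coeff_expand_smul k hk f d, ← coeff_expand_smul k hk g d, h]

/-- If `g(X^p)` is a homomorphism `F → G` then `g` is a homomorphism `F^(p) → G`. -/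
theorem _root_.Vale.Agent.P217.IsHom.of_expandL {F G : FormalGroup R} {g : PowerSeries R} (hp : p ≠ 0)
    (hf : IsHom F G (PowerSeries.expand p hp g)) : IsHom (F.map (frobenius R p)) G g := by
  have hX : ∀ i : Fin 2, constantCoeff (X i : MvPowerSeries (Fin 2) R) = 0 := by simp
  have hg0 : PowerSeries.constantCoeff g = 0 := by
    have := hf.1
    rwa [PowerSeries.constantCoeff_expand] at this
  refine ⟨hg0, ?_⟩
  apply HT_expand_injective (k := p) hp
  have h := hf.2
  have hXp : PowerSeries.HasSubst (PowerSeries.X ^ p : PowerSeries R) :=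
    PowerSeries.HasSubst.X_pow hp
  have e0 : ∀ a : MvPowerSeries (Fin 2) R, constantCoeff a = 0 →
      PowerSeries.subst a (PowerSeries.expand p hp g) = PowerSeries.subst (a ^ p) g := by
    intro a ha
    rw [PowerSeries.expand_apply, PowerSeries.subst_comp_subst_apply hXp (HT_psubst_of_zero ha),
      PowerSeries.subst_pow (HT_psubst_of_zero ha), PowerSeries.subst_X (HT_psubst_of_zero ha)]
  rw [e0 _ F.zero_constantCoeff, e0 _ (hX 0), e0 _ (hX 1)] at h
  have e1 : ∀ i : Fin 2, (PowerSeries.subst (X i ^ p : MvPowerSeries (Fin 2) R) g :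
      MvPowerSeries (Fin 2) R) =
      MvPowerSeries.expand p hp (PowerSeries.subst (X i : MvPowerSeries (Fin 2) R) g) := by
    intro i
    rw [PowerSeries.expand_subst p hp (HT_psubst_of_zero (hX i)), MvPowerSeries.expand_X]
  have e2 : MvPowerSeries.expand p hp (F.map (frobenius R p)).toPowerSeries =
      F.toPowerSeries ^ p := by
    rw [← MvPowerSeries.map_frobenius_expand p hp, MvPowerSeries.map_expand]
    rfl
  rw [PowerSeries.expand_subst p hp (HT_psubst_of_zero (F.map (frobenius R p)).zero_constantCoeff),
    e2, h, MvPowerSeries.expand_subst p hp (HT_hasSubst_pair (HT_constantCoeff_psubst (hX 0) hg0)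
      (HT_constantCoeff_psubst (hX 1) hg0))]
  congr 1
  ext1 i
  fin_cases i
  · exact e1 0
  · exact e1 1

theorem HT_FormalGroup_map_map {S T : Type*} [CommRing S] [CommRing T] (F : FormalGroup R)
    (φ : R →+* S) (ψ : S →+* T) : (F.map φ).map ψ = F.map (ψ.comp φ) := by
  ext1
  simp only [FormalGroup.map, map_map]

/-- A homomorphism of formal group laws in characteristic `p` whose coefficients of degree
`< p^h` vanish is a power series in `X^(p^h)`. -/
theorem _root_.Vale.Agent.P217.IsHom.exists_heightL {F G : FormalGroup R} {f : PowerSeries R} (hf : IsHom F G f)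
    (h : ℕ) (hlow : ∀ j < p ^ h, PowerSeries.coeff j f = 0) :
    ∃ V : PowerSeries R, f = PowerSeries.subst (PowerSeries.X ^ (p ^ h) : PowerSeries R) V ∧
      IsHom (F.map (iterateFrobenius R p h)) G V := by
  have hp : p ≠ 0 := (Fact.out : p.Prime).ne_zero
  induction h with
  | zero =>
    refine ⟨f, by simp [PowerSeries.X_subst], ?_⟩
    have : F.map (iterateFrobenius R p 0) = F := by
      ext1
      simp [FormalGroup.map, MvPowerSeries.map_id]
    rwa [this]
  | succ h ih =>
    obtain ⟨V, hV, hVhom⟩ := ih fun j hj => hlow j (hj.trans_le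
      (Nat.pow_le_pow_right (Fact.out : p.Prime).pos (Nat.le_succ h)))
    have h1 : PowerSeries.coeff 1 V = 0 := by
      have := hlow (p ^ h) (Nat.pow_lt_pow_right (Fact.out : p.Prime).one_lt (Nat.lt_succ_self h))
      rw [hV, PowerSeries.coeff_subst_X_pow (pow_ne_zero h hp)] at this
      simpa only [dvd_refl, ↓reduceIte, Algebra.algebraMap_self, Nat.div_self (pow_pos (Fact.out : p.Prime).pos h),     RingHom.id_apply] using this
    obtain ⟨W, hW⟩ := exists_expand_of_derivative_eq_zero p V (hVhom.derivative_eq_zeroL h1)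
    refine ⟨W, ?_, ?_⟩
    · rw [hV, hW, PowerSeries.expand_apply, PowerSeries.subst_comp_subst_apply
        (PowerSeries.HasSubst.X_pow hp) (PowerSeries.HasSubst.X_pow (pow_ne_zero h hp)),
        PowerSeries.subst_pow (PowerSeries.HasSubst.X_pow (pow_ne_zero h hp)),
        PowerSeries.subst_X (PowerSeries.HasSubst.X_pow (pow_ne_zero h hp)), ← pow_mul, ← pow_succ]
    · rw [hW] at hVhom
      have := IsHom.of_expandL p hp hVhom
      rw [HT_FormalGroup_map_map] at this
      have e : (frobenius R p).comp (iterateFrobenius R p h) = iterateFrobenius R p (h + 1) := by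
        ext x
        simp [iterateFrobenius_def, frobenius_def, ← pow_mul, pow_succ]
      rwa [e] at this

end Hom

section Mult

variable {R : Type*} [CommRing R]

/-- `[m]_F(g)` is the `m`-th multiple of the point `g`. -/
theorem HT_nsmul_point (F : FormalGroup R) {τ : Type*} (g : F.Point τ)
    (hg : constantCoeff g.val = 0) (m : ℕ) :
    (m • g).val = PowerSeries.subst g.val (multSeries F m) := by
  have hs : HasSubst (fun _ : Unit => g.val) := hasSubst_of_constantCoeff_zero (fun _ => hg)
  induction m with
  | zero =>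
    rw [zero_nsmul, FormalGroup.zero_apply]
    change 0 = subst (fun _ : Unit => g.val) (0 : MvPowerSeries Unit R)
    rw [← substAlgHom_apply hs, map_zero]
  | succ m ih =>
    rw [succ_nsmul, FormalGroup.add_apply, multSeries_succ, PowerSeries.subst,
      HT_subst_pair_comp (constantCoeff_multSeries F m) PowerSeries.constantCoeff_X hs, ih]
    congr 1
    ext1 i
    fin_cases i
    · rfl
    · exact (subst_X hs ()).symm

theorem isHom_multSeries (F : FormalGroup R) [F.IsComm] (m : ℕ) :
    IsHom F F (multSeries F m) := by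
  refine ⟨constantCoeff_multSeries F m, ?_⟩
  have hX : ∀ i : Fin 2, constantCoeff (X i : MvPowerSeries (Fin 2) R) = 0 := by simp
  let x : F.Point (Fin 2) := ⟨X 0, HT_psubst_of_zero (hX 0)⟩
  let y : F.Point (Fin 2) := ⟨X 1, HT_psubst_of_zero (hX 1)⟩
  have hxy : (x + y).val = F.toPowerSeries := by
    rw [FormalGroup.add_apply]
    have : ![x.val, y.val] = (X : Fin 2 → MvPowerSeries (Fin 2) R) := by
      ext1 i; fin_cases i <;> rfl
    rw [this, subst_self]
    rfl
  have h := congrArg Subtype.val (nsmul_add x y m)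
  rw [FormalGroup.add_apply, HT_nsmul_point F (x + y) (by rw [hxy]; exact F.zero_constantCoeff),
    HT_nsmul_point F x (hX 0), HT_nsmul_point F y (hX 1), hxy] at h
  exact h

theorem exists_V_of_coeff_eq_zero (p : ℕ) [Fact p.Prime] [CharP R p] (F : FormalGroup R)
    [F.IsComm] (h : ℕ) (hlow : ∀ j < p ^ h, PowerSeries.coeff j (multSeries F p) = 0) :
    ∃ V : PowerSeries R,
      multSeries F p = PowerSeries.subst (PowerSeries.X ^ (p ^ h) : PowerSeries R) V ∧
      IsHom (F.map (iterateFrobenius R p h)) F V :=
  (isHom_multSeries F p).exists_heightL p h hlow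

end Mult


section Cong

variable {R : Type*} [CommRing R] {σ : Type*}

/-- substitution respects congruences modulo `X^k`. -/
theorem coeff_subst_congr {k : ℕ} {a b : σ → PowerSeries R} (ha : HasSubst a) (hb : HasSubst b)
    (h : ∀ s, ∀ i < k, PowerSeries.coeff i (a s) = PowerSeries.coeff i (b s))
    (f : MvPowerSeries σ R) :
    ∀ i < k, PowerSeries.coeff i (subst a f : PowerSeries R) =
      PowerSeries.coeff i (subst b f : PowerSeries R) := by
  have key : ∀ d : σ →₀ ℕ, (PowerSeries.X : PowerSeries R) ^ k ∣
      (d.prod fun s e => (a s) ^ e) - (d.prod fun s e => (b s) ^ e) := by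
    intro d
    rw [← Ideal.mem_span_singleton, ← Ideal.Quotient.mk_eq_mk_iff_sub_mem]
    simp only [Finsupp.prod, map_prod, map_pow]
    refine Finset.prod_congr rfl fun s _ => ?_
    congr 1
    rw [Ideal.Quotient.mk_eq_mk_iff_sub_mem, Ideal.mem_span_singleton, PowerSeries.X_pow_dvd_iff]
    intro m hm
    rw [map_sub, h s m hm, sub_self]
  intro i hi
  rw [PowerSeries.coeff, coeff_subst ha, coeff_subst hb]
  refine finsum_congr fun d => ?_
  have := (PowerSeries.X_pow_dvd_iff.mp (key d)) i hi
  rw [map_sub, sub_eq_zero] at this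
  rw [PowerSeries.coeff] at this
  rw [this]

end Cong

section Iota

variable {R : Type*} [CommRing R] (F : FormalGroup R)

theorem hasSubst_pair {σ : Type*} {f g : MvPowerSeries σ R} (hf : PowerSeries.HasSubst f)
    (hg : PowerSeries.HasSubst g) : HasSubst ![f, g] :=
  hasSubst_of_constantCoeff_nilpotent fun s => by
    fin_cases s
    · exact hf
    · exact hg

theorem hasSubst_of_cc {σ : Type*} {f : MvPowerSeries σ R} (hf : constantCoeff f = 0) :
    PowerSeries.HasSubst f := PowerSeries.HasSubst.of_constantCoeff_zero hf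

/-- There is a series `ι(X)` with `F(ι(X), X) = 0`. -/
theorem exists_iota : ∃ u : PowerSeries R, PowerSeries.constantCoeff u = 0 ∧
    (subst ![u, PowerSeries.X] F.toPowerSeries : PowerSeries R) = 0 := by
  obtain ⟨H, hH⟩ := exists_FG_decomp F
  let T : PowerSeries R → PowerSeries R := fun Y =>
    -PowerSeries.X - Y * PowerSeries.X * (subst ![Y, PowerSeries.X] H : PowerSeries R)
  have hT0 : ∀ Y, PowerSeries.constantCoeff (T Y) = 0 := by
    intro Y
    simp only [Nat.succ_eq_add_one, Nat.reduceAdd, map_sub, map_neg, PowerSeries.constantCoeff_X, neg_zero, map_mul, mul_zero, zero_mul, sub_self, T]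
  let Y : ℕ → PowerSeries R := fun j => T^[j] 0
  have hYs : ∀ j, Y (j + 1) = T (Y j) := fun j => Function.iterate_succ_apply' T j 0
  have hY0 : ∀ j, PowerSeries.constantCoeff (Y j) = 0 := by
    intro j
    cases j with
    | zero => simp [Y]
    | succ j => rw [hYs]; exact hT0 _
  have hS : ∀ Z : PowerSeries R, PowerSeries.constantCoeff Z = 0 →
      HasSubst ![Z, (PowerSeries.X : PowerSeries R)] := fun Z hZ =>
    hasSubst_pair (hasSubst_of_cc hZ) (hasSubst_of_cc PowerSeries.constantCoeff_X)
  have hTc : ∀ (k : ℕ) (A B : PowerSeries R), PowerSeries.constantCoeff A = 0 →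
      PowerSeries.constantCoeff B = 0 →
      (∀ i < k, PowerSeries.coeff i A = PowerSeries.coeff i B) →
      ∀ i < k + 1, PowerSeries.coeff i (T A) = PowerSeries.coeff i (T B) := by
    intro k A B hA hB hAB
    have h1 : (PowerSeries.X : PowerSeries R) ^ k ∣ A - B := by
      rw [PowerSeries.X_pow_dvd_iff]
      intro m hm
      rw [map_sub, hAB m hm, sub_self]
    have h2 : (PowerSeries.X : PowerSeries R) ^ k ∣
        (subst ![A, PowerSeries.X] H : PowerSeries R) - subst ![B, PowerSeries.X] H := by
      rw [PowerSeries.X_pow_dvd_iff]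
      intro m hm
      rw [map_sub, coeff_subst_congr (hS A hA) (hS B hB) ?_ H m hm, sub_self]
      intro s i hi
      fin_cases s
      · exact hAB i hi
      · rfl
    have h3 : (PowerSeries.X : PowerSeries R) ^ (k + 1) ∣ T A - T B := by
      obtain ⟨u, hu⟩ := h1
      obtain ⟨v, hv⟩ := h2
      refine ⟨-(u * (subst ![A, PowerSeries.X] H : PowerSeries R) + B * v), ?_⟩
      simp only [T]
      linear_combination (-PowerSeries.X * (subst ![A, PowerSeries.X] H : PowerSeries R)) * hu
        - B * PowerSeries.X * hv
    intro i hi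
    have := (PowerSeries.X_pow_dvd_iff.mp h3) i hi
    rwa [map_sub, sub_eq_zero] at this
  have hstep : ∀ j, ∀ i < j, PowerSeries.coeff i (Y (j + 1)) = PowerSeries.coeff i (Y j) := by
    intro j
    induction j with
    | zero => intro i hi; omega
    | succ j ih =>
      intro i hi
      rw [hYs (j + 1)]
      conv_rhs => rw [hYs j]
      exact hTc j _ _ (hY0 _) (hY0 _) ih i hi
  have hstab : ∀ j j', j ≤ j' → ∀ i < j,
      PowerSeries.coeff i (Y j') = PowerSeries.coeff i (Y j) := by
    intro j j' hjj
    induction j', hjj using Nat.le_induction with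
    | base => intro i _; rfl
    | succ j' hj ih =>
      intro i hi
      rw [hstep j' i (hi.trans_le hj), ih i hi]
  let u : PowerSeries R := PowerSeries.mk fun i => PowerSeries.coeff i (Y (i + 1))
  have hu : ∀ j, ∀ i < j, PowerSeries.coeff i u = PowerSeries.coeff i (Y j) := by
    intro j i hi
    rw [PowerSeries.coeff_mk, hstab (i + 1) j hi i (Nat.lt_succ_self i)]
  have hu0 : PowerSeries.constantCoeff u = 0 := by
    rw [← PowerSeries.coeff_zero_eq_constantCoeff_apply, hu 1 0 one_pos,
      PowerSeries.coeff_zero_eq_constantCoeff_apply, hY0]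
  refine ⟨u, hu0, ?_⟩
  have hF : ∀ Z : PowerSeries R, PowerSeries.constantCoeff Z = 0 →
      (subst ![Z, PowerSeries.X] F.toPowerSeries : PowerSeries R) = Z - T Z := by
    intro Z hZ
    rw [hH, subst_add (hS Z hZ), subst_add (hS Z hZ), subst_mul (hS Z hZ), subst_mul (hS Z hZ),
      subst_X (hS Z hZ), subst_X (hS Z hZ)]
    simp only [T, Matrix.cons_val_zero, Matrix.cons_val_one]
    ring
  ext i
  rw [coeff_subst_congr (k := i + 1) (hS u hu0) (hS (Y (i + 1)) (hY0 _)) ?_ _ i
    (Nat.lt_succ_self i), hF _ (hY0 _), map_sub, ← hYs, hstep (i + 1) i (Nat.lt_succ_self i),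
    sub_self, map_zero]
  intro s i' hi'
  fin_cases s
  · exact hu _ i' hi'
  · rfl

/-- the inverse series. -/
noncomputable def iota : PowerSeries R := (exists_iota F).choose

theorem constantCoeff_iota : PowerSeries.constantCoeff (iota F) = 0 :=
  (exists_iota F).choose_spec.1

theorem subst_iota_X : (subst ![iota F, PowerSeries.X] F.toPowerSeries : PowerSeries R) = 0 :=
  (exists_iota F).choose_spec.2

end Iota

section Group

variable {R : Type*} [CommRing R] {σ : Type*} (F : FormalGroup R)

theorem ps_subst_zero {x : MvPowerSeries σ R} (hx : PowerSeries.HasSubst x) :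
    (PowerSeries.subst x (0 : PowerSeries R) : MvPowerSeries σ R) = 0 := by
  rw [← PowerSeries.coe_substAlgHom hx, map_zero]

theorem subst_hasSubst {f : PowerSeries R} (hf : PowerSeries.constantCoeff f = 0)
    {x : MvPowerSeries σ R} (hx : PowerSeries.HasSubst x) :
    PowerSeries.HasSubst (PowerSeries.subst x f : MvPowerSeries σ R) :=
  IsNilpotent_subst hx.const (by
    have : constantCoeff (f : MvPowerSeries Unit R) = 0 := hf
    rw [this]; exact IsNilpotent.zero)

theorem subst_pair_subst {τ : Type*} {G : MvPowerSeries (Fin 2) R} {f g : MvPowerSeries σ R}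
    (hf : PowerSeries.HasSubst f) (hg : PowerSeries.HasSubst g) {a : σ → MvPowerSeries τ R}
    (ha : HasSubst a) :
    subst a (subst ![f, g] G) = subst ![subst a f, subst a g] G := by
  rw [subst_comp_subst_apply (hasSubst_pair hf hg) ha]
  congr! 1
  funext s
  fin_cases s <;> rfl

noncomputable instance : Neg (F.Point σ) :=
  ⟨fun x => ⟨PowerSeries.subst x.val (iota F), subst_hasSubst (constantCoeff_iota F) x.prop⟩⟩

theorem neg_val (x : F.Point σ) : (-x).val = PowerSeries.subst x.val (iota F) := rfl

theorem neg_add_cancel' (x : F.Point σ) : -x + x = 0 := by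
  apply Subtype.ext
  rw [FormalGroup.add_apply, neg_val, FormalGroup.zero_apply]
  have h := congrArg (PowerSeries.subst x.val) (subst_iota_X F)
  rw [PowerSeries.subst, subst_pair_subst (hasSubst_of_cc (constantCoeff_iota F))
    (hasSubst_of_cc PowerSeries.constantCoeff_X) x.prop.const] at h
  have h2 : subst (fun _ : Unit => x.val) (PowerSeries.X : PowerSeries R) = x.val :=
    PowerSeries.subst_X x.prop
  rw [h2] at h
  refine Eq.trans ?_ (h.trans ?_)
  · rfl
  · exact ps_subst_zero x.prop

noncomputable instance [F.IsComm] : AddCommGroup (F.Point σ) where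
  __ := (inferInstance : AddCommMonoid (F.Point σ))
  zsmul := zsmulRec
  neg_add_cancel := neg_add_cancel' F

end Group

section Hom

variable {R S : Type*} [CommRing R] [CommRing S] {σ τ : Type*} {F G H : FormalGroup R}

/-- values of a homomorphism at points. -/
theorem _root_.Vale.Agent.P217.IsHom.substL {f : PowerSeries R} (hf : IsHom F G f) {x y : MvPowerSeries σ R}
    (hx : PowerSeries.HasSubst x) (hy : PowerSeries.HasSubst y) :
    (PowerSeries.subst (subst ![x, y] F.toPowerSeries) f : MvPowerSeries σ R) =
      subst ![PowerSeries.subst x f, PowerSeries.subst y f] G.toPowerSeries := by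
  have h := congrArg (subst ![x, y]) hf.2
  have hxy := hasSubst_pair hx hy
  have hX0 : PowerSeries.HasSubst (X 0 : MvPowerSeries (Fin 2) R) := hasSubst_of_cc (by simp)
  have hX1 : PowerSeries.HasSubst (X 1 : MvPowerSeries (Fin 2) R) := hasSubst_of_cc (by simp)
  have hFs : PowerSeries.HasSubst F.toPowerSeries := hasSubst_of_cc F.zero_constantCoeff
  rw [subst_pair_subst (subst_hasSubst hf.1 hX0) (subst_hasSubst hf.1 hX1) hxy] at h
  rw [PowerSeries.subst, PowerSeries.subst, PowerSeries.subst,
    subst_comp_subst_apply hFs.const hxy, subst_comp_subst_apply hX0.const hxy,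
    subst_comp_subst_apply hX1.const hxy] at h
  simp only [subst_X hxy] at h
  exact h

/-- A homomorphism `F → G` gives homomorphisms on points. -/
noncomputable def homPt [F.IsComm] [G.IsComm] (f : PowerSeries R) (hf : IsHom F G f) :
    F.Point σ →+ G.Point σ where
  toFun x := ⟨PowerSeries.subst x.val f, subst_hasSubst hf.1 x.prop⟩
  map_zero' := by
    apply Subtype.ext
    exact PowerSeries.subst_zero_of_constantCoeff_zero hf.1
  map_add' x y := by
    apply Subtype.ext
    exact hf.substL x.prop y.prop

@[simp] theorem homPt_val [F.IsComm] [G.IsComm] (f : PowerSeries R) (hf : IsHom F G f)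
    (x : F.Point σ) : (homPt f hf x).val = PowerSeries.subst x.val f := rfl

/-- The points `X` and `Y`. -/
noncomputable def ptX (F : FormalGroup R) (s : σ) : F.Point σ :=
  ⟨X s, hasSubst_of_cc (by simp)⟩

@[simp] theorem ptX_val (s : σ) : (ptX F s).val = X s := rfl

theorem ptX_add : (ptX F (0 : Fin 2) + ptX F 1).val = F.toPowerSeries := by
  rw [FormalGroup.add_apply]
  have : (![(ptX F (0 : Fin 2)).val, (ptX F 1).val] : Fin 2 → MvPowerSeries (Fin 2) R) = X := by
    funext s; fin_cases s <;> rfl
  rw [this, subst_self]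
  rfl

theorem _root_.Vale.Agent.P217.IsHom.ofPtL {f : PowerSeries R} (hf0 : PowerSeries.constantCoeff f = 0)
    (h : (PowerSeries.subst (ptX F (0 : Fin 2) + ptX F 1).val f : MvPowerSeries (Fin 2) R) =
      subst ![PowerSeries.subst (X 0 : MvPowerSeries (Fin 2) R) f,
        PowerSeries.subst (X 1 : MvPowerSeries (Fin 2) R) f] G.toPowerSeries) : IsHom F G f := by
  refine ⟨hf0, ?_⟩
  rw [ptX_add] at h
  exact h

theorem _root_.Vale.Agent.P217.IsHom.compL {f g : PowerSeries R} (hf : IsHom F G f) (hg : IsHom G H g) :
    IsHom F H (PowerSeries.subst f g) := by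
  have hfs : PowerSeries.HasSubst f := hasSubst_of_cc hf.1
  refine IsHom.ofPtL (PowerSeries.constantCoeff_subst_eq_zero hf.1 _ hg.1) ?_
  have h1 : ∀ x : F.Point (Fin 2), (PowerSeries.subst x.val (PowerSeries.subst f g : PowerSeries R)
      : MvPowerSeries (Fin 2) R) = PowerSeries.subst (PowerSeries.subst x.val f) g := fun x =>
    PowerSeries.subst_comp_subst_apply hfs x.prop g
  have hX0 : PowerSeries.HasSubst (X 0 : MvPowerSeries (Fin 2) R) := hasSubst_of_cc (by simp)
  have hX1 : PowerSeries.HasSubst (X 1 : MvPowerSeries (Fin 2) R) := hasSubst_of_cc (by simp)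
  rw [h1]
  have e0 : (PowerSeries.subst (X 0 : MvPowerSeries (Fin 2) R)
      (PowerSeries.subst f g : PowerSeries R) : MvPowerSeries (Fin 2) R) =
      PowerSeries.subst (PowerSeries.subst (X 0 : MvPowerSeries (Fin 2) R) f) g := h1 (ptX F 0)
  have e1 : (PowerSeries.subst (X 1 : MvPowerSeries (Fin 2) R)
      (PowerSeries.subst f g : PowerSeries R) : MvPowerSeries (Fin 2) R) =
      PowerSeries.subst (PowerSeries.subst (X 1 : MvPowerSeries (Fin 2) R) f) g := h1 (ptX F 1)
  rw [e0, e1, ← hg.substL (subst_hasSubst hf.1 hX0) (subst_hasSubst hf.1 hX1),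
    ← hf.substL hX0 hX1]
  rfl

theorem isHom_X : IsHom F F PowerSeries.X := by
  refine ⟨PowerSeries.constantCoeff_X, ?_⟩
  have hFs : PowerSeries.HasSubst F.toPowerSeries := hasSubst_of_cc F.zero_constantCoeff
  have hX0 : PowerSeries.HasSubst (X 0 : MvPowerSeries (Fin 2) R) := hasSubst_of_cc (by simp)
  have hX1 : PowerSeries.HasSubst (X 1 : MvPowerSeries (Fin 2) R) := hasSubst_of_cc (by simp)
  rw [PowerSeries.subst_X hFs, PowerSeries.subst_X hX0, PowerSeries.subst_X hX1]
  have : (![(X 0 : MvPowerSeries (Fin 2) R), X 1] : Fin 2 → MvPowerSeries (Fin 2) R) = X := by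
    funext s; fin_cases s <;> rfl
  rw [this, subst_self]
  rfl

/-- The inverse of an isomorphism. -/
theorem _root_.Vale.Agent.P217.IsIso.symmL {f : PowerSeries R} (hf : IsIso F G f) :
    ∃ g : PowerSeries R, IsIso G F g ∧ PowerSeries.subst f g = (PowerSeries.X : PowerSeries R) ∧
      PowerSeries.subst g f = (PowerSeries.X : PowerSeries R) := by
  have hf0 := hf.1.1
  set g := PowerSeries.substInvOfIsUnit f hf.2 with hg
  have h1 : PowerSeries.subst f g = (PowerSeries.X : PowerSeries R) :=
    PowerSeries.subst_substInvOfIsUnit_left _ hf0 hf.2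
  have h2 : PowerSeries.subst g f = (PowerSeries.X : PowerSeries R) :=
    PowerSeries.subst_substInvOfIsUnit_right _ hf0 hf.2
  have hg0 : PowerSeries.constantCoeff g = 0 := by
    rw [hg, PowerSeries.constantCoeff_substInvOfIsUnit]
  have hX0 : PowerSeries.HasSubst (X 0 : MvPowerSeries (Fin 2) R) := hasSubst_of_cc (by simp)
  have hX1 : PowerSeries.HasSubst (X 1 : MvPowerSeries (Fin 2) R) := hasSubst_of_cc (by simp)
  have hfs : PowerSeries.HasSubst f := hasSubst_of_cc hf0
  have hgs : PowerSeries.HasSubst g := hasSubst_of_cc hg0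
  have k1 : ∀ x : MvPowerSeries (Fin 2) R, PowerSeries.HasSubst x →
      (PowerSeries.subst (PowerSeries.subst x f : MvPowerSeries (Fin 2) R) g :
        MvPowerSeries (Fin 2) R) = x := by
    intro x hx
    rw [← PowerSeries.subst_comp_subst_apply hfs hx, h1, PowerSeries.subst_X hx]
  have k2 : ∀ x : MvPowerSeries (Fin 2) R, PowerSeries.HasSubst x →
      (PowerSeries.subst (PowerSeries.subst x g : MvPowerSeries (Fin 2) R) f :
        MvPowerSeries (Fin 2) R) = x := by
    intro x hx
    rw [← PowerSeries.subst_comp_subst_apply hgs hx, h2, PowerSeries.subst_X hx]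
  refine ⟨g, ⟨IsHom.ofPtL hg0 ?_, ?_⟩, h1, h2⟩
  · have hg0s := subst_hasSubst hg0 hX0
    have hg1s := subst_hasSubst hg0 hX1
    have e := hf.1.substL hg0s hg1s
    rw [k2 _ hX0, k2 _ hX1] at e
    have e2 : (ptX G (0 : Fin 2) + ptX G 1).val = subst ![X 0, X 1] G.toPowerSeries := rfl
    rw [e2, ← e]
    refine k1 _ (IsNilpotent_subst (hasSubst_pair hg0s hg1s) ?_)
    rw [F.zero_constantCoeff]
    exact IsNilpotent.zero
  · rw [hg, PowerSeries.coeff_one_substInvOfIsUnit]
    exact Units.isUnit _

theorem FG_map_toPowerSeries (φ : R →+* S) : (F.map φ).toPowerSeries = F.toPowerSeries.map φ :=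
  rfl

theorem map_pair_subst (φ : R →+* S) {x y : MvPowerSeries σ R} (hx : PowerSeries.HasSubst x)
    (hy : PowerSeries.HasSubst y) (P : MvPowerSeries (Fin 2) R) :
    (subst ![x, y] P).map φ = subst ![x.map φ, y.map φ] (P.map φ) := by
  rw [map_subst (hasSubst_pair hx hy)]
  congr! 1
  funext s
  fin_cases s <;> rfl

theorem _root_.Vale.Agent.P217.IsHom.mapL {f : PowerSeries R} (hf : IsHom F G f) (φ : R →+* S) :
    IsHom (F.map φ) (G.map φ) (PowerSeries.map φ f) := by
  have hX0 : PowerSeries.HasSubst (X 0 : MvPowerSeries (Fin 2) R) := hasSubst_of_cc (by simp)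
  have hX1 : PowerSeries.HasSubst (X 1 : MvPowerSeries (Fin 2) R) := hasSubst_of_cc (by simp)
  have hFs : PowerSeries.HasSubst F.toPowerSeries := hasSubst_of_cc F.zero_constantCoeff
  refine ⟨?_, ?_⟩
  · rw [← PowerSeries.coeff_zero_eq_constantCoeff_apply, PowerSeries.coeff_map,
      PowerSeries.coeff_zero_eq_constantCoeff_apply, hf.1, map_zero]
  · have h := congrArg (MvPowerSeries.map φ) hf.2
    rw [PowerSeries.map_subst hFs, map_pair_subst φ (subst_hasSubst hf.1 hX0)
      (subst_hasSubst hf.1 hX1), PowerSeries.map_subst hX0, PowerSeries.map_subst hX1, map_X,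
      map_X] at h
    exact h

theorem _root_.Vale.Agent.P217.IsIso.mapL {f : PowerSeries R} (hf : IsIso F G f) (φ : R →+* S) :
    IsIso (F.map φ) (G.map φ) (PowerSeries.map φ f) := by
  refine ⟨hf.1.mapL φ, ?_⟩
  rw [PowerSeries.coeff_map]
  exact hf.2.map φ

instance FG_map_isComm [F.IsComm] (φ : R →+* S) : (F.map φ).IsComm where
  comm := by
    have h := congrArg (MvPowerSeries.map φ) (FormalGroup.IsComm.comm (F := F))
    rw [map_pair_subst φ (hasSubst_of_cc (by simp)) (hasSubst_of_cc (by simp)), map_X, map_X] at h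
    exact h

theorem FG_map_map {T : Type*} [CommRing T] (φ : R →+* S) (ψ : S →+* T) :
    (F.map φ).map ψ = F.map (ψ.comp φ) := by
  apply FormalGroup.ext
  ext d
  simp only [FormalGroup.map_toPowerSeries, map_map, coeff_map, RingHom.coe_comp, Function.comp_apply]

theorem FG_map_id : F.map (RingHom.id R) = F := by
  apply FormalGroup.ext
  ext d
  simp

theorem hasSubst_map (φ : R →+* S) {x : MvPowerSeries σ R} (hx : PowerSeries.HasSubst x) :
    PowerSeries.HasSubst (x.map φ) := by
  have : IsNilpotent (φ (constantCoeff x)) := IsNilpotent.map hx φ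
  rwa [← constantCoeff_map] at this

/-- base change of points. -/
noncomputable def mapPt [F.IsComm] (φ : R →+* S) : F.Point σ →+ (F.map φ).Point σ where
  toFun x := ⟨x.val.map φ, hasSubst_map φ x.prop⟩
  map_zero' := by
    apply Subtype.ext
    exact map_zero _
  map_add' x y := by
    apply Subtype.ext
    exact map_pair_subst φ x.prop y.prop _

@[simp] theorem mapPt_val [F.IsComm] (φ : R →+* S) (x : F.Point σ) :
    (mapPt φ x).val = x.val.map φ := rfl

theorem coeff_one_subst {f g : PowerSeries R} (hf : PowerSeries.constantCoeff f = 0) :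
    PowerSeries.coeff 1 (PowerSeries.subst f g : PowerSeries R) =
      PowerSeries.coeff 1 f * PowerSeries.coeff 1 g := by
  rw [PowerSeries.coeff_subst' (hasSubst_of_cc hf), finsum_eq_single _ 1]
  · simp [mul_comm]
  · intro d hd
    rcases Nat.eq_zero_or_pos d with rfl | hd'
    · simp only [PowerSeries.coeff_zero_eq_constantCoeff, pow_zero, PowerSeries.coeff_one, one_ne_zero, ↓reduceIte, smul_eq_mul, mul_zero]
    · have : PowerSeries.coeff 1 (f ^ d) = 0 := by
        have h1 : (PowerSeries.X : PowerSeries R) ∣ f := PowerSeries.X_dvd_iff.mpr hf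
        have h2 : (PowerSeries.X : PowerSeries R) ^ d ∣ f ^ d := pow_dvd_pow_of_dvd h1 d
        exact (PowerSeries.X_pow_dvd_iff.mp h2) 1 (by omega)
      rw [this, smul_zero]

theorem _root_.Vale.Agent.P217.IsIso.compL {f g : PowerSeries R} (hf : IsIso F G f) (hg : IsIso G H g) :
    IsIso F H (PowerSeries.subst f g) := by
  refine ⟨hf.1.compL hg.1, ?_⟩
  rw [coeff_one_subst hf.1.1]
  exact hf.2.mul hg.2

theorem isIso_X : IsIso F F PowerSeries.X := ⟨isHom_X, by simp⟩

end Hom


section Sums

variable {R S : Type*} [CommRing R] [CommRing S] {σ τ : Type*} {F G H : FormalGroup R}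

theorem isHom_zero : IsHom F G 0 := by
  refine ⟨map_zero _, ?_⟩
  have hX0 : PowerSeries.HasSubst (X 0 : MvPowerSeries (Fin 2) R) := hasSubst_of_cc (by simp)
  have hX1 : PowerSeries.HasSubst (X 1 : MvPowerSeries (Fin 2) R) := hasSubst_of_cc (by simp)
  have hFs : PowerSeries.HasSubst F.toPowerSeries := hasSubst_of_cc F.zero_constantCoeff
  rw [ps_subst_zero hFs, ps_subst_zero hX0, ps_subst_zero hX1]
  have h : (0 + 0 : G.Point (Fin 2)).val = 0 := by rw [add_zero]; rfl
  exact h.symm

theorem _root_.Vale.Agent.P217.IsHom.addL [F.IsComm] [G.IsComm] {f g : PowerSeries R} (hf : IsHom F G f)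
    (hg : IsHom F G g) : IsHom F G (subst ![f, g] G.toPowerSeries : PowerSeries R) := by
  have hfs : PowerSeries.HasSubst f := hasSubst_of_cc hf.1
  have hgs : PowerSeries.HasSubst g := hasSubst_of_cc hg.1
  have key : ∀ x : F.Point (Fin 2), (PowerSeries.subst x.val
      (subst ![f, g] G.toPowerSeries : PowerSeries R) : MvPowerSeries (Fin 2) R) =
      (homPt f hf x + homPt g hg x).val := by
    intro x
    rw [PowerSeries.subst, subst_pair_subst hfs hgs x.prop.const]
    rfl
  refine IsHom.ofPtL ?_ ?_
  · have : constantCoeff (subst ![f, g] G.toPowerSeries : PowerSeries R) = 0 :=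
      constantCoeff_subst_eq_zero (hasSubst_pair hfs hgs)
        (by intro s; fin_cases s; exacts [hf.1, hg.1]) G.zero_constantCoeff
    exact this
  · have e0 := key (ptX F 0)
    have e1 := key (ptX F 1)
    rw [ptX_val] at e0 e1
    rw [key, e0, e1, map_add, map_add]
    have h := add_add_add_comm (homPt f hf (ptX F (0 : Fin 2))) (homPt f hf (ptX F 1))
      (homPt g hg (ptX F 0)) (homPt g hg (ptX F 1))
    exact congrArg Subtype.val h

theorem nsmul_val [F.IsComm] (m : ℕ) (x : F.Point σ) :
    (m • x).val = PowerSeries.subst x.val (multSeries F m) := by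
  induction m with
  | zero =>
    rw [zero_nsmul]
    exact (ps_subst_zero x.prop).symm
  | succ m ih =>
    rw [succ_nsmul, FormalGroup.add_apply, ih, multSeries_succ, PowerSeries.subst,
      PowerSeries.subst, subst_pair_subst (hasSubst_of_cc (constantCoeff_multSeries F m))
      (hasSubst_of_cc PowerSeries.constantCoeff_X) x.prop.const]
    congr! 3
    exact (PowerSeries.subst_X x.prop).symm

theorem exists_multSeries_decomp (m : ℕ) : ∃ h : PowerSeries R,
    multSeries F m = PowerSeries.C (m : R) * PowerSeries.X + PowerSeries.X ^ 2 * h := by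
  obtain ⟨H, hH⟩ := exists_FG_decomp F
  induction m with
  | zero => exact ⟨0, by simp only [multSeries, Nat.succ_eq_add_one, Nat.reduceAdd, Function.iterate_zero, id_eq, Nat.cast_zero, map_zero, zero_mul, mul_zero, add_zero]⟩
  | succ m ih =>
    obtain ⟨h, hh⟩ := ih
    have hS : HasSubst ![multSeries F m, (PowerSeries.X : PowerSeries R)] :=
      hasSubst_pair (hasSubst_of_cc (constantCoeff_multSeries F m))
        (hasSubst_of_cc PowerSeries.constantCoeff_X)
    refine ⟨h + (PowerSeries.C (m : R) + PowerSeries.X * h) *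
      (subst ![multSeries F m, PowerSeries.X] H : PowerSeries R), ?_⟩
    rw [multSeries_succ, hH, subst_add hS, subst_add hS, subst_mul hS, subst_mul hS,
      subst_X hS, subst_X hS]
    simp only [Matrix.cons_val_zero, Matrix.cons_val_one]
    have e : (PowerSeries.C ((m + 1 : ℕ) : R) : PowerSeries R) = PowerSeries.C (m : R) + 1 := by
      simp only [Nat.cast_add, Nat.cast_one, map_add, map_natCast, map_one]
    rw [e]
    generalize (subst ![multSeries F m, PowerSeries.X] H : PowerSeries R) = u
    rw [hh]
    ring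

theorem coeff_one_multSeries (m : ℕ) : PowerSeries.coeff 1 (multSeries F m) = m := by
  obtain ⟨h, hh⟩ := exists_multSeries_decomp (F := F) m
  rw [hh, map_add]
  have : PowerSeries.coeff 1 ((PowerSeries.X : PowerSeries R) ^ 2 * h) = 0 :=
    (PowerSeries.X_pow_dvd_iff (n := 2)).mp (Dvd.intro _ rfl) 1 (by norm_num)
  rw [this]
  simp only [map_natCast, PowerSeries.coeff_succ_mul_X, PowerSeries.coeff_zero_eq_constantCoeff, add_zero]

/-- linear coefficient of a formal group sum. -/
theorem coeff_one_add {f g : PowerSeries R} (hf : PowerSeries.constantCoeff f = 0)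
    (hg : PowerSeries.constantCoeff g = 0) :
    PowerSeries.coeff 1 (subst ![f, g] G.toPowerSeries : PowerSeries R) =
      PowerSeries.coeff 1 f + PowerSeries.coeff 1 g := by
  obtain ⟨H, hH⟩ := exists_FG_decomp G
  have hS : HasSubst ![f, g] := hasSubst_pair (hasSubst_of_cc hf) (hasSubst_of_cc hg)
  rw [hH, subst_add hS, subst_add hS, subst_mul hS, subst_mul hS, subst_X hS, subst_X hS]
  simp only [Matrix.cons_val_zero, Matrix.cons_val_one, map_add]
  have h1 : (PowerSeries.X : PowerSeries R) ^ 2 ∣ f * g * (subst ![f, g] H : PowerSeries R) := by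
    rw [sq]
    exact Dvd.dvd.mul_right (mul_dvd_mul (PowerSeries.X_dvd_iff.mpr hf)
      (PowerSeries.X_dvd_iff.mpr hg)) _
  rw [(PowerSeries.X_pow_dvd_iff.mp h1) 1 (by norm_num), add_zero]

end Sums

end Vale.Agent.P251.F
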