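import Vale.Agent.P251.F.CpCoord
import Vale.Agent.P251.F.Hom

/-!
# P251, F8: the elements `θ_i = σ^i t / t` for an element `σ` of order `p`, height `h = p - 1`

Final output of F8: for the action `(φ, g)` of an element of order `p` of the strict Morava
stabilizer group of height `p - 1` on a local `k`-algebra `E` with a typical formal group law `F`
whose `v_1, …, v_{h-1}` generate the maximal ideal: the elements `θ_i = σ^i(t_1)/t_1` satisfy
`θ_0 = 1`, `θ_{i+1} = θ_1 φ(θ_i)`, `∑ θ_i = 0` and the `θ_i - 1` generate the maximal ideal.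
-/

namespace Vale.Agent.P251.F

open PowerSeries IsLocalRing Vale.Agent.P217

noncomputable section

section general

variable {E : Type*} [CommRing E]

/-- Homomorphisms commute with multiplication by `m`. -/
theorem isHom_comm_multSeries {F G : FormalGroup E} [F.IsComm] [G.IsComm] {g : E⟦X⟧}
    (hg : IsHom F G g) (m : ℕ) :
    (subst (multSeries F m) g : E⟦X⟧) = subst g (multSeries G m) := by
  have h1 := congrArg Subtype.val (map_nsmul (homPt (σ := Unit) g hg) m (ptX F ()))
  rw [homPt_val, nsmul_val, nsmul_val, homPt_val, ptX_val] at h1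
  have h2 : ∀ b : E⟦X⟧, PowerSeries.subst (MvPowerSeries.X () : MvPowerSeries Unit E) b = b :=
    fun b => X_subst b
  rwa [h2, h2] at h1

variable (p : ℕ) [hp : Fact p.Prime]

omit hp in
theorem VV_zero (F : FormalGroup E) : VV p (multSeries F p) 0 = p := by
  rw [VV, pow_zero, coeff_one_multSeries]

/-- The coefficients of `[p]_F` of degree not divisible by `p ^ i` are in `(V_0, …, V_{i-1})`. -/
theorem coeff_multSeries_mem_JJ (F : FormalGroup E) [F.IsComm] (i : ℕ) :
    ∀ n, ¬ p ^ i ∣ n → coeff n (multSeries F p) ∈ JJ p (multSeries F p) i := by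
  induction i with
  | zero =>
    intro n hn
    exact absurd (by rw [pow_zero]; exact one_dvd n) hn
  | succ i ih =>
    intro n hn
    by_cases htop : JJ p (multSeries F p) (i + 1) = ⊤
    · rw [htop]
      exact Submodule.mem_top
    set J := JJ p (multSeries F p) (i + 1) with hJ
    set π : E →+* E ⧸ J := Ideal.Quotient.mk J with hπ
    have hπ0 : ∀ x, π x = 0 ↔ x ∈ J := fun x => Ideal.Quotient.eq_zero_iff_mem
    have hnt : Nontrivial (E ⧸ J) := Ideal.Quotient.nontrivial_iff.2 htop
    have hch : CharP (E ⧸ J) p := by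
      have h1 : ((p : ℕ) : E ⧸ J) = 0 := by
        rw [← map_natCast π, hπ0, ← VV_zero p F]
        exact VV_mem_JJ p _ (Nat.succ_pos i)
      have h2 := CharP.ringChar_of_prime_eq_zero hp.out h1
      have h3 := ringChar.charP (E ⧸ J)
      rwa [h2] at h3
    have hcomm : (F.map π).IsComm := FG_map_isComm π
    have hlow : ∀ m, ¬ p ^ i ∣ m → coeff m (multSeries (F.map π) p) = 0 := by
      intro m hm
      rw [← map_multSeries, coeff_map, hπ0]
      exact JJ_mono p _ (Nat.le_succ i) (ih m hm)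
    obtain ⟨V, hV, hVhom⟩ := exists_V_of_coeff_eq_zero p (F.map π) i (by
      intro j hj
      rcases Nat.eq_zero_or_pos j with rfl | hj0
      · rw [coeff_zero_eq_constantCoeff_apply, constantCoeff_multSeries]
      · exact hlow j (fun hd => absurd (Nat.le_of_dvd hj0 hd) (by omega)))
    have hpi : p ^ i ≠ 0 := pow_ne_zero i hp.out.ne_zero
    have hV1 : coeff 1 V = 0 := by
      have h1 : coeff (p ^ i) (multSeries (F.map π) p) = 0 := by
        rw [← map_multSeries, coeff_map, hπ0]
        exact VV_mem_JJ p _ (Nat.lt_succ_self i)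
      rw [hV, coeff_subst_X_pow hpi, if_pos (dvd_refl _), Nat.div_self (Nat.pos_of_ne_zero hpi)]
        at h1
      exact h1
    obtain ⟨W, hW⟩ := exists_expand_of_derivative_eq_zero p V (hVhom.derivative_eq_zeroL hV1)
    rw [← hπ0, ← coeff_map, map_multSeries, hV, coeff_subst_X_pow hpi]
    split_ifs with hd
    · rw [hW, coeff_expand]
      split_ifs with hd'
      · exfalso
        apply hn
        obtain ⟨c, hc⟩ := hd
        rw [hc, Nat.mul_div_cancel_left _ (Nat.pos_of_ne_zero hpi)] at hd'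
        rw [hc, pow_succ]
        exact Nat.mul_dvd_mul_left _ hd'
      · exact map_zero _
    · rfl

/-- The hypothesis `TypIso` from an isomorphism `g : F → φ_* F`. -/
theorem typIso_of_isHom (F : FormalGroup E) [F.IsComm] (φ : E →+* E)
    (g : E⟦X⟧) (a : Eˣ) (hg : IsHom F (F.map φ) g) (ha : coeff 1 g = a)
    (hfgap : ∀ i d, 2 ≤ d → d < p → coeff (p ^ i * d) (multSeries F p) = 0)
    (hggap : ∀ d, 2 ≤ d → d < p → coeff d g = 0) (h : ℕ) :
    TypIso p (multSeries F p) φ g a h where
  f0 := constantCoeff_multSeries F p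
  f1 := coeff_one_multSeries p
  g0 := hg.1
  g1 := ha
  comp := by
    have : (F.map φ).IsComm := FG_map_isComm φ
    rw [map_multSeries]
    exact isHom_comm_multSeries hg p
  fgap := hfgap
  ggap := hggap
  height i _ := coeff_multSeries_mem_JJ p F i

/-- If `ζ x` is an endomorphism of `F` then `[m]_F(ζ x) = ζ [m]_F(x)`. -/
theorem coeff_multSeries_of_typ (F : FormalGroup E) [F.IsComm] {z : E}
    (hF : IsHom F F (C z * X)) (m n : ℕ) :
    z ^ n * coeff n (multSeries F m) = z * coeff n (multSeries F m) := by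
  have h1 := isHom_comm_multSeries hF m
  have hz : HasSubst (C z * X : E⟦X⟧) := HasSubst.of_constantCoeff_zero' (by simp)
  have hm : HasSubst (multSeries F m) :=
    HasSubst.of_constantCoeff_zero' (constantCoeff_multSeries F m)
  have h2 : (subst (multSeries F m) (C z * X : E⟦X⟧) : E⟦X⟧) = C z * multSeries F m := by
    rw [subst_mul hm, subst_X hm, subst_C]
    rfl
  have h3 : (subst (C z * X : E⟦X⟧) (multSeries F m) : E⟦X⟧) = rescale z (multSeries F m) := by
    rw [rescale_eq_subst, smul_eq_C_mul]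
  rw [h2, h3] at h1
  have h4 := congrArg (coeff n) h1
  rw [coeff_C_mul, coeff_rescale] at h4
  exact h4.symm

/-- `fgap` for a typical law: `ζ x` is an endomorphism of `F`, `ζ` a primitive root of unity of
order `p - 1` in a field `k` acting on `E`. -/
theorem fgap_of_typ {k : Type*} [Field k] [Algebra k E] {ζ : k} (hζ : orderOf ζ = p - 1)
    (hp3 : 3 ≤ p) (F : FormalGroup E) [F.IsComm] (hF : IsHom F F (C (algebraMap k E ζ) * X))
    (i d : ℕ) (h2 : 2 ≤ d) (hd : d < p) : coeff (p ^ i * d) (multSeries F p) = 0 := by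
  have hζ0 : ζ ≠ 0 := by
    rintro rfl
    rw [orderOf_zero] at hζ
    omega
  refine typ_of_rescale hζ (coeff_multSeries_of_typ F hF p) hζ0 _ ?_
    (not_modEq_one hp.out.two_le h2 hd)
  exact Nat.mul_pos (pow_pos hp.out.pos i) (by omega)

/-- `ggap` for `g` with `g(ζ x) = ζ g(x)`. -/
theorem ggap_of_typ {k : Type*} [Field k] [Algebra k E] {ζ : k} (hζ : orderOf ζ = p - 1)
    (hp3 : 3 ≤ p) {g : E⟦X⟧}
    (hg : ∀ n, algebraMap k E ζ ^ n * coeff n g = algebraMap k E ζ * coeff n g)
    (d : ℕ) (h2 : 2 ≤ d) (hd : d < p) : coeff d g = 0 := by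
  have hζ0 : ζ ≠ 0 := by
    rintro rfl
    rw [orderOf_zero] at hζ
    omega
  refine typ_of_rescale hζ hg hζ0 _ (by omega) ?_
  have := not_modEq_one (i := 0) hp.out.two_le h2 hd
  rwa [pow_zero, one_mul] at this

end general

/-! ### Iterates of the isomorphism -/

section iterates

variable {E : Type*} [CommRing E] (φ : E →+* E)

/-- The isomorphism `F → (φ^n)_* F` obtained by iterating `g : F → φ_* F`. -/
def gIter (g : E⟦X⟧) : ℕ → E⟦X⟧
  | 0 => X
  | n + 1 => subst g (PowerSeries.map φ (gIter g n))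

/-- The linear coefficient of `gIter`. -/
def aIter (a : E) : ℕ → E
  | 0 => 1
  | n + 1 => φ (aIter a n) * a

/-- `σ` in weight `p - 1`. -/
def SS (p : ℕ) (a : E) (e : E) : E := a ^ (p - 1) * φ e

theorem SS_mul (p : ℕ) (a x y : E) : SS φ p a (x * y) = SS φ p a x * φ y := by
  rw [SS, SS, map_mul, mul_assoc]

theorem SS_iter (p : ℕ) (a e : E) (n : ℕ) :
    (SS φ p a)^[n] e = aIter φ a n ^ (p - 1) * (φ)^[n] e := by
  induction n with
  | zero => simp [aIter]
  | succ n ih =>
    rw [Function.iterate_succ_apply', ih, SS, aIter, map_mul, map_pow,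
      Function.iterate_succ_apply', mul_pow]
    ring

theorem gIter_props {g : E⟦X⟧} {a T : E} {p : ℕ} (hp : 2 ≤ p) (hg0 : constantCoeff g = 0)
    (hg1 : coeff 1 g = a) (hgp : coeff p g = a * T) (hgap : ∀ d, 2 ≤ d → d < p → coeff d g = 0)
    (n : ℕ) :
    constantCoeff (gIter φ g n) = 0 ∧ coeff 1 (gIter φ g n) = aIter φ a n ∧
    (∀ d, 2 ≤ d → d < p → coeff d (gIter φ g n) = 0) ∧
    coeff p (gIter φ g n) = aIter φ a n * ∑ i ∈ Finset.range n, (SS φ p a)^[i] T := by
  induction n with
  | zero =>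
    refine ⟨by simp [gIter], by simp [gIter, aIter], ?_, ?_⟩
    · intro d h2 _
      rw [gIter, coeff_X, if_neg (by omega)]
    · rw [gIter, coeff_X, if_neg (by omega)]
      simp
  | succ n ih =>
    obtain ⟨h0, h1, h2, h3⟩ := ih
    have hm0 : constantCoeff (PowerSeries.map φ (gIter φ g n)) = 0 := by
      rw [constantCoeff_map', h0, map_zero]
    refine ⟨?_, ?_, ?_, ?_⟩
    · rw [gIter]
      exact constantCoeff_subst_eq_zero hg0 _ hm0
    · rw [gIter, coeff_one_comp hg0, coeff_map, h1, hg1, aIter]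
    · intro d hd hdp
      rw [gIter, coeff_comp_of_gap hg0 hd (fun e he hed => by
        rw [coeff_map, h2 e he (by omega), map_zero]), coeff_map, coeff_map, h2 d hd hdp,
        hgap d hd hdp]
      simp
    · rw [gIter, coeff_comp_of_gap hg0 hp (fun e he hed => by
        rw [coeff_map, h2 e he (by omega), map_zero]), coeff_map, coeff_map, h1, h3, hgp, hg1,
        aIter, Finset.sum_range_succ', map_mul, map_sum]
      simp only [Function.iterate_succ_apply', Function.iterate_zero, id_eq]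
      have e : ∀ x, SS φ p a x = a ^ (p - 1) * φ x := fun x => rfl
      simp only [e]
      have hap : a ^ p = a * a ^ (p - 1) := by
        rw [← pow_succ']
        congr 1
        omega
      rw [hap, mul_add, ← Finset.mul_sum]
      ring

end iterates

/-! ### The output -/

section output

variable {k : Type*} [Field k] {E : Type*} [CommRing E] [IsLocalRing E] [Algebra k E]
  (p : ℕ) [hp : Fact p.Prime]

/-- An automorphism `(φ, g)` of order `p` acting on `(E, F)`; `a = g'(0)`. -/
structure CpAct (p : ℕ) (F : FormalGroup E) (φ : E →ₐ[k] E) (g : E⟦X⟧) (a : Eˣ) : Prop where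
  char : (p : E) = 0
  res : ∀ x : E, ∃ c : k, x - algebraMap k E c ∈ maximalIdeal E
  hm : maximalIdeal E = JJ p (multSeries F p) (p - 1)
  unit : IsUnit (VV p (multSeries F p) (p - 1))
  fgap : ∀ i d, 2 ≤ d → d < p → coeff (p ^ i * d) (multSeries F p) = 0
  ggap : ∀ d, 2 ≤ d → d < p → coeff d g = 0
  hom : IsHom F (F.map (φ : E →+* E)) g
  g1 : coeff 1 g = a
  ha : (a : E) - 1 ∈ maximalIdeal E
  gp : IsUnit (coeff p g)
  ord : gIter (φ : E →+* E) g p = X
  ordφ : ∀ x, φ^[p] x = x

variable {p} {F : FormalGroup E} [F.IsComm] {φ : E →ₐ[k] E} {g : E⟦X⟧} {a : Eˣ}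

omit [IsLocalRing E] in
theorem isUnit_iterate (φ : E →ₐ[k] E) (n : ℕ) : ∀ x : E, IsUnit x → IsUnit (φ^[n] x) := by
  induction n with
  | zero => exact fun x hx => hx
  | succ n ih =>
    intro x hx
    rw [Function.iterate_succ_apply']
    exact (ih x hx).map φ

omit [F.IsComm] in
theorem CpAct.map_mem (H : CpAct p F φ g a) {y : E} (hy : y ∈ maximalIdeal E) :
    φ y ∈ maximalIdeal E := by
  intro hu
  apply hy
  have h4 := isUnit_iterate φ (p - 1) (φ y) hu
  rwa [← Function.iterate_succ_apply, show (p - 1).succ = p by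
    have := hp.out.two_le
    omega, H.ordφ] at h4

theorem CpAct.cpData (H : CpAct p F φ g a) :
    CpData p (φ : E →+* E) (a : E) (VV p (multSeries F p)) (TT p g a) where
  V0 := VV_zero p F
  hm := H.hm
  Vh := H.unit
  hφ x := by
    obtain ⟨c, hc⟩ := H.res x
    have h2 := H.map_mem hc
    rw [map_sub, AlgHom.commutes] at h2
    convert Ideal.sub_mem _ h2 hc using 1
    change φ x - x = _
    ring
  ha := H.ha
  hT := (Units.isUnit _).mul H.gp
  res x := by
    obtain ⟨c, hc⟩ := H.res x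
    exact ⟨algebraMap k E c, AlgHom.commutes φ c, hc⟩
  rel i hi := (typIso_of_isHom p F (φ : E →+* E) g a H.hom H.g1 H.fgap H.ggap
    (p - 1)).relation hi.le

/-- `θ_n = σ^n(t)/t`, in weight `0`. -/
def thetaN (p : ℕ) (φ : E →+* E) (a : E) (T : Eˣ) (n : ℕ) : E :=
  ((T⁻¹ : Eˣ) : E) * (SS φ p a)^[n] (T : E)

omit [IsLocalRing E] hp in
theorem thetaN_zero (φ : E →+* E) (a : E) (T : Eˣ) : thetaN p φ a T 0 = 1 := by
  rw [thetaN, Function.iterate_zero, id_eq, Units.inv_mul]

omit [IsLocalRing E] hp in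
theorem mul_thetaN (φ : E →+* E) (a : E) (T : Eˣ) (n : ℕ) :
    (T : E) * thetaN p φ a T n = (SS φ p a)^[n] (T : E) := by
  rw [thetaN, ← mul_assoc, Units.mul_inv, one_mul]

omit [IsLocalRing E] hp in
theorem thetaN_succ (φ : E →+* E) (a : E) (T : Eˣ) (n : ℕ) :
    thetaN p φ a T (n + 1) = thetaN p φ a T 1 * φ (thetaN p φ a T n) := by
  rw [thetaN, Function.iterate_succ_apply', ← mul_thetaN, SS_mul, ← mul_assoc]
  rfl

omit [IsLocalRing E] hp in
/-- `(σ - 1)^k t`, `k ≥ 1`, lies in the ideal of the `θ_j - 1`. -/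
theorem yy_mem_span (φ : E →+* E) (a : E) (T : Eˣ) (k : ℕ) :
    yy p φ a T (k + 1) ∈ Ideal.span {x | ∃ n, x = thetaN p φ a T n - 1} := by
  set I : Ideal E := Ideal.span {x | ∃ n, x = thetaN p φ a T n - 1} with hI
  set L : AddSubgroup E := AddSubgroup.closure {x | ∃ n, x = (SS φ p a)^[n] (T : E)} with hL
  have h1 : ∀ x ∈ L, sm φ a (p - 1) x ∈ L ∧ sm φ a (p - 1) x ∈ I := by
    intro x hx
    refine AddSubgroup.closure_induction (p := fun x _ => sm φ a (p - 1) x ∈ L ∧
      sm φ a (p - 1) x ∈ I) ?_ ?_ ?_ ?_ hx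
    · rintro _ ⟨n, rfl⟩
      have e : sm φ a (p - 1) ((SS φ p a)^[n] (T : E)) =
          (SS φ p a)^[n + 1] (T : E) - (SS φ p a)^[n] (T : E) := by
        rw [Function.iterate_succ_apply']
        rfl
      rw [e]
      refine ⟨L.sub_mem (AddSubgroup.subset_closure ⟨n + 1, rfl⟩)
        (AddSubgroup.subset_closure ⟨n, rfl⟩), ?_⟩
      rw [← mul_thetaN, ← mul_thetaN, ← mul_sub]
      refine Ideal.mul_mem_left _ _ ?_
      have h2 : thetaN p φ a T (n + 1) - 1 ∈ I := Ideal.subset_span ⟨n + 1, rfl⟩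
      have h3 : thetaN p φ a T n - 1 ∈ I := Ideal.subset_span ⟨n, rfl⟩
      convert Ideal.sub_mem _ h2 h3 using 1
      ring
    · simp only [sm, map_zero, mul_zero, sub_self]
      exact ⟨zero_mem _, zero_mem _⟩
    · rintro x y _ _ ⟨hx1, hx2⟩ ⟨hy1, hy2⟩
      have e : sm φ a (p - 1) (x + y) = sm φ a (p - 1) x + sm φ a (p - 1) y := by
        simp only [sm, map_add]
        ring
      rw [e]
      exact ⟨L.add_mem hx1 hy1, I.add_mem hx2 hy2⟩
    · rintro x _ ⟨hx1, hx2⟩
      have e : sm φ a (p - 1) (-x) = -sm φ a (p - 1) x := by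
        simp only [sm, map_neg]
        ring
      rw [e]
      exact ⟨L.neg_mem hx1, I.neg_mem hx2⟩
  have h2 : ∀ n, yy p φ a T n ∈ L := by
    intro n
    induction n with
    | zero => exact AddSubgroup.subset_closure ⟨0, rfl⟩
    | succ n ih =>
      rw [yy, Function.iterate_succ_apply']
      exact (h1 _ ih).1
  rw [yy, Function.iterate_succ_apply']
  exact (h1 _ (h2 k)).2

omit [IsLocalRing E] in
theorem SS_iter_p (p : ℕ) [hp : Fact p.Prime] {φ : E →ₐ[k] E} {g : E⟦X⟧}
    {a : E} {T : E} (hg0 : constantCoeff g = 0) (hg1 : coeff 1 g = a) (hgp : coeff p g = a * T)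
    (hgap : ∀ d, 2 ≤ d → d < p → coeff d g = 0) (ord : gIter (φ : E →+* E) g p = X)
    (ordφ : ∀ x, φ^[p] x = x) :
    (∀ e, (SS (φ : E →+* E) p a)^[p] e = e) ∧
      ∑ i ∈ Finset.range p, (SS (φ : E →+* E) p a)^[i] T = 0 := by
  obtain ⟨-, h1, -, h2⟩ := gIter_props (φ : E →+* E) hp.out.two_le hg0 hg1 hgp hgap p
  rw [ord, coeff_X, if_pos rfl] at h1
  rw [ord, coeff_X, if_neg (by have := hp.out.two_le; omega), ← h1, one_mul] at h2
  refine ⟨fun e => ?_, h2.symm⟩
  rw [SS_iter, ← h1, one_pow, one_mul]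
  exact ordφ e

/-- **F8.** The elements `θ_i = σ^i(t)/t`, indexed by `ZMod p`. -/
theorem CpAct.exists_theta (H : CpAct p F φ g a) (hp3 : 3 ≤ p) :
    ∃ (T : Eˣ) (θ : ZMod p → E),
      (T : E) = TT p g a ∧ θ 0 = 1 ∧ (a : E) ^ (p - 1) * φ (T : E) = θ 1 * (T : E) ∧
      (∀ i, θ (i + 1) = θ 1 * φ (θ i)) ∧ (∑ i, θ i = 0) ∧
      maximalIdeal E = Ideal.span {x | ∃ i, x = θ i - 1} ∧
      (∀ i, IsUnit (θ i)) := by
  obtain ⟨T, hT⟩ := H.cpData.hT
  have hgp : coeff p g = (a : E) * (T : E) := by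
    rw [hT, TT, ← mul_assoc, Units.mul_inv, one_mul]
  obtain ⟨hper, hsum⟩ := SS_iter_p p (φ := φ) H.hom.1 H.g1 hgp H.ggap H.ord H.ordφ
  set θ' : ℕ → E := thetaN p (φ : E →+* E) (a : E) T with hθ'
  have hper' : ∀ n, θ' (n + p) = θ' n := by
    intro n
    rw [hθ', thetaN, Function.iterate_add_apply, hper]
    rfl
  have hmod : ∀ n, θ' (n % p) = θ' n := by
    intro n
    conv_rhs => rw [← Nat.mod_add_div n p]
    generalize n / p = m
    generalize n % p = r
    induction m with
    | zero => simp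
    | succ m ih => rw [ih, Nat.mul_succ, ← add_assoc, hper']
  have hval : ∀ n : ℕ, θ' ((n : ZMod p).val) = θ' n := by
    intro n
    rw [ZMod.val_natCast, hmod]
  have hunit : ∀ n, IsUnit (θ' n) := by
    intro n
    have h1 : (SS (φ : E →+* E) p (a : E))^[n] (T : E) =
        aIter (φ : E →+* E) (a : E) n ^ (p - 1) * φ^[n] (T : E) := SS_iter _ _ _ _ _
    rw [hθ', thetaN, h1]
    have h2 : ∀ n, IsUnit (aIter (φ : E →+* E) (a : E) n) := by
      intro n
      induction n with
      | zero => exact isUnit_one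
      | succ n ih => exact (ih.map (φ : E →+* E)).mul a.isUnit
    exact (Units.isUnit _).mul (((h2 n).pow _).mul (isUnit_iterate φ n _ T.isUnit))
  have h1p : ((1 : ZMod p)).val = 1 := by
    have : Fact (1 < p) := ⟨by omega⟩
    exact ZMod.val_one p
  refine ⟨T, fun i => θ' i.val, hT, ?_, ?_, ?_, ?_, ?_, fun i => hunit _⟩
  · change θ' (0 : ZMod p).val = 1
    rw [ZMod.val_zero]
    exact thetaN_zero _ _ _
  · change _ = θ' (1 : ZMod p).val * (T : E)
    rw [h1p, mul_comm (θ' 1), hθ', mul_thetaN]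
    rfl
  · intro i
    change θ' (i + 1).val = θ' (1 : ZMod p).val * φ (θ' i.val)
    rw [h1p]
    have h2 : θ' (i + 1).val = θ' (i.val + 1) := by
      rw [← hval (i.val + 1)]
      congr 2
      push_cast
      rw [ZMod.natCast_zmod_val]
    rw [h2]
    exact thetaN_succ _ _ _ _
  · have h3 : ∑ i : ZMod p, θ' i.val = ∑ n ∈ Finset.range p, θ' n := by
      refine Finset.sum_bij (fun i _ => i.val) ?_ ?_ ?_ ?_
      · exact fun i _ => Finset.mem_range.2 (ZMod.val_lt i)
      · exact fun i _ j _ h => ZMod.val_injective p h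
      · exact fun n hn => ⟨(n : ZMod p), Finset.mem_univ _,
          ZMod.val_natCast_of_lt (Finset.mem_range.1 hn)⟩
      · exact fun _ _ => rfl
    change ∑ i : ZMod p, θ' i.val = 0
    rw [h3, hθ']
    simp only [thetaN]
    rw [← Finset.mul_sum, hsum, mul_zero]
  · refine le_antisymm ?_ ?_
    · rw [H.cpData.maximalIdeal_eq_span hp3, Ideal.span_le]
      rintro _ ⟨n, -, rfl⟩
      have h4 := yy_mem_span (p := p) (φ : E →+* E) (a : E) T n
      rw [hT] at h4
      refine Ideal.span_mono ?_ h4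
      rintro _ ⟨m, rfl⟩
      exact ⟨(m : ZMod p), by
        change _ = θ' (m : ZMod p).val - 1
        rw [hval]⟩
    · rw [Ideal.span_le]
      rintro _ ⟨i, rfl⟩
      change θ' i.val - 1 ∈ maximalIdeal E
      have hφ : ∀ x, φ x - x ∈ maximalIdeal E := H.cpData.hφ
      have hap : (a : E) ^ (p - 1) - 1 ∈ maximalIdeal E := H.cpData.a_pow_sub_one _
      have h5 : ∀ e : E, SS (φ : E →+* E) p (a : E) e - e ∈ maximalIdeal E := by
        intro e
        have h6 := Ideal.add_mem _ (Ideal.mul_mem_right (φ e) _ hap) (hφ e)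
        convert h6 using 1
        change (a : E) ^ (p - 1) * φ e - e = _
        ring
      have h7 : ∀ n : ℕ, (SS (φ : E →+* E) p (a : E))^[n] (T : E) - T ∈ maximalIdeal E := by
        intro n
        induction n with
        | zero => simp
        | succ n ih =>
          rw [Function.iterate_succ_apply']
          have h8 := Ideal.add_mem _ (h5 ((SS (φ : E →+* E) p (a : E))^[n] (T : E))) ih
          convert h8 using 1
          ring
      have h9 := Ideal.mul_mem_left _ ((T⁻¹ : Eˣ) : E) (h7 i.val)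
      rw [mul_sub, Units.inv_mul] at h9
      exact h9

end output

end

end Vale.Agent.P251.F
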