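import Mathlib.RingTheory.PowerSeries.Expand
import Mathlib.RingTheory.PowerSeries.Order
import Mathlib.Tactic

/-!
# P251, F8: how the coefficients `v_i` of `[p](x)` change under an isomorphism of typical laws
-/

namespace Vale.Agent.P251.F

open PowerSeries

noncomputable section

variable {A : Type*} [CommRing A]

/-- `coeff d (a ^ d) = (coeff 1 a) ^ d` if `a` has no constant term. -/
theorem coeff_pow_self_of {a : A⟦X⟧} (ha : constantCoeff a = 0) (d : ℕ) :
    coeff d (a ^ d) = coeff 1 a ^ d := by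
  obtain ⟨b, rfl⟩ := PowerSeries.X_dvd_iff.2 ha
  rw [mul_pow, PowerSeries.coeff_X_pow_mul', if_pos le_rfl, Nat.sub_self,
    show (1 : ℕ) = 0 + 1 by omega, PowerSeries.coeff_succ_X_mul]
  simp

theorem coeff_pow_of_lt {a : A⟦X⟧} (ha : constantCoeff a = 0) {n d : ℕ} (h : n < d) :
    coeff n (a ^ d) = 0 := by
  obtain ⟨b, rfl⟩ := PowerSeries.X_dvd_iff.2 ha
  rw [mul_pow, PowerSeries.coeff_X_pow_mul', if_neg (by omega)]

/-- The coefficient of `X` of a composition. -/
theorem coeff_one_comp {a b : A⟦X⟧} (ha : constantCoeff a = 0) :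
    coeff 1 (subst a b : A⟦X⟧) = coeff 1 b * coeff 1 a := by
  rw [coeff_subst' (HasSubst.of_constantCoeff_zero' ha), finsum_eq_single _ 1]
  · simp
  · intro d hd
    rcases Nat.lt_or_ge d 1 with h | h
    · obtain rfl : d = 0 := by omega
      simp [coeff_one]
    · rw [coeff_pow_of_lt ha (by omega), smul_zero]

/-- The coefficient of `X ^ p` of a composition `b(a(X))` when `b` has no terms of degree
`2, …, p - 1`. -/
theorem coeff_comp_of_gap {a b : A⟦X⟧} (ha : constantCoeff a = 0) {p : ℕ} (hp : 2 ≤ p)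
    (hb : ∀ d, 2 ≤ d → d < p → coeff d b = 0) :
    coeff p (subst a b : A⟦X⟧) = coeff 1 b * coeff p a + coeff p b * coeff 1 a ^ p := by
  classical
  rw [coeff_subst' (HasSubst.of_constantCoeff_zero' ha),
    finsum_eq_sum_of_support_subset (s := {1, p})]
  · rw [Finset.sum_pair (by omega), pow_one, coeff_pow_self_of ha]
    rfl
  · intro d hd
    rw [Function.mem_support] at hd
    by_contra hd'
    simp only [Finset.coe_insert, Finset.coe_singleton, Set.mem_insert_iff,
      Set.mem_singleton_iff, not_or] at hd'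
    apply hd
    rcases Nat.lt_or_ge p d with h | h
    · rw [coeff_pow_of_lt ha h, smul_zero]
    · rcases Nat.lt_or_ge d 2 with h2 | h2
      · obtain rfl : d = 0 := by omega
        rw [pow_zero, coeff_one, if_neg (by omega), smul_zero]
      · rw [hb d h2 (by omega), zero_smul]

/-- In characteristic `p`: `a ^ (p ^ i)` is obtained from `a` by raising the coefficients to the
power `p ^ i` and substituting `X ^ (p ^ i)`. -/
theorem pow_eq_expand_map (p : ℕ) [hp : Fact p.Prime] [CharP A p] (i : ℕ) (a : A⟦X⟧) :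
    a ^ (p ^ i) = expand (p ^ i) (pow_ne_zero i hp.out.ne_zero)
      (PowerSeries.map (iterateFrobenius A p i) a) := by
  have : ExpChar A p := expChar_prime A p
  have h := MvPowerSeries.map_iterateFrobenius_expand (σ := Unit) p hp.out.ne_zero a i
  rw [← map_expand]
  exact h.symm

/-- The relation between two series `f = φ(X^q)`, `f' = φ'(X^q)` and `g` with `g ∘ f = f' ∘ g`, when
`φ'` and `g` have no terms of degree `2, …, p - 1`, `q = p ^ i`, over a ring `A` in which `p = 0` or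
for `i = 0`. -/
theorem coeff_relation (p : ℕ) [hp : Fact p.Prime] (i : ℕ) (hA : i = 0 ∨ CharP A p)
    {f f' g : A⟦X⟧} (hf0 : constantCoeff f = 0) (hf'0 : constantCoeff f' = 0)
    (hg0 : constantCoeff g = 0)
    (hcomp : (subst f g : A⟦X⟧) = subst g f')
    (hf : ∀ n, ¬ p ^ i ∣ n → coeff n f = 0) (hf' : ∀ n, ¬ p ^ i ∣ n → coeff n f' = 0)
    (hgap : ∀ d, 2 ≤ d → d < p → coeff d g = 0)
    (hf'gap : ∀ d, 2 ≤ d → d < p → coeff (p ^ i * d) f' = 0) :
    coeff 1 g * coeff (p ^ i) f = coeff (p ^ i) f' * coeff 1 g ^ (p ^ i) ∧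
    coeff 1 g * coeff (p ^ (i + 1)) f + coeff p g * coeff (p ^ i) f ^ p =
      coeff (p ^ i) f' * coeff p g ^ (p ^ i) +
        coeff (p ^ (i + 1)) f' * coeff 1 g ^ (p ^ (i + 1)) := by
  have hq : p ^ i ≠ 0 := pow_ne_zero i hp.out.ne_zero
  have hp2 := hp.out.two_le
  -- the series `φ`, `φ'`
  set φ : A⟦X⟧ := PowerSeries.mk fun n => coeff (p ^ i * n) f with hφ
  set φ' : A⟦X⟧ := PowerSeries.mk fun n => coeff (p ^ i * n) f' with hφ'
  have e1 : f = expand (p ^ i) hq φ := by
    ext n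
    rw [coeff_expand]
    split_ifs with h
    · rw [hφ, coeff_mk, Nat.mul_div_cancel' h]
    · exact hf n h
  have e2 : f' = expand (p ^ i) hq φ' := by
    ext n
    rw [coeff_expand]
    split_ifs with h
    · rw [hφ', coeff_mk, Nat.mul_div_cancel' h]
    · exact hf' n h
  have hφ0 : constantCoeff φ = 0 := by
    rw [← coeff_zero_eq_constantCoeff_apply, hφ, coeff_mk, mul_zero,
      coeff_zero_eq_constantCoeff_apply, hf0]
  have hφ'0 : constantCoeff φ' = 0 := by
    rw [← coeff_zero_eq_constantCoeff_apply, hφ', coeff_mk, mul_zero,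
      coeff_zero_eq_constantCoeff_apply, hf'0]
  -- the series `G`
  obtain ⟨G, hG, hG1⟩ : ∃ G : A⟦X⟧, g ^ (p ^ i) = expand (p ^ i) hq G ∧
      ∀ n, coeff n G = coeff n g ^ (p ^ i) := by
    rcases hA with rfl | hA
    · refine ⟨g, ?_, fun n => by simp⟩
      ext n
      simp
    · have : ExpChar A p := expChar_prime A p
      refine ⟨PowerSeries.map (iterateFrobenius A p i) g, pow_eq_expand_map p i g, fun n => ?_⟩
      rw [coeff_map, iterateFrobenius_def]
  have hG0 : constantCoeff G = 0 := by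
    rw [← coeff_zero_eq_constantCoeff_apply, hG1, coeff_zero_eq_constantCoeff_apply, hg0,
      zero_pow hq]
  have hsg : HasSubst g := HasSubst.of_constantCoeff_zero' hg0
  have hsφ : HasSubst φ := HasSubst.of_constantCoeff_zero' hφ0
  have hsG : HasSubst G := HasSubst.of_constantCoeff_zero' hG0
  have h1 : (subst f g : A⟦X⟧) = expand (p ^ i) hq (subst φ g : A⟦X⟧) := by
    rw [e1]
    exact (MvPowerSeries.expand_subst _ hq (hsφ.const) (φ := g)).symm
  have h2 : (subst g f' : A⟦X⟧) = expand (p ^ i) hq (subst G φ' : A⟦X⟧) := by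
    have h3 : (expand (p ^ i) hq (subst G φ' : A⟦X⟧)) = subst (expand (p ^ i) hq G) φ' :=
      MvPowerSeries.expand_subst _ hq (hsG.const) (φ := φ')
    rw [h3, ← hG, e2, expand_apply, subst_comp_subst_apply (HasSubst.X_pow hq) hsg]
    congr 1
    rw [← coe_substAlgHom hsg, map_pow, coe_substAlgHom, subst_X hsg]
  have h3 : (subst φ g : A⟦X⟧) = subst G φ' := by
    have h4 := hcomp
    rw [h1, h2] at h4
    ext n
    have h5 := congrArg (coeff (p ^ i * n)) h4
    rwa [coeff_expand_mul, coeff_expand_mul] at h5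
  have c1 : coeff 1 φ = coeff (p ^ i) f := by rw [hφ, coeff_mk, mul_one]
  have c2 : coeff p φ = coeff (p ^ (i + 1)) f := by rw [hφ, coeff_mk, pow_succ]
  have c3 : coeff 1 φ' = coeff (p ^ i) f' := by rw [hφ', coeff_mk, mul_one]
  have c4 : coeff p φ' = coeff (p ^ (i + 1)) f' := by rw [hφ', coeff_mk, pow_succ]
  constructor
  · have h6 := congrArg (coeff 1) h3
    rwa [coeff_one_comp hφ0, coeff_one_comp hG0, c1, c3, hG1] at h6
  · have h6 := congrArg (coeff p) h3
    rw [coeff_comp_of_gap hφ0 hp2 hgap, coeff_comp_of_gap hG0 hp2 (fun d h h' => by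
      rw [hφ', coeff_mk]; exact hf'gap d h h'), c1, c2, c3, c4, hG1, hG1] at h6
    rw [h6, ← pow_mul, ← pow_succ]

/-! ### The relation between the `V_i` under an isomorphism `F → φ_* F` -/

section ideals

variable {E : Type*} [CommRing E] (p : ℕ) (f : E⟦X⟧)

/-- `V_i`, the coefficient of `X ^ (p ^ i)` of `f = [p]_F`. -/
def VV (i : ℕ) : E := coeff (p ^ i) f

/-- The ideal `(V_0, …, V_{i-1})`. -/
def JJ (i : ℕ) : Ideal E := Ideal.span {x | ∃ j < i, x = VV p f j}

theorem VV_mem_JJ {i j : ℕ} (h : j < i) : VV p f j ∈ JJ p f i :=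
  Ideal.subset_span ⟨j, h, rfl⟩

theorem JJ_mono {i j : ℕ} (h : i ≤ j) : JJ p f i ≤ JJ p f j :=
  Ideal.span_mono fun _ ⟨k, hk, hx⟩ => ⟨k, lt_of_lt_of_le hk h, hx⟩

theorem JJ_zero : JJ p f 0 = ⊥ := by
  rw [JJ, Ideal.span_eq_bot]
  rintro x ⟨j, hj, -⟩
  omega

variable [hp : Fact p.Prime] {φ : E →+* E} {g : E⟦X⟧} {a : Eˣ} {h : ℕ}

omit hp in
theorem constantCoeff_map' {B : Type*} [CommRing B] (π : E →+* B) (b : E⟦X⟧) :
    constantCoeff (PowerSeries.map π b) = π (constantCoeff b) := by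
  rw [← coeff_zero_eq_constantCoeff_apply, coeff_map, coeff_zero_eq_constantCoeff_apply]

omit hp in
theorem map_subst' {B : Type*} [CommRing B] {π : E →+* B} {b c : E⟦X⟧} (hb : HasSubst b) :
    PowerSeries.map π (subst b c) = subst (PowerSeries.map π b) (PowerSeries.map π c) :=
  map_subst hb c

/-- Hypotheses on `f = [p]_F` and the isomorphism `g : F → φ_* F` for a typical law `F`. -/
structure TypIso (p : ℕ) (f : E⟦X⟧) (φ : E →+* E) (g : E⟦X⟧) (a : Eˣ) (h : ℕ) : Prop where
  f0 : constantCoeff f = 0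
  f1 : coeff 1 f = p
  g0 : constantCoeff g = 0
  g1 : coeff 1 g = a
  comp : (subst f g : E⟦X⟧) = subst g (PowerSeries.map φ f)
  fgap : ∀ i d, 2 ≤ d → d < p → coeff (p ^ i * d) f = 0
  ggap : ∀ d, 2 ≤ d → d < p → coeff d g = 0
  height : ∀ i ≤ h, ∀ n, ¬ p ^ i ∣ n → coeff n f ∈ JJ p f i

variable {p f}

omit hp in
theorem not_modEq_one {p i d : ℕ} (hp : 2 ≤ p) (h2 : 2 ≤ d) (hd : d < p) :
    ¬ p ^ i * d ≡ 1 [MOD (p - 1)] := by
  intro h
  have h1 : p ≡ 1 [MOD (p - 1)] := by
    exact Nat.modEq_sub (by omega)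
  have h3 : p ^ i * d ≡ 1 * d [MOD (p - 1)] := by
    refine Nat.ModEq.mul_right d ?_
    have := h1.pow i
    rwa [one_pow] at this
  rw [one_mul] at h3
  have h4 : 1 ≡ d [MOD (p - 1)] := h.symm.trans h3
  have h5 := (Nat.modEq_iff_dvd' (by omega : 1 ≤ d)).1 h4
  have h6 := Nat.le_of_dvd (by omega) h5
  have h7 : d - 1 < p - 1 := by omega
  omega

omit hp in
/-- A series with `b(ζx) = ζ b(x)`, `ζ` a primitive root of unity of order `p - 1` in a field
contained in `E`, only has terms of degree `= 1` modulo `p - 1`. -/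
theorem typ_of_rescale {k : Type*} [Field k] [Algebra k E] {ζ : k} (hζ : orderOf ζ = p - 1)
    {b : E⟦X⟧} (hb : ∀ n, algebraMap k E ζ ^ n * coeff n b = algebraMap k E ζ * coeff n b)
    (hζ0 : ζ ≠ 0) (n : ℕ) (hn : 1 ≤ n) (hn' : ¬ n ≡ 1 [MOD (p - 1)]) : coeff n b = 0 := by
  have h1 : ζ ^ n - ζ ≠ 0 := by
    intro h
    apply hn'
    have h2 : ζ ^ (n - 1) = 1 := by
      have h3 : ζ * ζ ^ (n - 1) = ζ * 1 := by
        rw [← pow_succ', mul_one, show n - 1 + 1 = n by omega]
        exact sub_eq_zero.1 h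
      exact mul_left_cancel₀ hζ0 h3
    have h4 := orderOf_dvd_of_pow_eq_one h2
    rw [hζ] at h4
    exact ((Nat.modEq_iff_dvd' hn).2 h4).symm
  have h2 : algebraMap k E (ζ ^ n - ζ) * coeff n b = 0 := by
    rw [map_sub, map_pow, sub_mul, hb n, sub_self]
  have h3 : IsUnit (algebraMap k E (ζ ^ n - ζ)) := (IsUnit.mk0 _ h1).map _
  exact h3.mul_right_eq_zero.1 h2

theorem TypIso.step (H : TypIso p f φ g a h) {i : ℕ} (hi : i ≤ h)
    (hJ : ∀ x ∈ JJ p f i, φ x ∈ JJ p f i) :
    (a : E) * VV p f i - φ (VV p f i) * (a : E) ^ (p ^ i) ∈ JJ p f i ∧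
    (a : E) * VV p f (i + 1) + coeff p g * VV p f i ^ p -
      (φ (VV p f i) * coeff p g ^ (p ^ i) + φ (VV p f (i + 1)) * (a : E) ^ (p ^ (i + 1))) ∈
        JJ p f i := by
  by_cases htop : JJ p f i = ⊤
  · rw [htop]
    exact ⟨Submodule.mem_top, Submodule.mem_top⟩
  have hp2 := hp.out.two_le
  set π : E →+* E ⧸ JJ p f i := Ideal.Quotient.mk (JJ p f i) with hπ
  have hπ0 : ∀ x, π x = 0 ↔ x ∈ JJ p f i := fun x => Ideal.Quotient.eq_zero_iff_mem
  have hnt : Nontrivial (E ⧸ JJ p f i) := Ideal.Quotient.nontrivial_iff.2 htop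
  have hA : i = 0 ∨ CharP (E ⧸ JJ p f i) p := by
    rcases Nat.eq_zero_or_pos i with h0 | h0
    · exact Or.inl h0
    · right
      have h1 : ((p : ℕ) : E ⧸ JJ p f i) = 0 := by
        have h2 : (p : E) ∈ JJ p f i := by
          have h3 := VV_mem_JJ p f h0
          rwa [VV, pow_zero, H.f1] at h3
        have h4 := (hπ0 (p : E)).2 h2
        rwa [map_natCast] at h4
      have h2 := CharP.ringChar_of_prime_eq_zero hp.out h1
      have h3 := ringChar.charP (E ⧸ JJ p f i)
      rwa [h2] at h3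
  have key := coeff_relation p i hA (f := PowerSeries.map π f)
    (f' := PowerSeries.map π (PowerSeries.map φ f)) (g := PowerSeries.map π g)
    (by rw [constantCoeff_map', H.f0, map_zero])
    (by rw [constantCoeff_map', constantCoeff_map', H.f0, map_zero, map_zero])
    (by rw [constantCoeff_map', H.g0, map_zero])
    (by
      have h1 := congrArg (PowerSeries.map π) H.comp
      rwa [map_subst' (HasSubst.of_constantCoeff_zero' H.f0),
        map_subst' (HasSubst.of_constantCoeff_zero' H.g0)] at h1)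
    (fun n hn => by
      rw [coeff_map]
      exact (hπ0 _).2 (H.height i hi n hn))
    (fun n hn => by
      rw [coeff_map, coeff_map]
      exact (hπ0 _).2 (hJ _ (H.height i hi n hn)))
    (fun d h2 hd => by
      rw [coeff_map, H.ggap d h2 hd, map_zero])
    (fun d h2 hd => by
      rw [coeff_map, coeff_map, H.fgap i d h2 hd, map_zero, map_zero])
  simp only [coeff_map, H.g1] at key
  constructor
  · rw [← hπ0, map_sub, map_mul, map_mul, map_pow]
    exact sub_eq_zero.2 key.1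
  · rw [← hπ0]
    simp only [map_sub, map_add, map_mul, map_pow]
    exact sub_eq_zero.2 key.2

theorem TypIso.map_JJ (H : TypIso p f φ g a h) {i : ℕ} (hi : i ≤ h) :
    ∀ x ∈ JJ p f i, φ x ∈ JJ p f i := by
  induction i with
  | zero =>
    intro x hx
    rw [JJ_zero, Ideal.mem_bot] at hx
    rw [hx, map_zero]
    exact zero_mem _
  | succ i ih =>
    have ih' := ih (by omega)
    intro x hx
    have h1 : JJ p f (i + 1) ≤ (JJ p f (i + 1)).comap φ := by
      refine Ideal.span_le.2 ?_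
      rintro _ ⟨j, hj, rfl⟩
      rw [SetLike.mem_coe, Ideal.mem_comap]
      rcases Nat.lt_succ_iff_lt_or_eq.1 hj with h2 | rfl
      · exact JJ_mono p f (Nat.le_succ _) (ih' _ (VV_mem_JJ p f h2))
      · have h3 := JJ_mono p f (Nat.le_succ j) (H.step (by omega) ih').1
        have h4 : (a : E) * VV p f j ∈ JJ p f (j + 1) :=
          Ideal.mul_mem_left _ _ (VV_mem_JJ p f (Nat.lt_succ_self j))
        have h5 := (JJ p f (j + 1)).sub_mem h4 h3
        rw [sub_sub_cancel] at h5
        have h6 := Ideal.mul_mem_right (((a⁻¹ : Eˣ) : E) ^ (p ^ j)) _ h5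
        rwa [mul_assoc, ← mul_pow, Units.mul_inv, one_pow, mul_one] at h6
    exact h1 hx

/-- `T`, the coefficient of `X ^ p` of the strict isomorphism `a⁻¹ g`. -/
def TT (p : ℕ) (g : E⟦X⟧) (a : Eˣ) : E := ((a⁻¹ : Eˣ) : E) * coeff p g

/-- **The formula for the change of `V_{i+1}`**:
`a^(p^(i+1)-1) φ(V_{i+1}) = V_{i+1} + T V_i^p - V_i T^(p^i)` modulo `(V_0, …, V_{i-1})`. -/
theorem TypIso.relation (H : TypIso p f φ g a h) {i : ℕ} (hi : i ≤ h) :
    (a : E) ^ (p ^ (i + 1) - 1) * φ (VV p f (i + 1)) -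
      (VV p f (i + 1) + TT p g a * VV p f i ^ p - VV p f i * TT p g a ^ (p ^ i)) ∈
        JJ p f i := by
  obtain ⟨h1, h2⟩ := H.step hi (H.map_JJ hi)
  have hg : coeff p g = (a : E) * TT p g a := by
    rw [TT, ← mul_assoc, Units.mul_inv, one_mul]
  have hpow : (a : E) ^ (p ^ (i + 1)) = (a : E) * (a : E) ^ (p ^ (i + 1) - 1) := by
    rw [← pow_succ']
    congr 1
    have := Nat.one_le_pow (i + 1) p hp.out.pos
    omega
  rw [hg, mul_pow, hpow] at h2
  have h3 := Ideal.mul_mem_left _ (-TT p g a ^ (p ^ i)) h1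
  have h4 := (JJ p f i).add_mem h2 h3
  have h5 := Ideal.mul_mem_left _ (-((a⁻¹ : Eˣ) : E)) h4
  have e : ((a⁻¹ : Eˣ) : E) * (a : E) = 1 := Units.inv_mul a
  convert h5 using 1
  linear_combination ((a : E) ^ (p ^ (i + 1) - 1) * φ (VV p f (i + 1)) -
    (VV p f (i + 1) + TT p g a * VV p f i ^ p - VV p f i * TT p g a ^ (p ^ i))) * (-e)

end ideals

end

end Vale.Agent.P251.F
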