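/-
P251, part F (F11): the cap product with the cycle `∑_u [u, u+1]` on homogeneous cochains of
`ℤ/p` with coefficients in a ring of characteristic `p`.  Used to detect cup powers of the
Bockstein class.  Author: helper982.
-/
import Mathlib.FieldTheory.Finite.Basic
import Mathlib.Algebra.BigOperators.Fin
import Mathlib.Data.Fin.Tuple.Basic
import Mathlib.Tactic.Ring
import Mathlib.Tactic.LinearCombination
import Mathlib.Tactic.Abel

set_option linter.unusedSectionVars false

namespace Vale.Agent.P251.F.Cyc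

section Alg

variable {A k : Type*} [CommRing k]

/-- The homogeneous coboundary. -/
def dd {n : ℕ} (F : (Fin n → A) → k) (x : Fin (n + 1) → A) : k :=
  ∑ i : Fin (n + 1), (-1 : ℤ) ^ (i : ℕ) • F (fun j => x (i.succAbove j))

theorem dd_snoc {n : ℕ} (F : (Fin (n + 1) → A) → k) (x : Fin (n + 1) → A) (b : A) :
    dd F (Fin.snoc x b : Fin (n + 2) → A) =
      dd (fun y => F (Fin.snoc y b)) x + (-1 : ℤ) ^ (n + 1) • F x := by
  unfold dd
  rw [Fin.sum_univ_castSucc]
  congr 1
  · refine Finset.sum_congr rfl fun i _ => ?_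
    rw [Fin.val_castSucc]
    congr 2
    funext j
    refine Fin.lastCases ?_ (fun j => ?_) j
    · rw [Fin.snoc_last]
      have : (i.castSucc).succAbove (Fin.last n) = Fin.last (n + 1) := by
        rw [Fin.succAbove_castSucc_of_le _ _ (Fin.le_last i), Fin.succ_last]
      rw [this, Fin.snoc_last]
    · rw [Fin.snoc_castSucc, Fin.castSucc_succAbove_castSucc, Fin.snoc_castSucc]
  · rw [Fin.val_last]
    congr 2
    funext j
    rw [Fin.succAbove_last, Fin.snoc_castSucc]

theorem dd_sum {n : ℕ} {ι : Type*} (s : Finset ι) (F : ι → (Fin n → A) → k) (x : Fin (n + 1) → A) :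
    dd (fun y => ∑ u ∈ s, F u y) x = ∑ u ∈ s, dd (F u) x := by
  unfold dd
  rw [Finset.sum_comm]
  refine Finset.sum_congr rfl fun i _ => ?_
  rw [Finset.smul_sum]

end Alg

variable {p : ℕ} [Fact p.Prime] {k : Type*} [CommRing k]

/-- Cap product with `∑_u [u, u + 1]` in the last two variables. -/
def cap {n : ℕ} (F : (Fin (n + 2) → ZMod p) → k) (a : Fin n → ZMod p) : k :=
  ∑ u : ZMod p, F (Fin.snoc (Fin.snoc a u : Fin (n + 1) → ZMod p) (u + 1))

theorem cap_dd {n : ℕ} (F : (Fin (n + 2) → ZMod p) → k) (a : Fin (n + 1) → ZMod p) :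
    cap (dd F) a = dd (cap F) a := by
  unfold cap
  have h1 : ∀ u : ZMod p, dd F (Fin.snoc (Fin.snoc a u : Fin (n + 2) → ZMod p) (u + 1)) =
      dd (fun y : Fin n → ZMod p =>
        F (Fin.snoc (Fin.snoc y u : Fin (n + 1) → ZMod p) (u + 1))) a +
      ((-1 : ℤ) ^ (n + 1) • F (Fin.snoc a (u + 1)) + (-1 : ℤ) ^ (n + 2) • F (Fin.snoc a u)) := by
    intro u
    rw [dd_snoc, dd_snoc, add_assoc]
  rw [Finset.sum_congr rfl fun u _ => h1 u, Finset.sum_add_distrib, Finset.sum_add_distrib,
    ← Finset.smul_sum, ← Finset.smul_sum]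
  have h2 : ∑ u : ZMod p, F (Fin.snoc a (u + 1)) = ∑ u : ZMod p, F (Fin.snoc a u) :=
    Fintype.sum_equiv (Equiv.addRight 1) _ _ fun u => rfl
  have h3 : (-1 : ℤ) ^ (n + 2) • (∑ u : ZMod p, F (Fin.snoc a u)) =
      -((-1 : ℤ) ^ (n + 1) • (∑ u : ZMod p, F (Fin.snoc a u))) := by
    rw [pow_succ (-1 : ℤ) (n + 1), mul_smul, ← smul_neg, neg_one_smul]
  rw [h2, h3, add_neg_cancel, add_zero]
  exact (dd_sum Finset.univ (fun (u : ZMod p) (y : Fin n → ZMod p) =>
    F (Fin.snoc (Fin.snoc y u : Fin (n + 1) → ZMod p) (u + 1))) a).symm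

/-- Translation invariant functions. -/
def Inv {n : ℕ} (F : (Fin n → ZMod p) → k) : Prop := ∀ (c : ZMod p) a, F (fun i => a i + c) = F a

theorem snoc_add {n : ℕ} (a : Fin n → ZMod p) (u c : ZMod p) :
    (fun i => (Fin.snoc a u : Fin (n + 1) → ZMod p) i + c) =
      Fin.snoc (fun i => a i + c) (u + c) := by
  funext i
  refine Fin.lastCases ?_ (fun j => ?_) i
  · rw [Fin.snoc_last, Fin.snoc_last]
  · rw [Fin.snoc_castSucc, Fin.snoc_castSucc]

theorem Inv.cap {n : ℕ} {F : (Fin (n + 2) → ZMod p) → k} (hF : Inv F) : Inv (cap F) := by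
  intro c a
  unfold Cyc.cap
  refine (Fintype.sum_equiv (Equiv.addRight c) _ _ fun u => ?_).symm
  rw [← hF c, snoc_add, snoc_add, Equiv.coe_addRight]
  congr 2
  ring

theorem cap_one_var [CharP k p] {F : (Fin 2 → ZMod p) → k} (hF : Inv F) (a : Fin 0 → ZMod p) :
    cap F a = 0 := by
  unfold cap
  have h : ∀ u : ZMod p, F (Fin.snoc (Fin.snoc a u : Fin 1 → ZMod p) (u + 1)) =
      F (Fin.snoc (Fin.snoc a 0 : Fin 1 → ZMod p) (0 + 1)) := by
    intro u
    rw [← hF u (Fin.snoc (Fin.snoc a 0 : Fin 1 → ZMod p) (0 + 1)), snoc_add, snoc_add]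
    have e : (fun i => a i + u) = a := by
      funext i
      exact i.elim0
    have z1 : (0 + u : ZMod p) = u := zero_add u
    have z2 : (0 + 1 + u : ZMod p) = u + 1 := by ring
    rw [e, z1, z2]
  rw [Finset.sum_congr rfl fun u _ => h u, Finset.sum_const, Finset.card_univ, ZMod.card,
    nsmul_eq_mul, CharP.cast_eq_zero, zero_mul]

/-- The value of a `2K`-cochain on the generating cycle of degree `2K`. -/
def val : ∀ (K : ℕ), ((Fin (2 * K + 1) → ZMod p) → k) → k
  | 0, F => F (fun _ => 0)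
  | K + 1, F => val K (cap F)

theorem val_smul : ∀ (K : ℕ) (c : k) (F : (Fin (2 * K + 1) → ZMod p) → k),
    val K (fun x => F x * c) = val K F * c
  | 0, c, F => rfl
  | K + 1, c, F => by
    rw [val, val, ← val_smul K c (cap F)]
    congr 1
    funext a
    exact (Finset.sum_mul _ _ _).symm

/-- The value of a coboundary vanishes. -/
theorem val_dd [CharP k p] : ∀ (K : ℕ) {F : (Fin (2 * K + 2) → ZMod p) → k}, Inv F →
    val (K + 1) (dd F) = 0
  | 0, F, hF => by
    rw [val, val, cap_dd]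
    unfold dd
    refine Finset.sum_eq_zero fun i _ => ?_
    rw [cap_one_var hF, smul_zero]
  | K + 1, F, hF => by
    rw [val]
    have e : cap (dd F) = dd (cap F) := funext fun a => cap_dd F a
    rw [e]
    exact val_dd K hF.cap

/-- front and back faces -/
def front (a b : ℕ) : Fin (a + 1) → Fin (a + b + 1) := fun i => ⟨i, by omega⟩

/-- back face -/
def back (a b : ℕ) : Fin (b + 1) → Fin (a + b + 1) := fun i => ⟨a + i, by omega⟩

theorem snoc_snoc_front {n : ℕ} (a : Fin (n + 1) → ZMod p) (u v : ZMod p) :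
    (fun i => (Fin.snoc (Fin.snoc a u : Fin (n + 2) → ZMod p) v : Fin (n + 3) → ZMod p)
      (front n 2 i)) = a := by
  funext i
  have : front n 2 i = (i.castSucc).castSucc := by
    apply Fin.ext
    rfl
  rw [this, Fin.snoc_castSucc, Fin.snoc_castSucc]

theorem snoc_snoc_back {n : ℕ} (a : Fin (n + 1) → ZMod p) (u v : ZMod p) :
    (fun i => (Fin.snoc (Fin.snoc a u : Fin (n + 2) → ZMod p) v : Fin (n + 3) → ZMod p)
      (back n 2 i)) = ![a (Fin.last n), u, v] := by
  funext i
  fin_cases i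
  · have : back n 2 ⟨0, by omega⟩ = ((Fin.last n).castSucc).castSucc := by
      apply Fin.ext
      rfl
    change (Fin.snoc (Fin.snoc a u : Fin (n + 2) → ZMod p) v : Fin (n + 3) → ZMod p)
      (back n 2 ⟨0, by omega⟩) = a (Fin.last n)
    rw [this, Fin.snoc_castSucc, Fin.snoc_castSucc]
  · have : back n 2 ⟨1, by omega⟩ = (Fin.last (n + 1)).castSucc := by
      apply Fin.ext
      rfl
    change (Fin.snoc (Fin.snoc a u : Fin (n + 2) → ZMod p) v : Fin (n + 3) → ZMod p)
      (back n 2 ⟨1, by omega⟩) = u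
    rw [this, Fin.snoc_castSucc, Fin.snoc_last]
  · have : back n 2 ⟨2, by omega⟩ = Fin.last (n + 2) := by
      apply Fin.ext
      rfl
    change (Fin.snoc (Fin.snoc a u : Fin (n + 2) → ZMod p) v : Fin (n + 3) → ZMod p)
      (back n 2 ⟨2, by omega⟩) = v
    rw [this, Fin.snoc_last]

/-- The value of a `2`-cochain on the generating cycle. -/
def cval (b : (Fin 3 → ZMod p) → k) : k := ∑ u : ZMod p, b ![0, u, u + 1]

theorem cval_eq {b : (Fin 3 → ZMod p) → k} (hb : Inv b) (a : ZMod p) :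
    ∑ u : ZMod p, b ![a, u, u + 1] = cval b := by
  unfold cval
  refine (Fintype.sum_equiv (Equiv.addRight a) _ _ fun u => ?_).symm
  rw [← hb a, Equiv.coe_addRight]
  congr 1
  funext i
  fin_cases i
  · change 0 + a = a
    rw [zero_add]
  · rfl
  · change u + 1 + a = u + a + 1
    ring

/-- Cup product with a `2`-cochain and evaluation. -/
theorem val_cup (K : ℕ) {F : (Fin (2 * (K + 1) + 1) → ZMod p) → k}
    {F' : (Fin (2 * K + 1) → ZMod p) → k} {b : (Fin 3 → ZMod p) → k} (hb : Inv b)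
    (h : ∀ x : Fin (2 * K + 2 + 1) → ZMod p,
      F x = F' (fun i => x (front (2 * K) 2 i)) * b (fun i => x (back (2 * K) 2 i))) :
    val (K + 1) F = val K F' * cval b := by
  rw [val, ← val_smul]
  congr 1
  funext a
  unfold cap
  rw [← cval_eq hb (a (Fin.last (2 * K))), Finset.mul_sum]
  refine Finset.sum_congr rfl fun u _ => ?_
  rw [h, snoc_snoc_front, snoc_snoc_back]

end Vale.Agent.P251.F.Cyc
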