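import Vale.Agent.P251.F.Sparse6
import Mathlib.LinearAlgebra.FiniteDimensional.Lemmas
import Mathlib.RingTheory.Ideal.Quotient.Operations

/-!
# P251, part F, task F9 (7): sparseness in the form `e ↦ a^w φ(e)` (weights `w : ℤ`)
-/

namespace Vale.Agent.P251.F.Sp

open MvPolynomial

section quot

variable (k : Type*) [Field k]

/-- `k[u_i] / (u)^c` -/
abbrev Qt (ι : Type*) (c : ℕ) := MvPolynomial ι k ⧸ (Ideal.span (Set.range (X (R := k) (σ := ι)))) ^ c

/-- reindexing -/
noncomputable def qtEquiv {ι ι' : Type*} (e : ι ≃ ι') (c : ℕ) : Qt k ι c ≃ₐ[k] Qt k ι' c :=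
  Ideal.quotientEquivAlg _ _ (renameEquiv k e) (by
    rw [Ideal.map_pow, Ideal.map_span]
    congr 2
    ext x
    constructor
    · rintro ⟨i, rfl⟩
      exact ⟨X (e.symm i), ⟨_, rfl⟩, by simp⟩
    · rintro ⟨_, ⟨i, rfl⟩, rfl⟩
      exact ⟨e i, by simp⟩)

theorem card_Io (p : ℕ) [hp : Fact p.Prime] : Nat.card (Io p) = p - 2 := by
  classical
  rw [Nat.card_eq_fintype_card]
  have h1 := sum_split p (fun _ : ZMod p => (1 : ℕ))
  simp only [Finset.sum_const, Finset.card_univ, ZMod.card, smul_eq_mul, mul_one] at h1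
  omega

/-- standard indexing of the parameters -/
noncomputable def ioEquiv (p : ℕ) [hp : Fact p.Prime] : Io p ≃ Fin (p - 2) :=
  (Finite.equivFin (Io p)).trans (finCongr (card_Io p))

end quot

variable (p : ℕ) [hp : Fact p.Prime] (k : Type*) [Field k]

/-- the action of an automorphism on the weight `w` part -/
def act {E : Type*} [CommRing E] [Algebra k E] (φ : E →ₐ[k] E) (a : Eˣ) (w : ℤ) : E →+ E where
  toFun y := ((a ^ w : Eˣ) : E) * φ y
  map_zero' := by rw [map_zero, mul_zero]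
  map_add' x y := by rw [map_add, mul_add]

theorem act_apply {E : Type*} [CommRing E] [Algebra k E] (φ : E →ₐ[k] E) (a : Eˣ) (w : ℤ) (y : E) :
    act k φ a w y = ((a ^ w : Eˣ) : E) * φ y := rfl

/-- Hypotheses on the action of an element of order `p`. -/
structure CpHyp {E : Type*} [CommRing E] [Algebra k E] (M : Ideal E) (φ : E →ₐ[k] E)
    (a T : Eˣ) : Prop where
  const : ∀ y : E, ∃ b : k, y - algebraMap k E b ∈ M
  hφ : ∀ y : E, φ y - y ∈ M
  ha : (a : E) - 1 ∈ M
  ord : (act k φ a (p - 1 : ℕ))^[p] (T : E) = T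
  sum : ∑ i ∈ Finset.range p, (act k φ a (p - 1 : ℕ))^[i] (T : E) = 0
  gen : M ≤ Ideal.span {x | ∃ j : ℕ, 1 ≤ j ∧
    x = (fun y => act k φ a (p - 1 : ℕ) y - y)^[j] (T : E)} ⊔ M ^ 2

namespace CpHyp

variable {p k} {E : Type*} [CommRing E] [Algebra k E] {M : Ideal E} {φ : E →ₐ[k] E}
    {a T : Eˣ} (H : CpHyp p k M φ a T)

/-- `θ_i = σ^i T / T` -/
noncomputable def th (φ : E →ₐ[k] E) (a T : Eˣ) (i : ℕ) : E :=
  (act k φ a (p - 1 : ℕ))^[i] (T : E) * ((T⁻¹ : Eˣ) : E)

omit hp in
theorem th_zero : th (p := p) φ a T 0 = 1 := by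
  rw [th, Function.iterate_zero, id_eq, Units.mul_inv]

omit hp in
theorem T_mul_th (i : ℕ) : (T : E) * th (p := p) φ a T i = (act k φ a (p - 1 : ℕ))^[i] (T : E) := by
  rw [th, mul_comm, mul_assoc, Units.inv_mul, mul_one]

omit hp in
theorem th_succ (i : ℕ) : th (p := p) φ a T (i + 1) = th (p := p) φ a T 1 * φ (th (p := p) φ a T i) := by
  have h1 : (T : E) * th (p := p) φ a T (i + 1) =
      T * (th (p := p) φ a T 1 * φ (th (p := p) φ a T i)) := by
    rw [T_mul_th, Function.iterate_succ_apply', ← T_mul_th (i := i), act_apply, map_mul,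
      ← mul_assoc, ← mul_assoc, T_mul_th, Function.iterate_one, act_apply]
  have h2 := congrArg (fun x => ((T⁻¹ : Eˣ) : E) * x) h1
  simpa only [← mul_assoc, Units.inv_mul, one_mul] using h2

omit hp in
include H in
theorem th_p : th (p := p) φ a T p = 1 := by
  rw [th, H.ord, Units.mul_inv]

omit hp in
include H in
theorem pow_sub_one_mem (w : ℤ) : ((a ^ w : Eˣ) : E) - 1 ∈ M := by
  have h1 : Ideal.Quotient.mk M ((a ^ w : Eˣ) : E) = 1 := by
    have h2 : Units.map (Ideal.Quotient.mk M : E →* E ⧸ M) a = 1 := by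
      ext
      rw [Units.coe_map, Units.val_one]
      have := Ideal.Quotient.eq_zero_iff_mem.mpr H.ha
      rw [map_sub, map_one, sub_eq_zero] at this
      exact this
    have h3 : Units.map (Ideal.Quotient.mk M : E →* E ⧸ M) (a ^ w) = 1 := by
      rw [map_zpow, h2, one_zpow]
    have h4 := congrArg Units.val h3
    rwa [Units.coe_map, Units.val_one] at h4
  rw [← Ideal.Quotient.eq_zero_iff_mem, map_sub, map_one]
  exact sub_eq_zero.mpr h1

omit hp in
include H in
theorem act_sub_mem (w : ℤ) (y : E) : act k φ a w y - y ∈ M := by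
  rw [act_apply]
  have : ((a ^ w : Eˣ) : E) * φ y - y = (((a ^ w : Eˣ) : E) - 1) * φ y + (φ y - y) := by ring
  rw [this]
  exact Submodule.add_mem _ (Ideal.mul_mem_right _ _ (H.pow_sub_one_mem w)) (H.hφ y)

omit hp in
include H in
theorem th_sub_one_mem (i : ℕ) : th (p := p) φ a T i - 1 ∈ M := by
  induction i with
  | zero => rw [th_zero, sub_self]; exact Submodule.zero_mem _
  | succ i ih =>
    have h1 : (act k φ a (p - 1 : ℕ))^[i + 1] (T : E) - (act k φ a (p - 1 : ℕ))^[i] (T : E) ∈ M := by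
      rw [Function.iterate_succ_apply']; exact H.act_sub_mem _ _
    have h2 : th (p := p) φ a T (i + 1) - th (p := p) φ a T i ∈ M := by
      rw [th, th, ← sub_mul]
      exact Ideal.mul_mem_right _ _ h1
    have h3 := Submodule.add_mem _ h2 ih
    rwa [sub_add_sub_cancel] at h3

omit hp in
theorem diff_mem (j : ℕ) : ∀ i, (fun y => act k φ a (p - 1 : ℕ) y - y)^[j + 1]
      ((act k φ a (p - 1 : ℕ))^[i] (T : E)) ∈
      Ideal.span (Set.range fun i : ℕ => th (p := p) φ a T i - 1) := by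
  induction j with
  | zero =>
    intro i
    rw [zero_add, Function.iterate_one]
    rw [← Function.iterate_succ_apply' (⇑(act k φ a (p - 1 : ℕ))), ← T_mul_th, ← T_mul_th]
    have : (T : E) * th (p := p) φ a T (i + 1) - T * th (p := p) φ a T i =
      T * ((th (p := p) φ a T (i + 1) - 1) - (th (p := p) φ a T i - 1)) := by ring
    rw [this]
    exact Ideal.mul_mem_left _ _ (Submodule.sub_mem _ (Ideal.subset_span ⟨i + 1, rfl⟩)
      (Ideal.subset_span ⟨i, rfl⟩))
  | succ j ih =>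
    intro i
    have hadd : ∀ (n : ℕ) (x y : E), (fun y => act k φ a (p - 1 : ℕ) y - y)^[n] (x - y) =
        (fun y => act k φ a (p - 1 : ℕ) y - y)^[n] x -
        (fun y => act k φ a (p - 1 : ℕ) y - y)^[n] y := by
      intro n
      induction n with
      | zero => intro x y; rfl
      | succ n ihn =>
        intro x y
        simp only [Function.iterate_succ_apply]
        have : act k φ a (p - 1 : ℕ) (x - y) - (x - y) =
          (act k φ a (p - 1 : ℕ) x - x) - (act k φ a (p - 1 : ℕ) y - y) := by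
          rw [map_sub]; abel
        rw [this, ihn]
    rw [Function.iterate_succ_apply]
    rw [hadd]
    refine Submodule.sub_mem _ ?_ (ih i)
    rw [← Function.iterate_succ_apply' (⇑(act k φ a (p - 1 : ℕ)))]
    exact ih (i + 1)

/-- the resulting data -/
noncomputable def dat : Dat p k E where
  M := M
  σ := φ
  θ i := th (p := p) φ a T i.val
  const := H.const
  θ0 := by
    have : (0 : ZMod p).val = 0 := ZMod.val_zero
    rw [this, th_zero]
  θs i := by
    have h1 : (1 : ZMod p).val = 1 := by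
      have := Fact.mk hp.out.one_lt
      exact ZMod.val_one p
    rw [h1]
    by_cases hi : i.val + 1 < p
    · have : (i + 1).val = i.val + 1 := by
        rw [ZMod.val_add, h1, Nat.mod_eq_of_lt hi]
      rw [this, th_succ]
    · have hi2 : i.val + 1 = p := by
        have := ZMod.val_lt i
        omega
      have : (i + 1).val = 0 := by
        rw [ZMod.val_add, h1, hi2, Nat.mod_self]
      rw [this, th_zero, ← th_succ, hi2, H.th_p]
  sum := by
    have h1 : ∑ i : ZMod p, th (p := p) φ a T i.val =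
        ∑ i ∈ Finset.range p, th (p := p) φ a T i := by
      rw [Finset.sum_range]
      refine Fintype.sum_bijective (fun i : ZMod p => (⟨i.val, ZMod.val_lt i⟩ : Fin p)) ?_ _ _
        (fun i => rfl)
      rw [Fintype.bijective_iff_injective_and_card]
      constructor
      · intro x y hxy
        exact ZMod.val_injective p (by simpa using hxy)
      · rw [ZMod.card, Fintype.card_fin]
    rw [h1]
    simp only [th]
    rw [← Finset.sum_mul, H.sum, zero_mul]
  mem i := H.th_sub_one_mem _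
  gen := by
    refine H.gen.trans (sup_le_sup_right ?_ _)
    rw [Ideal.span_le]
    rintro _ ⟨j, hj, rfl⟩
    obtain ⟨j, rfl⟩ : ∃ j', j = j' + 1 := ⟨j - 1, by omega⟩
    have h1 := diff_mem (p := p) (k := k) (φ := φ) (a := a) (T := T) j 0
    have h2 : Ideal.span (Set.range fun i : ℕ => th (p := p) φ a T i - 1) ≤
        Ideal.span (Set.range fun i : ZMod p => th (p := p) φ a T i.val - 1) := by
      rw [Ideal.span_le]
      rintro _ ⟨i, rfl⟩
      refine Ideal.subset_span ⟨(i : ZMod p), ?_⟩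
      have hper : ∀ m, th (p := p) φ a T (m + p) = th (p := p) φ a T m := by
        intro m
        rw [th, th, Function.iterate_add_apply, H.ord]
      have hmod : ∀ q m, th (p := p) φ a T (m + p * q) = th (p := p) φ a T m := by
        intro q
        induction q with
        | zero => intro m; rfl
        | succ q ih => intro m; rw [Nat.mul_succ, ← add_assoc, hper, ih]
      simp only
      rw [ZMod.val_natCast]
      conv_rhs => rw [← Nat.mod_add_div i p]
      rw [hmod]
    exact h2 h1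

theorem dat_M : H.dat.M = M := rfl

/-- comparison of the actions -/
theorem act_conj (d : ℕ) (w : ℤ) (hw : w = (p - 1 : ℕ) * (d : ℤ)) (y : E) :
    act k φ a w (T ^ d * y) = T ^ d * H.dat.rho d y := by
  rw [Dat.rho_apply, act_apply, map_mul, map_pow, hw]
  have h1 : (1 : ZMod p).val = 1 := by
    have := Fact.mk hp.out.one_lt
    exact ZMod.val_one p
  have h2 : H.dat.θ 1 = th (p := p) φ a T 1 := by
    change th (p := p) φ a T (1 : ZMod p).val = _
    rw [h1]
  have h3 : (T : E) * th (p := p) φ a T 1 = ((a ^ ((p - 1 : ℕ) : ℤ) : Eˣ) : E) * φ T := by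
    rw [T_mul_th, Function.iterate_one, act_apply]
  have h4 : ((a ^ (((p - 1 : ℕ) : ℤ) * (d : ℤ)) : Eˣ) : E) =
      (((a ^ ((p - 1 : ℕ) : ℤ)) : Eˣ) : E) ^ d := by
    rw [zpow_mul, zpow_natCast, Units.val_pow_eq_pow_val]
  rw [h2, h4, ← mul_assoc, ← mul_assoc, ← mul_pow, ← mul_pow, h3]
  rfl

end CpHyp

/-- **Sparseness** (F9): uniform pro-vanishing of the Tate cohomology of an element of order `p`
acting on the weight `w` part of `E_*`, for `w = (p-1) d`, `d ≠ 0, 1` mod `p`. -/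
theorem sparse [CharP k p] : ∃ C : ℕ → ℕ, ∀ n, n ≤ C n ∧
    ∀ (E : Type*) [CommRing E] [Algebra k E] [FiniteDimensional k E] (M : Ideal E)
      (φ : E →ₐ[k] E) (a T : Eˣ), CpHyp p k M φ a T →
      M ^ (C n) = ⊥ → Nonempty (Qt k (Fin (p - 2)) (C n) ≃ₗ[k] E) →
      ∀ d : ℤ, (d : ZMod p) ≠ 0 → (d : ZMod p) ≠ 1 → ∀ y : E,
        (act k φ a ((p - 1 : ℕ) * d) y = y →
          ∃ z, y - nm p (act k φ a ((p - 1 : ℕ) * d)) z ∈ M ^ n) ∧
        (nm p (act k φ a ((p - 1 : ℕ) * d)) y = 0 →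
          ∃ z, y - (act k φ a ((p - 1 : ℕ) * d) z - z) ∈ M ^ n) := by
  obtain ⟨C, hC⟩ := sparse_nat p k
  refine ⟨C, fun n => ⟨(hC n).1, ?_⟩⟩
  intro E _ _ _ M φ a T H hM hdim d hd0 hd1 y
  have hdim' : Nonempty ((D p k ⧸ (tt p k) ^ (C n)) ≃ₗ[k] E) := by
    obtain ⟨e⟩ := hdim
    exact ⟨(qtEquiv k (ioEquiv p) (C n)).toLinearEquiv.trans e⟩
  -- reduce to natural `d`
  obtain ⟨e, he⟩ : ∃ e, C n ≤ p ^ e := ⟨C n, (Nat.lt_pow_self hp.out.one_lt).le⟩
  have ha1 : (a : E) ^ (p ^ e) = 1 := theta_pow p k H.dat hM he _ H.ha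
  have ha2 : a ^ (p ^ e) = 1 := by
    ext; rw [Units.val_pow_eq_pow_val, ha1, Units.val_one]
  obtain ⟨d', hd'⟩ : ∃ d' : ℕ, (d' : ℤ) = d + p * p ^ e * d.natAbs := by
    have h1 : 0 ≤ d + p * p ^ e * (d.natAbs : ℤ) := by
      have h2 : (1 : ℤ) ≤ p * p ^ e := by
        exact_mod_cast Nat.mul_pos hp.out.pos (pow_pos hp.out.pos e)
      have h3 : -d ≤ (d.natAbs : ℤ) := by omega
      nlinarith [Int.natCast_nonneg d.natAbs]
    exact ⟨(d + p * p ^ e * (d.natAbs : ℤ)).toNat, Int.toNat_of_nonneg h1⟩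
  have hact : act k φ a ((p - 1 : ℕ) * d) = act k φ a ((p - 1 : ℕ) * (d' : ℤ)) := by
    ext x
    rw [act_apply, act_apply]
    congr 2
    rw [hd', mul_add, zpow_add]
    have h1 : ((p - 1 : ℕ) : ℤ) * (p * p ^ e * (d.natAbs : ℤ)) =
      ((p ^ e : ℕ) : ℤ) * (((p - 1 : ℕ) : ℤ) * (p * (d.natAbs : ℤ))) := by push_cast; ring
    have h5 : a ^ (((p ^ e : ℕ) : ℤ) * (((p - 1 : ℕ) : ℤ) * (p * (d.natAbs : ℤ)))) = 1 := by
      rw [zpow_mul, zpow_natCast, ha2, one_zpow]
    rw [h1, h5, mul_one]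
  have hdd : (d' : ZMod p) = (d : ZMod p) := by
    have := congrArg (Int.cast : ℤ → ZMod p) hd'
    push_cast at this
    rw [ZMod.natCast_self] at this
    rw [this]; ring
  rw [hact]
  -- conjugate
  have hconj : ∀ x, act k φ a ((p - 1 : ℕ) * (d' : ℤ)) ((T : E) ^ d' * x) =
      (T : E) ^ d' * H.dat.rho d' x := fun x => H.act_conj d' _ rfl x
  have hiter : ∀ i x, (act k φ a ((p - 1 : ℕ) * (d' : ℤ)))^[i] ((T : E) ^ d' * x) =
      (T : E) ^ d' * (H.dat.rho d')^[i] x := by
    intro i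
    induction i with
    | zero => intro x; rfl
    | succ i ih => intro x; rw [Function.iterate_succ_apply, hconj, ih, Function.iterate_succ_apply]
  have hnm : ∀ x, nm p (act k φ a ((p - 1 : ℕ) * (d' : ℤ))) ((T : E) ^ d' * x) =
      (T : E) ^ d' * nm p (H.dat.rho d') x := by
    intro x
    rw [nm_apply, nm_apply, Finset.mul_sum]
    exact Finset.sum_congr rfl fun i _ => hiter i x
  have hTi : ∀ x : E, ((T⁻¹ : Eˣ) : E) ^ d' * ((T : E) ^ d' * x) = x := by
    intro x
    rw [← mul_assoc, ← mul_pow, Units.inv_mul, one_pow, one_mul]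
  have hTi' : ∀ x : E, (T : E) ^ d' * (((T⁻¹ : Eˣ) : E) ^ d' * x) = x := by
    intro x
    rw [← mul_assoc, ← mul_pow, Units.mul_inv, one_pow, one_mul]
  obtain ⟨h1, h2⟩ := (hC n).2 E H.dat hM hdim' d' (by rw [hdd]; exact hd0)
    (by rw [hdd]; exact hd1) (((T⁻¹ : Eˣ) : E) ^ d' * y)
  constructor
  · intro hy
    obtain ⟨z, hz⟩ := h1 (by
      have h3 := hconj (((T⁻¹ : Eˣ) : E) ^ d' * y)
      rw [hTi', hy] at h3
      rw [← hTi (H.dat.rho d' _), ← h3])
    refine ⟨(T : E) ^ d' * z, ?_⟩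
    have h4 := Ideal.mul_mem_left _ ((T : E) ^ d') hz
    rw [mul_sub, hTi', ← hnm] at h4
    exact h4
  · intro hy
    obtain ⟨z, hz⟩ := h2 (by
      have h3 := hnm (((T⁻¹ : Eˣ) : E) ^ d' * y)
      rw [hTi', hy] at h3
      rw [← hTi (nm p (H.dat.rho d') _), ← h3, mul_zero])
    refine ⟨(T : E) ^ d' * z, ?_⟩
    have h4 := Ideal.mul_mem_left _ ((T : E) ^ d') hz
    rw [mul_sub, hTi', mul_sub, ← hconj] at h4
    exact h4

end Vale.Agent.P251.F.Sp
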