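import Vale.Agent.P251.F.CpFinal
import Vale.Agent.P251.F.Sparse7
import Vale.Agent.P251.I.C

/-!
# P251, F10: from F8 and F9 to `CycZero`

`exists_cyc`: for every `n` there is `C n ≥ n` such that, if a group `G` acts on the weight
`w = (p - 1) d` part `M` of `E_*` (`E` finite dimensional and local, with maximal ideal of
nilpotency index at most `C n` and the dimension of `k[u]/(u)^(C n)`) with elements of order `p`
as in `CpAct`, and `d ≠ 0, 1` mod `p`, then every equivariant map `M → N` which kills `m^n` is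
`CycZero`.
-/

namespace Vale.Agent.P251.F

open PowerSeries IsLocalRing Vale.Agent.P217

/-- From `CpAct` to `CpHyp`. -/
theorem CpAct.cpHyp {k : Type*} [Field k] {E : Type*} [CommRing E] [IsLocalRing E] [Algebra k E]
    {p : ℕ} [hp : Fact p.Prime] {F : FormalGroup E} [F.IsComm] {φ : E →ₐ[k] E} {g : E⟦X⟧}
    {a : Eˣ} (H : CpAct p F φ g a) (hp3 : 3 ≤ p) :
    ∃ T : Eˣ, Sp.CpHyp p k (maximalIdeal E) φ a T := by
  obtain ⟨T, hT⟩ := H.cpData.hT
  have hgp : coeff p g = (a : E) * (T : E) := by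
    rw [hT, TT, ← mul_assoc, Units.mul_inv, one_mul]
  obtain ⟨hper, hsum⟩ := SS_iter_p p (φ := φ) H.hom.1 H.g1 hgp H.ggap H.ord H.ordφ
  have hSS : ∀ e : E, Sp.act k φ a ((p - 1 : ℕ) : ℤ) e = SS (φ : E →+* E) p (a : E) e := by
    intro e
    rw [Sp.act_apply, SS, zpow_natCast, Units.val_pow_eq_pow_val]
    rfl
  have hSS' : (⇑(Sp.act k φ a ((p - 1 : ℕ) : ℤ)) : E → E) = SS (φ : E →+* E) p (a : E) :=
    funext hSS
  refine ⟨T, ?_, H.cpData.hφ, H.ha, ?_, ?_, ?_⟩
  · intro y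
    exact H.res y
  · rw [hSS']
    exact hper _
  · rw [hSS']
    exact hsum
  · refine le_trans ?_ le_sup_left
    rw [H.cpData.maximalIdeal_eq_span hp3, Ideal.span_le]
    rintro _ ⟨n, -, rfl⟩
    refine Ideal.subset_span ⟨n + 1, Nat.succ_pos n, ?_⟩
    rw [yy, ← hT]
    congr 1

/-- **F8 + F9 in the form needed for F10.** -/
theorem exists_cyc (p : ℕ) [hp : Fact p.Prime] (hp3 : 3 ≤ p) (k : Type*) [Field k] [CharP k p] :
    ∃ C : ℕ → ℕ, ∀ n, n ≤ C n ∧
      ∀ (G : Type*) [Group G] (E : Type*) [CommRing E] [IsLocalRing E] [Algebra k E]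
        [FiniteDimensional k E] (M N : Type*) [AddCommGroup M] [DistribMulAction G M]
        [AddCommGroup N] [DistribMulAction G N] (u : M →+[G] N) (e : M ≃+ E)
        (φ : G → E →ₐ[k] E) (a : G → Eˣ) (d : ℤ),
        (d : ZMod p) ≠ 0 → (d : ZMod p) ≠ 1 →
        maximalIdeal E ^ (C n) = ⊥ → Nonempty (Sp.Qt k (Fin (p - 2)) (C n) ≃ₗ[k] E) →
        (∀ (σ : G) (m : M), e (σ • m) = Sp.act k (φ σ) (a σ) ((p - 1 : ℕ) * d) (e m)) →
        (∀ m : M, e m ∈ maximalIdeal E ^ n → u m = 0) →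
        (∀ σ : G, orderOf σ = p → ∃ (F : FormalGroup E) (_ : F.IsComm) (g : E⟦X⟧),
          CpAct p F (φ σ) g (a σ)) →
        I.CycZero p G u := by
  obtain ⟨C, hC⟩ := Sp.sparse p k
  refine ⟨C, fun n => ⟨(hC n).1, ?_⟩⟩
  intro G _ E _ _ _ _ M N _ _ _ _ u e φ a d hd0 hd1 hC0 hdim he hu hcp σ hσ
  obtain ⟨F, hF, g, H⟩ := hcp σ hσ
  obtain ⟨T, HT⟩ := H.cpHyp hp3
  have key := (hC n).2 E (maximalIdeal E) (φ σ) (a σ) T HT hC0 hdim d hd0 hd1
  have hpow : ∀ (i : ℕ) (z : M), e (σ ^ i • z) =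
      (Sp.act k (φ σ) (a σ) ((p - 1 : ℕ) * d))^[i] (e z) := by
    intro i
    induction i with
    | zero => intro z; simp
    | succ i ih => intro z; rw [pow_succ, mul_smul, ih, he, Function.iterate_succ_apply]
  have hnm : ∀ z : M, e (∑ i ∈ Finset.range p, σ ^ i • z) =
      Sp.nm p (Sp.act k (φ σ) (a σ) ((p - 1 : ℕ) * d)) (e z) := by
    intro z
    rw [map_sum, Sp.nm_apply]
    exact Finset.sum_congr rfl fun i _ => hpow i z
  constructor
  · intro m hm
    obtain ⟨z, hz⟩ := (key (e m)).1 (by rw [← he, hm])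
    refine ⟨u (e.symm z), ?_⟩
    have h1 : u (m - ∑ i ∈ Finset.range p, σ ^ i • e.symm z) = 0 := by
      apply hu
      rw [map_sub, hnm, AddEquiv.apply_symm_apply]
      exact hz
    rw [map_sub, sub_eq_zero, map_sum] at h1
    rw [h1]
    exact Finset.sum_congr rfl fun i _ => map_smul u _ _
  · intro m hm
    obtain ⟨z, hz⟩ := (key (e m)).2 (by rw [← hnm, hm, map_zero])
    refine ⟨u (e.symm z), ?_⟩
    have h1 : u (m - (σ • e.symm z - e.symm z)) = 0 := by
      apply hu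
      rw [map_sub, map_sub, he, AddEquiv.apply_symm_apply]
      exact hz
    rw [map_sub, sub_eq_zero, map_sub, map_smul] at h1
    exact h1

end Vale.Agent.P251.F
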