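import Vale.Agent.P251.F.LazWt

/-!
# P251, part F: deformations of a law with prescribed `v_k`

`deform H S u` is the law over the `k`-algebra `E` with the same coordinates `yF` as `H`, except
that `v_i = u i` for `i ∈ S`.
-/

namespace Vale.Agent.P251.F

open MvPowerSeries Vale.Agent.P217 Finsupp

variable {k E C : Type*} [CommRing k] [CommRing E] [CommRing C] [Algebra k E] {p : ℕ}
  [hp : Fact p.Prime]

open Classical in
/-- The coordinates of the deformed law. -/
noncomputable def deformY (p : ℕ) (H : Law k) (S : Set ℕ) (u : ℕ → E) (n : ℕ) : E :=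
  if h : ∃ i ∈ S, i ≠ 0 ∧ n + 2 = p ^ i then u h.choose else algebraMap k E (yF p H n)

theorem deformY_of_mem (H : Law k) {S : Set ℕ} (u : ℕ → E) {i : ℕ} (hi : i ∈ S) (hi0 : i ≠ 0) :
    deformY p H S u (p ^ i - 2) = u i := by
  have h : ∃ j ∈ S, j ≠ 0 ∧ p ^ i - 2 + 2 = p ^ j :=
    ⟨i, hi, hi0, Nat.sub_add_cancel (two_le_pow hp.out hi0)⟩
  rw [deformY, dif_pos h]
  have h1 : p ^ i = p ^ h.choose :=
    (Nat.sub_add_cancel (two_le_pow hp.out hi0)).symm.trans h.choose_spec.2.2
  rw [← Nat.pow_right_injective hp.out.two_le h1]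

omit hp in
theorem deformY_of_not (H : Law k) {S : Set ℕ} (u : ℕ → E) {n : ℕ}
    (h : ¬ ∃ i ∈ S, i ≠ 0 ∧ n + 2 = p ^ i) :
    deformY p H S u n = algebraMap k E (yF p H n) := dif_neg h

/-- The law with the coordinates `yF` of `H`, except that `v_i = u i` for `i ∈ S`. -/
noncomputable def deform (hE : (p : E) = 0) (H : Law k) (S : Set ℕ) (u : ℕ → E) : Law E :=
  lawOfY hE (deformY p H S u)

section

variable (hE : (p : E) = 0) (H : Law k) (S : Set ℕ) (u : ℕ → E)

theorem yF_deform (n : ℕ) : yF p (deform hE H S u) n = deformY p H S u n := yF_lawOfY hE _ n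

theorem vv_deform_of_mem {i : ℕ} (hi : i ∈ S) (hi0 : i ≠ 0) :
    vv p i (deform hE H S u) = u i := by
  rw [← yF_pow_sub hp.out _ hi0, yF_deform, deformY_of_mem H u hi hi0]

theorem vv_deform_of_notMem {i : ℕ} (hi : i ∉ S) (hi0 : i ≠ 0) :
    vv p i (deform hE H S u) = algebraMap k E (vv p i H) := by
  rw [← yF_pow_sub hp.out _ hi0, ← yF_pow_sub hp.out _ hi0, yF_deform, deformY_of_not]
  rintro ⟨j, hj, -, h⟩
  rw [Nat.sub_add_cancel (two_le_pow hp.out hi0)] at h
  rw [Nat.pow_right_injective hp.out.two_le h] at hi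
  exact hi hj

theorem yF_deform_of_not {n : ℕ} (h : ¬ ∃ i ∈ S, i ≠ 0 ∧ n + 2 = p ^ i) :
    yF p (deform hE H S u) n = algebraMap k E (yF p H n) := by
  rw [yF_deform, deformY_of_not H u h]

theorem yF_deform_of_not_pow {n : ℕ} (h : ¬ ∃ i, n + 2 = p ^ i) :
    yF p (deform hE H S u) n = algebraMap k E (yF p H n) :=
  yF_deform_of_not hE H S u fun ⟨i, _, _, hi⟩ => h ⟨i, hi⟩

/-- Specialization of the deformed law. -/
theorem deform_map_eq (φ : E →+* C) (G : Law C)
    (hu : ∀ i ∈ S, i ≠ 0 → φ (u i) = vv p i G)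
    (hG : ∀ n, (¬ ∃ i ∈ S, i ≠ 0 ∧ n + 2 = p ^ i) →
      φ (algebraMap k E (yF p H n)) = yF p G n) :
    (deform hE H S u).map φ = G := by
  have hC : (p : C) = 0 := by rw [← map_natCast φ, hE, map_zero]
  refine law_ext_yF hC fun n => ?_
  rw [← map_yF, yF_deform]
  by_cases h : ∃ i ∈ S, i ≠ 0 ∧ n + 2 = p ^ i
  · obtain ⟨i, hi, hi0, hn⟩ := h
    obtain rfl : n = p ^ i - 2 := by omega
    rw [deformY_of_mem H u hi hi0, hu i hi hi0, yF_pow_sub hp.out _ hi0]
  · rw [deformY_of_not H u h, hG n h]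

/-- The deformed law reduces to the original one where the `u i` take the original values. -/
theorem deform_map_eq_map (φ : E →+* C)
    (hu : ∀ i ∈ S, i ≠ 0 → φ (u i) = φ (algebraMap k E (vv p i H))) :
    (deform hE H S u).map φ = H.map (φ.comp (algebraMap k E)) := by
  refine deform_map_eq hE H S u φ _ (fun i hi hi0 => ?_) fun n _ => ?_
  · rw [hu i hi hi0, vv_map]
    rfl
  · rw [← map_yF]
    rfl

/-- functoriality of the deformed law. -/
theorem map_deform_algHom {E' : Type*} [CommRing E'] [Algebra k E'] (hE' : (p : E') = 0)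
    (φ : E →ₐ[k] E') :
    (deform hE H S u).map (φ : E →+* E') = deform hE' H S fun i => φ (u i) := by
  refine law_ext_yF hE' fun n => ?_
  rw [← map_yF, yF_deform, yF_deform]
  by_cases h : ∃ i ∈ S, i ≠ 0 ∧ n + 2 = p ^ i
  · obtain ⟨i, hi, hi0, hn⟩ := h
    obtain rfl : n = p ^ i - 2 := by omega
    rw [deformY_of_mem H u hi hi0, deformY_of_mem H _ hi hi0]
    rfl
  · rw [deformY_of_not H u h, deformY_of_not H _ h]
    exact φ.commutes _

/-- If the coordinates `yF` of `H` in weights not divisible by `d` vanish and `S` consists of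
indices `i` with `d ∣ p ^ i - 1` then the same holds for the deformed law. -/
theorem yF_deform_eq_zero {d : ℕ} (hd : ∀ i ∈ S, d ∣ p ^ i - 1)
    (hH : ∀ n, ¬ d ∣ n + 1 → yF p H n = 0) (n : ℕ) (hn : ¬ d ∣ n + 1) :
    yF p (deform hE H S u) n = 0 := by
  rw [yF_deform_of_not hE H S u, hH n hn, map_zero]
  rintro ⟨i, hi, hi0, h⟩
  apply hn
  have h1 : n + 1 = p ^ i - 1 := by omega
  rw [h1]
  exact hd i hi

/-- Rescaling by a unit `c` of `k` fixing `H`, with `c ^ (p^i - 1) u_i = u_i`. -/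
theorem lin_smul_deform (c : kˣ) (hc : InvSeries.lin c • H = H)
    (hcu : ∀ i ∈ S, i ≠ 0 → algebraMap k E c ^ (p ^ i - 1) * u i = u i) :
    InvSeries.lin (Units.map (algebraMap k E : k →* E) c) • deform hE H S u =
      deform hE H S u := by
  refine lin_smul_eq_self hE _ _ fun n => ?_
  rw [yF_deform]
  by_cases h : ∃ i ∈ S, i ≠ 0 ∧ n + 2 = p ^ i
  · obtain ⟨i, hi, hi0, hn⟩ := h
    have h2 := hcu i hi hi0
    obtain rfl : n = p ^ i - 2 := by omega
    rw [deformY_of_mem H u hi hi0]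
    have h1 : p ^ i - 2 + 1 = p ^ i - 1 := by
      have := two_le_pow hp.out hi0
      omega
    rw [h1]
    exact h2
  · rw [deformY_of_not H u h]
    have h1 : (InvSeries.lin c)⁻¹ • H = H := by
      rw [inv_smul_eq_iff, hc]
    have h2 := yF_lin_inv_smul p c H n
    rw [h1] at h2
    conv_rhs => rw [h2]
    rw [map_mul, map_pow]
    rfl

end

/-- A unit whose power minus one is a unit: vanishing of coefficients. -/
theorem coeff_eq_zero_of_lin_smul {B : Type*} [CommRing B] {u : Bˣ} {F : Law B}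
    (h : InvSeries.lin u • F = F) {n i j : ℕ} (hij : i + j = n + 1)
    (hu : IsUnit ((u : B) ^ n - 1)) : coeff (e2 i j) F.ps = 0 := by
  have h1 := pow_mul_coeff_of_lin_smul h hij
  have h2 : ((u : B) ^ n - 1) * coeff (e2 i j) F.ps = 0 := by
    rw [sub_mul, h1, one_mul, sub_self]
  exact (hu.mul_right_eq_zero).1 h2

/-- Typical laws: if the coordinates `yF` vanish in weights prime to `p - 1`, then `ζ x` is an
automorphism for every `ζ` with `ζ ^ (p - 1) = 1`. -/
theorem lin_smul_of_yF_eq_zero {B : Type*} [CommRing B] (hB : (p : B) = 0) {F : Law B} {d : ℕ}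
    (hF : ∀ n, ¬ d ∣ n + 1 → yF p F n = 0) (ζ : Bˣ) (hζ : ζ ^ d = 1) :
    InvSeries.lin ζ • F = F := by
  refine lin_smul_eq_self hB _ _ fun n => ?_
  by_cases h : d ∣ n + 1
  · obtain ⟨m, hm⟩ := h
    rw [hm, pow_mul, ← Units.val_pow_eq_pow_val, hζ, Units.val_one, one_pow, one_mul]
  · rw [hF n h, mul_zero]

end Vale.Agent.P251.F
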