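/-
P251, part F (F11): the value of `t_1` on a chain `F → f • F` where `F` is additive up to degree
`p` and `f = x + b x^p + …`: `t = (p^(p-1) - 1) b`.  Author: helper982.
-/
import Vale.Agent.P251.F.T1Coc

namespace Vale.Agent.P251.F

open MvPowerSeries Vale.Agent.P217 Cob Vale.Agent.P251.I

section

variable {B : Type} [CommRing B]

theorem psubst_mem_ordI_D {a : PowerSeries B} (ha : a ∈ ordI Unit B 1) {k : ℕ} {g : PowerSeries B}
    (hg : g ∈ ordI Unit B k) : (PowerSeries.subst a g : PowerSeries B) ∈ ordI Unit B k :=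
  subst_mem_ordI (fun _ => ha) hg

theorem X_mem_ordI : (PowerSeries.X : PowerSeries B) ∈ ordI Unit B 1 := ordI_X ()

/-- `[m]_F = m x` up to the degree in which `F` is additive. -/
theorem multSeries_sub_mem (F : FormalGroup B) {N : ℕ}
    (hF : F.toPowerSeries - (X 0 + X 1) ∈ ordI (Fin 2) B N) (m : ℕ) :
    multSeries F m - PowerSeries.C (m : B) * PowerSeries.X ∈ ordI Unit B N := by
  induction m with
  | zero =>
    have : multSeries F 0 = 0 := rfl
    rw [this, Nat.cast_zero, map_zero, zero_mul, sub_zero]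
    exact Ideal.zero_mem _
  | succ m ih =>
    have h1 : multSeries F m ∈ ordI Unit B 1 := mem_ordI_one.2 (constantCoeff_multSeries F m)
    have h2 := subst_X_pair_add h1 (X_mem_ordI (B := B)) F.toPowerSeries
    have h3 := subst_mem_ordI (pair_mem h1 (X_mem_ordI (B := B))) hF
    rw [multSeries_succ, h2]
    have e : subst ![multSeries F m, PowerSeries.X] (F.toPowerSeries - (X 0 + X 1)) +
        (multSeries F m + PowerSeries.X) - PowerSeries.C ((m + 1 : ℕ) : B) * PowerSeries.X =
        subst ![multSeries F m, PowerSeries.X] (F.toPowerSeries - (X 0 + X 1)) +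
          (multSeries F m - PowerSeries.C (m : B) * PowerSeries.X) := by
      push_cast
      rw [map_add, map_one]
      ring
    rw [e]
    exact Ideal.add_mem _ h3 ih

theorem pow_sub_pow_mem_D {a b : PowerSeries B} {N : ℕ} (ha : a ∈ ordI Unit B 1)
    (hb : b ∈ ordI Unit B 1) (h : a - b ∈ ordI Unit B N) (m : ℕ) :
    a ^ m - b ^ m ∈ ordI Unit B N := by
  rw [sub_eq_add_neg]
  have := sub_dvd_pow_sub_pow a b m
  rw [← sub_eq_add_neg]
  exact Ideal.mem_of_dvd _ this h

theorem vv_one_of_additive (p : ℕ) [hp : Fact p.Prime] (F : Law B)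
    (hF : F.ps - (X 0 + X 1) ∈ ordI (Fin 2) B (p + 1)) : vv p 1 F = 0 := by
  have h1 := mem_ordI_unit.1 (multSeries_sub_mem F.toFG hF p) p (Nat.lt_succ_self p)
  have hp1 : p ≠ 1 := hp.out.ne_one
  rw [map_sub, PowerSeries.coeff_C_mul, PowerSeries.coeff_X, if_neg hp1, mul_zero, sub_zero] at h1
  rw [vv, pow_one]
  exact h1

theorem vv_one_smul_of_additive (p : ℕ) [hp : Fact p.Prime] (F : Law B)
    (hF : F.ps - (X 0 + X 1) ∈ ordI (Fin 2) B (p + 1)) (f : InvSeries B) (b : B)
    (hf : f.val - (PowerSeries.X + PowerSeries.C b * PowerSeries.X ^ p) ∈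
      ordI Unit B (p + 1)) :
    vv p 1 (f • F) = ((p : B) ^ p - p) * b := by
  have hp2 : 2 ≤ p := hp.out.two_le
  set P := multSeries F.toFG p with hP
  set Q := multSeries (f • F).toFG p with hQ
  have hP1 : P ∈ ordI Unit B 1 := mem_ordI_one.2 (constantCoeff_multSeries _ _)
  have hPs : PowerSeries.HasSubst P := hasSubst_of_cc (constantCoeff_multSeries _ _)
  have hpX : (PowerSeries.C (p : B) * PowerSeries.X : PowerSeries B) ∈ ordI Unit B 1 :=
    Ideal.mul_mem_left _ _ X_mem_ordI
  have h1 : P - PowerSeries.C (p : B) * PowerSeries.X ∈ ordI Unit B (p + 1) :=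
    multSeries_sub_mem F.toFG hF p
  -- `f(P) = p x + b p^p x^p + …`
  have h2 : (PowerSeries.subst P f.val : PowerSeries B) -
      (PowerSeries.C (p : B) * PowerSeries.X + PowerSeries.C (b * (p : B) ^ p) *
        PowerSeries.X ^ p) ∈ ordI Unit B (p + 1) := by
    have e1 : (PowerSeries.subst P f.val : PowerSeries B) =
        (P + PowerSeries.C b * P ^ p) + PowerSeries.subst P (f.val -
          (PowerSeries.X + PowerSeries.C b * PowerSeries.X ^ p)) := by
      have hsub : ∀ g g' : PowerSeries B, (PowerSeries.subst P (g - g') : PowerSeries B) =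
          PowerSeries.subst P g - PowerSeries.subst P g' := fun g g' => by
        rw [← PowerSeries.coe_substAlgHom hPs, map_sub]
      rw [hsub, PowerSeries.subst_add hPs, PowerSeries.subst_mul hPs, PowerSeries.subst_pow hPs,
        PowerSeries.subst_X hPs, PowerSeries.subst_C]
      change _ = P + PowerSeries.C b * P ^ p + (_ - (P + PowerSeries.C b * P ^ p))
      ring
    have e2 : PowerSeries.C (b * (p : B) ^ p) * PowerSeries.X ^ p =
        PowerSeries.C b * (PowerSeries.C (p : B) * PowerSeries.X : PowerSeries B) ^ p := by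
      rw [mul_pow, map_mul, map_pow]
      ring
    rw [e1, e2]
    have e3 : P + PowerSeries.C b * P ^ p + PowerSeries.subst P (f.val -
          (PowerSeries.X + PowerSeries.C b * PowerSeries.X ^ p)) -
        (PowerSeries.C (p : B) * PowerSeries.X + PowerSeries.C b *
          (PowerSeries.C (p : B) * PowerSeries.X : PowerSeries B) ^ p) =
        (P - PowerSeries.C (p : B) * PowerSeries.X) +
        PowerSeries.C b * (P ^ p - (PowerSeries.C (p : B) * PowerSeries.X : PowerSeries B) ^ p) +
        PowerSeries.subst P (f.val -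
          (PowerSeries.X + PowerSeries.C b * PowerSeries.X ^ p)) := by
      ring
    rw [e3]
    exact Ideal.add_mem _ (Ideal.add_mem _ h1 (Ideal.mul_mem_left _ _
      (pow_sub_pow_mem_D hP1 hpX h1 p))) (psubst_mem_ordI_D hP1 hf)
  -- `A = Q - p x`
  set A := Q - PowerSeries.C (p : B) * PowerSeries.X with hA
  have hQA : Q = A + PowerSeries.C (p : B) * PowerSeries.X := by rw [hA]; ring
  have h3 : (PowerSeries.subst f.val A : PowerSeries B) -
      PowerSeries.C (((p : B) ^ p - p) * b) * PowerSeries.X ^ p ∈ ordI Unit B (p + 1) := by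
    have e4 : (PowerSeries.subst f.val Q : PowerSeries B) = PowerSeries.subst P f.val :=
      (smul_multSeries f F p).symm
    rw [hQA, PowerSeries.subst_add f.hs, PowerSeries.subst_mul f.hs, PowerSeries.subst_X f.hs,
      PowerSeries.subst_C] at e4
    have e5 : (PowerSeries.subst f.val A : PowerSeries B) =
        PowerSeries.subst P f.val - PowerSeries.C (p : B) * f.val := by
      rw [← e4]
      change _ = _ + PowerSeries.C (p : B) * f.val - _
      ring
    rw [e5]
    have e6 : PowerSeries.subst P f.val - PowerSeries.C (p : B) * f.val -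
        PowerSeries.C (((p : B) ^ p - p) * b) * PowerSeries.X ^ p =
        ((PowerSeries.subst P f.val : PowerSeries B) -
        (PowerSeries.C (p : B) * PowerSeries.X + PowerSeries.C (b * (p : B) ^ p) *
          PowerSeries.X ^ p)) - PowerSeries.C (p : B) * (f.val -
          (PowerSeries.X + PowerSeries.C b * PowerSeries.X ^ p)) := by
      rw [sub_mul, map_sub, map_mul, map_mul, map_mul, map_pow]
      ring
    rw [e6]
    exact Ideal.sub_mem _ h2 (Ideal.mul_mem_left _ _ hf)
  have hXp : (PowerSeries.X ^ p : PowerSeries B) ∈ ordI Unit B p := ordI_pow X_mem_ordI p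
  have h4 : (PowerSeries.subst f.val A : PowerSeries B) ∈ ordI Unit B p := by
    have := Ideal.add_mem _ (ordI_anti (Nat.le_succ p) h3)
      (Ideal.mul_mem_left _ (PowerSeries.C (((p : B) ^ p - p) * b)) hXp)
    rwa [sub_add_cancel] at this
  have h5 : A ∈ ordI Unit B p := by
    have := psubst_mem_ordI_D (a := (f⁻¹).val) (f⁻¹).val_mem h4
    rwa [PowerSeries.subst_comp_subst_apply f.hs (f⁻¹).hs, f.inv_subst_val,
      PowerSeries.X_subst] at this
  have hc1 : PowerSeries.coeff 1 f.val = 1 := by
    have := mem_ordI_unit.1 hf 1 (by omega)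
    rw [map_sub, map_add, PowerSeries.coeff_one_X, PowerSeries.coeff_C_mul,
      PowerSeries.coeff_X_pow, if_neg (by omega), mul_zero, add_zero, sub_eq_zero] at this
    exact this
  have h6 : PowerSeries.coeff p (PowerSeries.subst f.val A : PowerSeries B) =
      f.c 0 ^ p * PowerSeries.coeff p A := by
    have := (lead_subst f A p (PowerSeries.X_pow_dvd_iff.2 (mem_ordI_unit.1 h5))).2
    rw [this, mul_comm]
  have hfc : f.c 0 = 1 := hc1
  rw [hfc, one_pow, one_mul] at h6
  have h7 : PowerSeries.coeff p (PowerSeries.subst f.val A : PowerSeries B) =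
      ((p : B) ^ p - p) * b := by
    have := mem_ordI_unit.1 h3 p (Nat.lt_succ_self p)
    rw [map_sub, PowerSeries.coeff_C_mul, PowerSeries.coeff_X_pow, if_pos rfl, mul_one,
      sub_eq_zero] at this
    exact this
  have h8 : PowerSeries.coeff p A = PowerSeries.coeff p Q := by
    rw [hA, map_sub, PowerSeries.coeff_C_mul, PowerSeries.coeff_X, if_neg hp.out.ne_one, mul_zero,
      sub_zero]
  rw [vv, pow_one, ← hQ, ← h8, ← h6, h7]

/-- The value of `t_1`. -/
theorem ev_t1 (p : ℕ) [hp : Fact p.Prime] (hreg : ∀ x : B, (p : B) * x = 0 → x = 0)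
    {t : Cob Laz 1} (ht : IsT1 p t) (c : Chain Laz 1 B)
    (hF : (Laz.univ.map c.pt).ps - (X 0 + X 1) ∈ ordI (Fin 2) B (p + 1)) (b : B)
    (hf : (c.g 1).val - (PowerSeries.X + PowerSeries.C b * PowerSeries.X ^ p) ∈
      ordI Unit B (p + 1)) :
    ev c t = ((p : B) ^ (p - 1) - 1) * b := by
  have h1 : (p : B) * ev c t = ((p : B) ^ p - p) * b := by
    have h := congrArg (ev c) (show (p : ℤ) • t = _ from ht)
    rw [map_zsmul, ev_d, Fin.sum_univ_two] at h
    have e0 : ev (c.res (Fin.succAbove (0 : Fin 2))) (MvPolynomial.C (Laz.v p 1)) =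
        vv p 1 (c.g 1 • Laz.univ.map c.pt) := by
      rw [ev_C, Laz.map_v]
      congr 1
      exact LawRing.law_act _ _
    have e1 : ev (c.res (Fin.succAbove (1 : Fin 2))) (MvPolynomial.C (Laz.v p 1)) =
        vv p 1 (Laz.univ.map c.pt) := by
      rw [ev_C, Laz.map_v]
      congr 1
      have : Laz.univ.map ((c.res (Fin.succAbove (1 : Fin 2))).pt) =
        (c.g 0) • Laz.univ.map c.pt := LawRing.law_act _ _
      rw [this, c.zero, one_smul]
    rw [e0, e1, vv_one_of_additive p _ hF, vv_one_smul_of_additive p _ hF _ b hf] at h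
    simpa using h
  have h2 : (p : B) * (ev c t - ((p : B) ^ (p - 1) - 1) * b) = 0 := by
    rw [mul_sub, h1]
    obtain ⟨m, hm⟩ : ∃ m, p = m + 1 := ⟨p - 1, by have := hp.out.pos; omega⟩
    have e : (p : B) ^ p = (p : B) * (p : B) ^ (p - 1) := by
      conv_lhs => rw [show p = (p - 1) + 1 by omega]
      rw [pow_succ]
      have : ((p - 1 + 1 : ℕ) : B) = (p : B) := by congr 1; omega
      rw [this, mul_comm]
    rw [e]
    ring
  exact sub_eq_zero.1 (hreg _ h2)

end

end Vale.Agent.P251.F
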