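/-
P251, part F (F6a (A)): the zigzag lemma for double complexes, in the form of a map of double
complexes (pro-version).  Pure algebra.  Author: helper982.

A *double resolution* is a commuting double complex `D a b` (`dh` raises `a`, `dv` raises `b`) with
augmentations `eN : N a → D a 0` (kernel of `dv`) and `eM : M b → D 0 b` (kernel of `dh`).
If the rows of `D'` are exact (with augmentation `M'`), and the columns of `D` are exact (with
augmentation `N`), and if every `s`-cocycle of `M'` becomes a coboundary in `M`, then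
every `s`-cocycle of `N'` becomes a coboundary in `N`.
-/
import Mathlib.Algebra.Group.Hom.Basic
import Mathlib.Algebra.Group.Pi.Basic
import Mathlib.Tactic.Abel

namespace Vale.Agent.P251.F

universe u v w

/-- A commuting double complex of abelian groups with its two augmentations. -/
structure DRes where
  /-- the double complex -/
  D : ℕ → ℕ → Type u
  /-- the complex resolved by the columns -/
  N : ℕ → Type v
  /-- the complex resolved by the rows -/
  M : ℕ → Type w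
  [instD : ∀ a b, AddCommGroup (D a b)]
  [instN : ∀ a, AddCommGroup (N a)]
  [instM : ∀ b, AddCommGroup (M b)]
  dh : ∀ a b, D a b →+ D (a + 1) b
  dv : ∀ a b, D a b →+ D a (b + 1)
  dN : ∀ a, N a →+ N (a + 1)
  dM : ∀ b, M b →+ M (b + 1)
  eN : ∀ a, N a →+ D a 0
  eM : ∀ b, M b →+ D 0 b
  dh_dh : ∀ a b (x : D a b), dh (a + 1) b (dh a b x) = 0
  dv_dv : ∀ a b (x : D a b), dv a (b + 1) (dv a b x) = 0
  dv_dh : ∀ a b (x : D a b), dv (a + 1) b (dh a b x) = dh a (b + 1) (dv a b x)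
  dh_eN : ∀ a (z : N a), dh a 0 (eN a z) = eN (a + 1) (dN a z)
  dv_eN : ∀ a (z : N a), dv a 0 (eN a z) = 0
  dv_eM : ∀ b (m : M b), dv 0 b (eM b m) = eM (b + 1) (dM b m)
  dh_eM : ∀ b (m : M b), dh 0 b (eM b m) = 0

attribute [instance] DRes.instD DRes.instN DRes.instM

namespace DRes

/-- The rows (direction `a`) are exact, with augmentation `M`. -/
structure RowExact (X : DRes.{u, v, w}) : Prop where
  inj : ∀ b, Function.Injective (X.eM b)
  zero : ∀ b (x : X.D 0 b), X.dh 0 b x = 0 → ∃ m, X.eM b m = x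
  succ : ∀ a b (x : X.D (a + 1) b), X.dh (a + 1) b x = 0 → ∃ c, X.dh a b c = x

/-- The columns (direction `b`) are exact, with augmentation `N`. -/
structure ColExact (X : DRes.{u, v, w}) : Prop where
  inj : ∀ a, Function.Injective (X.eN a)
  zero : ∀ a (x : X.D a 0), X.dv a 0 x = 0 → ∃ n, X.eN a n = x
  succ : ∀ a b (x : X.D a (b + 1)), X.dv a (b + 1) x = 0 → ∃ c, X.dv a b c = x

end DRes

/-- A map of double resolutions. -/
structure DResHom (X : DRes.{u, v, w}) (Y : DRes.{u, v, w}) where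
  f : ∀ a b, X.D a b →+ Y.D a b
  fN : ∀ a, X.N a →+ Y.N a
  fM : ∀ b, X.M b →+ Y.M b
  f_dh : ∀ a b (x : X.D a b), f (a + 1) b (X.dh a b x) = Y.dh a b (f a b x)
  f_dv : ∀ a b (x : X.D a b), f a (b + 1) (X.dv a b x) = Y.dv a b (f a b x)
  f_eN : ∀ a (z : X.N a), f a 0 (X.eN a z) = Y.eN a (fN a z)
  f_eM : ∀ b (m : X.M b), f 0 b (X.eM b m) = Y.eM b (fM b m)
  f_dN : ∀ a (z : X.N a), fN (a + 1) (X.dN a z) = Y.dN a (fN a z)
  f_dM : ∀ b (m : X.M b), fM (b + 1) (X.dM b m) = Y.dM b (fM b m)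

namespace DResHom

variable {X Y : DRes.{u, v, w}} (φ : DResHom X Y)

/-- `s`-cocycles of `M` (of the source) become coboundaries in the target. -/
def MZero (s : ℕ) : Prop :=
  match s with
  | 0 => ∀ m : X.M 0, X.dM 0 m = 0 → φ.fM 0 m = 0
  | s + 1 => ∀ m : X.M (s + 1), X.dM (s + 1) m = 0 → ∃ c : Y.M s, Y.dM s c = φ.fM (s + 1) m

/-- `s`-cocycles of `N` (of the source) become coboundaries in the target. -/
def NZero (s : ℕ) : Prop :=
  match s with
  | 0 => ∀ z : X.N 0, X.dN 0 z = 0 → φ.fN 0 z = 0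
  | s + 1 => ∀ z : X.N (s + 1), X.dN (s + 1) z = 0 → ∃ c : Y.N s, Y.dN s c = φ.fN (s + 1) z

/-- Bicocycles on the edge `a = 0`. -/
theorem edge (hX : X.RowExact) {b : ℕ} (h : φ.MZero (b + 1)) (x : X.D 0 (b + 1))
    (hx : X.dh 0 (b + 1) x = 0) (hx' : X.dv 0 (b + 1) x = 0) :
    ∃ w : Y.D 0 b, Y.dh 0 b w = 0 ∧ Y.dv 0 b w = φ.f 0 (b + 1) x := by
  obtain ⟨m, rfl⟩ := hX.zero _ x hx
  have hm : X.dM (b + 1) m = 0 := by
    apply hX.inj
    rw [← X.dv_eM, hx', map_zero]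
  obtain ⟨c, hc⟩ := h m hm
  refine ⟨Y.eM b c, Y.dh_eM _ _, ?_⟩
  rw [Y.dv_eM, hc, φ.f_eM]

/-- Bicocycles in the interior. -/
theorem interior (hX : X.RowExact) (hY : Y.ColExact) :
    ∀ (a b : ℕ), φ.MZero (a + 1 + b) → ∀ (x : X.D (a + 1) b), X.dh (a + 1) b x = 0 →
      X.dv (a + 1) b x = 0 → ∃ y : Y.D a b, Y.dv a b y = 0 ∧ Y.dh a b y = φ.f (a + 1) b x := by
  intro a
  induction a with
  | zero =>
    intro b h x hx hx'
    obtain ⟨c, rfl⟩ := hX.succ _ _ x hx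
    have h' : φ.MZero (b + 1) := by
      have : 0 + 1 + b = b + 1 := by omega
      rw [this] at h; exact h
    obtain ⟨w, hw, hw'⟩ := φ.edge hX h' (X.dv 0 b c)
      (by rw [← X.dv_dh]; exact hx') (X.dv_dv _ _ _)
    refine ⟨φ.f 0 b c - w, ?_, ?_⟩
    · rw [map_sub, hw', φ.f_dv, sub_self]
    · rw [map_sub, hw, sub_zero, φ.f_dh]
  | succ a ih =>
    intro b h x hx hx'
    obtain ⟨c, rfl⟩ := hX.succ _ _ x hx
    have h' : φ.MZero (a + 1 + (b + 1)) := by
      have : a + 1 + (b + 1) = a + 1 + 1 + b := by omega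
      rw [this]; exact h
    obtain ⟨y', hy', hy''⟩ := ih (b + 1) h' (X.dv (a + 1) b c)
      (by rw [← X.dv_dh]; exact hx') (X.dv_dv _ _ _)
    obtain ⟨z, rfl⟩ := hY.succ _ _ y' hy'
    refine ⟨φ.f (a + 1) b c - Y.dh a b z, ?_, ?_⟩
    · rw [map_sub, Y.dv_dh, hy'', φ.f_dv, sub_self]
    · rw [map_sub, Y.dh_dh, sub_zero, φ.f_dh]

/-- **The zigzag lemma.** -/
theorem nzero_succ (hX : X.RowExact) (hY : Y.ColExact) {s : ℕ} (h : φ.MZero (s + 1)) :
    φ.NZero (s + 1) := by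
  intro z hz
  obtain ⟨y, hy, hy'⟩ := φ.interior hX hY s 0 h (X.eN (s + 1) z)
    (by rw [X.dh_eN, hz, map_zero]) (X.dv_eN _ _)
  obtain ⟨n, rfl⟩ := hY.zero _ y hy
  refine ⟨n, ?_⟩
  apply hY.inj
  rw [← Y.dh_eN, hy', φ.f_eN]

theorem nzero_zero (hX : X.RowExact) (hY : Y.ColExact) (h : φ.MZero 0) :
    φ.NZero 0 := by
  intro z hz
  obtain ⟨m, hm⟩ := hX.zero 0 (X.eN 0 z) (by rw [X.dh_eN, hz, map_zero])
  have hm0 : X.dM 0 m = 0 := by
    apply hX.inj
    rw [← X.dv_eM, hm, X.dv_eN, map_zero]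
  have h0 := h m hm0
  apply hY.inj
  rw [← φ.f_eN, ← hm, φ.f_eM, h0, map_zero, map_zero]

theorem nzero (hX : X.RowExact) (hY : Y.ColExact) {s : ℕ} (h : φ.MZero s) :
    φ.NZero s := by
  cases s with
  | zero => exact φ.nzero_zero hX hY h
  | succ s => exact φ.nzero_succ hX hY h

end DResHom

/-- The identity map of a double resolution. -/
def DRes.idHom (X : DRes.{u, v, w}) : DResHom X X where
  f _ _ := AddMonoidHom.id _
  fN _ := AddMonoidHom.id _
  fM _ := AddMonoidHom.id _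
  f_dh _ _ _ := rfl
  f_dv _ _ _ := rfl
  f_eN _ _ := rfl
  f_eM _ _ := rfl
  f_dN _ _ := rfl
  f_dM _ _ := rfl

/-- `H^{s+1}(M) = 0` implies `H^{s+1}(N) = 0`. -/
theorem DRes.exact_of_exact (X : DRes.{u, v, w}) (hR : X.RowExact) (hC : X.ColExact) {s : ℕ}
    (h : ∀ m : X.M (s + 1), X.dM (s + 1) m = 0 → ∃ c : X.M s, X.dM s c = m) :
    ∀ z : X.N (s + 1), X.dN (s + 1) z = 0 → ∃ c : X.N s, X.dN s c = z :=
  X.idHom.nzero_succ hR hC h

end Vale.Agent.P251.F
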