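/-
P251, part F (F5): the truncated polynomial rings `k[X_1, …, X_r]/(X)^(j+1)`. Author: helper288.
-/
import Mathlib.RingTheory.MvPolynomial.Ideal
import Mathlib.RingTheory.Ideal.Quotient.Operations
import Mathlib.RingTheory.Finiteness.Basic
import Mathlib.RingTheory.Noetherian.Basic
import Mathlib.LinearAlgebra.Dimension.Finrank
import Mathlib.Data.Finsupp.Interval
import Mathlib.Tactic

namespace Vale.Agent.P251.F

universe u

open MvPolynomial

/-- `k[X_1, …, X_r]/(X)^(j+1)` -/
abbrev EE (k : Type u) [CommRing k] (r j : ℕ) : Type u :=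
  MvPolynomial (Fin r) k ⧸ (idealOfVars (Fin r) k) ^ (j + 1)

namespace EE

variable (k : Type u) [CommRing k] (r j : ℕ)

/-- the projection -/
noncomputable abbrev mk : MvPolynomial (Fin r) k →+* EE k r j :=
  Ideal.Quotient.mk (idealOfVars (Fin r) k ^ (j + 1))

/-- the maximal ideal `(X_1, …, X_r)` -/
noncomputable def m : Ideal (EE k r j) := (idealOfVars (Fin r) k).map (mk k r j)

theorem m_pow : m k r j ^ (j + 1) = ⊥ := by
  rw [m, ← Ideal.map_pow, Ideal.map_quotient_self]

theorem isNilpotent_m : IsNilpotent (m k r j) := ⟨j + 1, m_pow k r j⟩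

theorem m_eq_span : m k r j = Ideal.span (Set.range fun i => mk k r j (X i)) := by
  rw [m, Ideal.map_span, ← Set.range_comp]
  rfl

theorem ker_constantCoeff :
    RingHom.ker (constantCoeff : MvPolynomial (Fin r) k →+* k) = idealOfVars (Fin r) k := by
  ext x
  have h := mem_pow_idealOfVars_iff' (σ := Fin r) (R := k) 1 x
  rw [pow_one] at h
  rw [RingHom.mem_ker, h, constantCoeff_eq]
  constructor
  · intro h0 y hy
    have : y = 0 := by
      rw [← Finsupp.degree_eq_zero_iff]
      omega
    rw [this]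
    exact h0
  · intro h0
    exact h0 0 (by rw [map_zero]; exact Nat.one_pos)

/-- the residue map -/
noncomputable def π : EE k r j →+* k :=
  Ideal.Quotient.lift _ constantCoeff fun a ha => by
    have : a ∈ idealOfVars (Fin r) k := Ideal.pow_le_self (Nat.succ_ne_zero j) ha
    rw [← ker_constantCoeff] at this
    exact this

@[simp] theorem π_mk (x : MvPolynomial (Fin r) k) : π k r j (mk k r j x) = constantCoeff x :=
  Ideal.Quotient.lift_mk _ _ _

theorem π_comp_mk : (π k r j).comp (mk k r j) = constantCoeff := Ideal.Quotient.lift_comp_mk _ _ _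

theorem π_comp_algebraMap : (π k r j).comp (algebraMap k (EE k r j)) = RingHom.id k := by
  ext a
  change π k r j (mk k r j (C a)) = a
  rw [π_mk, constantCoeff_C]

@[simp] theorem π_algebraMap (a : k) : π k r j (algebraMap k (EE k r j) a) = a :=
  RingHom.congr_fun (π_comp_algebraMap k r j) a

theorem π_surjective : Function.Surjective (π k r j) := fun a => ⟨_, π_algebraMap k r j a⟩

theorem ker_π : RingHom.ker (π k r j) = m k r j := by
  ext x
  obtain ⟨x, rfl⟩ := Ideal.Quotient.mk_surjective x
  rw [RingHom.mem_ker, π_mk, ← RingHom.mem_ker, ker_constantCoeff, m,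
    Ideal.mem_quotient_iff_mem (Ideal.pow_le_self (Nat.succ_ne_zero j))]

theorem finite_degree_lt : {x : Fin r →₀ ℕ | x.degree < j + 1}.Finite := by
  refine (Set.finite_Icc 0 (Finsupp.equivFunOnFinite.symm fun _ : Fin r => j)).subset ?_
  refine fun x hx => ⟨fun _ => Nat.zero_le _, fun i => ?_⟩
  have : x i ≤ x.degree := Finsupp.le_degree i x
  have hx' : x.degree < j + 1 := hx
  change x i ≤ j
  omega

/-- the coefficients -/
noncomputable def coeffs : MvPolynomial (Fin r) k →ₗ[k] ({x : Fin r →₀ ℕ | x.degree < j + 1} → k) :=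
  LinearMap.pi fun x => MvPolynomial.lcoeff k x.1

theorem coeffs_eq_zero_iff (x : MvPolynomial (Fin r) k) :
    coeffs k r j x = 0 ↔ x ∈ idealOfVars (Fin r) k ^ (j + 1) := by
  rw [mem_pow_idealOfVars_iff']
  constructor
  · intro h y hy
    exact congrFun h ⟨y, hy⟩
  · intro h
    funext y
    exact h y.1 y.2

instance finite [IsNoetherianRing k] : Module.Finite k (EE k r j) := by
  have _ : Finite {x : Fin r →₀ ℕ | x.degree < j + 1} := finite_degree_lt r j
  let c : EE k r j →ₗ[k] ({x : Fin r →₀ ℕ | x.degree < j + 1} → k) :=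
    Submodule.liftQ ((idealOfVars (Fin r) k ^ (j + 1)).restrictScalars k) (coeffs k r j)
      fun x hx => (coeffs_eq_zero_iff k r j x).2 hx
  refine Module.Finite.of_injective c ?_
  rw [injective_iff_map_eq_zero]
  intro x hx
  obtain ⟨x, rfl⟩ := Ideal.Quotient.mk_surjective x
  rw [Ideal.Quotient.eq_zero_iff_mem]
  exact (coeffs_eq_zero_iff k r j x).1 hx

variable {j}

theorem pow_le {j' : ℕ} (h : j ≤ j') :
    idealOfVars (Fin r) k ^ (j' + 1) ≤ idealOfVars (Fin r) k ^ (j + 1) :=
  Ideal.pow_le_pow_right (Nat.succ_le_succ h)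

/-- transition maps -/
noncomputable def red {j' : ℕ} (h : j ≤ j') : EE k r j' →ₐ[k] EE k r j :=
  Ideal.Quotient.factorₐ k (pow_le k r h)

@[simp] theorem red_mk {j' : ℕ} (h : j ≤ j') (x : MvPolynomial (Fin r) k) :
    red k r h (mk k r j' x) = mk k r j x := rfl

theorem red_surjective {j' : ℕ} (h : j ≤ j') : Function.Surjective (red k r h) := by
  intro x
  obtain ⟨x, rfl⟩ := Ideal.Quotient.mk_surjective x
  exact ⟨mk k r j' x, rfl⟩

theorem π_red {j' : ℕ} (h : j ≤ j') (x : EE k r j') : π k r j (red k r h x) = π k r j' x := by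
  obtain ⟨x, rfl⟩ := Ideal.Quotient.mk_surjective x
  rw [red_mk, π_mk, π_mk]

/-- Algebra homomorphisms out of `EE k r j`. -/
noncomputable def liftA {B : Type*} [CommRing B] [Algebra k B] (w : Fin r → B)
    (hw : (Ideal.span (Set.range w)) ^ (j + 1) = ⊥) : EE k r j →ₐ[k] B :=
  Ideal.Quotient.liftₐ _ (MvPolynomial.aeval w) fun a ha => by
    have h1 : (idealOfVars (Fin r) k ^ (j + 1)).map
        (MvPolynomial.aeval w : MvPolynomial (Fin r) k →ₐ[k] B) = ⊥ := by
      rw [Ideal.map_pow, idealOfVars, Ideal.map_span, ← Set.range_comp, ← hw]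
      congr 3
      funext i
      simp
    have h2 := Ideal.mem_map_of_mem
      (MvPolynomial.aeval w : MvPolynomial (Fin r) k →ₐ[k] B) ha
    rw [h1] at h2
    exact h2

@[simp] theorem liftA_mk {B : Type*} [CommRing B] [Algebra k B] (w : Fin r → B)
    (hw : (Ideal.span (Set.range w)) ^ (j + 1) = ⊥) (x : MvPolynomial (Fin r) k) :
    liftA k r w hw (mk k r j x) = MvPolynomial.aeval w x := rfl

theorem map_m_liftA {B : Type*} [CommRing B] [Algebra k B] (w : Fin r → B)
    (hw : (Ideal.span (Set.range w)) ^ (j + 1) = ⊥) :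
    (m k r j).map (liftA k r w hw) = Ideal.span (Set.range w) := by
  rw [m_eq_span, Ideal.map_span, ← Set.range_comp]
  congr 2
  funext i
  simp

end EE

end Vale.Agent.P251.F
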