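import Vale.Agent.P251.F.VirtUnif
import Mathlib.Algebra.Polynomial.Identities

/-!
# P251, part F: elements of order `p` in the automorphism group of a Honda law of height `p - 1`
-/

namespace Vale.Agent.P251.F

section Newton

open Polynomial

variable (p : ℕ) [hp : Fact p.Prime]

/-- the ideal `(X, p)` of `ℤ[X]`. -/
noncomputable def NJ : Ideal ℤ[X] := Ideal.span {X, C (p : ℤ)}

theorem X_mem_NJ : (X : ℤ[X]) ∈ NJ p := Ideal.subset_span (by simp)

theorem p_mem_NJ : (C (p : ℤ) : ℤ[X]) ∈ NJ p := Ideal.subset_span (by simp)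

/-- the binomial sum `∑ z^(p-j-1) (C(p,j)/p)`. -/
noncomputable def NU {A : Type*} [Ring A] (z : A) : A :=
  ∑ j ∈ Finset.Ioo 0 p, z ^ (p - j - 1) * ((p.choose j / p : ℕ) : A)

theorem one_add_pow_NU {A : Type*} [CommRing A] (z : A) :
    (1 + z) ^ p = 1 + z ^ p + p * z * NU p z := by
  have h1 := add_pow_prime_eq hp.out (1 : A) z
  simp only [one_pow, mul_one, one_mul] at h1
  exact h1

/-- the polynomial `Y^(p-1) - U(X Y)`. -/
noncomputable def NP : (ℤ[X])[X] :=
  X ^ (p - 1) - ∑ j ∈ Finset.Ioo 0 p, (C (X : ℤ[X]) * X) ^ (p - j - 1) *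
    C (C ((p.choose j / p : ℕ) : ℤ))

theorem NP_eval (y : ℤ[X]) : (NP p).eval y = y ^ (p - 1) - NU p (X * y) := by
  simp only [NP, NU, eval_sub, eval_pow, eval_X, eval_finsetSum, eval_mul, eval_C]
  rfl

theorem NP_map : (NP p).map (Ideal.Quotient.mk (NJ p)) = X ^ (p - 1) - 1 := by
  have hX : Ideal.Quotient.mk (NJ p) (X : ℤ[X]) = 0 :=
    Ideal.Quotient.eq_zero_iff_mem.2 (X_mem_NJ p)
  have h2 := hp.out.two_le
  rw [NP, Polynomial.map_sub, Polynomial.map_pow, map_X, Polynomial.map_sum,
    Finset.sum_eq_single (p - 1)]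
  · have h3 : p.choose (p - 1) = p := by
      have h4 := Nat.choose_symm (n := p) (k := 1) hp.out.one_lt.le
      rw [h4, Nat.choose_one_right]
    have h4 : p - (p - 1) - 1 = 0 := by omega
    rw [h3, Nat.div_self hp.out.pos, h4, pow_zero, one_mul, Nat.cast_one, map_one, map_one,
      Polynomial.map_one]
  · intro j hj hne
    rw [Finset.mem_Ioo] at hj
    have h3 : p - j - 1 ≠ 0 := by omega
    rw [Polynomial.map_mul, Polynomial.map_pow, Polynomial.map_mul, map_C, hX, map_zero,
      zero_mul, zero_pow h3, zero_mul]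
  · intro hcon
    exfalso
    apply hcon
    rw [Finset.mem_Ioo]
    omega

theorem NP_eval_mem {y : ℤ[X]} (hy : y - 1 ∈ NJ p) : (NP p).eval y ∈ NJ p := by
  rw [← Ideal.Quotient.eq_zero_iff_mem, ← eval_map_apply, NP_map]
  have h1 : Ideal.Quotient.mk (NJ p) y = 1 := by
    rw [← sub_eq_zero, ← map_one (Ideal.Quotient.mk (NJ p)), ← map_sub]
    exact Ideal.Quotient.eq_zero_iff_mem.2 hy
  rw [h1]
  simp

theorem NP_derivative_mem {y : ℤ[X]} (hy : y - 1 ∈ NJ p) :
    1 + (derivative (NP p)).eval y ∈ NJ p := by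
  rw [← Ideal.Quotient.eq_zero_iff_mem, map_add, map_one, ← eval_map_apply,
    ← derivative_map, NP_map]
  have h1 : Ideal.Quotient.mk (NJ p) y = 1 := by
    rw [← sub_eq_zero, ← map_one (Ideal.Quotient.mk (NJ p)), ← map_sub]
    exact Ideal.Quotient.eq_zero_iff_mem.2 hy
  have h2 : ((p : ℕ) : ℤ[X] ⧸ NJ p) = 0 := by
    have := Ideal.Quotient.eq_zero_iff_mem.2 (p_mem_NJ p)
    simpa using this
  rw [h1, derivative_sub, derivative_one, sub_zero, derivative_X_pow, eval_mul, eval_pow, eval_X,
    one_pow, mul_one, eval_C, Nat.cast_sub hp.out.one_lt.le, h2, Nat.cast_one]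
  ring

/-- the Newton sequence. -/
noncomputable def Nseq : ℕ → ℤ[X]
  | 0 => 1
  | n + 1 => Nseq n + (NP p).eval (Nseq n)

theorem Nseq_spec (n : ℕ) : Nseq p n - 1 ∈ NJ p ∧ (NP p).eval (Nseq p n) ∈ NJ p ^ (n + 1) := by
  induction n with
  | zero =>
    have h1 : Nseq p 0 - 1 ∈ NJ p := by
      rw [Nseq, sub_self]; exact (NJ p).zero_mem
    refine ⟨h1, ?_⟩
    rw [zero_add, pow_one]
    exact NP_eval_mem p h1
  | succ n ih =>
    obtain ⟨h1, h2⟩ := ih
    have h3 : Nseq p (n + 1) = Nseq p n + (NP p).eval (Nseq p n) := rfl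
    have h4 : Nseq p (n + 1) - 1 ∈ NJ p := by
      rw [h3, add_sub_right_comm]
      exact (NJ p).add_mem h1 (Ideal.pow_le_self (Nat.succ_ne_zero n) h2)
    refine ⟨h4, ?_⟩
    obtain ⟨w, hw⟩ := (NP p).binomExpansion (Nseq p n) ((NP p).eval (Nseq p n))
    rw [h3, hw]
    have h5 : (NP p).eval (Nseq p n) + (derivative (NP p)).eval (Nseq p n) *
        (NP p).eval (Nseq p n) + w * (NP p).eval (Nseq p n) ^ 2 =
        (1 + (derivative (NP p)).eval (Nseq p n)) * (NP p).eval (Nseq p n) +
          w * (NP p).eval (Nseq p n) * (NP p).eval (Nseq p n) := by ring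
    rw [h5]
    refine Ideal.add_mem _ ?_ ?_
    · rw [pow_succ' (NJ p)]
      exact Ideal.mul_mem_mul (NP_derivative_mem p h1) h2
    · rw [pow_succ' (NJ p)]
      exact Ideal.mul_mem_mul (Ideal.mul_mem_left _ _
        (Ideal.pow_le_self (Nat.succ_ne_zero n) h2)) h2

end Newton

namespace CSRing

variable {p h : ℕ} [hp : Fact p.Prime] {O k : Type*} [Ring O] [Field k] [CharP k p]
  (D : CSRing p h O k)

open Polynomial in
omit [CharP k p] in
theorem aeval_mem {π : O} (hπ : π ∈ D.I 1) (n : ℕ) {f : ℤ[X]} (hf : f ∈ NJ p ^ n) :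
    aeval π f ∈ D.I n := by
  induction n generalizing f with
  | zero => exact D.mem_I_zero _
  | succ n ih =>
    rw [pow_succ] at hf
    refine Submodule.mul_induction_on hf ?_ ?_
    · intro a ha b hb
      rw [map_mul]
      refine D.mul_mem_I (ih ha) ?_
      refine Submodule.span_induction (p := fun b _ => aeval π b ∈ D.I 1) ?_ ?_ ?_ ?_ hb
      · rintro b (rfl | rfl)
        · rwa [aeval_X]
        · rw [aeval_C]
          have h1 := D.intCast_mem (n := 1) (z := (p : ℤ)) (by rw [pow_one])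
          simpa using h1
      · rw [map_zero]; exact (D.I 1).zero_mem
      · intro x y _ _ hx hy
        rw [map_add]; exact (D.I 1).add_mem hx hy
      · intro a x _ hx
        rw [smul_eq_mul, map_mul]; exact D.mul_mem_I_left _ hx
    · intro x y hx hy
      rw [map_add]; exact (D.I _).add_mem hx hy

omit [CharP k p] hp in
theorem pow_sub_pow_mem {n : ℕ} {a b : O} (hab : a - b ∈ D.I n) (j : ℕ) :
    a ^ j - b ^ j ∈ D.I n := by
  induction j with
  | zero => rw [pow_zero, pow_zero, sub_self]; exact (D.I n).zero_mem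
  | succ j ih =>
    have h1 : a ^ (j + 1) - b ^ (j + 1) = (a ^ j - b ^ j) * a + b ^ j * (a - b) := by
      rw [sub_mul, mul_sub, pow_succ, pow_succ]
      abel
    rw [h1]
    exact (D.I n).add_mem (D.mul_mem_I_right ih a) (D.mul_mem_I_left _ hab)

open Polynomial in
/-- **Existence of a nontrivial `p`-th root of unity** from an element `π` with
`π^(p-1) = -p`, `r π = 0`. -/
theorem exists_root_of_unity {π : O} (hπ1 : D.r π = 0) (hπ0 : π ≠ 0)
    (hπ : π ^ (p - 1) = -(p : O)) : ∃ ζ : O, ζ ^ p = 1 ∧ ζ ≠ 1 := by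
  have hπI : π ∈ D.I 1 := D.mem_I_one.2 hπ1
  obtain ⟨y, hy⟩ := D.complete (fun n => aeval π (Nseq p n)) (by
    intro n
    rw [← map_sub]
    have h1 : Nseq p (n + 1) - Nseq p n = (NP p).eval (Nseq p n) := by
      change Nseq p n + (NP p).eval (Nseq p n) - Nseq p n = _
      ring
    rw [h1]
    exact D.I_anti (Nat.le_succ n) (D.aeval_mem hπI (n + 1) (Nseq_spec p n).2))
  refine ⟨1 + π * y, ?_, ?_⟩
  · rw [← sub_eq_zero]
    refine D.eq_zero_of_forall_mem fun n => ?_
    have h1 : (1 + π * y) - (1 + π * aeval π (Nseq p n)) ∈ D.I n := by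
      rw [add_sub_add_left_eq_sub, ← mul_sub]
      exact D.mul_mem_I_left _ (hy n)
    have h2 := D.pow_sub_pow_mem h1 p
    have h3 : (1 + π * aeval π (Nseq p n)) ^ p - 1 ∈ D.I n := by
      have h4 : (1 + π * aeval π (Nseq p n)) ^ p - 1 =
          aeval π (X ^ p * Nseq p n * (NP p).eval (Nseq p n)) := by
        have h5 : (1 + π * aeval π (Nseq p n)) ^ p =
            aeval π ((1 + X * Nseq p n) ^ p) := by
          rw [map_pow, map_add, map_one, map_mul, aeval_X]
        rw [h5, one_add_pow_NU, NP_eval]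
        have h6 : aeval π (1 + (X * Nseq p n) ^ p + (p : ℤ[X]) * (X * Nseq p n) *
            NU p (X * Nseq p n)) - 1 = aeval π ((X * Nseq p n) ^ p) +
            aeval π ((p : ℤ[X]) * (X * Nseq p n) * NU p (X * Nseq p n)) := by
          rw [map_add, map_add, map_one]
          abel
        rw [h6]
        have h7 : aeval π ((p : ℤ[X]) * (X * Nseq p n) * NU p (X * Nseq p n)) =
            aeval π (-(X ^ (p - 1)) * (X * Nseq p n) * NU p (X * Nseq p n)) := by
          rw [map_mul, map_mul, map_mul (aeval π) (-X ^ (p - 1) * _),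
            map_mul (aeval π) (-X ^ (p - 1)), map_natCast, map_neg, map_pow, aeval_X, hπ,
            neg_neg]
        rw [h7, ← map_add]
        congr 1
        have h8 : (X : ℤ[X]) ^ p = X ^ (p - 1) * X := by
          rw [← pow_succ, Nat.sub_add_cancel hp.out.one_lt.le]
        have h9 : (Nseq p n) ^ p = Nseq p n ^ (p - 1) * Nseq p n := by
          rw [← pow_succ, Nat.sub_add_cancel hp.out.one_lt.le]
        rw [mul_pow, h8, h9]
        ring
      rw [h4, map_mul]
      exact D.mul_mem_I_left _ (D.I_anti (Nat.le_succ n)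
        (D.aeval_mem hπI (n + 1) (Nseq_spec p n).2))
    have h4 := (D.I n).add_mem h2 h3
    rwa [sub_add_sub_cancel] at h4
  · intro hcon
    have h1 : π * y = 0 := by
      have := congrArg (fun z => z - 1) hcon
      simpa using this
    haveI := D.noZeroDivisors
    rcases mul_eq_zero.1 h1 with h2 | h2
    · exact hπ0 h2
    · have h3 := hy 1
      rw [h2, zero_sub, (D.I 1).neg_mem_iff] at h3
      have h4 := D.aeval_mem hπI 1 (f := Nseq p 1 - 1) (by rw [pow_one]; exact (Nseq_spec p 1).1)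
      rw [map_sub, map_one] at h4
      have h5 := (D.I 1).sub_mem h3 h4
      rw [sub_sub_cancel, D.mem_I_one, map_one] at h5
      exact one_ne_zero h5

end CSRing

namespace HondaOver

open MvPowerSeries Vale.Agent.P217

variable {p h : ℕ} [hp : Fact p.Prime] {k : Type*} [Field k] [CharP k p] {H : FormalGroup k}
  [H.IsComm] (hH : HondaOver p h H)

/-- the endomorphism `a x`. -/
noncomputable def om (a : k) : EndF H := EndF.mk _ (hH.teich a)

omit [CharP k p] [H.IsComm] hp in
theorem om_val (a : k) : (hH.om a).val = PowerSeries.C a * PowerSeries.X := rfl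

theorem cc_CX (b : k) : PowerSeries.constantCoeff (PowerSeries.C b * PowerSeries.X) = 0 := by
  rw [map_mul, PowerSeries.constantCoeff_X, mul_zero]

omit [CharP k p] hp in
theorem om_mul (a b : k) : hH.om a * hH.om b = hH.om (a * b) := by
  apply EndF.ext
  rw [EndF.val_mul, om_val, om_val, om_val, psubst_C_mul _ _ (cc_CX b),
    PowerSeries.subst_X (hs (cc_CX b)), map_mul]
  exact (mul_assoc _ _ _).symm

omit [CharP k p] hp [H.IsComm] in
theorem om_one : hH.om 1 = 1 := by
  apply EndF.ext
  rw [om_val, EndF.val_one, map_one, one_mul]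

omit [CharP k p] hp in
theorem om_pow (a : k) (n : ℕ) : hH.om a ^ n = hH.om (a ^ n) := by
  induction n with
  | zero => rw [pow_zero, pow_zero, om_one]
  | succ n ih => rw [pow_succ, pow_succ, ih, om_mul]

theorem r_om (a : k) : hH.D.r (hH.om a) = a := by
  change PowerSeries.coeff 1 (PowerSeries.C a * PowerSeries.X) = a
  rw [PowerSeries.coeff_C_mul, PowerSeries.coeff_one_X, mul_one]

theorem S_mul_om (a : k) : hH.D.S * hH.om a = hH.om (a ^ p) * hH.D.S := by
  have h1 : hH.D.φ (hH.om a) = hH.om (a ^ p) := by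
    apply EndF.ext
    change PowerSeries.map (frobenius k p) (PowerSeries.C a * PowerSeries.X) = _
    rw [map_mul, PowerSeries.map_C, PowerSeries.map_X, frobenius_def, om_val]
  rw [hH.D.S_mul, h1]

theorem om_neg_one (hp2 : p ≠ 2) : hH.om (-1) = -1 := by
  haveI := hH.D.noZeroDivisors
  have h1 : (hH.om (-1) - 1) * (hH.om (-1) + 1) = 0 := by
    rw [sub_mul, mul_add, om_mul, one_mul, mul_one]
    have : (-1 : k) * -1 = 1 := by ring
    rw [this, om_one]
    abel
  rcases mul_eq_zero.1 h1 with h2 | h2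
  · exfalso
    have h3 := congrArg hH.D.r h2
    rw [map_sub, r_om, map_one, map_zero] at h3
    have h4 : ((2 : ℕ) : k) = 0 := by
      have : (2 : k) = 0 := by linear_combination -h3
      exact_mod_cast this
    have h5 := (CharP.cast_eq_zero_iff k p 2).1 h4
    have h6 := (Nat.prime_dvd_prime_iff_eq hp.out Nat.prime_two).1 h5
    exact hp2 h6
  · exact eq_neg_of_add_eq_zero_left h2

/-- powers of `ω(a) S`. -/
theorem om_mul_S_pow (a : k) (n : ℕ) :
    (hH.om a * hH.D.S) ^ n = hH.om (a ^ (∑ i ∈ Finset.range n, p ^ i)) * hH.D.S ^ n := by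
  induction n with
  | zero => rw [pow_zero, Finset.range_zero, Finset.sum_empty, pow_zero, om_one, pow_zero, mul_one]
  | succ n ih =>
    have h1 : ∀ (m : ℕ) (c : k), hH.D.S ^ m * hH.om c = hH.om (c ^ (p ^ m)) * hH.D.S ^ m := by
      intro m
      induction m with
      | zero => intro c; rw [pow_zero, pow_zero, pow_one, one_mul, mul_one]
      | succ m ihm =>
        intro c
        rw [pow_succ, mul_assoc, S_mul_om, ← mul_assoc, ihm, mul_assoc, ← pow_mul, ← pow_succ']
    rw [pow_succ, ih, mul_assoc, ← mul_assoc (hH.D.S ^ n), h1, mul_assoc, ← pow_succ,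
      ← mul_assoc, om_mul, ← pow_add, Finset.sum_range_succ]

include hH in
/-- **Existence of an automorphism of order `p`** in height `p - 1`. -/
theorem exists_orderOf [Finite k] (hk : Nat.card k = p ^ h) (hd : h = p - 1) (hp2 : p ≠ 2) :
    ∃ σ : AutF H, orderOf σ = p := by
  subst hd
  have h2 := hp.out.two_le
  have hh : 1 ≤ p - 1 := by omega
  -- the element `a`
  obtain ⟨a, ha⟩ : ∃ a : k, a ^ (∑ i ∈ Finset.range (p - 1), p ^ i) = -1 := by
    obtain ⟨g, hg⟩ := IsCyclic.exists_generator (α := kˣ)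
    have hcard : orderOf g = p ^ (p - 1) - 1 := by
      rw [orderOf_eq_card_of_forall_mem_zpowers hg, Nat.card_units, hk]
    have hodd : Odd p := hp.out.odd_of_ne_two hp2
    obtain ⟨m, hm⟩ : ∃ m, p - 1 = 2 * m := by
      obtain ⟨m, hm⟩ := hodd
      exact ⟨m, by omega⟩
    set N := ∑ i ∈ Finset.range (p - 1), p ^ i with hN
    have hgeom : N * (p - 1) = p ^ (p - 1) - 1 := by
      have := Nat.geomSum_eq h2 (p - 1)
      rw [hN, this]
      exact Nat.div_mul_cancel (Nat.sub_one_dvd_pow_sub_one _ _)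
    refine ⟨((g ^ m : kˣ) : k), ?_⟩
    have h3 : ((g ^ m : kˣ) : k) ^ N = ((g ^ (m * N) : kˣ) : k) := by
      rw [← Units.val_pow_eq_pow_val, ← pow_mul]
    rw [h3]
    have h4 : (((g ^ (m * N) : kˣ) : k) - 1) * (((g ^ (m * N) : kˣ) : k) + 1) = 0 := by
      have h5 : g ^ (m * N) * g ^ (m * N) = 1 := by
        rw [← pow_add]
        have h6 : m * N + m * N = orderOf g := by
          rw [hcard, ← hgeom, hm]; ring
        rw [h6, pow_orderOf_eq_one]
      have h6 := congrArg (Units.val) h5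
      rw [Units.val_mul, Units.val_one] at h6
      linear_combination h6
    rcases mul_eq_zero.1 h4 with h5 | h5
    · exfalso
      have h6 : g ^ (m * N) = 1 := by
        apply Units.ext
        rw [Units.val_one]
        exact sub_eq_zero.1 h5
      have h7 := orderOf_dvd_of_pow_eq_one h6
      rw [hcard, ← hgeom, hm] at h7
      have h8 : 0 < m * N := by
        have : 0 < N * (p - 1) := by
          rw [hgeom]
          have : 1 < p ^ (p - 1) := Nat.one_lt_pow (by omega) hp.out.one_lt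
          omega
        have hN0 : 0 < N := Nat.pos_of_mul_pos_right this
        have hm0 : 0 < m := by omega
        exact Nat.mul_pos hm0 hN0
      have h9 := Nat.le_of_dvd h8 h7
      nlinarith
    · exact eq_neg_of_add_eq_zero_left h5
  -- the uniformizer
  have hπ := hH.om_mul_S_pow a (p - 1)
  rw [ha, hH.om_neg_one hp2, ← hH.p_eq, neg_one_mul] at hπ
  have hπ0 : hH.om a * hH.D.S ≠ 0 := by
    intro h0
    rw [h0, zero_pow (by omega)] at hπ
    have h3 : (p : EndF H) * 1 = 0 := by
      rw [mul_one]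
      exact neg_eq_zero.1 hπ.symm
    have h4 := hH.D.p_reg hH.p_eq h3
    haveI := hH.D.nontrivial
    exact one_ne_zero h4
  obtain ⟨ζ, hζ1, hζ2⟩ := (hH.CD hh).exists_root_of_unity (π := hH.om a * hH.D.S) (by
    change hH.D.r _ = 0
    rw [map_mul, hH.D.r_S, mul_zero]) hπ0 hπ
  have hu : IsUnit (ζ.cf 1) := by
    have h3 : (hH.D.r ζ) ^ p = 1 := by rw [← map_pow, hζ1, map_one]
    have h4 : hH.D.r ζ ≠ 0 := by
      intro h0
      rw [h0, zero_pow hp.out.ne_zero] at h3
      exact zero_ne_one h3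
    exact isUnit_iff_ne_zero.2 h4
  refine ⟨ζ.toAut hu, ?_⟩
  refine orderOf_eq_prime ?_ ?_
  · apply AutF.toEnd_injective
    rw [map_pow, EndF.toAut_toEnd, hζ1, map_one]
  · intro h3
    apply hζ2
    have h4 := congrArg AutF.toEnd h3
    rwa [EndF.toAut_toEnd, map_one] at h4

end HondaOver

end Vale.Agent.P251.F
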