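import Mathlib.Algebra.CharP.Lemmas
import Mathlib.RingTheory.IntegralDomain
import Mathlib.GroupTheory.PGroup
import Mathlib.GroupTheory.Sylow
import Mathlib.Tactic

/-!
# P251, part F: rings with a normal uniformizer

`SRing p O k` : a ring `O` with an element `S` and a surjection `r : O → k` onto a field of
characteristic `p` with kernel `O S`, such that `S f = φ(f) S`, `r (φ f) = (r f) ^ p`, `S` is
cancellable on the right and the intersection of the `O S^n` is zero. This is the structure of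
the endomorphism ring of a Honda formal group law (`S = X^p`).
-/

namespace Vale.Agent.P251.F

/-- A ring with a normal uniformizer `S`. -/
structure SRing (p : ℕ) (O k : Type*) [Ring O] [Field k] where
  /-- the uniformizer. -/
  S : O
  /-- the residue map. -/
  r : O →+* k
  /-- conjugation by the uniformizer. -/
  φ : O → O
  r_surj : Function.Surjective r
  r_S : r S = 0
  exists_of_r : ∀ f, r f = 0 → ∃ g, f = g * S
  S_mul : ∀ f, S * f = φ f * S
  r_φ : ∀ f, r (φ f) = (r f) ^ p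
  reg : ∀ f, f * S = 0 → f = 0
  haus : ∀ f, (∀ n : ℕ, ∃ g, f = g * S ^ n) → f = 0

namespace SRing

variable {p : ℕ} {O k : Type*} [Ring O] [Field k] (D : SRing p O k)

theorem φ_mul (f g : O) : D.φ (f * g) = D.φ f * D.φ g := by
  have h1 : (D.φ (f * g) - D.φ f * D.φ g) * D.S = 0 := by
    rw [sub_mul, ← D.S_mul, mul_assoc (D.φ f), ← D.S_mul, ← mul_assoc (D.φ f), ← D.S_mul,
      mul_assoc, sub_self]
  exact sub_eq_zero.1 (D.reg _ h1)

theorem φ_add (f g : O) : D.φ (f + g) = D.φ f + D.φ g := by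
  have h1 : (D.φ (f + g) - (D.φ f + D.φ g)) * D.S = 0 := by
    rw [sub_mul, add_mul, ← D.S_mul, ← D.S_mul, ← D.S_mul, mul_add, sub_self]
  exact sub_eq_zero.1 (D.reg _ h1)

theorem pow_mul_eq (n : ℕ) (f : O) : D.S ^ n * f = (D.φ^[n] f) * D.S ^ n := by
  induction n generalizing f with
  | zero => simp
  | succ n ih =>
    rw [pow_succ, mul_assoc, D.S_mul, ← mul_assoc, ih, Function.iterate_succ_apply,
      mul_assoc, ← pow_succ]

theorem r_iterate (n : ℕ) (f : O) : D.r (D.φ^[n] f) = (D.r f) ^ (p ^ n) := by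
  induction n generalizing f with
  | zero => simp
  | succ n ih =>
    rw [Function.iterate_succ_apply, ih, D.r_φ, ← pow_mul, pow_succ']

theorem reg_pow (n : ℕ) (f : O) (h : f * D.S ^ n = 0) : f = 0 := by
  induction n generalizing f with
  | zero => simpa using h
  | succ n ih =>
    rw [pow_succ', ← mul_assoc] at h
    exact D.reg _ (ih _ h)

/-- the ideal `O S^n`. -/
def I (n : ℕ) : AddSubgroup O where
  carrier := {f | ∃ g, f = g * D.S ^ n}
  zero_mem' := ⟨0, by simp⟩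
  add_mem' := by
    rintro a b ⟨x, rfl⟩ ⟨y, rfl⟩
    exact ⟨x + y, by rw [add_mul]⟩
  neg_mem' := by
    rintro a ⟨x, rfl⟩
    exact ⟨-x, by rw [neg_mul]⟩

theorem mem_I {n : ℕ} {f : O} : f ∈ D.I n ↔ ∃ g, f = g * D.S ^ n := Iff.rfl

theorem mem_I_zero (f : O) : f ∈ D.I 0 := ⟨f, by simp⟩

theorem mem_I_one {f : O} : f ∈ D.I 1 ↔ D.r f = 0 := by
  rw [mem_I, pow_one]
  constructor
  · rintro ⟨g, rfl⟩
    rw [map_mul, D.r_S, mul_zero]
  · exact D.exists_of_r f

theorem I_anti {m n : ℕ} (h : m ≤ n) : D.I n ≤ D.I m := by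
  rintro f ⟨g, rfl⟩
  obtain ⟨j, rfl⟩ := Nat.exists_eq_add_of_le h
  exact ⟨g * D.S ^ j, by rw [mul_assoc, ← pow_add, add_comm j m]⟩

theorem mul_mem_I_left {n : ℕ} (c : O) {f : O} (hf : f ∈ D.I n) : c * f ∈ D.I n := by
  obtain ⟨g, rfl⟩ := hf
  exact ⟨c * g, by rw [mul_assoc]⟩

theorem mul_mem_I {m n : ℕ} {f g : O} (hf : f ∈ D.I m) (hg : g ∈ D.I n) :
    f * g ∈ D.I (m + n) := by
  obtain ⟨f', rfl⟩ := hf
  obtain ⟨g', rfl⟩ := hg
  refine ⟨f' * D.φ^[m] g', ?_⟩
  rw [mul_assoc f', ← mul_assoc (D.S ^ m), D.pow_mul_eq, pow_add, mul_assoc, mul_assoc]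

theorem mul_mem_I_right {n : ℕ} {f : O} (hf : f ∈ D.I n) (c : O) : f * c ∈ D.I n := by
  have := D.mul_mem_I hf (D.mem_I_zero c)
  simpa using this

theorem S_pow_mem (n : ℕ) : D.S ^ n ∈ D.I n := ⟨1, by simp⟩

theorem mul_S_pow_mem (f : O) (n : ℕ) : f * D.S ^ n ∈ D.I n := ⟨f, rfl⟩

theorem mul_S_pow_mem_iff {f : O} {m n : ℕ} : f * D.S ^ n ∈ D.I (m + n) ↔ f ∈ D.I m := by
  constructor
  · rintro ⟨g, hg⟩
    refine ⟨g, ?_⟩
    rw [pow_add, ← mul_assoc] at hg
    have : (f - g * D.S ^ m) * D.S ^ n = 0 := by rw [sub_mul, hg, sub_self]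
    exact sub_eq_zero.1 (D.reg_pow n _ this)
  · rintro ⟨g, rfl⟩
    exact ⟨g, by rw [mul_assoc, ← pow_add]⟩

theorem mul_S_pow_mem_succ_iff {f : O} {n : ℕ} : f * D.S ^ n ∈ D.I (n + 1) ↔ D.r f = 0 := by
  rw [add_comm, D.mul_S_pow_mem_iff, D.mem_I_one]

theorem eq_zero_of_forall_mem {f : O} (h : ∀ n, f ∈ D.I n) : f = 0 := D.haus f h

/-- every nonzero element is `g S^n` with `r g ≠ 0`. -/
theorem exists_lead {f : O} (hf : f ≠ 0) : ∃ n g, f = g * D.S ^ n ∧ D.r g ≠ 0 := by
  have h1 : ∃ n, f ∉ D.I n := by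
    by_contra h
    push Not at h
    exact hf (D.eq_zero_of_forall_mem h)
  classical
  obtain ⟨n, hn, hmin⟩ : ∃ n, f ∉ D.I n ∧ ∀ m < n, f ∈ D.I m :=
    ⟨Nat.find h1, Nat.find_spec h1, fun m hm => by simpa using Nat.find_min h1 hm⟩
  obtain _ | n := n
  · exact absurd (D.mem_I_zero f) hn
  · obtain ⟨g, hg⟩ := hmin n (Nat.lt_succ_self n)
    refine ⟨n, g, hg, fun h0 => hn ?_⟩
    rw [hg, D.mul_S_pow_mem_succ_iff]
    exact h0

theorem lead_unique {m n : ℕ} {f g : O} (h : f * D.S ^ m = g * D.S ^ n) (hf : D.r f ≠ 0)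
    (hg : D.r g ≠ 0) : m = n := by
  rcases lt_trichotomy m n with hlt | heq | hlt
  · exfalso
    apply hf
    rw [← D.mul_S_pow_mem_succ_iff (n := m), h]
    exact D.I_anti hlt (D.mul_S_pow_mem g n)
  · exact heq
  · exfalso
    apply hg
    rw [← D.mul_S_pow_mem_succ_iff (n := n), ← h]
    exact D.I_anti hlt (D.mul_S_pow_mem f m)

/-- product of leading terms. -/
theorem lead_mul (m n : ℕ) (f g : O) :
    (f * D.S ^ m) * (g * D.S ^ n) = (f * D.φ^[m] g) * D.S ^ (m + n) ∧
      D.r (f * D.φ^[m] g) = D.r f * (D.r g) ^ (p ^ m) := by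
  constructor
  · rw [mul_assoc f, ← mul_assoc (D.S ^ m), D.pow_mul_eq, pow_add, mul_assoc, mul_assoc]
  · rw [map_mul, D.r_iterate]

include D in
theorem mul_ne_zero' {f g : O} (hf : f ≠ 0) (hg : g ≠ 0) : f * g ≠ 0 := by
  obtain ⟨m, f', rfl, hf'⟩ := D.exists_lead hf
  obtain ⟨n, g', rfl, hg'⟩ := D.exists_lead hg
  obtain ⟨h1, h2⟩ := D.lead_mul m n f' g'
  rw [h1]
  intro h3
  have h4 := D.reg_pow _ _ h3
  rw [h4, map_zero] at h2
  exact mul_ne_zero hf' (pow_ne_zero _ hg') h2.symm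

include D in
theorem noZeroDivisors : NoZeroDivisors O where
  eq_zero_or_eq_zero_of_mul_eq_zero := by
    intro a b h
    by_contra hcon
    push Not at hcon
    exact D.mul_ne_zero' hcon.1 hcon.2 h

include D in
theorem nontrivial : Nontrivial O := by
  refine ⟨0, 1, fun h => ?_⟩
  have := congrArg D.r h
  rw [map_zero, map_one] at this
  exact zero_ne_one this

/-- leading term of a power. -/
theorem lead_pow (m : ℕ) (g : O) (hg : D.r g ≠ 0) (j : ℕ) :
    ∃ g', (g * D.S ^ m) ^ j = g' * D.S ^ (m * j) ∧ D.r g' ≠ 0 := by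
  induction j with
  | zero => exact ⟨1, by simp, by simp⟩
  | succ j ih =>
    obtain ⟨g', h1, h2⟩ := ih
    obtain ⟨h3, h4⟩ := D.lead_mul (m * j) m g' g
    refine ⟨g' * D.φ^[m * j] g, ?_, ?_⟩
    · rw [pow_succ, h1, h3, mul_add, mul_one]
    · rw [h4]
      exact mul_ne_zero h2 (pow_ne_zero _ hg)

section Prime

variable [hp : Fact p.Prime] [CharP k p] {h : ℕ} (hS : (p : O) = D.S ^ h)

include hS in
theorem p_mul_mem {n : ℕ} {f : O} (hf : f ∈ D.I n) : (p : O) * f ∈ D.I (h + n) := by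
  rw [hS]
  exact D.mul_mem_I (D.S_pow_mem h) hf

include hS in
theorem p_mul_eq (f : O) : (p : O) * f = f * D.S ^ h := by
  rw [← hS, (Nat.cast_commute p f).eq]

include hS in
theorem p_pow_mul_eq (f : O) (n : ℕ) : (p : O) ^ n * f = f * D.S ^ (h * n) := by
  rw [pow_mul, ← hS, ((Nat.cast_commute p f).pow_left n).eq]

include hS in
theorem mem_I_mul_iff {f : O} {n : ℕ} : f ∈ D.I (h * n) ↔ ∃ g, f = (p : O) ^ n * g := by
  rw [mem_I]
  refine exists_congr fun g => ?_
  rw [D.p_pow_mul_eq hS]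

include hS in
theorem p_reg {f : O} (hf : (p : O) * f = 0) : f = 0 := by
  rw [D.p_mul_eq hS] at hf
  exact D.reg_pow h f hf

/-- The expansion `(1 + π)^p = 1 + π^p + p π u` with `r u = 1`, for `r π = 0`. -/
theorem one_add_pow (π : O) (hπ : D.r π = 0) :
    ∃ u, (1 + π) ^ p = 1 + π ^ p + p * π * u ∧ D.r u = 1 ∧ Commute π u := by
  have h1 := (Commute.one_left π).add_pow_prime_eq hp.out
  rw [one_pow, mul_one] at h1
  refine ⟨_, h1, ?_, ?_⟩
  · rw [map_sum, Finset.sum_eq_single (p - 1)]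
    · have h2 : p - (p - 1) - 1 = 0 := by have := hp.out.two_le; omega
      have h3 : p.choose (p - 1) = p := by
        have h4 := Nat.choose_symm (n := p) (k := 1) hp.out.one_lt.le
        rw [h4, Nat.choose_one_right]
      rw [h2, pow_zero, one_pow, one_mul, one_mul, h3, Nat.div_self hp.out.pos, Nat.cast_one,
        map_one]
    · intro j hj hne
      rw [Finset.mem_Ioo] at hj
      have h2 : p - j - 1 ≠ 0 := by omega
      rw [map_mul, map_mul, map_pow D.r π, hπ, zero_pow h2, mul_zero, zero_mul]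
    · intro hcon
      exfalso
      apply hcon
      rw [Finset.mem_Ioo]
      have := hp.out.two_le
      omega
  · refine Commute.sum_right _ _ _ fun j _ => ?_
    refine Commute.mul_right (Commute.mul_right ?_ ?_) (Nat.cast_commute _ _).symm
    · rw [one_pow]
      exact Commute.one_right _
    · exact Commute.pow_right (Commute.refl _) _

/-- powers of `p` of a principal unit. -/
theorem pow_p_sub_one_mem {σ : O} {m : ℕ} (hm : 1 ≤ m) (hσ : σ - 1 ∈ D.I m)
    (hS : (p : O) = D.S ^ h) : σ ^ p - 1 ∈ D.I (min (h + m) (p * m)) := by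
  have hr : D.r (σ - 1) = 0 := D.mem_I_one.1 (D.I_anti hm hσ)
  obtain ⟨u, h1, -, -⟩ := D.one_add_pow (σ - 1) hr
  rw [add_sub_cancel] at h1
  have h2 : σ ^ p - 1 = (σ - 1) ^ p + p * (σ - 1) * u := by rw [h1]; abel
  rw [h2]
  have h3 : (σ - 1) ^ p ∈ D.I (p * m) := by
    have : ∀ j, (σ - 1) ^ j ∈ D.I (j * m) := by
      intro j
      induction j with
      | zero => simpa using D.mem_I_zero 1
      | succ j ih =>
        rw [pow_succ, add_mul, one_mul]
        exact D.mul_mem_I ih hσ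
    exact this p
  exact (D.I _).add_mem (D.I_anti (min_le_right _ _) h3)
    (D.I_anti (min_le_left _ _) (D.mul_mem_I_right (D.p_mul_mem hS hσ) u))

/-- An element of order `p` satisfies `σ - 1 = g S^m`, `r g ≠ 0`, `(p - 1) m = h`. -/
theorem exists_of_pow_eq_one {σ : O} (h1 : σ ≠ 1) (h2 : σ ^ p = 1) (hS : (p : O) = D.S ^ h) :
    ∃ m g, σ - 1 = g * D.S ^ m ∧ D.r g ≠ 0 ∧ (p - 1) * m = h := by
  have hr1 : D.r σ = 1 := by
    have h3 : (D.r σ) ^ p = 1 := by rw [← map_pow, h2, map_one]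
    have h4 : (D.r σ - 1) ^ p = 0 := by
      rw [sub_pow_char, h3, one_pow, sub_self]
    have h5 := pow_eq_zero_iff (hp.out.ne_zero) |>.1 h4
    exact sub_eq_zero.1 h5
  have hr : D.r (σ - 1) = 0 := by rw [map_sub, hr1, map_one, sub_self]
  obtain ⟨u, h3, hu, -⟩ := D.one_add_pow (σ - 1) hr
  rw [add_sub_cancel, h2] at h3
  obtain ⟨m, g, hg, hgr⟩ := D.exists_lead (sub_ne_zero.2 h1)
  refine ⟨m, g, hg, hgr, ?_⟩
  obtain ⟨g', hg', hgr'⟩ := D.lead_pow m g hgr p
  rw [← hg] at hg'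
  have hur : D.r u ≠ 0 := by rw [hu]; exact one_ne_zero
  have h4 : (p : O) * (σ - 1) * u = (-g') * D.S ^ (m * p) := by
    rw [neg_mul, ← hg']
    have : (1 : O) + (σ - 1) ^ p + p * (σ - 1) * u = 1 := h3.symm
    have h5 : (σ - 1) ^ p + p * (σ - 1) * u = 0 := by
      have h6 : (1 : O) + ((σ - 1) ^ p + p * (σ - 1) * u) = 1 + 0 := by
        rw [← add_assoc, this, add_zero]
      exact add_left_cancel h6
    exact (neg_eq_of_add_eq_zero_right h5).symm
  have h5 : (p : O) * (σ - 1) * u = (g * D.φ^[m + h] u) * D.S ^ (m + h) := by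
    rw [D.p_mul_eq hS, hg, mul_assoc g, ← pow_add, mul_assoc, D.pow_mul_eq, mul_assoc]
  have h6 : D.r (g * D.φ^[m + h] u) ≠ 0 := by
    rw [map_mul, D.r_iterate, hu, one_pow, mul_one]
    exact hgr
  have h7 : D.r (-g') ≠ 0 := by rw [map_neg]; exact neg_ne_zero.2 hgr'
  have h8 := D.lead_unique (h5.symm.trans h4) h6 h7
  have h9 : 1 ≤ p := hp.out.one_lt.le
  have h10 : (p - 1) * m + m = m + h := by
    rw [← Nat.succ_mul, Nat.succ_eq_add_one, Nat.sub_add_cancel h9, h8, mul_comm]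
  omega

/-- no elements of order `p` if `p - 1` does not divide `h`. -/
theorem eq_one_of_pow_p {σ : O} (h2 : σ ^ p = 1) (hS : (p : O) = D.S ^ h)
    (hd : ¬ (p - 1) ∣ h) : σ = 1 := by
  by_contra h1
  obtain ⟨m, -, -, -, hm⟩ := D.exists_of_pow_eq_one h1 h2 hS
  exact hd ⟨m, hm.symm⟩

/-- an element of finite order prime to `p` which is `1` mod `S` is `1`. -/
theorem eq_one_of_pow_coprime {σ : O} {n : ℕ} (hn : ¬ p ∣ n) (h2 : σ ^ n = 1)
    (hr : D.r σ = 1) : σ = 1 := by
  by_contra h1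
  obtain ⟨m, g, hg, hgr⟩ := D.exists_lead (sub_ne_zero.2 h1)
  have hn0 : (n : k) ≠ 0 := by
    intro h0
    exact hn ((CharP.cast_eq_zero_iff k p n).1 h0)
  have h3 : (∑ i ∈ Finset.range n, σ ^ i) * (σ - 1) = 0 := by
    rw [geom_sum_mul, h2, sub_self]
  have h4 : D.r (∑ i ∈ Finset.range n, σ ^ i) ≠ 0 := by
    rw [map_sum]
    simp only [map_pow, hr, one_pow, Finset.sum_const, Finset.card_range, nsmul_eq_mul, mul_one]
    exact hn0
  have := D.noZeroDivisors
  rcases mul_eq_zero.1 h3 with h5 | h5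
  · rw [h5, map_zero] at h4
    exact h4 rfl
  · exact sub_ne_zero.2 h1 h5

/-- no elements of order `p^2` which are `1` mod `S`, if `h = p - 1`. -/
theorem pow_p_eq_one_of_pow_p_sq {σ : O} (hr : D.r σ = 1) (h2 : σ ^ (p ^ 2) = 1)
    (hS : (p : O) = D.S ^ (p - 1)) : σ ^ p = 1 := by
  by_contra h1
  have h3 : (σ ^ p) ^ p = 1 := by rw [← pow_mul, ← sq, h2]
  obtain ⟨m, g, hg, hgr, hm⟩ := D.exists_of_pow_eq_one h1 h3 hS
  have h4 : σ - 1 ∈ D.I 1 := by rw [D.mem_I_one, map_sub, hr, map_one, sub_self]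
  have h5 := D.pow_p_sub_one_mem le_rfl h4 hS
  have hp2 := hp.out.two_le
  have hm1 : m = 1 := by
    have : (p - 1) * m = (p - 1) * 1 := by rw [hm, mul_one]
    exact Nat.eq_of_mul_eq_mul_left (by omega) this
  subst hm1
  rw [hg] at h5
  apply hgr
  rw [← D.mul_S_pow_mem_succ_iff (n := 1)]
  refine D.I_anti ?_ h5
  rw [le_min_iff]
  omega

open scoped IsMulCommutative in
/-- finite groups of principal units have order dividing `p`, if `h = p - 1`. -/
theorem card_dvd_of_finite {P : Type*} [Group P] [Finite P] (f : P →* O)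
    (hf : Function.Injective f) (hr : ∀ x, D.r (f x) = 1) (hS : (p : O) = D.S ^ (p - 1)) :
    Nat.card P ∣ p := by
  classical
  -- elements of order prime to `p` are trivial
  have h1 : IsPGroup p P := by
    rw [IsPGroup.iff_card]
    have hcard : Nat.card P ≠ 0 := Nat.card_pos.ne'
    refine ⟨(Nat.card P).primeFactorsList.length, ?_⟩
    refine (Nat.eq_prime_pow_of_unique_prime_dvd hcard ?_)
    intro l hl hld
    by_contra hne
    haveI : Fact l.Prime := ⟨hl⟩
    obtain ⟨x, hx⟩ := exists_prime_orderOf_dvd_card' (G := P) l hld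
    have h2 : (f x) ^ l = 1 := by rw [← map_pow, ← hx, pow_orderOf_eq_one, map_one]
    have h3 : ¬ p ∣ l := fun h => hne ((Nat.prime_dvd_prime_iff_eq hp.out hl).1 h).symm
    have h4 := D.eq_one_of_pow_coprime h3 h2 (hr x)
    have h5 : x = 1 := hf (by rw [h4, map_one])
    rw [h5, orderOf_one] at hx
    exact hl.one_lt.ne hx
  obtain ⟨a, ha⟩ := IsPGroup.iff_card.1 h1
  rcases Nat.lt_or_ge a 2 with h2 | h2
  · interval_cases a
    · rw [ha, pow_zero]; exact one_dvd _
    · rw [ha, pow_one]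
  -- a subgroup of order `p^2`
  exfalso
  obtain ⟨Q, hQ⟩ := Sylow.exists_subgroup_card_pow_prime (G := P) p (n := 2)
    (by rw [ha]; exact pow_dvd_pow p h2)
  have hcomm := IsPGroup.isMulCommutative_of_card_eq_prime_sq (p := p) hQ
  let fQ : Q →* O := f.comp Q.subtype
  have hfQ : Function.Injective fQ := hf.comp Subtype.val_injective
  -- the commutative subring generated by the image
  let s : Set O := Set.range fQ
  have hs : ∀ x ∈ s, ∀ y ∈ s, x * y = y * x := by
    rintro _ ⟨x, rfl⟩ _ ⟨y, rfl⟩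
    rw [← map_mul, ← map_mul, hcomm.is_comm.comm x y]
  haveI := Subring.isMulCommutative_closure hs
  haveI := D.noZeroDivisors
  haveI := D.nontrivial
  haveI : IsDomain O := NoZeroDivisors.to_isDomain O
  haveI : IsDomain (Subring.closure s) :=
    Function.Injective.isDomain (Subring.closure s).subtype Subtype.val_injective
  let fR : Q →* Subring.closure s :=
    { toFun := fun x => ⟨fQ x, Subring.subset_closure ⟨x, rfl⟩⟩
      map_one' := by
        apply Subtype.ext
        exact map_one fQ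
      map_mul' := by
        intro x y
        apply Subtype.ext
        exact map_mul fQ x y }
  have hfR : Function.Injective fR := by
    intro x y hxy
    exact hfQ (congrArg Subtype.val hxy)
  have hcyc : IsCyclic Q := isCyclic_of_injective_ringHom fR hfR
  obtain ⟨g, hg⟩ := hcyc.exists_ofOrder_eq_natCard
  rw [hQ] at hg
  have h3 : (fQ g) ^ (p ^ 2) = 1 := by rw [← map_pow, ← hg, pow_orderOf_eq_one, map_one]
  have h4 := D.pow_p_eq_one_of_pow_p_sq (hr g) h3 hS
  have h5 : g ^ p = 1 := hfQ (by rw [map_pow, map_one]; exact h4)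
  have h6 := orderOf_dvd_of_pow_eq_one h5
  rw [hg] at h6
  have h7 := Nat.le_of_dvd hp.out.pos h6
  have h8 := hp.out.two_le
  nlinarith

end Prime

end SRing

end Vale.Agent.P251.F
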