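import Vale.Agent.P251.F.Aut
import Vale.Agent.P251.F.SRing

/-!
# P251, part F: the endomorphism ring of a Honda formal group law

`HondaOver p h H`: `H` is a law over a field `k` with `[p]_H(x) = x^(p^h)`, coefficients in the
prime field, and with the endomorphisms `a x`, `a ∈ k`. Then `EndF H` is an `SRing` with
uniformizer `S = x^p`, and `p = S^h`.
-/

namespace Vale.Agent.P251.F

open MvPowerSeries Vale.Agent.P217

variable {k : Type*} [Field k]

/-- Honda-like laws over a field `k`. -/
structure HondaOver (p h : ℕ) (H : FormalGroup k) : Prop where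
  mult : multSeries H p = PowerSeries.X ^ (p ^ h)
  frob : ∀ d, (coeff d H.toPowerSeries) ^ p = coeff d H.toPowerSeries
  teich : ∀ a : k, IsHom H H (PowerSeries.C a * PowerSeries.X)

section Frob

variable {p : ℕ} [hp : Fact p.Prime] [CharP k p] {H : FormalGroup k}

theorem map_frobenius_eq (hH : ∀ d, (coeff d H.toPowerSeries) ^ p = coeff d H.toPowerSeries) :
    H.map (frobenius k p) = H := by
  apply FormalGroup.ext
  ext d
  rw [FormalGroup.map_toPowerSeries, coeff_map, frobenius_def, hH d]

theorem map_iterateFrobenius_eq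
    (hH : ∀ d, (coeff d H.toPowerSeries) ^ p = coeff d H.toPowerSeries) (n : ℕ) :
    H.map (iterateFrobenius k p n) = H := by
  apply FormalGroup.ext
  ext d
  rw [FormalGroup.map_toPowerSeries, coeff_map, iterateFrobenius_def]
  induction n with
  | zero => simp
  | succ n ih => rw [pow_succ, pow_mul, ih, hH d]

theorem isHom_X_pow_p (hH : ∀ d, (coeff d H.toPowerSeries) ^ p = coeff d H.toPowerSeries) :
    IsHom H H (PowerSeries.X ^ p) := by
  have hp0 : p ≠ 0 := hp.out.ne_zero
  refine ⟨by rw [map_pow, PowerSeries.constantCoeff_X, zero_pow hp0], ?_⟩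
  rw [PowerSeries.subst_pow (hs H.zero_constantCoeff),
    PowerSeries.subst_pow (hs (by simp)), PowerSeries.subst_pow (hs (by simp)),
    PowerSeries.subst_X (hs H.zero_constantCoeff), PowerSeries.subst_X (hs (by simp)),
    PowerSeries.subst_X (hs (by simp))]
  have h1 := MvPowerSeries.map_frobenius_expand p hp0 (f := H.toPowerSeries)
  rw [← h1, map_expand]
  have h2 : MvPowerSeries.map (frobenius k p) H.toPowerSeries = H.toPowerSeries :=
    congrArg FormalGroup.toPowerSeries (map_frobenius_eq hH)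
  rw [h2, expand, substAlgHom_apply]
  congr 1
  funext j
  fin_cases j <;> rfl

/-- the `p`-th power of a univariate series. -/
theorem pow_p_eq (f : PowerSeries k) :
    f ^ p = PowerSeries.subst (PowerSeries.X ^ p : PowerSeries k)
      (PowerSeries.map (frobenius k p) f) := by
  have h1 := MvPowerSeries.map_frobenius_expand p hp.out.ne_zero (f := (f : MvPowerSeries Unit k))
  rw [← PowerSeries.expand_apply p hp.out.ne_zero]
  rw [← PowerSeries.map_expand]
  exact h1.symm

end Frob

namespace EndF

variable {p : ℕ} [hp : Fact p.Prime] [CharP k p] {H : FormalGroup k} [H.IsComm]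

/-- the linear coefficient as a ring homomorphism. -/
noncomputable def lc (H : FormalGroup k) [H.IsComm] : EndF H →+* k where
  toFun f := PowerSeries.coeff 1 f.val
  map_zero' := by rw [val_zero, map_zero]
  map_one' := by rw [val_one, PowerSeries.coeff_one_X]
  map_add' f g := by rw [val_add, coeff_one_add f.constantCoeff_val g.constantCoeff_val]
  map_mul' f g := by rw [val_mul, coeff_one_subst g.constantCoeff_val, mul_comm]

theorem lc_apply (f : EndF H) : lc H f = f.cf 1 := rfl

variable (hH : ∀ d, (coeff d H.toPowerSeries) ^ p = coeff d H.toPowerSeries)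

/-- the Frobenius endomorphism `x^p`. -/
noncomputable def S : EndF H := mk (PowerSeries.X ^ p) (isHom_X_pow_p hH)

theorem S_pow_val (n : ℕ) : ((S hH) ^ n : EndF H).val = PowerSeries.X ^ (p ^ n) := by
  induction n with
  | zero => rw [pow_zero, val_one, pow_zero, pow_one]
  | succ n ih =>
    rw [pow_succ, val_mul, ih]
    have h1 : (S hH : EndF H).val = PowerSeries.X ^ p := rfl
    rw [h1, PowerSeries.subst_pow (PowerSeries.HasSubst.X_pow hp.out.ne_zero),
      PowerSeries.subst_X (PowerSeries.HasSubst.X_pow hp.out.ne_zero), ← pow_mul, pow_succ']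

theorem val_mul_S_pow (f : EndF H) (n : ℕ) : (f * (S hH) ^ n).val =
    PowerSeries.subst (PowerSeries.X ^ (p ^ n) : PowerSeries k) f.val := by
  rw [val_mul, S_pow_val]

theorem cf_mul_S_pow (f : EndF H) (n j : ℕ) :
    (f * (S hH) ^ n).cf j = if p ^ n ∣ j then f.cf (j / p ^ n) else 0 := by
  rw [cf, val_mul_S_pow, PowerSeries.coeff_subst_X_pow (pow_ne_zero n hp.out.ne_zero)]
  split_ifs <;> rfl

/-- the Frobenius on coefficients. -/
noncomputable def phi (f : EndF H) : EndF H := mk (PowerSeries.map (frobenius k p) f.val) (by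
  have h := f.isHom.mapL (frobenius k p)
  rwa [map_frobenius_eq hH] at h)

omit [H.IsComm] in
theorem phi_val (f : EndF H) : (phi hH f).val = PowerSeries.map (frobenius k p) f.val := rfl

theorem exists_of_agr_zero {n : ℕ} {f : EndF H} (h : ∀ j < p ^ n, f.cf j = 0) :
    ∃ g, f = g * (S hH) ^ n := by
  obtain ⟨V, hV, hVh⟩ := f.isHom.exists_heightL p n h
  rw [map_iterateFrobenius_eq hH] at hVh
  refine ⟨mk V hVh, ext ?_⟩
  rw [val_mul_S_pow, val_mk]
  exact hV

theorem agr_zero_of_exists {n : ℕ} {f : EndF H} (h : ∃ g, f = g * (S hH) ^ n) :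
    ∀ j < p ^ n, f.cf j = 0 := by
  obtain ⟨g, rfl⟩ := h
  intro j hj
  rw [cf_mul_S_pow]
  split_ifs with hd
  · rcases Nat.eq_zero_or_pos j with rfl | hj0
    · rw [Nat.zero_div, cf, PowerSeries.coeff_zero_eq_constantCoeff_apply, constantCoeff_val]
    · exact absurd (Nat.le_of_dvd hj0 hd) (by omega)
  · rfl

/-- The endomorphism ring as a ring with normal uniformizer. -/
noncomputable def sring (hT : ∀ a : k, IsHom H H (PowerSeries.C a * PowerSeries.X)) :
    SRing p (EndF H) k where
  S := S hH
  r := lc H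
  φ := phi hH
  r_surj a := ⟨mk _ (hT a), by
    rw [lc_apply, cf, val_mk, PowerSeries.coeff_C_mul, PowerSeries.coeff_one_X, mul_one]⟩
  r_S := by
    rw [lc_apply, cf]
    change PowerSeries.coeff 1 (PowerSeries.X ^ p : PowerSeries k) = 0
    rw [PowerSeries.coeff_X_pow, if_neg hp.out.one_lt.ne]
  exists_of_r f hf := by
    have hp0 := hp.out.ne_zero
    obtain ⟨g, hg⟩ := exists_expand_of_derivative_eq_zero p f.val (f.isHom.derivative_eq_zeroL hf)
    have h1 := f.isHom
    rw [hg] at h1
    have h2 := IsHom.of_expandL p hp0 h1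
    rw [map_frobenius_eq hH] at h2
    refine ⟨mk g h2, ext ?_⟩
    rw [val_mul, val_mk, hg, PowerSeries.expand_apply]
    rfl
  S_mul f := by
    apply ext
    rw [val_mul, val_mul, phi_val]
    have h1 : (S hH : EndF H).val = PowerSeries.X ^ p := rfl
    rw [h1, PowerSeries.subst_pow f.hasSubst, PowerSeries.subst_X f.hasSubst, pow_p_eq]
  r_φ f := by
    rw [lc_apply, cf, phi_val, PowerSeries.coeff_map, frobenius_def]
    rfl
  reg f hf := by
    have h1 : (f * (S hH) ^ 1) = 0 := by rw [pow_one]; exact hf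
    apply ext
    ext j
    have h2 : (f * (S hH) ^ 1).cf (j * p) = (0 : EndF H).cf (j * p) := by rw [h1]
    rw [cf_mul_S_pow, pow_one, if_pos (dvd_mul_left _ _), Nat.mul_div_cancel _ hp.out.pos] at h2
    exact h2.trans (map_zero _)
  haus f hf := by
    apply ext
    ext j
    have hj : j < p ^ j := Nat.lt_pow_self hp.out.one_lt
    exact (agr_zero_of_exists hH (hf j) j hj).trans (map_zero _).symm

variable (hT : ∀ a : k, IsHom H H (PowerSeries.C a * PowerSeries.X))

theorem sring_S : (sring hH hT).S = S hH := rfl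

theorem sring_r (f : EndF H) : (sring hH hT).r f = f.cf 1 := rfl

/-- the filtration in terms of coefficients. -/
theorem mem_I_iff {n : ℕ} {f : EndF H} :
    f ∈ (sring hH hT).I n ↔ ∀ j < p ^ n, f.cf j = 0 :=
  ⟨fun h => agr_zero_of_exists hH h, fun h => exists_of_agr_zero hH h⟩

theorem sub_mem_I_iff {n : ℕ} {f g : EndF H} :
    g - f ∈ (sring hH hT).I n ↔ Agr cf (p ^ n) f g := by
  rw [mem_I_iff]
  have h0 : ∀ j, (0 : EndF H).cf j = 0 := fun j => map_zero _
  constructor
  · intro h
    have h1 : Agr cf (p ^ n) 0 (g - f) := fun j hj => by rw [h j hj, h0]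
    have h2 := agr_add h1 (Agr.refl cf (p ^ n) f)
    rwa [zero_add, sub_add_cancel] at h2
  · intro h j hj
    have h2 : Agr cf (p ^ n) (f - f) (g - f) := by
      rw [sub_eq_add_neg, sub_eq_add_neg]
      exact agr_add h (Agr.refl _ _ _)
    rw [sub_self] at h2
    rw [h2 j hj, h0]

/-- the topology in terms of the filtration. -/
theorem isOpen_iff_I {U : Set (EndF H)} :
    IsOpen U ↔ ∀ f ∈ U, ∃ n, ∀ g, g - f ∈ (sring hH hT).I n → g ∈ U := by
  rw [isOpen_iff]
  refine forall₂_congr fun f _ => ?_
  constructor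
  · rintro ⟨m, hm⟩
    refine ⟨m, fun g hg => hm g ?_⟩
    rw [sub_mem_I_iff] at hg
    exact hg.mono (Nat.lt_pow_self hp.out.one_lt).le
  · rintro ⟨n, hn⟩
    exact ⟨p ^ n, fun g hg => hn g ((sub_mem_I_iff hH hT).2 hg)⟩

/-- completeness. -/
theorem exists_limit (a : ℕ → EndF H) (ha : ∀ n, a (n + 1) - a n ∈ (sring hH hT).I n) :
    ∃ f : EndF H, ∀ n, f - a n ∈ (sring hH hT).I n := by
  have h1 : ∀ n m, n ≤ m → a m - a n ∈ (sring hH hT).I n := by
    intro n m hnm
    induction m, hnm using Nat.le_induction with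
    | base => rw [sub_self]; exact ((sring hH hT).I n).zero_mem
    | succ m hm ih =>
      have h2 := ((sring hH hT).I n).add_mem ((sring hH hT).I_anti hm (ha m)) ih
      rwa [sub_add_sub_cancel] at h2
  have h2 : ∀ n m, n ≤ m → ∀ j < p ^ n, (a m).cf j = (a n).cf j := fun n m hnm =>
    (sub_mem_I_iff hH hT).1 (h1 n m hnm)
  obtain ⟨f, hf⟩ := exists_of_agr (H := H) (x := fun j => (a j).cf j) (by
    intro m
    refine ⟨a m, fun i hi => ?_⟩
    exact h2 i m hi.le i (Nat.lt_pow_self hp.out.one_lt))
  refine ⟨f, fun n => ?_⟩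
  rw [sub_mem_I_iff]
  intro j hj
  rw [hf]
  rcases le_total n j with hnj | hjn
  · exact h2 n j hnj j hj
  · exact (h2 j n hjn j (Nat.lt_pow_self hp.out.one_lt)).symm

/-- `p = S^h`. -/
theorem natCast_p_eq {h : ℕ} (hm : multSeries H p = PowerSeries.X ^ (p ^ h)) :
    ((p : ℕ) : EndF H) = (sring hH hT).S ^ h := by
  apply ext
  rw [val_natCast, sring_S, S_pow_val, hm]

end EndF

/-- the ring with uniformizer attached to a Honda-like law. -/
noncomputable def HondaOver.D {p h : ℕ} [Fact p.Prime] [CharP k p] {H : FormalGroup k} [H.IsComm]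
    (hH : HondaOver p h H) : SRing p (EndF H) k := EndF.sring hH.frob hH.teich

theorem HondaOver.p_eq {p h : ℕ} [Fact p.Prime] [CharP k p] {H : FormalGroup k} [H.IsComm]
    (hH : HondaOver p h H) : ((p : ℕ) : EndF H) = hH.D.S ^ h :=
  EndF.natCast_p_eq hH.frob hH.teich hH.mult

end Vale.Agent.P251.F
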