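import Vale.Agent.P251.F.F4Conj
import Vale.Agent.P251.F.Compare2

/-!
# P251, part F (F1'): laws with `[p] = x^q` over rings in which `a^q = a`

Over a ring `C` of characteristic `p` in which `a^q = a` for all `a`, `q = p^h`, `h ≥ 1`, any two
(commutative, one-dimensional) formal group laws with `p`-series `x^q` are strictly isomorphic.
-/

namespace Vale.Agent.P251.F

open MvPowerSeries Vale.Agent.P217

section

variable {C : Type*} [CommRing C] (p : ℕ) [Fact p.Prime] [CharP C p] (h : ℕ)

theorem mulS_eq_multSeries {R : Type*} [CommRing R] (F : FormalGroup R) (m : ℕ) :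
    mulS F.toPowerSeries m = multSeries F m := rfl

/-- changing the coordinate keeps `[p] = x^q` -/
theorem multSeries_smul_of_fix (hC : ∀ a : C, a ^ (p ^ h) = a) {G : Law C}
    (hG : multSeries G.toFG p = PowerSeries.X ^ (p ^ h)) (f : InvSeries C) :
    multSeries (f • G).toFG p = PowerSeries.X ^ (p ^ h) := by
  refine multSeries_smul_eq p h (F := G) (g := PowerSeries.X) PowerSeries.constantCoeff_X ?_ ?_
  · rw [hG, PowerSeries.subst_X (PowerSeries.HasSubst.X_pow (pow_ne_zero_p p h))]
  · rw [← PowerSeries.map_algebraMap_eq_subst_X]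
    ext n
    rw [PowerSeries.coeff_map, PowerSeries.coeff_map, iterateFrobenius_def, hC]
    rfl

/-- the sum of the comparison for the `p`-series -/
theorem natCast_sum_cC {N : ℕ} (hN : 2 ≤ N) (hd : dC N = p) :
    ((∑ j ∈ Finset.range p, ∑ i ∈ Finset.Ioo 0 N, cC N i * j ^ i : ℕ) : C) = -1 := by
  set s := ∑ j ∈ Finset.range p, ∑ i ∈ Finset.Ioo 0 N, cC N i * j ^ i with hs
  have h1 := dC_mul_sum (N := N) (by omega) p
  rw [hd, ← hs] at h1
  have hp0 : 0 < p := (Fact.out : p.Prime).pos
  have h2 : s + 1 = p ^ (N - 1) := by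
    have h3 : p * (s + 1) = p * p ^ (N - 1) := by
      rw [mul_add, mul_one, h1, ← pow_succ']
      congr 1
      omega
    exact Nat.eq_of_mul_eq_mul_left hp0 h3
  have h4 : ((s + 1 : ℕ) : C) = 0 := by
    rw [h2, Nat.cast_pow, CharP.cast_eq_zero, zero_pow (by omega)]
  rw [Nat.cast_add, Nat.cast_one] at h4
  exact eq_neg_of_add_eq_zero_left h4

/-- one step: remove the difference in degree `N` -/
theorem exists_step {G H : Law C}
    (hG : multSeries G.toFG p = multSeries H.toFG p) {N : ℕ} (hN : 2 ≤ N)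
    (hGH : G.ps - H.ps ∈ ordI (Fin 2) C N) :
    ∃ s ∈ strict C, s.val - PowerSeries.X ∈ ordI Unit C N ∧
      (s • G).ps - H.ps ∈ ordI (Fin 2) C (N + 1) := by
  obtain ⟨m, hm⟩ := exists_compare G.toFG H.toFG hN hGH
  -- choose `b` with `m + b d_N = 0`
  obtain ⟨b, hb⟩ : ∃ b : C, m + b * (dC N : C) = 0 := by
    by_cases hd : dC N = p
    · refine ⟨0, ?_⟩
      have hx : ∀ i, 1 ≤ i → i < N → coeff (e2 i (N - i)) (G.ps - H.ps) - cC N i • m ∈
          (⊥ : AddSubgroup C) := by
        intro i hi hiN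
        have h1 := hm (e2 i (N - i)) (by rw [degree_e2]; omega)
        rw [map_sub, coeff_C_mul, coeff_CPS N i (N - i) hi (by omega) (by omega)] at h1
        rw [AddSubgroup.mem_bot, nsmul_eq_mul, mul_comm]
        exact h1
      have hz : ∀ i j, (i = 0 ∨ j = 0) → i + j = N → coeff (e2 i j) (G.ps - H.ps) ∈
          (⊥ : AddSubgroup C) := by
        intro i j hij hN'
        have h1 := hm (e2 i j) (by rw [degree_e2]; omega)
        rw [map_sub, coeff_C_mul, coeff_CPS_of_not N i j (by omega), mul_zero, sub_zero] at h1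
        rw [AddSubgroup.mem_bot]
        exact h1
      have key := coeff_mulS_compare (isLaw_formalGroup G.toFG) (isLaw_formalGroup H.toFG) hN hGH
        ⊥ m (hz 0 N (Or.inl rfl) (by omega)) (hz N 0 (Or.inr rfl) (by omega)) hx p
      rw [mulS_eq_multSeries, mulS_eq_multSeries, hG, sub_self, zero_sub, AddSubgroup.mem_bot,
        neg_eq_zero, nsmul_eq_mul, natCast_sum_cC p hN hd, neg_one_mul, neg_eq_zero] at key
      rw [key, zero_mul, zero_add]
    · have hu : IsUnit (dC N : C) := by
        rw [CharP.isUnit_natCast_iff (Fact.out : p.Prime)]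
        intro hdvd
        apply hd
        by_cases hpp : IsPrimePow N
        · have h1 : dC N = N.minFac := if_pos hpp
          rw [h1] at hdvd ⊢
          exact ((Nat.prime_dvd_prime_iff_eq (Fact.out : p.Prime)
            (Nat.minFac_prime (by omega))).1 hdvd).symm
        · rw [dC_of_not hpp] at hdvd
          exact absurd (Nat.dvd_one.1 hdvd) (Fact.out : p.Prime).one_lt.ne'
      obtain ⟨u, hu⟩ := hu
      refine ⟨-m * ((u⁻¹ : Cˣ) : C), ?_⟩
      rw [← hu, mul_assoc, Units.inv_mul, mul_one, add_neg_cancel]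
  -- the strict series `X + b X^N`
  have hXN : PowerSeries.coeff 1 (PowerSeries.X + PowerSeries.C b * PowerSeries.X ^ N) = (1 : C) := by
    rw [map_add, PowerSeries.coeff_one_X, PowerSeries.coeff_C_mul, PowerSeries.coeff_X_pow,
      if_neg (by omega), mul_zero, add_zero]
  let s : InvSeries C := ⟨PowerSeries.X + PowerSeries.C b * PowerSeries.X ^ N, by
    rw [map_add, map_mul, map_pow, PowerSeries.constantCoeff_X, zero_pow (by omega), mul_zero,
      add_zero], by rw [hXN]; exact isUnit_one⟩
  refine ⟨s, ?_, ?_, ?_⟩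
  · rw [mem_strict]
    exact hXN
  · change PowerSeries.X + PowerSeries.C b * PowerSeries.X ^ N - PowerSeries.X ∈ _
    rw [add_sub_cancel_left]
    exact Ideal.mul_mem_left _ _ (ordI_pow (ordI_X (τ := Unit) ()) N)
  · have h1 := change_of_variable (isLaw_formalGroup G.toFG) (isLaw_formalGroup (s • G).toFG) hN
      (f := s.val) (b := b) (by
        change PowerSeries.X + PowerSeries.C b * PowerSeries.X ^ N - _ ∈ _
        rw [sub_self]
        exact Ideal.zero_mem _) (InvSeries.isHom_smul s G).2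
    rw [← dC_smul_CPS (by omega : 1 ≤ N)] at h1
    have h2 := Ideal.add_mem _ h1 hm
    have h3 : (s • G).toFG.toPowerSeries - G.toFG.toPowerSeries -
        MvPowerSeries.C b * ((dC N : MvPowerSeries (Fin 2) C) * CPS C N) +
        (G.toFG.toPowerSeries - H.toFG.toPowerSeries - MvPowerSeries.C m * CPS C N) =
        (s • G).ps - H.ps - MvPowerSeries.C (m + b * (dC N : C)) * CPS C N := by
      rw [map_add, map_mul, map_natCast]
      ring
    rw [h3, hb, map_zero, zero_mul, sub_zero] at h2
    exact h2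

/-- **F1'.** Two laws with `[p] = x^q` over a ring of characteristic `p` with `a^q = a` are
strictly isomorphic. -/
theorem exists_strict_iso (hC : ∀ a : C, a ^ (p ^ h) = a) {G H : Law C}
    (hG : multSeries G.toFG p = PowerSeries.X ^ (p ^ h))
    (hH : multSeries H.toFG p = PowerSeries.X ^ (p ^ h)) :
    ∃ f ∈ strict C, f • G = H := by
  classical
  let P : ℕ → InvSeries C → Prop := fun N u => u ∈ strict C ∧
    (u • G).ps - H.ps ∈ ordI (Fin 2) C (N + 2)
  have hstep : ∀ N, ∀ u : {u // P N u}, ∃ u' : {u // P (N + 1) u},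
      u'.1.val - u.1.val ∈ ordI Unit C (N + 2) := by
    rintro N ⟨u, hu1, hu2⟩
    have h1 := multSeries_smul_of_fix p h hC hG u
    obtain ⟨s, hs1, hs2, hs3⟩ := exists_step p (G := u • G) (H := H) (by rw [h1, hH])
      (by omega : 2 ≤ N + 2) hu2
    refine ⟨⟨s * u, (strict C).mul_mem hs1 hu1, ?_⟩, ?_⟩
    · rw [mul_smul]
      exact hs3
    · have hu : u.val ∈ ordI Unit C 1 := mem_ordI_one.2 u.cc
      have h2 := psubst_mem_ordI hu hs2
      rw [PowerSeries.subst_sub u.hs, PowerSeries.subst_X u.hs] at h2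
      exact h2
  have h0 : P 0 1 := by
    refine ⟨(strict C).one_mem, ?_⟩
    rw [one_smul]
    have h1 := Ideal.sub_mem _ (isLaw_formalGroup G.toFG) (isLaw_formalGroup H.toFG)
    rw [sub_sub_sub_cancel_right] at h1
    exact h1
  choose nxt hnxt using hstep
  let u : ∀ N, {u // P N u} := fun N => Nat.rec ⟨1, h0⟩ (fun N u => nxt N u) N
  have hu : ∀ N, (u (N + 1)).1.val - (u N).1.val ∈ ordI Unit C (N + 2) := fun N => hnxt N (u N)
  have hcoef : ∀ n j, n ≤ j + 1 → ∀ i, j ≤ i → PowerSeries.coeff n (u i).1.val =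
      PowerSeries.coeff n (u j).1.val := by
    intro n j hnj i hji
    induction i, hji using Nat.le_induction with
    | base => rfl
    | succ i hi ih =>
      rw [← ih, ← sub_eq_zero, ← map_sub]
      exact mem_ordI_unit.1 (hu i) n (by omega)
  let v : PowerSeries C := PowerSeries.mk fun n => PowerSeries.coeff n (u n).1.val
  have hv : ∀ N, v - (u N).1.val ∈ ordI Unit C (N + 2) := by
    intro N
    rw [mem_ordI_unit]
    intro n hn
    rw [map_sub, PowerSeries.coeff_mk, sub_eq_zero]
    rcases le_total n N with h1 | h1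
    · by_cases hn0 : n = 0
      · subst hn0
        rw [PowerSeries.coeff_zero_eq_constantCoeff_apply, (u 0).1.cc,
          PowerSeries.coeff_zero_eq_constantCoeff_apply, (u N).1.cc]
      · exact (hcoef n n (by omega) N h1).symm
    · exact hcoef n N (by omega) n h1
  have hv0 : PowerSeries.constantCoeff v = 0 := by
    have := mem_ordI_unit.1 (hv 0) 0 (by omega)
    rw [map_sub, sub_eq_zero, PowerSeries.coeff_zero_eq_constantCoeff_apply,
      PowerSeries.coeff_zero_eq_constantCoeff_apply, (u 0).1.cc] at this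
    exact this
  have hv1 : PowerSeries.coeff 1 v = 1 := by
    have := mem_ordI_unit.1 (hv 0) 1 (by omega)
    rw [map_sub, sub_eq_zero] at this
    rw [this]
    exact mem_strict.1 (u 0).2.1
  let f : InvSeries C := ⟨v, hv0, by rw [hv1]; exact isUnit_one⟩
  refine ⟨f, mem_strict.2 hv1, ?_⟩
  rw [InvSeries.smul_eq_iff_isHom]
  refine ⟨hv0, ?_⟩
  refine eq_of_forall_ordI fun M => ?_
  refine ordI_anti (by omega : M ≤ M + 2) ?_
  set w := (u M).1 with hw
  have hX : ∀ i, (X i : MvPowerSeries (Fin 2) C) ∈ ordI (Fin 2) C 1 := ordI_X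
  have hG1 : G.ps ∈ ordI (Fin 2) C 1 := (isLaw_formalGroup G.toFG).mem_one
  have e1 := psubst_mem_ordI hG1 (hv M)
  rw [PowerSeries.subst_sub (hasSubst_of_mem hG1)] at e1
  have e2 := (InvSeries.isHom_smul w G).2
  have hw1 : w.val ∈ ordI Unit C 1 := mem_ordI_one.2 w.cc
  have hv1' : v ∈ ordI Unit C 1 := mem_ordI_one.2 hv0
  have e3 := subst_mem_ordI (pair_mem (psubst_mem_ordI (hX 0) hw1)
    (psubst_mem_ordI (hX 1) hw1)) (u M).2.2
  rw [subst_sub (hasSubst_of_ordI (pair_mem (psubst_mem_ordI (hX 0) hw1)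
    (psubst_mem_ordI (hX 1) hw1)))] at e3
  have e4 : ∀ i, PowerSeries.subst (X i : MvPowerSeries (Fin 2) C) w.val -
      PowerSeries.subst (X i : MvPowerSeries (Fin 2) C) v ∈ ordI (Fin 2) C (M + 2) := by
    intro i
    have := psubst_mem_ordI (hX i) (hv M)
    rw [PowerSeries.subst_sub (hasSubst_of_mem (hX i))] at this
    rw [← neg_sub]
    exact (Ideal.neg_mem_iff _).2 this
  have e5 := subst_sub_subst_mem_ordI (pair_mem (psubst_mem_ordI (hX 0) hw1)
    (psubst_mem_ordI (hX 1) hw1)) (pair_mem (psubst_mem_ordI (hX 0) hv1')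
    (psubst_mem_ordI (hX 1) hv1')) (N := M + 1) (pair_sub_mem (e4 0) (e4 1)) (k := 1)
    (F := H.ps) (isLaw_formalGroup H.toFG).mem_one
  have e6 := Ideal.add_mem _ (Ideal.add_mem _ e1 e3) e5
  convert e6 using 1
  change _ = PowerSeries.subst G.toFG.toPowerSeries v - PowerSeries.subst G.toFG.toPowerSeries w.val
    + _ + _
  rw [e2]
  ring

end

end Vale.Agent.P251.F
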