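import Mathlib.Algebra.BigOperators.Intervals
import Mathlib.Algebra.BigOperators.Fin
import Mathlib.Tactic

/-! # P251 / F / F3Prism : the prism identity

Simplices are sequences `ℕ → W` (of which only finitely many entries are used). -/

namespace Vale.Agent.P251.F.F3

/-- remove the `j`-th entry -/
def del {W : Type*} (j : ℕ) (G : ℕ → W) : ℕ → W := fun k => if k < j then G k else G (k + 1)

/-- the prism `(V 0, …, V i, U i, U (i+1), …)` -/
def prs {W : Type*} (i : ℕ) (V U : ℕ → W) : ℕ → W := fun k => if k ≤ i then V k else U (k - 1)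

/-- `(V 0, …, V (i-1), U i, U (i+1), …)` -/
def mix {W : Type*} (i : ℕ) (V U : ℕ → W) : ℕ → W := fun k => if k < i then V k else U k

variable {W M : Type*} [AddCommGroup M] (V U : ℕ → W) (X : (ℕ → W) → M)

theorem del_prs_lt {i j : ℕ} (h : j ≤ i) :
    del j (prs (i + 1) V U) = prs i (del j V) (del j U) := by
  funext k
  simp only [del, prs]
  split_ifs <;> first | rfl | omega | (congr 1; omega)

theorem del_prs_gt {i j : ℕ} (h : i < j) :
    del (j + 1) (prs i V U) = prs i (del j V) (del j U) := by
  funext k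
  simp only [del, prs]
  split_ifs <;> first | rfl | omega | (congr 1; omega)

theorem del_prs_self (i : ℕ) : del i (prs i V U) = mix i V U := by
  funext k
  simp only [del, prs, mix]
  split_ifs <;> first | rfl | omega

theorem del_prs_succ (i : ℕ) : del (i + 1) (prs i V U) = mix (i + 1) V U := by
  funext k
  simp only [del, prs, mix]
  split_ifs <;> first | rfl | omega

theorem mix_zero : mix 0 V U = U := by
  funext k
  simp [mix]

/-- The prism identity. -/
theorem prism_identity (n : ℕ) :
    (∑ i ∈ Finset.range (n + 1), ∑ j ∈ Finset.range (n + 2),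
        ((-1 : ℤ) ^ (i + j)) • X (del j (prs i V U))) +
      (∑ i ∈ Finset.range n, ∑ j ∈ Finset.range (n + 1),
        ((-1 : ℤ) ^ (i + j)) • X (prs i (del j V) (del j U))) =
    X U - X (mix (n + 1) V U) := by
  set F : ℕ → ℕ → M := fun i j => ((-1 : ℤ) ^ (i + j)) • X (del j (prs i V U)) with hF
  set g : ℕ → ℕ → M := fun i j => ((-1 : ℤ) ^ (i + j)) • X (prs i (del j V) (del j U)) with hg
  have h1 : ∀ i j, j ≤ i → F (i + 1) j = - g i j := by
    intro i j h
    simp only [hF, hg]
    rw [del_prs_lt V U h, add_right_comm, pow_succ, mul_neg_one, neg_smul]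
  have h2 : ∀ i j, i < j → F i (j + 1) = - g i j := by
    intro i j h
    simp only [hF, hg]
    rw [del_prs_gt V U h, ← add_assoc, pow_succ, mul_neg_one, neg_smul]
  have h3 : ∀ i, F i i + F i (i + 1) = X (mix i V U) - X (mix (i + 1) V U) := by
    intro i
    simp only [hF]
    rw [del_prs_self, del_prs_succ, ← two_mul, pow_mul, show i + (i + 1) = 2 * i + 1 by ring,
      pow_succ, pow_mul]
    simp [sub_eq_add_neg]
  have h4 : ∀ i ∈ Finset.range (n + 1), ∑ j ∈ Finset.range (n + 2), F i j =
      (∑ j ∈ Finset.range i, F i j) + (F i i + F i (i + 1)) +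
        ∑ j ∈ Finset.Ico (i + 2) (n + 2), F i j := by
    intro i hi
    rw [Finset.mem_range] at hi
    rw [← Finset.sum_range_add_sum_Ico _ (show i + 2 ≤ n + 2 by omega), Finset.sum_range_succ,
      Finset.sum_range_succ]
    abel
  have h5 : ∀ i, ∑ j ∈ Finset.Ico (i + 2) (n + 2), F i j =
      - ∑ j ∈ Finset.Ico (i + 1) (n + 1), g i j := by
    intro i
    rw [← Finset.sum_neg_distrib, ← Finset.sum_Ico_add' _ (i + 1) (n + 1) 1]
    refine Finset.sum_congr rfl fun j hj => ?_
    rw [Finset.mem_Ico] at hj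
    exact h2 i j (by omega)
  have h6 : ∑ i ∈ Finset.range (n + 1), ∑ j ∈ Finset.range i, F i j =
      - ∑ i ∈ Finset.range n, ∑ j ∈ Finset.range (i + 1), g i j := by
    rw [Finset.sum_range_succ', ← Finset.sum_neg_distrib]
    simp only [Finset.range_zero, Finset.sum_empty, add_zero]
    refine Finset.sum_congr rfl fun i _ => ?_
    rw [← Finset.sum_neg_distrib]
    refine Finset.sum_congr rfl fun j hj => ?_
    rw [Finset.mem_range] at hj
    exact h1 i j (by omega)
  have h7 : ∑ i ∈ Finset.range (n + 1), ∑ j ∈ Finset.Ico (i + 2) (n + 2), F i j =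
      - ∑ i ∈ Finset.range n, ∑ j ∈ Finset.Ico (i + 1) (n + 1), g i j := by
    rw [Finset.sum_congr rfl fun i _ => h5 i, Finset.sum_range_succ, Finset.Ico_self,
      Finset.sum_empty, neg_zero, add_zero, Finset.sum_neg_distrib]
  have h8 : ∀ i ∈ Finset.range n, ∑ j ∈ Finset.range (n + 1), g i j =
      (∑ j ∈ Finset.range (i + 1), g i j) + ∑ j ∈ Finset.Ico (i + 1) (n + 1), g i j := by
    intro i hi
    rw [Finset.mem_range] at hi
    rw [Finset.sum_range_add_sum_Ico _ (show i + 1 ≤ n + 1 by omega)]
  have h9 : ∑ i ∈ Finset.range (n + 1), (X (mix i V U) - X (mix (i + 1) V U)) =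
      X U - X (mix (n + 1) V U) := by
    rw [Finset.sum_range_sub', mix_zero]
  have h10 : ∑ i ∈ Finset.range (n + 1), (F i i + F i (i + 1)) =
      X U - X (mix (n + 1) V U) := by
    rw [Finset.sum_congr rfl fun i _ => h3 i, h9]
  have h11 := Finset.sum_congr rfl h4
  rw [Finset.sum_add_distrib, Finset.sum_add_distrib (f := fun i => ∑ j ∈ Finset.range i, F i j),
    h6, h7, h10] at h11
  have h12 := Finset.sum_congr rfl h8
  rw [Finset.sum_add_distrib] at h12
  rw [h11, h12]
  abel

end Vale.Agent.P251.F.F3
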