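import Vale.Agent.P251.F.F3Typ
import Vale.Agent.P251.F.F3Prism
import Vale.Agent.P251.F.Cob

/-! # P251 / F / F3Homot : the cochain homotopy given by typicalization

For a law ring `N` in which `p` is nilpotent, the ring endomorphism `rOp` of `Cob N n` given by
`(F_0 → … → F_n) ↦ (typ F_0 → … → typ F_n)` is homotopic to the identity, by operators which
preserve weights. If the points of `N` are determined by their laws, `rOp` kills the functions of
weight `w` with `(p-1) ∤ w`. -/

noncomputable section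

namespace Vale.Agent.P251.F.F3

open Vale.Agent.P251.F LawRing

variable {N : Type} [CommRing N] {A B C : Type} [CommRing A] [CommRing B] [CommRing C]

/-- base change of strict series -/
def smap (φ : B →+* C) (g : strict B) : strict C := ⟨InvSeries.map φ g, map_mem_strict φ g.2⟩

@[simp] theorem val_smap (φ : B →+* C) (g : strict B) :
    (smap φ g : InvSeries C) = InvSeries.map φ g := rfl

/-- the sequence of coordinates of a chain, continued in an irrelevant way -/
def seq {n : ℕ} (c : Chain N n B) : ℕ → strict B := fun k =>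
  ⟨c.g ⟨min k n, by omega⟩, c.strict _⟩

section

variable [LawRing N]

/-- The chain `G 0 • x → G 1 • x → … → G n • x`. -/
def ofSeq (n : ℕ) (x : N →+* B) (G : ℕ → strict B) : Chain N n B where
  pt := act (G 0 : InvSeries B) x
  g i := G i * (G 0 : InvSeries B)⁻¹
  strict i := mul_mem (G i).2 (inv_mem (G 0).2)
  zero := mul_inv_cancel _

@[simp] theorem ofSeq_pt (n : ℕ) (x : N →+* B) (G : ℕ → strict B) :
    (ofSeq n x G).pt = act (G 0 : InvSeries B) x := rfl

@[simp] theorem ofSeq_g (n : ℕ) (x : N →+* B) (G : ℕ → strict B) (i : Fin (n + 1)) :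
    (ofSeq n x G).g i = G i * (G 0 : InvSeries B)⁻¹ := rfl

theorem ofSeq_congr {n : ℕ} {x : N →+* B} {G G' : ℕ → strict B} (h : ∀ k ≤ n, G k = G' k) :
    ofSeq n x G = ofSeq n x G' := by
  ext1
  · rw [ofSeq_pt, ofSeq_pt, h 0 (Nat.zero_le _)]
  · funext i
    rw [ofSeq_g, ofSeq_g, h 0 (Nat.zero_le _), h i (by omega)]

theorem ofSeq_translate {n : ℕ} (x : N →+* B) (G G' : ℕ → strict B) (g : InvSeries B)
    (h : ∀ k ≤ n, (G' k : InvSeries B) = G k * g⁻¹) : ofSeq n (act g x) G' = ofSeq n x G := by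
  ext1
  · rw [ofSeq_pt, ofSeq_pt, h 0 (Nat.zero_le _), ← act_mul, inv_mul_cancel_right]
  · funext i
    rw [ofSeq_g, ofSeq_g, h 0 (Nat.zero_le _), h i (by omega), mul_inv_rev, inv_inv,
      mul_assoc, inv_mul_cancel_left]

theorem ofSeq_seq {n : ℕ} (c : Chain N n B) : ofSeq n c.pt (seq c) = c := by
  have h0 : (seq c 0 : InvSeries B) = 1 := by
    change c.g ⟨min 0 n, _⟩ = 1
    rw [← c.zero]
    exact congrArg c.g (Fin.ext (by simp))
  ext1
  · rw [ofSeq_pt, h0, act_one]
  · funext i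
    rw [ofSeq_g, h0, inv_one, mul_one]
    change c.g ⟨min i n, _⟩ = c.g i
    exact congrArg c.g (Fin.ext (by simp; omega))

theorem ofSeq_res {n : ℕ} (x : N →+* B) (G : ℕ → strict B) (j : Fin (n + 2)) :
    (ofSeq (n + 1) x G).res j.succAbove = ofSeq n x (del j G) := by
  have h : ∀ i : Fin (n + 1), G (j.succAbove i : Fin (n + 2)) = del j G i := by
    intro i
    simp only [del, Fin.succAbove, Fin.lt_def, Fin.val_castSucc]
    split_ifs <;> rfl
  have h0 := h 0
  rw [Fin.val_zero] at h0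
  ext1
  · rw [Chain.res_pt, ofSeq_pt, ofSeq_g, ofSeq_pt, ← act_mul, inv_mul_cancel_right, h0]
  · funext i
    rw [Chain.res_g, ofSeq_g, ofSeq_g, ofSeq_g, h0, h i, mul_inv_rev, inv_inv, mul_assoc,
      inv_mul_cancel_left]

theorem ofSeq_map {n : ℕ} (φ : B →+* C) (x : N →+* B) (G : ℕ → strict B) :
    (ofSeq n x G).map φ = ofSeq n (φ.comp x) (fun k => smap φ (G k)) := by
  ext1
  · rw [Chain.map_pt, ofSeq_pt, comp_act]; rfl
  · funext i
    rw [Chain.map_g, ofSeq_g, ofSeq_g, map_mul, map_inv]; rfl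

/-- conjugation of a sequence of strict series by a scaling -/
def conjSeq (u : Bˣ) (G : ℕ → strict B) : ℕ → strict B := fun k =>
  ⟨(InvSeries.lin u)⁻¹ * (G k : InvSeries B) * InvSeries.lin u, by
    have h := strict_normal.conj_mem (G k) (G k).2 (InvSeries.lin u)⁻¹
    rwa [inv_inv] at h⟩

theorem ofSeq_scale {n : ℕ} (x : N →+* B) (G : ℕ → strict B) (u : Bˣ) :
    (ofSeq n x G).scale u = ofSeq n (act (InvSeries.lin u)⁻¹ x) (conjSeq u G) := by
  ext1
  · change act (InvSeries.lin u)⁻¹ (act (G 0 : InvSeries B) x) =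
      act ((InvSeries.lin u)⁻¹ * (G 0 : InvSeries B) * InvSeries.lin u)
        (act (InvSeries.lin u)⁻¹ x)
    rw [← act_mul, ← act_mul, mul_inv_cancel_right]
  · funext i
    change (InvSeries.lin u)⁻¹ * ((G i : InvSeries B) * (G 0 : InvSeries B)⁻¹) *
        InvSeries.lin u = ((InvSeries.lin u)⁻¹ * (G i : InvSeries B) * InvSeries.lin u) *
        ((InvSeries.lin u)⁻¹ * (G 0 : InvSeries B) * InvSeries.lin u)⁻¹
    group

/-! ### typicalization of chains -/

variable {p : ℕ} [hpp : Fact p.Prime]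

section

variable [PNil p A] [PNil p B] [PNil p C]

variable (p) in
/-- `U k = tyS (G k • x) * G k` -/
def uSeq (x : N →+* B) (G : ℕ → strict B) : ℕ → strict B := fun k =>
  ⟨tyS p ((G k : InvSeries B) • law.map x) * G k, mul_mem (tyS_mem _) (G k).2⟩

theorem val_uSeq (x : N →+* B) (G : ℕ → strict B) (k : ℕ) :
    (uSeq p x G k : InvSeries B) = tyS p ((G k : InvSeries B) • law.map x) * G k := rfl

theorem uSeq_del (x : N →+* B) (G : ℕ → strict B) (j : ℕ) :
    uSeq p x (del j G) = del j (uSeq p x G) := by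
  funext k
  simp only [del, uSeq]
  split_ifs <;> rfl

theorem smap_uSeq (φ : B →+* C) (x : N →+* B) (G : ℕ → strict B) (k : ℕ) :
    smap φ (uSeq p x G k) = uSeq p (φ.comp x) (fun k => smap φ (G k)) k := by
  apply Subtype.ext
  rw [val_smap, val_uSeq, val_uSeq, map_mul, map_tyS, InvSeries.map_smul, Law.map_map]
  rfl

theorem uSeq_translate (x : N →+* B) (G G' : ℕ → strict B) (g : InvSeries B) (k : ℕ)
    (h : (G' k : InvSeries B) = G k * g⁻¹) :
    (uSeq p (act g x) G' k : InvSeries B) = uSeq p x G k * g⁻¹ := by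
  rw [val_uSeq, val_uSeq, h, law_act, smul_smul, inv_mul_cancel_right, mul_assoc]

theorem uSeq_conj (x : N →+* B) (G : ℕ → strict B) (u : Bˣ) :
    uSeq p (act (InvSeries.lin u)⁻¹ x) (conjSeq u G) = conjSeq u (uSeq p x G) := by
  funext k
  apply Subtype.ext
  have h1 : ((conjSeq u G k : strict B) : InvSeries B) • law.map (act (InvSeries.lin u)⁻¹ x) =
      InvSeries.lin u⁻¹ • ((G k : InvSeries B) • law.map x) := by
    rw [law_act, smul_smul, smul_smul, map_inv]
    congr 1
    change (InvSeries.lin u)⁻¹ * G k * InvSeries.lin u * (InvSeries.lin u)⁻¹ = _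
    group
  rw [val_uSeq, h1, tyS_lin, map_inv, inv_inv]
  change (InvSeries.lin u)⁻¹ * tyS p ((G k : InvSeries B) • law.map x) * InvSeries.lin u *
    ((InvSeries.lin u)⁻¹ * G k * InvSeries.lin u) =
    (InvSeries.lin u)⁻¹ * (tyS p ((G k : InvSeries B) • law.map x) * G k) * InvSeries.lin u
  group

omit hpp in
theorem smap_prs (φ : B →+* C) (i : ℕ) (V U : ℕ → strict B) :
    (fun k => smap φ (prs i V U k)) = prs i (fun k => smap φ (V k)) (fun k => smap φ (U k)) := by
  funext k
  simp only [prs]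
  split_ifs <;> rfl

omit hpp in
theorem conjSeq_prs (u : Bˣ) (i : ℕ) (V U : ℕ → strict B) :
    conjSeq u (prs i V U) = prs i (conjSeq u V) (conjSeq u U) := by
  funext k
  simp only [prs, conjSeq]
  split_ifs <;> rfl

/-! ### the operators -/

end

omit [CommRing N] [LawRing N] hpp in
instance pnil_mvPolynomial {N : Type} [CommRing N] {σ : Type} [PNil p N] :
    PNil p (MvPolynomial σ N) := pnil_map (MvPolynomial.C) inferInstance

variable [PNil p N]

/-- the `i`-th prism over a chain -/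
def prism (p : ℕ) [Fact p.Prime] [PNil p B] {n : ℕ} (i : ℕ) (c : Chain N n B) :
    Chain N (n + 1) B :=
  ofSeq (n + 1) c.pt (prs i (seq c) (uSeq p c.pt (seq c)))

/-- the typicalization of a chain -/
def typC (p : ℕ) [Fact p.Prime] [PNil p B] {n : ℕ} (c : Chain N n B) : Chain N n B :=
  ofSeq n c.pt (uSeq p c.pt (seq c))

omit [LawRing N] hpp [PNil p N] in
theorem seq_map {n : ℕ} (φ : B →+* C) (c : Chain N n B) :
    seq (c.map φ) = fun k => smap φ (seq c k) := rfl

omit [PNil p N] in
theorem prism_map [PNil p B] [PNil p C] {n : ℕ} (i : ℕ) (φ : B →+* C) (c : Chain N n B) :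
    (prism p i c).map φ = prism p i (c.map φ) := by
  rw [prism, ofSeq_map, prism, smap_prs, seq_map]
  congr 2
  funext k
  exact smap_uSeq φ c.pt (seq c) k

omit [PNil p N] in
theorem typC_map [PNil p B] [PNil p C] {n : ℕ} (φ : B →+* C) (c : Chain N n B) :
    (typC p c).map φ = typC p (c.map φ) := by
  rw [typC, ofSeq_map, typC, seq_map]
  congr 1
  funext k
  exact smap_uSeq φ c.pt (seq c) k

/-- the ring endomorphism of `Cob N n` given by typicalization -/
def rOp (p : ℕ) [Fact p.Prime] [PNil p N] (n : ℕ) : Cob N n →+* Cob N n :=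
  Cob.ev (typC p (Cob.univ N n))

/-- the homotopy operator -/
def hOp (p : ℕ) [Fact p.Prime] [PNil p N] (n : ℕ) : Cob N (n + 1) →+ Cob N n :=
  ∑ i ∈ Finset.range (n + 1), ((-1 : ℤ) ^ i) •
    (Cob.ev (prism p i (Cob.univ N n)) : Cob N (n + 1) →+* Cob N n).toAddMonoidHom

theorem ev_rOp [PNil p B] {n : ℕ} (c : Chain N n B) (z : Cob N n) :
    Cob.ev c (rOp p n z) = Cob.ev (typC p c) z := by
  rw [rOp, ← Cob.ev_map, typC_map, Cob.univ_map_ev]

theorem ev_hOp [PNil p B] {n : ℕ} (c : Chain N n B) (z : Cob N (n + 1)) :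
    Cob.ev c (hOp p n z) =
      ∑ i ∈ Finset.range (n + 1), ((-1 : ℤ) ^ i) • Cob.ev (prism p i c) z := by
  rw [hOp, AddMonoidHom.finsetSum_apply, map_sum]
  refine Finset.sum_congr rfl fun i _ => ?_
  rw [AddMonoidHom.smul_apply, map_zsmul]
  congr 1
  change Cob.ev c (Cob.ev (prism p i (Cob.univ N n)) z) = _
  rw [← Cob.ev_map, prism_map, Cob.univ_map_ev]

end

end Vale.Agent.P251.F.F3

end
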