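import Vale.Agent.P251.F.F3Norm
import Mathlib.Algebra.Polynomial.Laurent

/-! # P251 / F / F3Line : normalized functions of small weight vanish on typical chains -/

noncomputable section

namespace Vale.Agent.P251.F.F3

open Vale.Agent.P251.F LawRing

variable {N : Type} [CommRing N] {B C : Type} [CommRing B] [CommRing C]

/-- The sequence `1, f 0, f 1 * f 0, …` of products. -/
def prodSeq (f : ℕ → strict B) : ℕ → strict B
  | 0 => 1
  | k + 1 => f k * prodSeq f k

/-- the universal arrows -/
def uArr (n : ℕ) (B : Type) [CommRing B] (k : ℕ) : strict (MvPolynomial (Fin n × ℕ) B) :=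
  if h : k < n then ⟨strictMk fun m => MvPolynomial.X (⟨k, h⟩, m), strictMk_mem _⟩ else 1

/-- evaluation at a point and a sequence of arrows -/
def evArr {n : ℕ} (x : N →+* B) (f : ℕ → strict B) : MvPolynomial (Fin n × ℕ) N →+* B :=
  MvPolynomial.eval₂Hom x fun km => (f km.1 : InvSeries B).c (km.2 + 1)

theorem smap_one (φ : B →+* C) : smap φ (1 : strict B) = 1 := by
  apply Subtype.ext
  rw [val_smap, OneMemClass.coe_one, map_one, OneMemClass.coe_one]

theorem smap_mul (φ : B →+* C) (f g : strict B) : smap φ (f * g) = smap φ f * smap φ g := by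
  apply Subtype.ext
  rw [val_smap, Subgroup.coe_mul, map_mul, Subgroup.coe_mul, val_smap, val_smap]

theorem smap_prodSeq (φ : B →+* C) (f : ℕ → strict B) (k : ℕ) :
    smap φ (prodSeq f k) = prodSeq (fun k => smap φ (f k)) k := by
  induction k with
  | zero => exact smap_one φ
  | succ k ih => rw [prodSeq, smap_mul, ih]; rfl

theorem prodSeq_congr {n : ℕ} {f g : ℕ → strict B} (h : ∀ k < n, f k = g k) :
    ∀ k ≤ n, prodSeq f k = prodSeq g k := by
  intro k
  induction k with
  | zero => intro _; rfl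
  | succ k ih =>
    intro hk
    rw [prodSeq, prodSeq, ih (by omega), h k (by omega)]

theorem smap_uArr {n : ℕ} (x : N →+* B) (f : ℕ → strict B) {k : ℕ} (hk : k < n) :
    smap (evArr (n := n) x f) (uArr n N k) = f k := by
  apply Subtype.ext
  rw [val_smap, uArr, dif_pos hk]
  change InvSeries.map _ (strictMk _) = _
  rw [map_strictMk]
  have : (fun m => evArr (n := n) x f (MvPolynomial.X (⟨k, hk⟩, m))) =
      fun m => (f k : InvSeries B).c (m + 1) := by
    funext m
    rw [evArr, MvPolynomial.eval₂Hom_X']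
  rw [this]
  exact strictMk_c (f k).2

theorem prodSeq_eq_dup {k : ℕ} {f : ℕ → strict B} (h : f k = 1) :
    prodSeq f = dup k (prodSeq (del k f)) := by
  have h1 : ∀ j ≤ k, prodSeq f j = prodSeq (del k f) j :=
    prodSeq_congr (n := k) fun i hi => by simp only [del]; rw [if_pos hi]
  have h2 : ∀ j, prodSeq f (k + 1 + j) = prodSeq (del k f) (k + j) := by
    intro j
    induction j with
    | zero => rw [add_zero, add_zero, prodSeq, h, one_mul, h1 k le_rfl]
    | succ j ih =>
      rw [← add_assoc, ← add_assoc, prodSeq, prodSeq, ih]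
      congr 1
      simp only [del]
      rw [if_neg (by omega)]
      congr 1
      omega
  funext j
  simp only [dup]
  split_ifs with hj
  · exact h1 j hj
  · obtain ⟨i, rfl⟩ : ∃ i, j = k + 1 + i := ⟨j - (k + 1), by omega⟩
    rw [h2]
    congr 1
    omega

section

variable [LawRing N]

/-- a function on chains in terms of the arrows -/
def toArr {n : ℕ} (z : Cob N n) : MvPolynomial (Fin n × ℕ) N :=
  evSeq MvPolynomial.C z (prodSeq (uArr n N))

theorem evArr_toArr {n : ℕ} (z : Cob N n) (x : N →+* B) (f : ℕ → strict B) :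
    evArr x f (toArr z) = evSeq x z (prodSeq f) := by
  rw [toArr, evSeq, ← Cob.ev_map, ofSeq_map, evSeq]
  have h1 : (evArr (n := n) x f).comp MvPolynomial.C = x := by
    ext a
    simp [evArr]
  rw [h1]
  refine congrArg (fun c : Chain N n B => Cob.ev c z) (ofSeq_congr fun k hk => ?_)
  rw [smap_prodSeq]
  exact prodSeq_congr (n := n) (fun i hi => smap_uArr x f hi) k hk

theorem evSeq_eq_zero_of_arrow {n k : ℕ} {z : Cob N n} (hz : Nm n z) (hk : k < n) (x : N →+* B)
    {f : ℕ → strict B} (h : f k = 1) : evSeq x z (prodSeq f) = 0 := by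
  rw [prodSeq_eq_dup h]
  exact hz B x _ k hk

/-- kill the `k`-th block of variables -/
def kill {n : ℕ} (k : Fin n) : MvPolynomial (Fin n × ℕ) N →+* MvPolynomial (Fin n × ℕ) N :=
  MvPolynomial.eval₂Hom MvPolynomial.C fun jm => if jm.1 = k then 0 else MvPolynomial.X jm

omit [LawRing N] in
theorem coeff_kill {n : ℕ} (k : Fin n) (q : MvPolynomial (Fin n × ℕ) N) (μ : Fin n × ℕ →₀ ℕ)
    (hμ : ∀ m, μ (k, m) = 0) : MvPolynomial.coeff μ (kill k q) = MvPolynomial.coeff μ q := by
  classical
  induction q using MvPolynomial.induction_on' with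
  | monomial ν a =>
    have h1 : kill k (MvPolynomial.monomial ν a) =
        if (∀ m, ν (k, m) = 0) then MvPolynomial.monomial ν a else 0 := by
      rw [kill, MvPolynomial.coe_eval₂Hom, MvPolynomial.eval₂_monomial]
      split_ifs with h
      · rw [MvPolynomial.monomial_eq]
        congr 1
        refine Finsupp.prod_congr fun jm hjm => ?_
        rw [if_neg]
        rintro rfl
        rw [Finsupp.mem_support_iff] at hjm
        exact hjm (h jm.2)
      · push Not at h
        obtain ⟨m, hm⟩ := h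
        have : (ν.prod fun (n_1 : Fin n × ℕ) (e : ℕ) =>
            (if n_1.1 = k then (0 : MvPolynomial (Fin n × ℕ) N) else MvPolynomial.X n_1) ^ e) = 0 := by
          rw [Finsupp.prod]
          refine Finset.prod_eq_zero (i := (k, m)) (Finsupp.mem_support_iff.2 hm) ?_
          rw [if_pos rfl, zero_pow hm]
        rw [this, mul_zero]
    rw [h1]
    split_ifs with h
    · rfl
    · rw [MvPolynomial.coeff_zero, MvPolynomial.coeff_monomial, if_neg]
      rintro rfl
      exact h hμ
  | add p q hp hq => rw [map_add, MvPolynomial.coeff_add, MvPolynomial.coeff_add, hp, hq]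

/-- the monomials of a normalized function involve all arrows -/
theorem coeff_toArr_eq_zero {n : ℕ} {z : Cob N n} (hz : Nm n z) (k : Fin n)
    (μ : Fin n × ℕ →₀ ℕ) (hμ : ∀ m, μ (k, m) = 0) :
    MvPolynomial.coeff μ (toArr z) = 0 := by
  rw [← coeff_kill k _ μ hμ]
  have h1 : kill k (toArr z) = evArr MvPolynomial.C
      (fun j => if j = k then 1 else uArr n N j) (toArr z) := by
    congr 1
    refine MvPolynomial.ringHom_ext (fun a => ?_) (fun jm => ?_)
    · simp [kill, evArr]
    · rw [kill, evArr, MvPolynomial.eval₂Hom_X', MvPolynomial.eval₂Hom_X']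
      by_cases hj : jm.1 = k
      · rw [if_pos hj, if_pos (by rw [hj]), OneMemClass.coe_one, InvSeries.c_one_succ]
      · rw [if_neg hj, if_neg (fun h => hj (Fin.ext h)), uArr, dif_pos jm.1.2]
        simp
  rw [h1, evArr_toArr, evSeq_eq_zero_of_arrow hz k.2 _ (by rw [if_pos rfl]),
    MvPolynomial.coeff_zero]

/-! ### weights of the coefficients -/

/-- the weight of a monomial -/
def wtm {n : ℕ} (μ : Fin n × ℕ →₀ ℕ) : ℕ := μ.sum fun km e => e * (km.2 + 1)

omit [CommRing N] [LawRing N] in
theorem c_conj (u : Bˣ) (g : InvSeries B) (k : ℕ) :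
    ((InvSeries.lin u)⁻¹ * g * InvSeries.lin u).c k = (u : B) ^ k * g.c k := by
  have h1 : ((InvSeries.lin u)⁻¹ * g * InvSeries.lin u).val =
      PowerSeries.C ((u⁻¹ : Bˣ) : B) * PowerSeries.subst
        (PowerSeries.C (u : B) * PowerSeries.X : PowerSeries B) g.val := by
    rw [mul_assoc, ← map_inv, InvSeries.mul_val, InvSeries.lin_val,
      PowerSeries.subst_mul (g * InvSeries.lin u).hs, PowerSeries.subst_X (g * InvSeries.lin u).hs,
      PowerSeries.subst_C, InvSeries.mul_val, InvSeries.lin_val]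
    rfl
  have h2 : (PowerSeries.subst (PowerSeries.C (u : B) * PowerSeries.X : PowerSeries B) g.val :
      PowerSeries B) = PowerSeries.rescale (u : B) g.val := by
    rw [PowerSeries.rescale_eq_subst, PowerSeries.smul_eq_C_mul]
  rw [InvSeries.c, h1, h2, PowerSeries.coeff_C_mul, PowerSeries.coeff_rescale, ← mul_assoc,
    pow_succ', ← mul_assoc, Units.inv_mul, one_mul]
  rfl

omit [CommRing N] [LawRing N] in
theorem conjSeq_prodSeq (u : Bˣ) (f : ℕ → strict B) :
    conjSeq u (prodSeq f) = prodSeq (conjSeq u f) := by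
  funext k
  induction k with
  | zero =>
    apply Subtype.ext
    change (InvSeries.lin u)⁻¹ * ((1 : strict B) : InvSeries B) * InvSeries.lin u =
      ((1 : strict B) : InvSeries B)
    rw [OneMemClass.coe_one, mul_one, inv_mul_cancel]
  | succ k ih =>
    rw [prodSeq, ← ih]
    apply Subtype.ext
    rw [Subgroup.coe_mul]
    change (InvSeries.lin u)⁻¹ * ((f k * prodSeq f k : strict B) : InvSeries B) *
        InvSeries.lin u = ((InvSeries.lin u)⁻¹ * (f k : InvSeries B) * InvSeries.lin u) *
        ((InvSeries.lin u)⁻¹ * (prodSeq f k : InvSeries B) * InvSeries.lin u)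
    rw [Subgroup.coe_mul]
    group

omit [LawRing N] in
theorem coeff_eval_scaled {n : ℕ} (y : N →+* B) (u : B) (q : MvPolynomial (Fin n × ℕ) N)
    (μ : Fin n × ℕ →₀ ℕ) :
    MvPolynomial.coeff μ (MvPolynomial.eval₂Hom ((MvPolynomial.C : B →+* _).comp y)
      (fun km : Fin n × ℕ => MvPolynomial.C (u ^ (km.2 + 1)) * MvPolynomial.X km) q) =
    y (MvPolynomial.coeff μ q) * u ^ wtm μ := by
  classical
  induction q using MvPolynomial.induction_on' with
  | monomial ν a =>
    have h1 : (ν.prod fun (km : Fin n × ℕ) (e : ℕ) =>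
        ((MvPolynomial.C (u ^ (km.2 + 1)) * MvPolynomial.X km :
          MvPolynomial (Fin n × ℕ) B)) ^ e) =
        MvPolynomial.C (u ^ wtm ν) * ν.prod fun km e => MvPolynomial.X km ^ e := by
      rw [Finsupp.prod, Finsupp.prod, wtm, Finsupp.sum, ← Finset.prod_pow_eq_pow_sum, map_prod,
        ← Finset.prod_mul_distrib]
      refine Finset.prod_congr rfl fun km _ => ?_
      rw [mul_pow, ← map_pow, ← pow_mul, mul_comm (km.2 + 1)]
    rw [MvPolynomial.coe_eval₂Hom, MvPolynomial.eval₂_monomial, h1, ← mul_assoc,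
      RingHom.comp_apply, ← map_mul, ← MvPolynomial.monomial_eq, MvPolynomial.coeff_monomial,
      MvPolynomial.coeff_monomial]
    split_ifs with h
    · rw [h]
    · rw [map_zero, zero_mul]
  | add p q hp hq => rw [map_add, MvPolynomial.coeff_add, MvPolynomial.coeff_add, hp, hq,
      map_add, add_mul]

theorem coeff_weight {n : ℕ} {w : ℤ} {z : Cob N n} (hw : Cob.IsWt w z) (x : N →+* B) (u : Bˣ)
    (μ : Fin n × ℕ →₀ ℕ) :
    act (InvSeries.lin u)⁻¹ x (MvPolynomial.coeff μ (toArr z)) * (u : B) ^ wtm μ =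
      ((u ^ w : Bˣ) : B) * x (MvPolynomial.coeff μ (toArr z)) := by
  set x' : N →+* MvPolynomial (Fin n × ℕ) B := MvPolynomial.C.comp x with hx'
  set u' : (MvPolynomial (Fin n × ℕ) B)ˣ := Units.map
    ((MvPolynomial.C : B →+* MvPolynomial (Fin n × ℕ) B) : B →* MvPolynomial (Fin n × ℕ) B) u
    with hu'
  have h := hw _ (ofSeq n x' (prodSeq (uArr n B))) u'
  rw [ofSeq_scale, conjSeq_prodSeq] at h
  change evSeq _ z _ = _ * evSeq _ z _ at h
  rw [← evArr_toArr, ← evArr_toArr] at h
  have h1 : act (InvSeries.lin u')⁻¹ x' = MvPolynomial.C.comp (act (InvSeries.lin u)⁻¹ x) := by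
    rw [comp_act, map_inv, InvSeries.map_lin]
  have h2 : evArr (n := n) (act (InvSeries.lin u')⁻¹ x') (conjSeq u' (uArr n B)) =
      MvPolynomial.eval₂Hom ((MvPolynomial.C : B →+* _).comp (act (InvSeries.lin u)⁻¹ x))
      (fun km : Fin n × ℕ => MvPolynomial.C ((u : B) ^ (km.2 + 1)) * MvPolynomial.X km) := by
    rw [evArr, h1]
    congr 1
    funext km
    change ((InvSeries.lin u')⁻¹ * (uArr n B km.1 : InvSeries _) * InvSeries.lin u').c (km.2 + 1)
      = _
    rw [c_conj, uArr, dif_pos km.1.2]
    simp [hu']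
  have h3 : evArr (n := n) x' (uArr n B) = MvPolynomial.map x := by
    refine MvPolynomial.ringHom_ext (fun a => ?_) (fun km => ?_)
    · simp [evArr, hx']
    · rw [evArr, MvPolynomial.eval₂Hom_X', MvPolynomial.map_X, uArr, dif_pos km.1.2]
      simp
  rw [h2, h3] at h
  have h4 := congrArg (MvPolynomial.coeff μ) h
  rw [coeff_eval_scaled] at h4
  rw [h4]
  have h5 : ((u' ^ w : (MvPolynomial (Fin n × ℕ) B)ˣ) : MvPolynomial (Fin n × ℕ) B) =
      MvPolynomial.C ((u ^ w : Bˣ) : B) := by
    rw [hu', ← map_zpow]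
    rfl
  rw [h5, MvPolynomial.coeff_C_mul, MvPolynomial.coeff_map]

end

end Vale.Agent.P251.F.F3

end
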