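import Vale.Agent.P251.F.F3Sparse
import Vale.Agent.P251.I.F

/-! # P251 / F / F3w : proof of `F3w_statement` -/

namespace Vale.Agent.P251.F

open F3

/-- In a law ring killed by `p` whose points are determined by their laws, the cohomology is
concentrated in weights divisible by `p - 1`. -/
theorem F3w : I.F3w_statement := by
  intro p hp _ N _ _ hN hpN w hw
  have : PNil p N := ⟨by rw [hpN]; exact IsNilpotent.zero⟩
  have hw' : ¬ ((p - 1 : ℕ) : ℤ) ∣ w := by
    rwa [Nat.cast_sub hp.out.one_le, Nat.cast_one]
  exact ⟨fun z hz hd => eq_zero_of_cocycle (p := p) hN hw' hz hd,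
    fun s z hz hd => exists_of_cocycle (p := p) hN hw' hz hd⟩

end Vale.Agent.P251.F
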