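import Vale.Agent.P251.F.F3Line
import Vale.Agent.P251.F.F3w

/-! # P251 / F / F3Main : the vanishing line, proof of `F3_statement` -/

noncomputable section

namespace Vale.Agent.P251.F.F3

open Vale.Agent.P251.F LawRing
open scoped LaurentPolynomial

variable {N : Type} [CommRing N] [LawRing N] {B C : Type} [CommRing B] [CommRing C]
  {p : ℕ} [hpp : Fact p.Prime]

/-- the unit `T` of the ring of Laurent polynomials -/
def uT (N : Type) [CommRing N] : (N[T;T⁻¹])ˣ where
  val := LaurentPolynomial.T 1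
  inv := LaurentPolynomial.T (-1)
  val_inv := by rw [← LaurentPolynomial.T_add]; simp
  inv_val := by rw [← LaurentPolynomial.T_add]; simp

variable (N) in
/-- the law ring `N` has no elements of negative weight -/
def NoNeg : Prop := ∀ a : N, act (InvSeries.lin (uT N))⁻¹ (LaurentPolynomial.C : N →+* N[T;T⁻¹]) a
  ∈ (Polynomial.toLaurent : Polynomial N →+* N[T;T⁻¹]).range

omit [LawRing N] in
theorem uT_zpow (w : ℤ) : ((uT N ^ w : (N[T;T⁻¹])ˣ) : N[T;T⁻¹]) = LaurentPolynomial.T w := by
  have h1 : ∀ k : ℕ, ((uT N ^ k : (N[T;T⁻¹])ˣ) : N[T;T⁻¹]) = LaurentPolynomial.T k := by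
    intro k
    rw [Units.val_pow_eq_pow_val]
    change (LaurentPolynomial.T 1 : N[T;T⁻¹]) ^ k = _
    rw [LaurentPolynomial.T_pow, mul_one]
  cases w with
  | ofNat k => simpa using h1 k
  | negSucc k =>
    rw [zpow_negSucc]
    apply Units.inv_eq_of_mul_eq_one_right
    rw [h1, ← LaurentPolynomial.T_add, Int.negSucc_eq]
    push_cast
    simp

/-- In a law ring without negative weights the monomials of a function of weight `w` have
weight at most `w`. -/
theorem wtm_le (hN : NoNeg N) {n : ℕ} {w : ℤ} {z : Cob N n} (hw : Cob.IsWt w z)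
    {μ : Fin n × ℕ →₀ ℕ} (hμ : MvPolynomial.coeff μ (toArr z) ≠ 0) : (wtm μ : ℤ) ≤ w := by
  by_contra hlt
  push Not at hlt
  apply hμ
  set a := MvPolynomial.coeff μ (toArr z) with ha
  have h := coeff_weight hw (LaurentPolynomial.C : N →+* N[T;T⁻¹]) (uT N) μ
  rw [← ha, uT_zpow] at h
  obtain ⟨q, hq⟩ := hN a
  rw [← hq] at h
  have h1 : ((uT N : (N[T;T⁻¹])ˣ) : N[T;T⁻¹]) ^ wtm μ = LaurentPolynomial.T (wtm μ : ℤ) := by
    rw [← Units.val_pow_eq_pow_val, ← uT_zpow, zpow_natCast]
  obtain ⟨k, hk⟩ : ∃ k : ℕ, (wtm μ : ℤ) = w + (k + 1 : ℕ) := ⟨(wtm μ - w - 1).toNat, by omega⟩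
  have h2 : LaurentPolynomial.T w * (Polynomial.toLaurent (q * Polynomial.X ^ (k + 1))) =
      LaurentPolynomial.T w * (LaurentPolynomial.C a) := by
    rw [← h, h1, hk, map_mul, Polynomial.toLaurent_X_pow, LaurentPolynomial.T_add]
    ring
  have h3 : Polynomial.toLaurent (q * Polynomial.X ^ (k + 1)) = Polynomial.toLaurent
      (Polynomial.C a) := by
    have h4 := congrArg (fun f => LaurentPolynomial.T (-w) * f) h2
    simp only [← mul_assoc, ← LaurentPolynomial.T_add, neg_add_cancel, LaurentPolynomial.T_zero,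
      one_mul] at h4
    rw [h4, Polynomial.toLaurent_C]
  have h4 := Polynomial.toLaurent_injective h3
  have h5 := congrArg (fun f => Polynomial.coeff f 0) h4
  simp only [Polynomial.coeff_C_zero] at h5
  rw [← h5, Polynomial.mul_coeff_zero, Polynomial.coeff_X_pow]
  simp

/-- A normalized function of weight `w < q n` vanishes on chains whose arrows have coefficients
in weights `≥ q` only. -/
theorem evSeq_eq_zero_of_small (hN : NoNeg N) {n : ℕ} {w : ℤ} {z : Cob N n}
    (hw : Cob.IsWt w z) (hz : Nm n z) {q : ℕ} (hwq : w < q * n) (x : N →+* B)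
    {f : ℕ → strict B} (hf : ∀ k < n, ∀ m, m + 1 < q → (f k : InvSeries B).c (m + 1) = 0) :
    evSeq x z (prodSeq f) = 0 := by
  rw [← evArr_toArr, evArr, MvPolynomial.coe_eval₂Hom, MvPolynomial.eval₂_eq]
  refine Finset.sum_eq_zero fun μ hμ => ?_
  rw [MvPolynomial.mem_support_iff] at hμ
  have h1 := wtm_le hN hw hμ
  have h2 : ∀ k : Fin n, ∃ m, μ (k, m) ≠ 0 := by
    intro k
    by_contra h
    push Not at h
    exact hμ (coeff_toArr_eq_zero hz k μ h)
  obtain ⟨⟨k, m⟩, hkm, hm⟩ : ∃ km : Fin n × ℕ, μ km ≠ 0 ∧ km.2 + 1 < q := by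
    by_contra hcon
    push Not at hcon
    choose m hm using h2
    have h3 : q * n ≤ wtm μ := by
      calc q * n = ∑ k : Fin n, q := by simp [mul_comm]
        _ ≤ ∑ k : Fin n, μ (k, m k) * ((k, m k).2 + 1) := by
          refine Finset.sum_le_sum fun k _ => ?_
          have := hcon (k, m k) (hm k)
          have h4 : 1 ≤ μ (k, m k) := Nat.one_le_iff_ne_zero.2 (hm k)
          nlinarith
        _ = ∑ km ∈ Finset.univ.image (fun k : Fin n => (k, m k)), μ km * (km.2 + 1) := by
          rw [Finset.sum_image]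
          intro a _ b _ hab
          exact (Prod.mk.inj hab).1
        _ ≤ ∑ km ∈ μ.support, μ km * (km.2 + 1) := by
          refine Finset.sum_le_sum_of_subset ?_
          intro km hkm
          rw [Finset.mem_image] at hkm
          obtain ⟨k, -, rfl⟩ := hkm
          exact Finsupp.mem_support_iff.2 (hm k)
        _ = wtm μ := rfl
    have : ((q * n : ℕ) : ℤ) ≤ w := le_trans (by exact_mod_cast h3) h1
    push_cast at this
    omega
  rw [Finset.prod_eq_zero (i := ((k, m) : Fin n × ℕ)) (Finsupp.mem_support_iff.2 hkm), mul_zero]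
  rw [hf k k.2 m hm, zero_pow hkm]

/-- coefficients of the arrows of typical chains -/
theorem c_eq_zero_of_conj [PNil p B] {g : InvSeries B}
    (h : (InvSeries.lin (etaU p B))⁻¹ * g * InvSeries.lin (etaU p B) = g) {k : ℕ}
    (hk : ¬ (p - 1) ∣ k) : g.c k = 0 := by
  have h1 := congrArg (fun f => InvSeries.c f k) h
  simp only [c_conj] at h1
  have h2 : ((etaU p B : B) ^ k - 1) * g.c k = 0 := by rw [sub_mul, one_mul, h1, sub_self]
  exact (isUnit_etaU_pow_sub_one (p := p) (R := B) hk).mul_right_eq_zero.1 h2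

/-- the chain of a sequence in terms of its arrows -/
theorem evSeq_eq_prodSeq {n : ℕ} (x : N →+* B) (z : Cob N n) (U : ℕ → strict B) :
    evSeq x z U = evSeq (act (U 0 : InvSeries B) x) z
      (prodSeq fun k => U (k + 1) * (U k)⁻¹) := by
  have h : ∀ k, prodSeq (fun k => U (k + 1) * (U k)⁻¹) k = U k * (U 0)⁻¹ := by
    intro k
    induction k with
    | zero => rw [prodSeq, mul_inv_cancel]
    | succ k ih => rw [prodSeq, ih, mul_assoc, inv_mul_cancel_left]
  rw [evSeq, evSeq, ofSeq_translate x U _ (U 0 : InvSeries B)]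
  intro k _
  rw [h, Subgroup.coe_mul, Subgroup.coe_inv]

theorem rOp_eq_zero_of_small [PNil p N] (hinj : PtsInj N) (hN : NoNeg N) {n : ℕ} {w : ℤ}
    {z : Cob N n} (hw : Cob.IsWt w z) (hz : Nm n z) (hwq : w < ((p : ℤ) - 1) * n) :
    rOp p n z = 0 := by
  apply Cob.ext_ev
  intro B _ c
  have : PNil p B := pnil_map c.pt inferInstance
  rw [ev_rOp, map_zero, typC]
  change evSeq _ _ _ = 0
  rw [evSeq_eq_prodSeq]
  have hp1 := hpp.out.one_le
  have hwq' : w < (p - 1 : ℕ) * n := by rwa [Nat.cast_sub hp1, Nat.cast_one]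
  refine evSeq_eq_zero_of_small hN hw hz hwq' _ fun k _ m hm => ?_
  refine c_eq_zero_of_conj (p := p) ?_ (fun hd => ?_)
  · rw [Subgroup.coe_mul, Subgroup.coe_inv]
    set x := c.pt with hx
    set V := seq c with hV
    have h := lin_conj (p := p) ((V (k + 1) : InvSeries B) * (V k : InvSeries B)⁻¹)
      ((V k : InvSeries B) • (law : Law N).map x)
    rw [smul_smul, inv_mul_cancel_right] at h
    have h2 : (uSeq p x V (k + 1) : InvSeries B) * (uSeq p x V k : InvSeries B)⁻¹ =
        tyS p ((V (k + 1) : InvSeries B) • (law : Law N).map x) *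
          ((V (k + 1) : InvSeries B) * (V k : InvSeries B)⁻¹) *
          (tyS p ((V k : InvSeries B) • (law : Law N).map x))⁻¹ := by
      rw [val_uSeq, val_uSeq]
      group
    rw [← h2] at h
    generalize (uSeq p x V (k + 1) : InvSeries B) * (uSeq p x V k : InvSeries B)⁻¹ = W at h ⊢
    generalize InvSeries.lin (etaU p B) = l at h ⊢
    calc l⁻¹ * W * l = l⁻¹ * (l * W * l⁻¹) * l := by rw [h]
      _ = W := by group
  · have := Nat.le_of_dvd (by omega) hd
    omega

/-- **Vanishing line**: if `N` has no negative weights, cocycles of degree `n + 1` and weight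
`w < (p-1)(n+1)` are coboundaries. -/
theorem exists_of_cocycle_of_small [PNil p N] (hinj : PtsInj N) (hN : NoNeg N) {n : ℕ} {w : ℤ}
    {z : Cob N (n + 1)} (hw : Cob.IsWt w z) (hd : Cob.d (n + 1) z = 0)
    (hwq : w < ((p : ℤ) - 1) * (n + 1)) :
    ∃ y : Cob N n, Cob.IsWt w y ∧ Cob.d n y = z := by
  obtain ⟨y, hy, hyn⟩ := exists_norm hw hd
  have hw' : Cob.IsWt w (z - Cob.d n y) := by
    rw [sub_eq_add_neg]
    exact hw.add hy.d.neg
  have hd' : Cob.d (n + 1) (z - Cob.d n y) = 0 := by rw [map_sub, hd, Cob.d_d, sub_zero]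
  have hr := rOp_eq_zero_of_small (p := p) hinj hN hw' hyn (by push_cast; exact hwq)
  have h := hOp_d_add_d_hOp (p := p) (z - Cob.d n y)
  rw [hd', map_zero, zero_add, hr, zero_sub] at h
  refine ⟨y - hOp p n (z - Cob.d n y), ?_, ?_⟩
  · rw [sub_eq_add_neg]
    exact hy.add (isWt_hOp hw').neg
  · rw [map_sub, h]
    abel

/-- functions of negative weight vanish in degree `0` -/
theorem eq_zero_of_neg (hN : NoNeg N) {w : ℤ} (hw0 : w < 0) {z : Cob N 0}
    (hw : Cob.IsWt w z) : z = 0 := by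
  apply Cob.ext_ev
  intro B _ c
  rw [map_zero, ← ofSeq_seq c]
  change evSeq _ _ _ = 0
  rw [evSeq_eq_prodSeq]
  exact evSeq_eq_zero_of_small hN hw (fun B _ x G j hj => absurd hj (Nat.not_lt_zero j))
    (q := 0) (by simpa using hw0) _ fun k hk => absurd hk (Nat.not_lt_zero k)

end Vale.Agent.P251.F.F3

end
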