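import Vale.Agent.P251.F.F3Zp

/-! # P251 / F / F3Maps : linear maps between points of formal group laws; the series `[a]_F` -/

noncomputable section

namespace Vale.Agent.P251.F.F3

open MvPowerSeries

variable {p : ℕ} {R : Type*} [CommRing R] {S : Type*} [CommRing S] {σ τ : Type*}

namespace Pt

variable {F G : FormalGroup R}

/-- Substitution `f ↦ f(b)`, `b` a finite family of series without constant term. -/
def substHom [Finite σ] (F : FormalGroup R) (b : σ → MvPowerSeries τ R)
    (hb : ∀ s, constantCoeff (b s) = 0) : Pt F σ →+ Pt F τ where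
  toFun f := mk F (subst b f.val)
    (constantCoeff_subst_eq_zero (hasSubst_of_constantCoeff_zero hb) hb f.const)
  map_zero' := by
    apply ext
    rw [val_mk, val_zero, val_zero, ← coe_substAlgHom (hasSubst_of_constantCoeff_zero hb), map_zero]
  map_add' f g := by
    apply ext
    rw [val_mk, val_add, val_add, val_mk, val_mk,
      subst_comp_subst_apply (hasSubst_pair f.const g.const) (hasSubst_of_constantCoeff_zero hb)]
    congr 1
    funext i
    fin_cases i <;> rfl

theorem val_substHom [Finite σ] (F : FormalGroup R) (b : σ → MvPowerSeries τ R)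
    (hb : ∀ s, constantCoeff (b s) = 0) (f : Pt F σ) : (substHom F b hb f).val = subst b f.val :=
  rfl

theorem substHom_zsmul [Fact p.Prime] [PNil p R] [Finite σ] (F : FormalGroup R)
    (b : σ → MvPowerSeries τ R) (hb : ∀ s, constantCoeff (b s) = 0) (a : ℤ_[p]) (f : Pt F σ) :
    substHom F b hb (a • f) = a • substHom F b hb f :=
  map_zsmul_of_eqMod (substHom F b hb)
    (fun _ _ _ h => EqMod.subst_left (hasSubst_of_constantCoeff_zero hb) hb h) a f

/-- A homomorphism `g : F → G` of formal group laws (no constant term) acts on points. -/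
def mapHom (g : PowerSeries R) (h0 : PowerSeries.constantCoeff g = 0)
    (hg : ∀ f f' : Pt F σ, PowerSeries.subst (F.toPowerSeries.subst ![f.val, f'.val]) g =
      G.toPowerSeries.subst ![PowerSeries.subst f.val g, PowerSeries.subst f'.val g]) :
    Pt F σ →+ Pt G σ where
  toFun f := mk G (PowerSeries.subst f.val g) (PowerSeries.constantCoeff_subst_eq_zero f.const g h0)
  map_zero' := by
    apply ext
    rw [val_mk, val_zero, val_zero, PowerSeries.subst_zero_of_constantCoeff_zero h0]
  map_add' f f' := by
    apply ext
    rw [val_mk, val_add, val_add, val_mk, val_mk, hg]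

theorem val_mapHom (g : PowerSeries R) (h0 : PowerSeries.constantCoeff g = 0)
    (hg : ∀ f f' : Pt F σ, PowerSeries.subst (F.toPowerSeries.subst ![f.val, f'.val]) g =
      G.toPowerSeries.subst ![PowerSeries.subst f.val g, PowerSeries.subst f'.val g])
    (f : Pt F σ) : (mapHom g h0 hg f).val = PowerSeries.subst f.val g := rfl

theorem mapHom_zsmul [Fact p.Prime] [PNil p R] (g : PowerSeries R)
    (h0 : PowerSeries.constantCoeff g = 0)
    (hg : ∀ f f' : Pt F σ, PowerSeries.subst (F.toPowerSeries.subst ![f.val, f'.val]) g =
      G.toPowerSeries.subst ![PowerSeries.subst f.val g, PowerSeries.subst f'.val g])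
    (a : ℤ_[p]) (f : Pt F σ) : mapHom g h0 hg (a • f) = a • mapHom g h0 hg f :=
  map_zsmul_of_eqMod (mapHom g h0 hg) (fun _ f f' h => by
    rw [val_mapHom, val_mapHom]
    exact EqMod.subst_right (hasSubst f).const (hasSubst f').const _ fun _ => h) a f

/-- Base change. -/
def baseHom (φ : R →+* S) (F : FormalGroup R) : Pt F σ →+ Pt (F.map φ) σ where
  toFun f := mk _ (MvPowerSeries.map φ f.val) (by
    rw [constantCoeff_map, f.const, map_zero])
  map_zero' := by
    apply ext
    rw [val_mk, val_zero, val_zero, map_zero]
  map_add' f f' := by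
    apply ext
    rw [val_mk, val_add, val_add, val_mk, val_mk, map_subst (hasSubst_pair f.const f'.const)]
    rw [FormalGroup.map_toPowerSeries]
    congr 1
    funext i
    fin_cases i <;> rfl

theorem val_baseHom (φ : R →+* S) (F : FormalGroup R) (f : Pt F σ) :
    (baseHom φ F f).val = MvPowerSeries.map φ f.val := rfl

theorem baseHom_zsmul [Fact p.Prime] [PNil p R] [PNil p S] (φ : R →+* S) (F : FormalGroup R)
    (a : ℤ_[p]) (f : Pt F σ) : baseHom φ F (a • f) = a • baseHom φ F f :=
  map_zsmul_of_eqMod (baseHom φ F) (fun m f f' h e he => by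
    rw [val_baseHom, val_baseHom, coeff_map, coeff_map, h e he]) a f

/-- the point `X` -/
def ptX (F : FormalGroup R) : Pt F Unit := mk F (PowerSeries.X : PowerSeries R)
  PowerSeries.constantCoeff_X

@[simp] theorem val_ptX (F : FormalGroup R) : (ptX F).val = (PowerSeries.X : PowerSeries R) := rfl

end Pt

end Vale.Agent.P251.F.F3

end
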