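import Vale.Agent.P251.F.F3Sparse

/-! # P251 / F / F3Norm : normalization of cochains

Every cocycle of the cobar complex `Cob N •` is cohomologous to a normalized one (of the same
weight). -/

noncomputable section

namespace Vale.Agent.P251.F.F3

/-- repeat the `i`-th entry -/
def dup {W : Type*} (i : ℕ) (G : ℕ → W) : ℕ → W := fun k => if k ≤ i then G k else G (k - 1)

section

variable {W M : Type*} [AddCommGroup M] (X : (ℕ → W) → M)

theorem del_dup_lt {i j : ℕ} (h : i < j) (G : ℕ → W) :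
    del i (dup j G) = dup (j - 1) (del i G) := by
  funext k
  simp only [del, dup]
  split_ifs <;> first | rfl | omega | (congr 1; omega)

theorem del_dup_self (j : ℕ) (G : ℕ → W) : del j (dup j G) = G := by
  funext k
  simp only [del, dup]
  split_ifs <;> first | rfl | omega

theorem del_succ_dup (j : ℕ) (G : ℕ → W) : del (j + 1) (dup j G) = G := by
  funext k
  simp only [del, dup]
  split_ifs <;> first | rfl | omega | (congr 1; omega)

theorem del_dup_gt {i j : ℕ} (h : j + 1 < i) (G : ℕ → W) :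
    del i (dup j G) = dup j (del (i - 1) G) := by
  funext k
  simp only [del, dup]
  split_ifs <;> first | rfl | omega | (congr 1; omega)

theorem dup_dup {j k : ℕ} (h : j < k) (G : ℕ → W) :
    dup k (dup j G) = dup j (dup (k - 1) G) := by
  funext l
  simp only [dup]
  split_ifs <;> first | rfl | omega | (congr 1; omega)

/-- the alternating sum of the first `m` faces -/
def altD (m : ℕ) (X : (ℕ → W) → M) (G : ℕ → W) : M :=
  ∑ i ∈ Finset.range m, ((-1 : ℤ) ^ i) • X (del i G)

theorem altD_dup {m k : ℕ} (hm : k + 2 ≤ m) (hX : ∀ j < k, ∀ G, X (dup j G) = 0) (G : ℕ → W) :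
    altD m X (dup k G) = ∑ i ∈ Finset.Ico (k + 2) m, ((-1 : ℤ) ^ i) • X (dup k (del (i - 1) G)) := by
  rw [altD, ← Finset.sum_range_add_sum_Ico _ hm, Finset.sum_range_succ, Finset.sum_range_succ]
  have h1 : ∑ i ∈ Finset.range k, ((-1 : ℤ) ^ i) • X (del i (dup k G)) = 0 := by
    refine Finset.sum_eq_zero fun i hi => ?_
    rw [Finset.mem_range] at hi
    rw [del_dup_lt hi, hX _ (by omega), smul_zero]
  rw [h1, del_dup_self, del_succ_dup, pow_succ, mul_neg_one, neg_smul, zero_add, add_neg_cancel,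
    zero_add]
  refine Finset.sum_congr rfl fun i hi => ?_
  rw [Finset.mem_Ico] at hi
  rw [del_dup_gt (by omega)]

/-- faces of a cochain vanishing on the first degenerate simplices vanish on them -/
theorem altD_dup_eq_zero {m j k : ℕ} (hjk : j < k) (hm : j + 2 ≤ m)
    (hX : ∀ j < k, ∀ G, X (dup j G) = 0) (G : ℕ → W) : altD m X (dup j G) = 0 := by
  rw [altD_dup X hm (fun i hi => hX i (by omega))]
  refine Finset.sum_eq_zero fun i _ => ?_
  rw [hX j hjk, smul_zero]

/-- The main computation of the normalization. -/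
theorem altD_norm {n k : ℕ} (hk : k ≤ n) (hX : ∀ j < k, ∀ G, X (dup j G) = 0)
    (hd : ∀ G, altD (n + 3) X G = 0) (G : ℕ → W) :
    altD (n + 2) (fun G => X (dup k G)) (dup k G) = ((-1 : ℤ) ^ k) • X (dup k G) := by
  have hY : ∀ j < k, ∀ G, (fun G => X (dup k G)) (dup j G) = 0 := by
    intro j hj G
    change X (dup k (dup j G)) = 0
    rw [dup_dup hj, hX j hj]
  have h1 := hd (dup k (dup k G))
  rw [altD_dup X (by omega) hX, Finset.sum_Ico_eq_sum_range] at h1
  have e1 : n + 3 - (k + 2) = (n + 2 - (k + 2)) + 1 := by omega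
  rw [e1, Finset.sum_range_succ'] at h1
  have e2 : k + 2 + 0 - 1 = k + 1 := by omega
  rw [e2, del_succ_dup, add_zero] at h1
  rw [altD_dup _ (by omega) hY, Finset.sum_Ico_eq_sum_range]
  have h2 : ∀ i ∈ Finset.range (n + 2 - (k + 2)),
      ((-1 : ℤ) ^ (k + 2 + (i + 1))) • X (dup k (del (k + 2 + (i + 1) - 1) (dup k G))) =
      - (((-1 : ℤ) ^ (k + 2 + i)) • X (dup k (dup k (del (k + 2 + i - 1) G)))) := by
    intro i _
    have e3 : k + 2 + (i + 1) - 1 = k + 2 + i := by omega
    rw [e3, del_dup_gt (by omega), ← add_assoc, pow_succ, mul_neg_one, neg_smul]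
  rw [Finset.sum_congr rfl h2, Finset.sum_neg_distrib, neg_add_eq_zero] at h1
  rw [h1, pow_add]
  norm_num

end

open Vale.Agent.P251.F LawRing

variable {N : Type} [CommRing N] [LawRing N] {B C : Type} [CommRing B] [CommRing C]

theorem ofSeq_res_dup {n i : ℕ} (hi : i < n + 1) (x : N →+* B) (G : ℕ → strict B) :
    (ofSeq n x G).res (Fin.predAbove (⟨i, hi⟩ : Fin (n + 1))) = ofSeq (n + 1) x (dup i G) := by
  have h : ∀ k : Fin (n + 2), G ((Fin.predAbove (⟨i, hi⟩ : Fin (n + 1)) k : Fin (n + 1)) : ℕ) =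
      dup i G k := by
    intro k
    simp only [dup, Fin.predAbove, Fin.lt_def, Fin.val_castSucc]
    split_ifs <;> first | rfl | omega
  have h0 := h 0
  rw [Fin.val_zero] at h0
  ext1
  · rw [Chain.res_pt, ofSeq_pt, ofSeq_g, ofSeq_pt, ← act_mul, inv_mul_cancel_right, h0]
  · funext k
    rw [Chain.res_g, ofSeq_g, ofSeq_g, ofSeq_g, h0, h k, mul_inv_rev, inv_inv, mul_assoc,
      inv_mul_cancel_left]

/-- `z` vanishes on chains whose `j`-th arrow, `j < k`, is an identity -/
def Nm {n : ℕ} (k : ℕ) (z : Cob N n) : Prop :=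
  ∀ (B : Type) [CommRing B] (x : N →+* B) (G : ℕ → strict B), ∀ j < k, evSeq x z (dup j G) = 0

theorem evSeq_add {n : ℕ} (x : N →+* B) (y z : Cob N n) (G : ℕ → strict B) :
    evSeq x (y + z) G = evSeq x y G + evSeq x z G := map_add _ _ _

theorem evSeq_sub {n : ℕ} (x : N →+* B) (y z : Cob N n) (G : ℕ → strict B) :
    evSeq x (y - z) G = evSeq x y G - evSeq x z G := map_sub _ _ _

theorem evSeq_zsmul {n : ℕ} (x : N →+* B) (a : ℤ) (z : Cob N n) (G : ℕ → strict B) :
    evSeq x (a • z) G = a • evSeq x z G := map_zsmul _ _ _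

theorem evSeq_d {n : ℕ} (x : N →+* B) (z : Cob N n) (G : ℕ → strict B) :
    evSeq x (Cob.d n z) G = altD (n + 2) (evSeq x z) G := ev_d_ofSeq x z G

/-- One step of the normalization. -/
theorem norm_step {n k : ℕ} (hk : k ≤ n) {w : ℤ} {z : Cob N (n + 1)} (hw : Cob.IsWt w z)
    (hd : Cob.d (n + 1) z = 0) (hz : Nm k z) :
    ∃ y : Cob N n, Cob.IsWt w y ∧ Nm (k + 1) (z - Cob.d n y) := by
  set y := Cob.map (Fin.predAbove (⟨k, by omega⟩ : Fin (n + 1))) z with hy
  have hyw : Cob.IsWt w y := hw.map _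
  have hyev : ∀ (B : Type) [CommRing B] (x : N →+* B) (G : ℕ → strict B),
      evSeq x y G = evSeq x z (dup k G) := by
    intro B _ x G
    rw [evSeq, hy, Cob.ev_map_res, ofSeq_res_dup, evSeq]
  refine ⟨((-1 : ℤ) ^ k) • y, hyw.zsmul _, ?_⟩
  intro B _ x G j hj
  have hX : ∀ j < k, ∀ G, evSeq x z (dup j G) = 0 := fun j hj G => hz B x G j hj
  have hdX : ∀ G, altD (n + 3) (evSeq x z) G = 0 := by
    intro G
    rw [← evSeq_d, hd, evSeq, map_zero]
  have hyfun : evSeq x y = fun G => evSeq x z (dup k G) := funext fun G => hyev B x G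
  rw [evSeq_sub, map_zsmul, evSeq_zsmul, evSeq_d, hyfun]
  rcases Nat.lt_succ_iff_lt_or_eq.1 hj with h | rfl
  · rw [hX j h, altD_dup_eq_zero _ h (by omega), smul_zero, sub_zero]
    intro i hi G
    change evSeq x z (dup k (dup i G)) = 0
    rw [dup_dup hi, hX i hi]
  · rw [altD_norm _ hk hX hdX, smul_smul, ← pow_add, ← two_mul, pow_mul]
    simp

/-- **Normalization**: every cocycle is cohomologous to a normalized one of the same weight. -/
theorem exists_norm {n : ℕ} {w : ℤ} {z : Cob N (n + 1)} (hw : Cob.IsWt w z)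
    (hd : Cob.d (n + 1) z = 0) :
    ∃ y : Cob N n, Cob.IsWt w y ∧ Nm (n + 1) (z - Cob.d n y) := by
  have key : ∀ k ≤ n + 1, ∃ y : Cob N n, Cob.IsWt w y ∧ Nm k (z - Cob.d n y) := by
    intro k
    induction k with
    | zero =>
      intro _
      exact ⟨0, Cob.isWt_zero w, fun B _ x G j hj => absurd hj (Nat.not_lt_zero j)⟩
    | succ k ih =>
      intro hk
      obtain ⟨y, hyw, hy⟩ := ih (by omega)
      have hw' : Cob.IsWt w (z - Cob.d n y) := by
        rw [sub_eq_add_neg]
        exact hw.add hyw.d.neg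
      have hd' : Cob.d (n + 1) (z - Cob.d n y) = 0 := by
        rw [map_sub, hd, Cob.d_d, sub_zero]
      obtain ⟨y', hyw', hy'⟩ := norm_step (by omega) hw' hd' hy
      refine ⟨y + y', hyw.add hyw', ?_⟩
      rwa [map_add, ← sub_sub]
  exact key (n + 1) le_rfl

end Vale.Agent.P251.F.F3

end
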