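import Mathlib.RingTheory.FormalGroup.Basic
import Mathlib.NumberTheory.Padics.RingHoms
import Mathlib.Tactic

/-! # P251 / F / F3Pt : points of a formal group law with zero constant term

Congruences of power series modulo total degree, the group of points `Pt F σ` (power series in the
variables `σ` without constant term, with the addition `F(f,g)`), and its `ℤ_p`-module structure when
`p` is nilpotent in the coefficient ring. -/

noncomputable section

namespace Vale.Agent.P251.F.F3

open MvPowerSeries

variable {R : Type*} [CommRing R] {S : Type*} [CommRing S] {σ τ : Type*}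

/-- Congruence of power series modulo terms of total degree `≥ m`. -/
def EqMod (m : ℕ) (f g : MvPowerSeries σ R) : Prop :=
  ∀ e : σ →₀ ℕ, e.degree < m → coeff e f = coeff e g

namespace EqMod

theorem refl (m : ℕ) (f : MvPowerSeries σ R) : EqMod m f f := fun _ _ => rfl

theorem symm {m : ℕ} {f g : MvPowerSeries σ R} (h : EqMod m f g) : EqMod m g f :=
  fun e he => (h e he).symm

theorem trans {m : ℕ} {f g k : MvPowerSeries σ R} (h : EqMod m f g) (h' : EqMod m g k) :
    EqMod m f k := fun e he => (h e he).trans (h' e he)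

theorem mono {m n : ℕ} {f g : MvPowerSeries σ R} (hmn : m ≤ n) (h : EqMod n f g) : EqMod m f g :=
  fun e he => h e (he.trans_le hmn)

theorem add {m : ℕ} {f g f' g' : MvPowerSeries σ R} (h : EqMod m f f') (h' : EqMod m g g') :
    EqMod m (f + g) (f' + g') := fun e he => by
  rw [map_add, map_add, h e he, h' e he]

theorem sub {m : ℕ} {f g f' g' : MvPowerSeries σ R} (h : EqMod m f f') (h' : EqMod m g g') :
    EqMod m (f - g) (f' - g') := fun e he => by
  rw [map_sub, map_sub, h e he, h' e he]

theorem mul {m : ℕ} {f g f' g' : MvPowerSeries σ R} (h : EqMod m f f') (h' : EqMod m g g') :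
    EqMod m (f * g) (f' * g') := fun e he => by
  classical
  rw [coeff_mul, coeff_mul]
  refine Finset.sum_congr rfl fun x hx => ?_
  rw [Finset.mem_antidiagonal] at hx
  have h1 : x.1.degree + x.2.degree = e.degree := by rw [← hx, map_add]
  rw [h x.1 (by omega), h' x.2 (by omega)]

theorem pow {m : ℕ} {f f' : MvPowerSeries σ R} (h : EqMod m f f') (n : ℕ) :
    EqMod m (f ^ n) (f' ^ n) := by
  induction n with
  | zero => simpa using refl m 1
  | succ n ih => rw [pow_succ, pow_succ]; exact ih.mul h

theorem prod {ι : Type*} {m : ℕ} (s : Finset ι) (f f' : ι → MvPowerSeries σ R)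
    (h : ∀ i ∈ s, EqMod m (f i) (f' i)) : EqMod m (∏ i ∈ s, f i) (∏ i ∈ s, f' i) := by
  classical
  induction s using Finset.induction_on with
  | empty => simpa using refl m 1
  | insert a s ha ih =>
    rw [Finset.prod_insert ha, Finset.prod_insert ha]
    exact (h a (Finset.mem_insert_self _ _)).mul
      (ih fun i hi => h i (Finset.mem_insert_of_mem hi))

theorem finsuppProd {m : ℕ} (d : τ →₀ ℕ) (a a' : τ → MvPowerSeries σ R)
    (h : ∀ t, EqMod m (a t) (a' t)) :
    EqMod m (d.prod fun t k => a t ^ k) (d.prod fun t k => a' t ^ k) :=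
  prod _ _ _ fun t _ => (h t).pow _

end EqMod

theorem eq_of_eqMod {f g : MvPowerSeries σ R} (h : ∀ m, EqMod m f g) : f = g := by
  ext e
  exact h (e.degree + 1) e (Nat.lt_succ_self _)

/-- a product of `n` factors, each of order `≥ k`, has no terms of degree `< k n` -/
theorem coeff_finsuppProd_eq_zero {k : ℕ} (d : τ →₀ ℕ) (a : τ → MvPowerSeries σ R)
    (h : ∀ t, EqMod k (a t) 0) (e : σ →₀ ℕ) (he : e.degree < k * d.degree) :
    coeff e (d.prod fun t k => a t ^ k) = 0 := by
  apply coeff_of_lt_order
  have h1 : ∀ t, (k : ℕ∞) ≤ (a t).order := fun t => by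
    refine le_order fun e he => ?_
    rw [h t e (by exact_mod_cast he), map_zero]
  have h2 : ∀ s : Finset τ, ((∑ t ∈ s, k * d t : ℕ) : ℕ∞) ≤ (∏ t ∈ s, a t ^ d t).order := by
    classical
    intro s
    induction s using Finset.induction_on with
    | empty => simp
    | insert b s hb ih =>
      rw [Finset.sum_insert hb, Finset.prod_insert hb, Nat.cast_add]
      refine le_trans (add_le_add ?_ ih) le_order_mul
      calc ((k * d b : ℕ) : ℕ∞) = d b • (k : ℕ∞) := by simp [mul_comm]
        _ ≤ d b • (a b).order := by gcongr; exact h1 b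
        _ ≤ _ := le_order_pow _
  calc ((e.degree : ℕ) : ℕ∞) < ((k * d.degree : ℕ) : ℕ∞) := by exact_mod_cast he
    _ = ((∑ t ∈ d.support, k * d t : ℕ) : ℕ∞) := by
      rw [Finsupp.degree_apply, Finset.mul_sum]
    _ ≤ _ := h2 d.support

/-- Substituting congruent series. -/
theorem EqMod.subst_right {m : ℕ} {a a' : τ → MvPowerSeries σ R} (ha : HasSubst a)
    (ha' : HasSubst a') (f : MvPowerSeries τ R) (h : ∀ t, EqMod m (a t) (a' t)) :
    EqMod m (subst a f) (subst a' f) := fun e he => by
  rw [coeff_subst ha, coeff_subst ha']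
  congr 1
  ext d
  rw [EqMod.finsuppProd d a a' h e he]

/-- Substituting series of order `≥ k` into congruent series. -/
theorem EqMod.subst_left' {m k : ℕ} {a : τ → MvPowerSeries σ R} (ha : HasSubst a)
    (ha0 : ∀ t, EqMod k (a t) 0) {f f' : MvPowerSeries τ R} (h : EqMod m f f') :
    EqMod (k * m) (subst a f) (subst a f') := fun e he => by
  rw [coeff_subst ha, coeff_subst ha]
  congr 1
  ext d
  by_cases hd : d.degree < m
  · rw [h d hd]
  · rw [coeff_finsuppProd_eq_zero d a ha0 e (he.trans_le (Nat.mul_le_mul_left _ (not_lt.1 hd))),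
      smul_zero, smul_zero]

theorem eqMod_one_iff {f : MvPowerSeries σ R} : EqMod 1 f 0 ↔ constantCoeff f = 0 := by
  constructor
  · intro h
    simpa using h 0 (by simp)
  · intro h e he
    have : e = 0 := by
      rw [← Finsupp.degree_eq_zero_iff]
      omega
    rw [this, coeff_zero_eq_constantCoeff_apply, h, map_zero]

/-- Substituting into congruent series. -/
theorem EqMod.subst_left {m : ℕ} {a : τ → MvPowerSeries σ R} (ha : HasSubst a)
    (ha0 : ∀ t, constantCoeff (a t) = 0) {f f' : MvPowerSeries τ R} (h : EqMod m f f') :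
    EqMod m (subst a f) (subst a f') := by
  have := EqMod.subst_left' (k := 1) ha (fun t => eqMod_one_iff.2 (ha0 t)) h
  rwa [one_mul] at this

theorem hasSubst_pair {f g : MvPowerSeries σ R} (hf : constantCoeff f = 0)
    (hg : constantCoeff g = 0) : HasSubst ![f, g] :=
  hasSubst_of_constantCoeff_zero (by intro s; fin_cases s <;> simpa)

theorem eqMod_pair {m : ℕ} {f g f' g' : MvPowerSeries σ R} (h : EqMod m f f')
    (h' : EqMod m g g') : ∀ t, EqMod m (![f, g] t) (![f', g'] t) := by
  intro t
  fin_cases t
  · exact h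
  · exact h'

/-! ### points -/

/-- The points of the formal group law `F` in power series in the variables `σ` without constant
term. -/
def Pt (_F : FormalGroup R) (σ : Type*) : Type _ := {f : MvPowerSeries σ R // constantCoeff f = 0}

namespace Pt

variable {F : FormalGroup R}

/-- the underlying series -/
def val (f : Pt F σ) : MvPowerSeries σ R := Subtype.val f

theorem const (f : Pt F σ) : constantCoeff f.val = 0 := Subtype.prop f

/-- constructor -/
def mk (F : FormalGroup R) (f : MvPowerSeries σ R) (hf : constantCoeff f = 0) : Pt F σ := ⟨f, hf⟩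

@[simp] theorem val_mk (f : MvPowerSeries σ R) (hf : constantCoeff f = 0) :
    (mk F f hf).val = f := rfl

theorem ext {f g : Pt F σ} (h : f.val = g.val) : f = g := Subtype.ext h

theorem ext_iff {f g : Pt F σ} : f = g ↔ f.val = g.val := ⟨fun h => h ▸ rfl, ext⟩

theorem hasSubst (f : Pt F σ) : PowerSeries.HasSubst f.val :=
  PowerSeries.HasSubst.of_constantCoeff_zero f.const

theorem const_add (F : FormalGroup R) {f g : MvPowerSeries σ R} (hf : constantCoeff f = 0)
    (hg : constantCoeff g = 0) : constantCoeff (F.toPowerSeries.subst ![f, g]) = 0 :=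
  constantCoeff_subst_eq_zero (hasSubst_pair hf hg) (by intro s; fin_cases s <;> simpa)
    F.zero_constantCoeff

instance : Zero (Pt F σ) := ⟨⟨0, by simp⟩⟩

instance : Add (Pt F σ) := ⟨fun f g => ⟨F.toPowerSeries.subst ![f.val, g.val],
  const_add F f.const g.const⟩⟩

@[simp] theorem val_zero : (0 : Pt F σ).val = 0 := rfl

theorem val_add (f g : Pt F σ) : (f + g).val = F.toPowerSeries.subst ![f.val, g.val] := rfl

instance : AddMonoid (Pt F σ) where
  zero_add x := ext (FormalGroup.zero_add F x.hasSubst)
  add_zero x := ext (FormalGroup.add_zero F x.hasSubst)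
  nsmul := nsmulRec
  add_assoc x y z := ext <| F.assoc' x.hasSubst y.hasSubst z.hasSubst

instance [F.IsComm] : AddCommMonoid (Pt F σ) where
  add_comm x y := ext <| F.comm' x.hasSubst y.hasSubst

theorem eqMod_add {m : ℕ} {f g f' g' : Pt F σ} (h : EqMod m f.val f'.val)
    (h' : EqMod m g.val g'.val) : EqMod m (f + g).val (f' + g').val := by
  rw [val_add, val_add]
  exact EqMod.subst_right (hasSubst_pair f.const g.const) (hasSubst_pair f'.const g'.const) _
    (eqMod_pair h h')

theorem eqMod_nsmul {m : ℕ} {f f' : Pt F σ} (h : EqMod m f.val f'.val) (n : ℕ) :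
    EqMod m (n • f).val (n • f').val := by
  induction n with
  | zero => simpa using EqMod.refl m 0
  | succ n ih => rw [succ_nsmul, succ_nsmul]; exact eqMod_add ih h

theorem eqMod_add_left {m : ℕ} {f f' : Pt F σ} (h : EqMod m f.val f'.val) (g : Pt F σ) :
    EqMod m (f + g).val (f' + g).val := eqMod_add h (EqMod.refl _ _)

/-- `F(f,g) = f + g` modulo terms of order `2k` if `f`, `g` are of order `≥ k`. -/
theorem eqMod_add_linear {k : ℕ} {f g : Pt F σ} (hf : EqMod k f.val 0) (hg : EqMod k g.val 0) :
    EqMod (2 * k) (f + g).val (f.val + g.val) := by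
  have h0 : EqMod 2 F.toPowerSeries (X 0 + X 1) := by
    intro e he
    have h1 : e.degree = e 0 + e 1 := by
      rw [Finsupp.degree_eq_sum, Fin.sum_univ_two]
    have h2 : e = 0 ∨ e = Finsupp.single 0 1 ∨ e = Finsupp.single 1 1 := by
      have : (e 0 = 0 ∧ e 1 = 0) ∨ (e 0 = 1 ∧ e 1 = 0) ∨ (e 0 = 0 ∧ e 1 = 1) := by omega
      rcases this with h | h | h
      · left; ext i; fin_cases i <;> simp [h]
      · right; left; ext i; fin_cases i <;> simp [h]
      · right; right; ext i; fin_cases i <;> simp [h]
    rcases h2 with rfl | rfl | rfl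
    · rw [coeff_zero_eq_constantCoeff_apply, coeff_zero_eq_constantCoeff_apply,
        F.zero_constantCoeff]
      simp
    · rw [F.lin_coeff_X, map_add, coeff_index_single_X, coeff_index_single_X]
      simp
    · rw [F.lin_coeff_Y, map_add, coeff_index_single_X, coeff_index_single_X]
      simp
  have hs : HasSubst ![f.val, g.val] := hasSubst_pair f.const g.const
  have h1 := EqMod.subst_left' (k := k) (a := ![f.val, g.val]) hs
    (by intro t; fin_cases t; exacts [hf, hg]) h0
  rw [subst_add hs, subst_X hs, subst_X hs] at h1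
  rw [mul_comm]
  simpa [val_add] using h1

theorem eqMod_nsmul_linear {k : ℕ} {f : Pt F σ} (hf : EqMod k f.val 0) (n : ℕ) :
    EqMod k (n • f).val 0 ∧ EqMod (2 * k) (n • f).val (n • f.val) := by
  induction n with
  | zero => simpa using ⟨EqMod.refl k 0, EqMod.refl (2 * k) 0⟩
  | succ n ih =>
    obtain ⟨h1, h2⟩ := ih
    have h3 := eqMod_add_linear h1 hf
    have h4 : EqMod (2 * k) (n • f + f).val (n • f.val + f.val) :=
      h3.trans (h2.add (EqMod.refl _ _))
    rw [succ_nsmul, succ_nsmul]
    refine ⟨?_, h4⟩
    refine (h3.mono (by omega)).trans ?_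
    simpa using h1.add hf

end Pt

end Vale.Agent.P251.F.F3

end
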