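import Mathlib.NumberTheory.Padics.RingHoms
import Mathlib.NumberTheory.Padics.Hensel
import Mathlib.RingTheory.IntegralDomain
import Mathlib.Tactic

/-! # P251 / F / F3Root : the roots of unity of order `p - 1` in `ℤ_p` -/

namespace Vale.Agent.P251.F.F3

variable {p : ℕ} [hp : Fact p.Prime]

theorem isUnit_iff_toZMod {x : ℤ_[p]} : IsUnit x ↔ PadicInt.toZMod x ≠ 0 := by
  rw [← not_iff_not, not_not, ← RingHom.mem_ker, PadicInt.ker_toZMod, IsLocalRing.mem_maximalIdeal,
    mem_nonunits_iff]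

/-- There is a primitive `(p-1)`-st root of unity in `ℤ_p`, and it stays primitive modulo `p`. -/
theorem exists_eta (p : ℕ) [hp : Fact p.Prime] : ∃ η : ℤ_[p], η ^ (p - 1) = 1 ∧
    ∀ i : ℕ, ¬ (p - 1) ∣ i → IsUnit (η ^ i - 1) := by
  have hp2 := hp.out.two_le
  obtain ⟨g, hg⟩ := IsCyclic.exists_generator (α := (ZMod p)ˣ)
  have hord : orderOf g = p - 1 := by
    rw [orderOf_eq_card_of_forall_mem_zpowers hg, Nat.card_eq_fintype_card,
      ZMod.card_units]
  obtain ⟨a, ha⟩ : ∃ a : ℤ_[p], PadicInt.toZMod a = (g : ZMod p) :=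
    ⟨((g : ZMod p).val : ℤ_[p]), by simp⟩
  have hone : PadicInt.toZMod (a ^ (p - 1) - 1) = 0 := by
    rw [map_sub, map_pow, ha, ← Units.val_pow_eq_pow_val, ← hord, pow_orderOf_eq_one]
    simp
  have haU : IsUnit a := isUnit_iff_toZMod.2 (by rw [ha]; exact g.ne_zero)
  have hp1 : IsUnit ((p - 1 : ℕ) : ℤ_[p]) := by
    rw [isUnit_iff_toZMod, map_natCast]
    intro h
    rw [ZMod.natCast_eq_zero_iff] at h
    have := Nat.le_of_dvd (by omega) h
    omega
  let P : Polynomial ℤ_[p] := Polynomial.X ^ (p - 1) - 1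
  have hP : ∀ x : ℤ_[p], P.aeval x = x ^ (p - 1) - 1 := fun x => by simp [P]
  have hP' : P.derivative.aeval a = ((p - 1 : ℕ) : ℤ_[p]) * a ^ (p - 1 - 1) := by
    simp only [P, Polynomial.derivative_sub, Polynomial.derivative_one, sub_zero,
      Polynomial.derivative_X_pow]
    simp
  have h1 : ‖P.derivative.aeval a‖ = 1 := by
    rw [hP', ← PadicInt.isUnit_iff]
    exact hp1.mul (haU.pow _)
  have h2 : ‖P.aeval a‖ < 1 := by
    rw [hP, ← PadicInt.not_isUnit_iff, isUnit_iff_toZMod, not_not]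
    exact hone
  obtain ⟨z, hz, hza, -, -⟩ := hensels_lemma (F := P) (a := a) (by rw [h1]; simpa using h2)
  rw [h1] at hza
  have hz1 : PadicInt.toZMod z = (g : ZMod p) := by
    rw [← ha, ← sub_eq_zero, ← map_sub]
    by_contra h
    have h := isUnit_iff_toZMod.2 h
    rw [PadicInt.isUnit_iff] at h
    rw [h] at hza
    exact lt_irrefl _ hza
  refine ⟨z, ?_, fun i hi => ?_⟩
  · rw [hP] at hz
    exact sub_eq_zero.1 hz
  · rw [isUnit_iff_toZMod, map_sub, map_pow, hz1, map_one, sub_ne_zero]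
    intro h
    apply hi
    rw [← hord]
    apply orderOf_dvd_of_pow_eq_one
    ext
    simpa using h

end Vale.Agent.P251.F.F3
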