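import Vale.Agent.P251.F.F3Homot

/-! # P251 / F / F3Sparse : the homotopy identity, weights, sparseness -/

noncomputable section

namespace Vale.Agent.P251.F.F3

open Vale.Agent.P251.F LawRing

variable {N : Type} [CommRing N] [LawRing N] {B C : Type} [CommRing B] [CommRing C]
  {p : ℕ} [hpp : Fact p.Prime] [PNil p N]

/-- evaluation of `x` on the chain of a sequence -/
def evSeq {n : ℕ} (x : N →+* B) (z : Cob N n) (G : ℕ → strict B) : B := Cob.ev (ofSeq n x G) z

omit [PNil p N] in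
theorem evSeq_congr {n : ℕ} (x : N →+* B) (z : Cob N n) {G G' : ℕ → strict B}
    (h : ∀ k ≤ n, G k = G' k) : evSeq x z G = evSeq x z G' := by
  rw [evSeq, evSeq, ofSeq_congr h]

omit hpp [PNil p N] in
theorem ev_d_ofSeq {n : ℕ} (x : N →+* B) (z : Cob N n) (G : ℕ → strict B) :
    Cob.ev (ofSeq (n + 1) x G) (Cob.d n z) =
      ∑ j ∈ Finset.range (n + 2), ((-1 : ℤ) ^ j) • evSeq x z (del j G) := by
  rw [Cob.ev_d, Finset.sum_range]
  refine Finset.sum_congr rfl fun j _ => ?_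
  rw [ofSeq_res, evSeq]

omit [PNil p N] in
theorem prism_ofSeq [PNil p B] {n : ℕ} {i : ℕ} (hi : i ≤ n) (x : N →+* B) (G : ℕ → strict B) :
    prism p i (ofSeq n x G) = ofSeq (n + 1) x (prs i G (uSeq p x G)) := by
  rw [prism, ofSeq_pt]
  have hV : ∀ k ≤ n, (seq (ofSeq n x G) k : InvSeries B) = G k * (G 0 : InvSeries B)⁻¹ := by
    intro k hk
    change (ofSeq n x G).g ⟨min k n, _⟩ = _
    rw [ofSeq_g]
    congr 3
    simp
    omega
  have hU : ∀ k ≤ n, (uSeq p (act (G 0 : InvSeries B) x) (seq (ofSeq n x G)) k : InvSeries B) =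
      uSeq p x G k * (G 0 : InvSeries B)⁻¹ := fun k hk => uSeq_translate _ _ _ _ _ (hV k hk)
  refine ofSeq_translate x _ _ _ fun k hk => ?_
  simp only [prs]
  split_ifs with h
  · exact hV k (by omega)
  · exact hU (k - 1) (by omega)

theorem ev_hOp_ofSeq [PNil p B] {n : ℕ} (x : N →+* B) (G : ℕ → strict B) (z : Cob N (n + 1)) :
    Cob.ev (ofSeq n x G) (hOp p n z) =
      ∑ i ∈ Finset.range (n + 1), ((-1 : ℤ) ^ i) • evSeq x z (prs i G (uSeq p x G)) := by
  rw [ev_hOp]
  refine Finset.sum_congr rfl fun i hi => ?_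
  rw [Finset.mem_range] at hi
  rw [prism_ofSeq (by omega), evSeq]

/-- the homotopy identity in positive degrees -/
theorem hOp_d_add_d_hOp {n : ℕ} (z : Cob N (n + 1)) :
    hOp p (n + 1) (Cob.d (n + 1) z) + Cob.d n (hOp p n z) = rOp p (n + 1) z - z := by
  apply Cob.ext_ev
  intro B _ c
  have : PNil p B := pnil_map c.pt inferInstance
  rw [map_add, map_sub, ev_rOp]
  set x := c.pt with hx
  set V := seq c with hV
  set U := uSeq p x V with hU
  have hc : c = ofSeq (n + 1) x V := (ofSeq_seq c).symm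
  have h1 : Cob.ev c (hOp p (n + 1) (Cob.d (n + 1) z)) =
      ∑ i ∈ Finset.range (n + 1 + 1), ∑ j ∈ Finset.range (n + 1 + 2),
        ((-1 : ℤ) ^ (i + j)) • evSeq x z (del j (prs i V U)) := by
    rw [ev_hOp]
    refine Finset.sum_congr rfl fun i _ => ?_
    rw [prism, ev_d_ofSeq, Finset.smul_sum]
    refine Finset.sum_congr rfl fun j _ => ?_
    rw [smul_smul, ← pow_add]
  have h2 : Cob.ev c (Cob.d n (hOp p n z)) =
      ∑ i ∈ Finset.range (n + 1), ∑ j ∈ Finset.range (n + 1 + 1),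
        ((-1 : ℤ) ^ (i + j)) • evSeq x z (prs i (del j V) (del j U)) := by
    rw [Finset.sum_comm]
    rw [hc, ev_d_ofSeq]
    refine Finset.sum_congr rfl fun j _ => ?_
    rw [evSeq, ev_hOp_ofSeq, Finset.smul_sum]
    refine Finset.sum_congr rfl fun i _ => ?_
    rw [smul_smul, ← pow_add, add_comm, uSeq_del]
  rw [h1, h2, prism_identity]
  congr 1
  rw [← ofSeq_seq c]
  refine evSeq_congr x z fun k hk => ?_
  simp only [mix]
  rw [if_pos (by omega)]

/-- the homotopy identity in degree `0` -/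
theorem hOp_d_zero (z : Cob N 0) : hOp p 0 (Cob.d 0 z) = rOp p 0 z - z := by
  apply Cob.ext_ev
  intro B _ c
  have : PNil p B := pnil_map c.pt inferInstance
  rw [map_sub, ev_rOp]
  set x := c.pt with hx
  set V := seq c with hV
  set U := uSeq p x V with hU
  have h1 : Cob.ev c (hOp p 0 (Cob.d 0 z)) =
      ∑ i ∈ Finset.range (0 + 1), ∑ j ∈ Finset.range (0 + 2),
        ((-1 : ℤ) ^ (i + j)) • evSeq x z (del j (prs i V U)) := by
    rw [ev_hOp]
    refine Finset.sum_congr rfl fun i _ => ?_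
    rw [prism, ev_d_ofSeq, Finset.smul_sum]
    refine Finset.sum_congr rfl fun j _ => ?_
    rw [smul_smul, ← pow_add]
  have h3 := prism_identity V U (evSeq x z) 0
  rw [Finset.range_zero, Finset.sum_empty, add_zero] at h3
  rw [h1, h3]
  congr 1
  rw [← ofSeq_seq c]
  refine evSeq_congr x z fun k hk => ?_
  simp only [mix]
  rw [if_pos (by omega)]

/-! ### weights -/

omit hpp [PNil p N] in
theorem seq_scale {n : ℕ} (c : Chain N n B) (u : Bˣ) :
    seq (c.scale u) = conjSeq u (seq c) := rfl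

omit [PNil p N] in
theorem prism_scale [PNil p B] {n : ℕ} (i : ℕ) (c : Chain N n B) (u : Bˣ) :
    prism p i (c.scale u) = (prism p i c).scale u := by
  rw [prism, prism, ofSeq_scale, conjSeq_prs, seq_scale, ← uSeq_conj]
  rfl

omit [PNil p N] in
theorem typC_scale [PNil p B] {n : ℕ} (c : Chain N n B) (u : Bˣ) :
    typC p (c.scale u) = (typC p c).scale u := by
  rw [typC, typC, ofSeq_scale, seq_scale, ← uSeq_conj]
  rfl

theorem isWt_hOp {n : ℕ} {w : ℤ} {z : Cob N (n + 1)} (hz : Cob.IsWt w z) :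
    Cob.IsWt w (hOp p n z) := by
  intro B _ c u
  have : PNil p B := pnil_map c.pt inferInstance
  rw [ev_hOp, ev_hOp, Finset.mul_sum]
  refine Finset.sum_congr rfl fun i _ => ?_
  rw [prism_scale, hz, mul_smul_comm]

theorem isWt_rOp {n : ℕ} {w : ℤ} {z : Cob N n} (hz : Cob.IsWt w z) :
    Cob.IsWt w (rOp p n z) := by
  intro B _ c u
  have : PNil p B := pnil_map c.pt inferInstance
  rw [ev_rOp, ev_rOp, typC_scale, hz]

/-! ### sparseness -/

variable (N) in
/-- the points of the law ring `N` are determined by their laws -/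
def PtsInj : Prop := ∀ (B : Type) [CommRing B] (x y : N →+* B),
  (law : Law N).map x = (law : Law N).map y → x = y

omit [PNil p N] in
theorem scale_typC [PNil p B] (hN : PtsInj N) {n : ℕ} (c : Chain N n B) :
    (typC p c).scale (etaU p B) = typC p c := by
  set x := c.pt with hx
  set V := seq c with hV
  ext1
  · change act (InvSeries.lin (etaU p B))⁻¹ (act (uSeq p x V 0 : InvSeries B) x) =
      act (uSeq p x V 0 : InvSeries B) x
    apply hN
    rw [law_act, law_act, inv_smul_eq_iff, val_uSeq, mul_smul]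
    exact (lin_smul_typ _).symm
  · funext i
    change (InvSeries.lin (etaU p B))⁻¹ * ((uSeq p x V i : InvSeries B) *
      (uSeq p x V 0 : InvSeries B)⁻¹) * InvSeries.lin (etaU p B) = (uSeq p x V i : InvSeries B) *
      (uSeq p x V 0 : InvSeries B)⁻¹
    have h := lin_conj (p := p) ((V i : InvSeries B) * (V 0 : InvSeries B)⁻¹)
      ((V 0 : InvSeries B) • (law : Law N).map x)
    rw [smul_smul, inv_mul_cancel_right] at h
    have h2 : (uSeq p x V i : InvSeries B) * (uSeq p x V 0 : InvSeries B)⁻¹ =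
        tyS p ((V i : InvSeries B) • (law : Law N).map x) *
          ((V i : InvSeries B) * (V 0 : InvSeries B)⁻¹) *
          (tyS p ((V 0 : InvSeries B) • (law : Law N).map x))⁻¹ := by
      rw [val_uSeq, val_uSeq]
      group
    rw [← h2] at h
    generalize (uSeq p x V i : InvSeries B) * (uSeq p x V 0 : InvSeries B)⁻¹ = W at h ⊢
    generalize InvSeries.lin (etaU p B) = l at h ⊢
    calc l⁻¹ * W * l = l⁻¹ * (l * W * l⁻¹) * l := by rw [h]
      _ = W := by group

theorem etaU_zpow_mod [PNil p B] (w : ℤ) :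
    (etaU p B) ^ w = (etaU p B) ^ (w % ((p - 1 : ℕ) : ℤ)).toNat := by
  have hp2 := hpp.out.two_le
  have h1 : 0 ≤ w % ((p - 1 : ℕ) : ℤ) := Int.emod_nonneg _ (by omega)
  conv_lhs => rw [← Int.emod_add_mul_ediv w ((p - 1 : ℕ) : ℤ)]
  rw [zpow_add, zpow_mul, zpow_natCast, etaU_pow, one_zpow, mul_one]
  conv_lhs => rw [← Int.toNat_of_nonneg h1]
  rw [zpow_natCast]

/-- Functions of weight `w`, `(p-1) ∤ w`, vanish on typical chains. -/
theorem rOp_eq_zero (hN : PtsInj N) {n : ℕ} {w : ℤ} (hw : ¬ ((p - 1 : ℕ) : ℤ) ∣ w)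
    {z : Cob N n} (hz : Cob.IsWt w z) : rOp p n z = 0 := by
  apply Cob.ext_ev
  intro B _ c
  have : PNil p B := pnil_map c.pt inferInstance
  rw [ev_rOp, map_zero]
  have h := hz B (typC p c) (etaU p B)
  rw [scale_typC hN, etaU_zpow_mod] at h
  have hp2 := hpp.out.two_le
  have h1 : 0 ≤ w % ((p - 1 : ℕ) : ℤ) := Int.emod_nonneg _ (by omega)
  have h2 : w % ((p - 1 : ℕ) : ℤ) < ((p - 1 : ℕ) : ℤ) := Int.emod_lt_of_pos _ (by omega)
  have h3 : w % ((p - 1 : ℕ) : ℤ) ≠ 0 := fun h => hw (Int.dvd_of_emod_eq_zero h)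
  have hi : ¬ (p - 1) ∣ (w % ((p - 1 : ℕ) : ℤ)).toNat := by
    intro hd
    have := Nat.le_of_dvd (by omega) hd
    omega
  have hu := isUnit_etaU_pow_sub_one (p := p) (R := B) hi
  rw [Units.val_pow_eq_pow_val] at h
  have h4 : ((etaU p B : B) ^ (w % ((p - 1 : ℕ) : ℤ)).toNat - 1) * Cob.ev (typC p c) z = 0 := by
    rw [sub_mul, one_mul, ← h, sub_self]
  exact (hu.mul_right_eq_zero).1 h4

/-- **Sparseness**: cocycles of weight `w`, `(p-1) ∤ w`, are coboundaries. -/
theorem exists_of_cocycle (hN : PtsInj N) {n : ℕ} {w : ℤ} (hw : ¬ ((p - 1 : ℕ) : ℤ) ∣ w)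
    {z : Cob N (n + 1)} (hz : Cob.IsWt w z) (hd : Cob.d (n + 1) z = 0) :
    ∃ y : Cob N n, Cob.IsWt w y ∧ Cob.d n y = z := by
  refine ⟨- hOp p n z, (isWt_hOp hz).neg, ?_⟩
  have h := hOp_d_add_d_hOp (p := p) z
  rw [hd, map_zero, zero_add, rOp_eq_zero hN hw hz, zero_sub] at h
  rw [map_neg, h, neg_neg]

theorem eq_zero_of_cocycle (hN : PtsInj N) {w : ℤ} (hw : ¬ ((p - 1 : ℕ) : ℤ) ∣ w)
    {z : Cob N 0} (hz : Cob.IsWt w z) (hd : Cob.d 0 z = 0) : z = 0 := by
  have h := hOp_d_zero (p := p) z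
  rw [hd, map_zero, rOp_eq_zero hN hw hz, zero_sub] at h
  exact neg_eq_zero.1 h.symm

end Vale.Agent.P251.F.F3

end
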