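import Vale.Agent.P251.F.F3Series
import Vale.Agent.P251.F.Series

/-! # P251 / F / F3Typ : typicalization of formal group laws, `p` nilpotent

`etaS F = [η]_F` is an automorphism of `F` natural in `F`, and `ftS F` is a strict series, natural
in `F`, with `etaS F * ftS F = ftS F * lin η`. Hence `(ftS F)⁻¹ • F` is a law fixed by `lin η`, and
for each isomorphism `g : F → g • F` the isomorphism `(ftS (g • F))⁻¹ * g * ftS F` commutes with
`lin η`. -/

noncomputable section

namespace Vale.Agent.P251.F.F3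

open MvPowerSeries Vale.Agent.P217

variable {p : ℕ} [hpp : Fact p.Prime] {R : Type*} [CommRing R] {S : Type*} [CommRing S]
  {σ τ : Type*}

variable [PNil p R] [PNil p S]

omit hpp [PNil p R] [PNil p S] in
theorem pnil_map (φ : R →+* S) (h : PNil p R) : PNil p S :=
  ⟨by simpa using h.isNilpotent.map φ⟩

variable (p R) in
/-- the image of `η` in `R`, as a unit -/
def etaU : Rˣ := Units.map (rho p R : ℤ_[p] →* R)
  (Units.ofPowEqOne (eta p) (p - 1) eta_pow (by have := hpp.out.two_le; omega))

@[simp] theorem val_etaU : (etaU p R : R) = rho p R (eta p) := rfl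

theorem etaU_pow : (etaU p R) ^ (p - 1) = 1 := by
  ext
  rw [Units.val_pow_eq_pow_val, val_etaU, rho_eta_pow, Units.val_one]

theorem isUnit_etaU_pow_sub_one {i : ℕ} (h : ¬ (p - 1) ∣ i) :
    IsUnit ((etaU p R : R) ^ i - 1) := by
  have := (isUnit_eta_pow_sub_one h).map (rho p R)
  rwa [map_sub, map_pow, map_one] at this

theorem map_etaU (φ : R →+* S) : Units.map (φ : R →* S) (etaU p R) = etaU p S := by
  ext
  exact map_rho φ (eta p)

variable (p) in
/-- `[η]_F` as an invertible series -/
def etaS (F : Law R) : InvSeries R where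
  val := pser F.toFG (eta p)
  cc := constantCoeff_pser _ _
  isUnit := by
    rw [coeff_one_pser]
    exact (etaU p R).isUnit

@[simp] theorem etaS_val (F : Law R) : (etaS p F).val = pser F.toFG (eta p) := rfl

/-- `[η]_F` is an endomorphism of `F` -/
theorem etaS_smul (F : Law R) : etaS p F • F = F := by
  rw [InvSeries.smul_eq_iff_isHom]
  refine ⟨(etaS p F).cc, ?_⟩
  have h := subst_pser_add (F := F.toFG) (eta p) (Pt.mk F.toFG (X 0 : MvPowerSeries (Fin 2) R)
    (by simp)) (Pt.mk F.toFG (X 1) (by simp))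
  rw [Pt.val_mk, Pt.val_mk] at h
  have h2 : (![X 0, X 1] : Fin 2 → MvPowerSeries (Fin 2) R) = X := by
    funext i
    fin_cases i <;> rfl
  rw [h2, subst_self, id] at h
  exact h

/-- `[η]` commutes with isomorphisms -/
theorem etaS_conj (f : InvSeries R) (F : Law R) :
    etaS p (f • F) * f = f * etaS p F := by
  ext1
  have h := subst_pser_hom (F := F.toFG) (G := (f • F).toFG) (eta p) f.val f.cc
    (fun a b => IsHom_subst_add (InvSeries.isHom_smul f F) a.const b.const)
  rw [InvSeries.mul_val, InvSeries.mul_val]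
  exact h.symm

theorem map_etaS (φ : R →+* S) (F : Law R) :
    InvSeries.map φ (etaS p F) = etaS p (F.map φ) := by
  ext1
  exact map_pser φ (eta p)

variable (p) in
/-- the natural strict series `ft F` -/
def ftS (F : Law R) : InvSeries R where
  val := ft p F.toFG
  cc := constantCoeff_ft
  isUnit := by
    rw [coeff_one_ft]
    exact isUnit_one

@[simp] theorem ftS_val (F : Law R) : (ftS p F).val = ft p F.toFG := rfl

theorem ftS_mem (F : Law R) : ftS p F ∈ strict R := by
  rw [mem_strict]
  exact coeff_one_ft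

/-- `[η]_F ∘ ft = ft ∘ η` -/
theorem etaS_mul_ftS (F : Law R) :
    etaS p F * ftS p F = ftS p F * InvSeries.lin (etaU p R) := by
  ext1
  rw [InvSeries.mul_val, InvSeries.mul_val]
  exact (ft_eta (p := p) (F := F.toFG)).symm

theorem map_ft (φ : R →+* S) (F : FormalGroup R) [F.IsComm] :
    PowerSeries.map φ (ft p F) = ft p (F.map φ) := by
  have h : Pt.baseHom φ F (ftPt p F) = ftPt p (F.map φ) := by
    rw [ftPt, Pt.baseHom_zsmul, map_sum, ftPt]
    congr 1
    refine Finset.sum_congr rfl fun k _ => ?_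
    rw [Pt.baseHom_zsmul]
    congr 1
    apply Pt.ext
    rw [Pt.val_baseHom, val_scal, val_scal, Pt.val_ptX, Pt.val_ptX,
      PowerSeries.subst_X (hasSubst_CX _), PowerSeries.subst_X (hasSubst_CX _)]
    change PowerSeries.map φ _ = _
    rw [map_mul, PowerSeries.map_C, PowerSeries.map_X, map_pow, map_rho]
  exact congrArg Pt.val h

theorem map_ftS (φ : R →+* S) (F : Law R) :
    InvSeries.map φ (ftS p F) = ftS p (F.map φ) := by
  ext1
  exact map_ft φ F.toFG

/-- compatibility of `ft` with scaling -/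
theorem ftS_lin (l : Rˣ) (F : Law R) :
    ftS p (InvSeries.lin l • F) * InvSeries.lin l = InvSeries.lin l * ftS p F := by
  ext1
  rw [InvSeries.mul_val, InvSeries.mul_val]
  have hg : ∀ a b : Pt F.toFG Unit, PowerSeries.subst (F.toFG.toPowerSeries.subst ![a.val, b.val])
      (InvSeries.lin l).val = (InvSeries.lin l • F).toFG.toPowerSeries.subst
        ![PowerSeries.subst a.val (InvSeries.lin l).val,
          PowerSeries.subst b.val (InvSeries.lin l).val] :=
    fun a b => IsHom_subst_add (InvSeries.isHom_smul (InvSeries.lin l) F) a.const b.const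
  have hs : Pt.mapHom (InvSeries.lin l).val (InvSeries.lin l).cc hg (ftPt p F.toFG) =
      scal (InvSeries.lin l • F).toFG (l : R) (ftPt p (InvSeries.lin l • F).toFG) := by
    rw [ftPt, Pt.mapHom_zsmul, map_sum, ftPt, scal_zsmul, map_sum]
    congr 1
    refine Finset.sum_congr rfl fun k _ => ?_
    rw [Pt.mapHom_zsmul, scal_zsmul, scal_scal]
    congr 1
    apply Pt.ext
    rw [Pt.val_mapHom, val_scal, val_scal, Pt.val_ptX, Pt.val_ptX,
      PowerSeries.subst_X (hasSubst_CX _), PowerSeries.subst_X (hasSubst_CX _),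
      InvSeries.lin_val, subst_CX_CX, mul_comm (l : R)]
  exact (congrArg Pt.val hs).symm

/-! ### the typicalization -/

variable (p) in
/-- the natural strict isomorphism `F → typ F` -/
def tyS (F : Law R) : InvSeries R := (ftS p F)⁻¹

variable (p) in
/-- the typical law `typ F` -/
def typ (F : Law R) : Law R := tyS p F • F

theorem tyS_mem (F : Law R) : tyS p F ∈ strict R := inv_mem (ftS_mem F)

theorem map_tyS (φ : R →+* S) (F : Law R) : InvSeries.map φ (tyS p F) = tyS p (F.map φ) := by
  rw [tyS, map_inv, map_ftS, tyS]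

/-- compatibility of `tyS` with scaling -/
theorem tyS_lin (l : Rˣ) (F : Law R) :
    tyS p (InvSeries.lin l • F) = InvSeries.lin l * tyS p F * (InvSeries.lin l)⁻¹ := by
  have h := ftS_lin (p := p) l F
  rw [tyS, tyS, inv_eq_iff_eq_inv, mul_inv_rev, mul_inv_rev, inv_inv, inv_inv, ← mul_assoc, ← h,
    mul_assoc, mul_inv_cancel, mul_one]

/-- `tyS F * [η]_F = η * tyS F` -/
theorem tyS_mul_etaS (F : Law R) :
    tyS p F * etaS p F = InvSeries.lin (etaU p R) * tyS p F := by
  have h := etaS_mul_ftS (p := p) F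
  rw [tyS, inv_mul_eq_iff_eq_mul, ← mul_assoc, ← h, mul_assoc, mul_inv_cancel, mul_one]

/-- `typ F` is fixed by the scaling by `η` -/
theorem lin_smul_typ (F : Law R) : InvSeries.lin (etaU p R) • typ p F = typ p F := by
  rw [typ, smul_smul, ← tyS_mul_etaS, mul_smul, etaS_smul]

/-- isomorphisms of typical laws commute with the scaling by `η` -/
theorem lin_conj (g : InvSeries R) (F : Law R) :
    InvSeries.lin (etaU p R) * (tyS p (g • F) * g * (tyS p F)⁻¹) * (InvSeries.lin (etaU p R))⁻¹ =
      tyS p (g • F) * g * (tyS p F)⁻¹ := by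
  have h1 := tyS_mul_etaS (p := p) (g • F)
  have h2 := tyS_mul_etaS (p := p) F
  have h3 := etaS_conj (p := p) g F
  have h4 : (tyS p F)⁻¹ * (InvSeries.lin (etaU p R))⁻¹ = (etaS p F)⁻¹ * (tyS p F)⁻¹ := by
    rw [← mul_inv_rev, ← mul_inv_rev, h2]
  calc InvSeries.lin (etaU p R) * (tyS p (g • F) * g * (tyS p F)⁻¹) *
        (InvSeries.lin (etaU p R))⁻¹
      = (InvSeries.lin (etaU p R) * tyS p (g • F)) * g *
        ((tyS p F)⁻¹ * (InvSeries.lin (etaU p R))⁻¹) := by group
    _ = (tyS p (g • F) * etaS p (g • F)) * g * ((etaS p F)⁻¹ * (tyS p F)⁻¹) := by rw [h1, h4]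
    _ = tyS p (g • F) * (etaS p (g • F) * g) * (etaS p F)⁻¹ * (tyS p F)⁻¹ := by group
    _ = tyS p (g • F) * (g * etaS p F) * (etaS p F)⁻¹ * (tyS p F)⁻¹ := by rw [h3]
    _ = tyS p (g • F) * g * (tyS p F)⁻¹ := by group

end Vale.Agent.P251.F.F3

end
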