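import Vale.Agent.P251.F.F3Pt

/-! # P251 / F / F3Zp : the `ℤ_p`-module of points of a formal group law, `p` nilpotent

If `p` is nilpotent in `R`, then the points `Pt F σ` are a module over `ℤ_p`: `a • f` is the limit of
`n • f` for natural numbers `n → a`. -/

noncomputable section

namespace Vale.Agent.P251.F.F3

open MvPowerSeries

variable {p : ℕ} {R : Type*} [CommRing R] {S : Type*} [CommRing S] {σ τ : Type*}

variable (p R) in
/-- `p` is nilpotent in `R` -/
class PNil : Prop where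
  /-- `p` is nilpotent in `R` -/
  isNilpotent : IsNilpotent (p : R)

variable (p R) in
/-- an exponent `j` with `p ^ j = 0` in `R` -/
def expo [h : PNil p R] : ℕ := Classical.choose h.isNilpotent

theorem pow_expo [h : PNil p R] : (p : R) ^ expo p R = 0 := Classical.choose_spec h.isNilpotent

namespace Pt

variable {F : FormalGroup R} {j : ℕ}

theorem eqMod_pow_nsmul (hj : (p : R) ^ j = 0) (f : Pt F σ) (m : ℕ) :
    EqMod (2 ^ m) ((p ^ (j * m)) • f).val 0 := by
  induction m with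
  | zero => simpa using eqMod_one_iff.2 f.const
  | succ m ih =>
    have h1 : (p ^ (j * (m + 1))) • f = (p ^ j) • ((p ^ (j * m)) • f) := by
      rw [smul_smul, ← pow_add]; congr 2; ring
    rw [h1, pow_succ, mul_comm]
    refine (eqMod_nsmul_linear ih (p ^ j)).2.trans ?_
    have h2 : (p ^ j) • ((p ^ (j * m)) • f).val = 0 := by
      ext e
      rw [map_nsmul, nsmul_eq_mul, Nat.cast_pow, hj, zero_mul, map_zero]
    rw [h2]
    exact EqMod.refl _ _

theorem eqMod_pow_nsmul' (hj : (p : R) ^ j = 0) (f : Pt F σ) {m n : ℕ} (hn : j * m ≤ n) :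
    EqMod (m + 1) ((p ^ n) • f).val 0 := by
  obtain ⟨c, rfl⟩ := Nat.exists_eq_add_of_le hn
  rw [pow_add, mul_comm, mul_smul]
  have h1 := (eqMod_pow_nsmul hj f m).mono (m := m + 1) Nat.lt_two_pow_self
  have h2 := eqMod_nsmul (f' := (0 : Pt F σ)) h1 (p ^ c)
  simpa using h2

/-- `n • f` depends on `n` modulo `p ^ N` only, up to terms of degree `> m`, if `N ≥ j m`. -/
theorem eqMod_nsmul_of_modEq (hj : (p : R) ^ j = 0) (f : Pt F σ) {m N n n' : ℕ} (hN : j * m ≤ N)
    (h : n ≡ n' [MOD p ^ N]) : EqMod (m + 1) (n • f).val (n' • f).val := by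
  wlog hle : n ≤ n' generalizing n n'
  · exact (this h.symm (by omega)).symm
  obtain ⟨c, hc⟩ := (Nat.modEq_iff_dvd' hle).1 h
  obtain rfl : n' = n + p ^ N * c := by omega
  rw [add_nsmul, mul_nsmul']
  have h1 := eqMod_pow_nsmul' hj (c • f) hN
  have h2 := eqMod_add (EqMod.refl (m + 1) (n • f).val) (f' := n • f) (g' := 0) h1
  simpa using h2.symm

variable [hpp : Fact p.Prime]

/-- the `m`-th approximation of `a : ℤ_p` -/
def nappr (j : ℕ) (a : ℤ_[p]) (m : ℕ) : ℕ := a.appr (j * m)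

theorem natCast_sub_mem_iff {n n' k : ℕ} :
    ((n : ℤ_[p]) - n' ∈ Ideal.span {(p : ℤ_[p]) ^ k}) ↔ n ≡ n' [MOD p ^ k] := by
  rw [← PadicInt.ker_toZModPow, RingHom.mem_ker, map_sub, sub_eq_zero, map_natCast, map_natCast,
    ZMod.natCast_eq_natCast_iff]

/-- the series of `a • f` -/
def zsmulFun (j : ℕ) (a : ℤ_[p]) (f : Pt F σ) : MvPowerSeries σ R :=
  fun e => coeff e ((nappr j a e.degree) • f).val

theorem coeff_zsmulFun (a : ℤ_[p]) (f : Pt F σ) (e : σ →₀ ℕ) :
    coeff e (zsmulFun j a f) = coeff e ((nappr j a e.degree) • f).val := rfl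

theorem eqMod_zsmulFun (hj : (p : R) ^ j = 0) (a : ℤ_[p]) (f : Pt F σ) {m N n : ℕ}
    (hN : j * m ≤ N) (h : a - n ∈ Ideal.span {(p : ℤ_[p]) ^ N}) :
    EqMod (m + 1) (zsmulFun j a f) (n • f).val := by
  intro e he
  rw [coeff_zsmulFun]
  refine eqMod_nsmul_of_modEq (m := e.degree) hj f le_rfl ?_ e (Nat.lt_succ_self _)
  rw [← natCast_sub_mem_iff]
  have h1 : (nappr j a e.degree : ℤ_[p]) - n = -(a - nappr j a e.degree) + (a - n) := by ring
  rw [h1]
  refine Ideal.add_mem _ (neg_mem (PadicInt.appr_spec _ _)) ?_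
  refine Ideal.mem_span_singleton.2 (dvd_trans ?_ (Ideal.mem_span_singleton.1 h))
  exact pow_dvd_pow _ ((Nat.mul_le_mul_left _ (by omega)).trans hN)

theorem constantCoeff_zsmulFun (a : ℤ_[p]) (f : Pt F σ) :
    constantCoeff (zsmulFun j a f) = 0 := by
  rw [← coeff_zero_eq_constantCoeff_apply, coeff_zsmulFun, coeff_zero_eq_constantCoeff_apply,
    Pt.const]

variable [PNil p R]

instance : SMul ℤ_[p] (Pt F σ) :=
  ⟨fun a f => ⟨zsmulFun (expo p R) a f, constantCoeff_zsmulFun a f⟩⟩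

/-- the defining approximation property of `a • f`, `a : ℤ_p` -/
theorem eqMod_zsmul (a : ℤ_[p]) (f : Pt F σ) {m N n : ℕ} (hN : expo p R * m ≤ N)
    (h : a - n ∈ Ideal.span {(p : ℤ_[p]) ^ N}) :
    EqMod m (a • f).val (n • f).val :=
  (eqMod_zsmulFun pow_expo a f hN h).mono (Nat.le_succ m)

theorem exists_appr (a : ℤ_[p]) (N : ℕ) :
    ∃ n : ℕ, a - n ∈ Ideal.span {(p : ℤ_[p]) ^ N} := ⟨_, PadicInt.appr_spec _ _⟩

theorem eqMod_zsmul_congr {m : ℕ} (a : ℤ_[p]) {f f' : Pt F σ} (h : EqMod m f.val f'.val) :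
    EqMod m (a • f).val (a • f').val := by
  obtain ⟨n, hn⟩ := exists_appr a (expo p R * m)
  exact (eqMod_zsmul a f le_rfl hn).trans
    ((eqMod_nsmul h n).trans (eqMod_zsmul a f' le_rfl hn).symm)

theorem natCast_zsmul (n : ℕ) (f : Pt F σ) : (n : ℤ_[p]) • f = n • f := by
  refine ext (eq_of_eqMod fun m => ?_)
  exact eqMod_zsmul (n : ℤ_[p]) f (m := m) (n := n) le_rfl (by simp)

instance [F.IsComm] : Module ℤ_[p] (Pt F σ) where
  one_smul f := by
    have := natCast_zsmul (p := p) 1 f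
    simpa using this
  zero_smul f := by
    have := natCast_zsmul (p := p) 0 f
    simpa using this
  smul_zero a := by
    refine ext (eq_of_eqMod fun m => ?_)
    obtain ⟨n, hn⟩ := exists_appr a (expo p R * m)
    refine (eqMod_zsmul a 0 le_rfl hn).trans ?_
    rw [smul_zero]
    exact EqMod.refl _ _
  smul_add a f g := by
    refine ext (eq_of_eqMod fun m => ?_)
    obtain ⟨n, hn⟩ := exists_appr a (expo p R * m)
    refine (eqMod_zsmul a (f + g) le_rfl hn).trans ?_
    rw [smul_add]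
    exact (eqMod_add (eqMod_zsmul a f le_rfl hn) (eqMod_zsmul a g le_rfl hn)).symm
  add_smul a b f := by
    refine ext (eq_of_eqMod fun m => ?_)
    obtain ⟨n, hn⟩ := exists_appr a (expo p R * m)
    obtain ⟨k, hk⟩ := exists_appr b (expo p R * m)
    have h : (a + b) - ((n + k : ℕ) : ℤ_[p]) ∈ Ideal.span {(p : ℤ_[p]) ^ (expo p R * m)} := by
      have := Ideal.add_mem _ hn hk
      convert this using 1
      push_cast; ring
    refine (eqMod_zsmul (a + b) f le_rfl h).trans ?_
    rw [add_smul]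
    exact (eqMod_add (eqMod_zsmul a f le_rfl hn) (eqMod_zsmul b f le_rfl hk)).symm
  mul_smul a b f := by
    refine ext (eq_of_eqMod fun m => ?_)
    obtain ⟨n, hn⟩ := exists_appr a (expo p R * m)
    obtain ⟨k, hk⟩ := exists_appr b (expo p R * m)
    have h : (a * b) - ((n * k : ℕ) : ℤ_[p]) ∈ Ideal.span {(p : ℤ_[p]) ^ (expo p R * m)} := by
      have := Ideal.add_mem _ (Ideal.mul_mem_left _ b hn) (Ideal.mul_mem_left _ (n : ℤ_[p]) hk)
      convert this using 1
      push_cast; ring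
    refine (eqMod_zsmul (a * b) f le_rfl h).trans ?_
    rw [mul_smul]
    refine EqMod.symm ((eqMod_zsmul a (b • f) le_rfl hn).trans ?_)
    exact eqMod_nsmul (eqMod_zsmul b f le_rfl hk) n

/-- An additive map which preserves congruences is `ℤ_p`-linear. -/
theorem map_zsmul_of_eqMod {G : FormalGroup S} [PNil p S] (φ : Pt F σ →+ Pt G τ)
    (hφ : ∀ m f f', EqMod m f.val f'.val → EqMod m (φ f).val (φ f').val) (a : ℤ_[p])
    (f : Pt F σ) : φ (a • f) = a • φ f := by
  refine ext (eq_of_eqMod fun m => ?_)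
  obtain ⟨n, hn⟩ := exists_appr a (expo p R * m + expo p S * m)
  refine (hφ m _ _ (eqMod_zsmul a f (by omega) hn)).trans ?_
  rw [map_nsmul]
  exact (eqMod_zsmul a (φ f) (by omega) hn).symm

end Pt

end Vale.Agent.P251.F.F3

end
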