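import Mathlib.Algebra.Colimit.Ring
import Mathlib.RingTheory.AdjoinRoot
import Mathlib.RingTheory.Flat.EquationalCriterion
import Mathlib.RingTheory.Flat.FaithfullyFlat.Basic
import Mathlib.RingTheory.Flat.FaithfullyFlat.Algebra
import Mathlib.Algebra.MvPolynomial.Variables
import Mathlib.Tactic

/-!
# P251, part F: towers of monic equations

Given monic polynomials `P 0, P 1, …` of positive degree, the coefficients of `P m` being
polynomials in `c_0, …, c_{m-1}`, there are a faithfully flat `R`-algebra `B` and elements
`c_m ∈ B` with `P m (c_0, …, c_{m-1}; c_m) = 0` for all `m`.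
-/

open Polynomial

universe u

namespace Vale.Agent.P251.F

/-- A sequence of commutative rings. -/
structure RingSeq where
  A : ℕ → Type u
  [ring : ∀ n, CommRing (A n)]
  t : ∀ n, A n →+* A (n + 1)

namespace RingSeq

attribute [instance] RingSeq.ring

variable (S : RingSeq.{u})

/-- transition maps -/
def trans {i j : ℕ} (h : i ≤ j) : S.A i →+* S.A j :=
  Nat.leRecOn h (fun {k} (g : S.A i →+* S.A k) => (S.t k).comp g) (RingHom.id _)

theorem trans_self (i : ℕ) (h : i ≤ i) : S.trans h = RingHom.id _ := Nat.leRecOn_self _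

theorem trans_succ {i j : ℕ} (h : i ≤ j) (h' : i ≤ j + 1) :
    S.trans h' = (S.t j).comp (S.trans h) := Nat.leRecOn_succ h _

theorem trans_trans {i j k : ℕ} (h : i ≤ j) (h' : j ≤ k) :
    (S.trans h').comp (S.trans h) = S.trans (h.trans h') := by
  induction k, h' using Nat.le_induction with
  | base => rw [trans_self]; rfl
  | succ k h' ih =>
    rw [S.trans_succ h', S.trans_succ (h.trans h'), RingHom.comp_assoc, ih]

instance : DirectedSystem S.A (fun _ _ h => S.trans h) where
  map_self i x := by rw [trans_self]; rfl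
  map_map i j k h h' x := by
    rw [← RingHom.comp_apply, trans_trans]

/-- the colimit -/
abbrev Colim : Type u := Ring.DirectLimit S.A (fun _ _ h => S.trans h)

/-- the maps to the colimit -/
noncomputable def of (n : ℕ) : S.A n →+* S.Colim := Ring.DirectLimit.of S.A _ n

theorem of_trans {i j : ℕ} (h : i ≤ j) (x : S.A i) : S.of j (S.trans h x) = S.of i x :=
  Ring.DirectLimit.of_f _ _

theorem of_t (i : ℕ) (x : S.A i) : S.of (i + 1) (S.t i x) = S.of i x := by
  have h := S.of_trans (Nat.le_succ i) x
  rw [S.trans_succ (le_refl i) (Nat.le_succ i), S.trans_self] at h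
  exact h

theorem exists_of (x : S.Colim) : ∃ n y, S.of n y = x := Ring.DirectLimit.exists_of x

theorem of_eq_zero {n : ℕ} {x : S.A n} (h : S.of n x = 0) : ∃ m, ∃ hm : n ≤ m, S.trans hm x = 0 :=
  Ring.DirectLimit.of.zero_exact h

end RingSeq

/-- A sequence of `R`-algebras. -/
structure AlgSeq (R : Type u) [CommRing R] extends RingSeq.{u} where
  [alg : ∀ n, Algebra R (A n)]
  comm : ∀ n, (t n).comp (algebraMap R (A n)) = algebraMap R (A (n + 1))

namespace AlgSeq

attribute [instance] AlgSeq.alg

variable {R : Type u} [CommRing R] (S : AlgSeq R)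

theorem trans_algebraMap {i j : ℕ} (h : i ≤ j) :
    (S.trans h).comp (algebraMap R (S.A i)) = algebraMap R (S.A j) := by
  induction j, h using Nat.le_induction with
  | base => rw [S.trans_self]; rfl
  | succ k h ih => rw [S.trans_succ h, RingHom.comp_assoc, ih, S.comm]

noncomputable instance : Algebra R S.Colim := ((S.of 0).comp (algebraMap R (S.A 0))).toAlgebra

theorem algebraMap_colim (n : ℕ) : (S.of n).comp (algebraMap R (S.A n)) =
    algebraMap R S.Colim := by
  change _ = (S.of 0).comp (algebraMap R (S.A 0))
  rw [← S.trans_algebraMap (Nat.zero_le n)]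
  ext x
  exact S.of_trans (Nat.zero_le n) _

/-- the maps to the colimit as algebra homomorphisms -/
noncomputable def ofA (n : ℕ) : S.A n →ₐ[R] S.Colim :=
  { S.of n with
    commutes' := fun r => by
      have := congrArg (fun f => f r) (S.algebraMap_colim n)
      exact this }

theorem ofA_apply (n : ℕ) (x : S.A n) : S.ofA n x = S.of n x := rfl

theorem exists_fin {l : ℕ} (x : Fin l → S.Colim) : ∃ n, ∃ y : Fin l → S.A n,
    ∀ i, S.of n (y i) = x i := by
  choose m y hy using fun i => S.exists_of (x i)
  refine ⟨Finset.univ.sup m, fun i => S.trans (Finset.le_sup (Finset.mem_univ i)) (y i), ?_⟩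
  intro i
  rw [S.of_trans, hy]

/-- a colimit of flat algebras is flat -/
theorem flat (h : ∀ n, Module.Flat R (S.A n)) : Module.Flat R S.Colim := by
  rw [Module.Flat.iff_forall_isTrivialRelation]
  intro l f x hx
  obtain ⟨n, y, hy⟩ := S.exists_fin x
  have h1 : S.of n (∑ i, f i • y i) = 0 := by
    rw [← S.ofA_apply, map_sum, ← hx]
    refine Finset.sum_congr rfl fun i _ => ?_
    rw [map_smul, S.ofA_apply, hy]
  obtain ⟨m, hm, h2⟩ := S.of_eq_zero h1
  have h3 : ∑ i, f i • S.trans hm (y i) = 0 := by
    rw [← h2, map_sum]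
    refine Finset.sum_congr rfl fun i _ => ?_
    rw [Algebra.smul_def, Algebra.smul_def, map_mul]
    congr 1
    exact (congrArg (fun g => g (f i)) (S.trans_algebraMap hm)).symm
  have := h m
  obtain ⟨k, a, z, ha, haf⟩ := Module.Flat.isTrivialRelation_of_sum_smul_eq_zero (R := R)
    (M := S.A m) h3
  refine ⟨k, a, fun j => S.ofA m (z j), fun i => ?_, haf⟩
  have hai : S.trans hm (y i) = ∑ j, a i j • z j := ha i
  show x i = ∑ j, a i j • S.ofA m (z j)
  rw [← hy, ← S.of_trans hm, ← S.ofA_apply, hai, map_sum]
  refine Finset.sum_congr rfl fun j _ => ?_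
  rw [map_smul]

/-- a sequential colimit of faithfully flat algebras is faithfully flat -/
theorem faithfullyFlat (h : ∀ n, Module.FaithfullyFlat R (S.A n)) :
    Module.FaithfullyFlat R S.Colim := by
  rw [Module.FaithfullyFlat.iff_flat_and_ideal_smul_eq_top]
  refine ⟨S.flat fun n => inferInstance, ?_⟩
  intro I hI
  have h1 : (1 : S.Colim) ∈ I • (⊤ : Submodule R S.Colim) := by rw [hI]; trivial
  have key : ∀ x ∈ I • (⊤ : Submodule R S.Colim), ∃ n, ∃ y ∈ I • (⊤ : Submodule R (S.A n)),
      S.of n y = x := by
    intro x hx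
    refine Submodule.smul_induction_on hx ?_ ?_
    · intro r hr z _
      obtain ⟨n, y, rfl⟩ := S.exists_of z
      refine ⟨n, r • y, Submodule.smul_mem_smul hr trivial, ?_⟩
      rw [← S.ofA_apply, map_smul, S.ofA_apply]
    · rintro x y ⟨n, x', hx', rfl⟩ ⟨m, y', hy', rfl⟩
      have htr : ∀ {i j : ℕ} (hij : i ≤ j) (z : S.A i), z ∈ I • (⊤ : Submodule R (S.A i)) →
          S.trans hij z ∈ I • (⊤ : Submodule R (S.A j)) := by
        intro i j hij z hz
        refine Submodule.smul_induction_on hz ?_ ?_
        · intro r hr w _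
          have : S.trans hij (r • w) = r • S.trans hij w := by
            rw [Algebra.smul_def, Algebra.smul_def, map_mul]
            congr 1
            exact congrArg (fun g => g r) (S.trans_algebraMap hij)
          rw [this]
          exact Submodule.smul_mem_smul hr trivial
        · intro a b ha hb
          rw [map_add]
          exact Submodule.add_mem _ ha hb
      refine ⟨max n m, S.trans (le_max_left n m) x' + S.trans (le_max_right n m) y',
        Submodule.add_mem _ (htr _ _ hx') (htr _ _ hy'), ?_⟩
      rw [map_add, S.of_trans, S.of_trans]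
  obtain ⟨n, y, hy, hy1⟩ := key 1 h1
  have h2 : S.of n (y - 1) = 0 := by rw [map_sub, hy1, map_one, sub_self]
  obtain ⟨m, hm, h3⟩ := S.of_eq_zero h2
  rw [map_sub, map_one, sub_eq_zero] at h3
  have h4 : (1 : S.A m) ∈ I • (⊤ : Submodule R (S.A m)) := by
    rw [← h3]
    refine Submodule.smul_induction_on hy ?_ ?_
    · intro r hr w _
      have : S.trans hm (r • w) = r • S.trans hm w := by
        rw [Algebra.smul_def, Algebra.smul_def, map_mul]
        congr 1
        exact congrArg (fun g => g r) (S.trans_algebraMap hm)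
      rw [this]
      exact Submodule.smul_mem_smul hr trivial
    · intro a b ha hb
      rw [map_add]
      exact Submodule.add_mem _ ha hb
  have h5 : I • (⊤ : Submodule R (S.A m)) = ⊤ := by
    rw [eq_top_iff]
    intro x _
    have : x = x * 1 := (mul_one x).symm
    rw [this]
    refine Submodule.smul_induction_on h4 ?_ ?_
    · intro r hr w _
      rw [mul_smul_comm]
      exact Submodule.smul_mem_smul hr trivial
    · intro a b ha hb
      rw [mul_add]
      exact Submodule.add_mem _ ha hb
  have := h m
  exact ((Module.FaithfullyFlat.iff_flat_and_ideal_smul_eq_top R (S.A m)).1 inferInstance).2 I h5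

end AlgSeq

/-- `AdjoinRoot` of a monic polynomial of positive degree is faithfully flat -/
theorem faithfullyFlat_adjoinRoot {A : Type u} [CommRing A] {g : A[X]} (hg : g.Monic)
    (hd : g.natDegree ≠ 0) : Module.FaithfullyFlat A (AdjoinRoot g) := by
  have : Nonempty (Fin g.natDegree) := ⟨⟨0, Nat.pos_of_ne_zero hd⟩⟩
  exact Module.FaithfullyFlat.of_linearEquiv A (Fin g.natDegree →₀ A)
    (AdjoinRoot.powerBasisAux' hg).repr

section Tower

variable {R : Type u} [CommRing R]

/-- stages of a tower -/
structure Stage (R : Type u) [CommRing R] where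
  A : Type u
  [ring : CommRing A]
  [alg : Algebra R A]
  c : ℕ → A

attribute [instance] Stage.ring Stage.alg

/-- the next equation at a stage -/
noncomputable def Stage.poly (P : ℕ → (MvPolynomial ℕ R)[X]) (n : ℕ) (S : Stage R) : S.A[X] :=
  (P n).map (MvPolynomial.aeval S.c : MvPolynomial ℕ R →ₐ[R] S.A).toRingHom

/-- the next stage -/
noncomputable def Stage.next (P : ℕ → (MvPolynomial ℕ R)[X]) (n : ℕ) (S : Stage R) : Stage R where
  A := AdjoinRoot (S.poly P n)
  c := fun i => if i < n then AdjoinRoot.of _ (S.c i) else AdjoinRoot.root _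

/-- the stages -/
noncomputable def stage (P : ℕ → (MvPolynomial ℕ R)[X]) : ℕ → Stage R
  | 0 => { A := R, c := fun _ => 0 }
  | n + 1 => (stage P n).next P n

/-- the tower as a sequence of algebras -/
noncomputable def towerSeq (P : ℕ → (MvPolynomial ℕ R)[X]) : AlgSeq R where
  A n := (stage P n).A
  ring n := (stage P n).ring
  t n := AdjoinRoot.of ((stage P n).poly P n)
  alg n := (stage P n).alg
  comm n := (AdjoinRoot.algebraMap_eq' (S := R) (f := (stage P n).poly P n)).symm

theorem stage_faithfullyFlat (P : ℕ → (MvPolynomial ℕ R)[X]) (hP : ∀ n, (P n).Monic)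
    (hd : ∀ n, (P n).natDegree ≠ 0) (n : ℕ) : Module.FaithfullyFlat R (stage P n).A := by
  induction n with
  | zero => exact Module.FaithfullyFlat.self R
  | succ n ih =>
    cases subsingleton_or_nontrivial R with
    | inl h =>
      have : Subsingleton (stage P (n+1)).A := by
        have := (algebraMap R (stage P (n+1)).A).codomain_trivial
        exact this
      exact Module.FaithfullyFlat.of_linearEquiv R R
        { toFun := fun _ => 0, invFun := fun _ => 0, map_add' := fun _ _ => by simp,
          map_smul' := fun _ _ => by simp,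
          left_inv := fun _ => Subsingleton.elim _ _, right_inv := fun _ => Subsingleton.elim _ _ }
    | inr h =>
      have : Nontrivial (stage P n).A := by
        by_contra hn
        rw [not_nontrivial_iff_subsingleton] at hn
        obtain ⟨I, hI⟩ := Ideal.exists_maximal R
        exact Module.FaithfullyFlat.submodule_ne_top (R := R) (M := (stage P n).A) hI
          (Subsingleton.elim _ _)
      have hm : ((stage P n).poly P n).Monic := (hP n).map _
      have : Module.FaithfullyFlat (stage P n).A (AdjoinRoot ((stage P n).poly P n)) := by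
        refine faithfullyFlat_adjoinRoot hm ?_
        rw [Stage.poly, (hP n).natDegree_map]
        exact hd n
      exact Module.FaithfullyFlat.trans R (stage P n).A (AdjoinRoot ((stage P n).poly P n))

/-- the elements `c_i` at stage `n` -/
noncomputable def towerC (P : ℕ → (MvPolynomial ℕ R)[X]) (n : ℕ) : ℕ → (towerSeq P).A n :=
  (stage P n).c

theorem towerC_lt (P : ℕ → (MvPolynomial ℕ R)[X]) {n i : ℕ} (h : i < n) :
    towerC P (n + 1) i = (towerSeq P).t n (towerC P n i) := by
  change (if i < n then AdjoinRoot.of _ ((stage P n).c i) else AdjoinRoot.root _) = _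
  rw [if_pos h]
  rfl

theorem towerC_root (P : ℕ → (MvPolynomial ℕ R)[X]) (n : ℕ) :
    (P n).eval₂ (((towerSeq P).t n).comp
      (MvPolynomial.aeval (towerC P n) : MvPolynomial ℕ R →ₐ[R] _).toRingHom)
      (towerC P (n + 1) n) = 0 := by
  have h2 : ((stage P n).poly P n).eval₂ (AdjoinRoot.of ((stage P n).poly P n))
      (AdjoinRoot.root ((stage P n).poly P n)) = 0 := AdjoinRoot.eval₂_root _
  have h3 : towerC P (n + 1) n = AdjoinRoot.root ((stage P n).poly P n) := by
    change (if n < n then AdjoinRoot.of _ ((stage P n).c n) else AdjoinRoot.root _) = _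
    rw [if_neg (lt_irrefl n)]
  rw [h3]
  rw [Stage.poly, Polynomial.eval₂_map] at h2
  exact h2

/-- **Towers of monic equations.** -/
theorem exists_tower (P : ℕ → (MvPolynomial ℕ R)[X]) (hP : ∀ n, (P n).Monic)
    (hd : ∀ n, (P n).natDegree ≠ 0) (hv : ∀ n k, ∀ i ∈ ((P n).coeff k).vars, i < n) :
    ∃ (B : Type u) (_ : CommRing B) (_ : Algebra R B), Module.FaithfullyFlat R B ∧
      ∃ c : ℕ → B, ∀ n, (P n).eval₂
        (MvPolynomial.aeval c : MvPolynomial ℕ R →ₐ[R] B).toRingHom (c n) = 0 := by
  refine ⟨(towerSeq P).Colim, inferInstance, inferInstance,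
    (towerSeq P).faithfullyFlat (stage_faithfullyFlat P hP hd), ?_⟩
  refine ⟨fun n => (towerSeq P).of (n + 1) (towerC P (n + 1) n), fun n => ?_⟩
  have h1 : ∀ i m, i < m → (towerSeq P).of m (towerC P m i) =
      (towerSeq P).of (i + 1) (towerC P (i + 1) i) := by
    intro i m him
    induction m, him using Nat.le_induction with
    | base => rfl
    | succ m him ih => rw [← ih, towerC_lt P him, (towerSeq P).of_t]
  have h2 := congrArg ((towerSeq P).of (n + 1)) (towerC_root P n)
  rw [map_zero, Polynomial.hom_eval₂] at h2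
  rw [← h2, Polynomial.eval₂_eq_sum_range, Polynomial.eval₂_eq_sum_range]
  refine Finset.sum_congr rfl fun k _ => ?_
  congr 1
  change MvPolynomial.aeval (fun n => (towerSeq P).of (n + 1) (towerC P (n + 1) n)) ((P n).coeff k)
    = ((towerSeq P).of (n + 1)) ((towerSeq P).t n (MvPolynomial.aeval (towerC P n)
      ((P n).coeff k)))
  rw [(towerSeq P).of_t, ← (towerSeq P).ofA_apply, MvPolynomial.comp_aeval_apply]
  refine MvPolynomial.eval₂Hom_congr' rfl ?_ rfl
  intro i hi _
  have := h1 i n (hv n k i hi)
  exact this.symm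

end Tower

end Vale.Agent.P251.F
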