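import Vale.Agent.P251.F.Series
import Vale.Agent.P251.F.Tower
import Mathlib.FieldTheory.Finite.Basic

/-!
# P251, part F (F4): normalising the `p`-series after a faithfully flat extension

If `[p]_F = g(x^q)`, `q = p^h`, `g = v x + …` with `v` a unit, over a ring `R` of characteristic
`p`, then after a faithfully flat extension `B` there is an invertible series `f` such that
`f • F` has `p`-series `x^q`; the coefficients of `f • F` then satisfy `a^q = a`.
-/

namespace Vale.Agent.P251.F

open MvPowerSeries Vale.Agent.P217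

universe u

section MultSeries

variable {R : Type*} [CommRing R]

/-- homomorphisms commute with the multiplication series -/
theorem homSubst_multSeries {F G : FormalGroup R} [F.IsComm] [G.IsComm] {f : PowerSeries R}
    (hf : IsHom F G f) (m : ℕ) :
    (PowerSeries.subst (multSeries F m) f : PowerSeries R) =
      PowerSeries.subst f (multSeries G m) := by
  let x : F.Point Unit := ⟨PowerSeries.X, hasSubst_of_cc PowerSeries.constantCoeff_X⟩
  have h1 := congrArg Subtype.val (map_nsmul (homPt f hf) m x)
  rw [nsmul_val, homPt_val, nsmul_val] at h1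
  have e1 : (PowerSeries.subst x.val (multSeries F m) : PowerSeries R) = multSeries F m :=
    PowerSeries.X_subst _
  have e2 : (homPt f hf x).val = f := PowerSeries.X_subst _
  rw [e2] at h1
  rw [← h1]
  congr 1
  exact e1.symm

end MultSeries

section CharP

variable {B : Type*} [CommRing B] (p : ℕ) [Fact p.Prime] [CharP B p] (h : ℕ)

theorem pow_ne_zero_p : p ^ h ≠ 0 := pow_ne_zero h (Fact.out : p.Prime).ne_zero

/-- `f^q = f^{(q)}(x^q)` in characteristic `p`. -/
theorem pow_eq_subst_frob (f : PowerSeries B) : f ^ (p ^ h) =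
    PowerSeries.subst (PowerSeries.X ^ (p ^ h) : PowerSeries B)
      (PowerSeries.map (iterateFrobenius B p h) f) := by
  rw [← PowerSeries.expand_apply (p ^ h) (pow_ne_zero_p p h), ← PowerSeries.map_expand]
  exact (map_iterateFrobenius_expand p (Fact.out : p.Prime).ne_zero f h).symm

/-- the normalised `p`-series -/
theorem multSeries_smul_eq {F : Law B} {g : PowerSeries B}
    (hg0 : PowerSeries.constantCoeff g = 0)
    (hg : multSeries F.toFG p = PowerSeries.subst (PowerSeries.X ^ (p ^ h) : PowerSeries B) g)
    {f : InvSeries B} (hf : (PowerSeries.subst g f.val : PowerSeries B) =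
      PowerSeries.map (iterateFrobenius B p h) f.val) :
    multSeries (f • F).toFG p = PowerSeries.X ^ (p ^ h) := by
  have hX : PowerSeries.HasSubst (PowerSeries.X ^ (p ^ h) : PowerSeries B) :=
    PowerSeries.HasSubst.X_pow (pow_ne_zero_p p h)
  have h1 := homSubst_multSeries (InvSeries.isHom_smul f F) p
  rw [hg, ← PowerSeries.subst_comp_subst_apply (hasSubst_of_cc hg0) hX, hf,
    ← pow_eq_subst_frob] at h1
  have h2 := congrArg (PowerSeries.subst (R := B) (f⁻¹).val) h1
  rw [PowerSeries.subst_comp_subst_apply f.hs (f⁻¹).hs, f.inv_subst_val, PowerSeries.X_subst,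
    PowerSeries.subst_pow (f⁻¹).hs, f.inv_subst_val] at h2
  exact h2.symm

/-- a law with `[p] = x^q` has coefficients fixed by the `q`-power map -/
theorem map_frob_eq {G : FormalGroup B} [G.IsComm]
    (hG : multSeries G p = PowerSeries.X ^ (p ^ h)) : G.map (iterateFrobenius B p h) = G := by
  have hlow : ∀ j < p ^ h, PowerSeries.coeff j (multSeries G p) = 0 := by
    intro j hj
    rw [hG, PowerSeries.coeff_X_pow, if_neg hj.ne]
  obtain ⟨V, hV, hom⟩ := exists_V_of_coeff_eq_zero p G h hlow
  have hVX : V = PowerSeries.X := by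
    ext n
    have h1 := congrArg (PowerSeries.coeff (p ^ h * n)) hV
    rw [hG, PowerSeries.coeff_subst_X_pow (pow_ne_zero_p p h), if_pos (dvd_mul_right _ _),
      Nat.mul_div_cancel_left _ (Nat.pos_of_ne_zero (pow_ne_zero_p p h)),
      PowerSeries.coeff_X_pow] at h1
    rw [PowerSeries.coeff_X]
    change _ = PowerSeries.coeff n V at h1
    rw [← h1]
    by_cases hn : n = 1
    · rw [if_pos hn, hn, mul_one, if_pos rfl]
    · rw [if_neg hn, if_neg]
      intro h2
      exact hn (Nat.eq_of_mul_eq_mul_left (Nat.pos_of_ne_zero (pow_ne_zero_p p h))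
        (by rw [h2, mul_one]))
  rw [hVX] at hom
  exact IsIso.targetL isIso_X ⟨hom, by simp⟩

theorem coeff_pow_eq {G : FormalGroup B} [G.IsComm]
    (hG : multSeries G p = PowerSeries.X ^ (p ^ h)) (d : Fin 2 →₀ ℕ) :
    (coeff d G.toPowerSeries) ^ (p ^ h) = coeff d G.toPowerSeries := by
  have h1 := congrArg (fun K : FormalGroup B => coeff d K.toPowerSeries) (map_frob_eq p h hG)
  rw [FG_map_toPowerSeries, coeff_map, iterateFrobenius_def] at h1
  exact h1

end CharP

section Descend

variable {B : Type*} [CommRing B]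

/-- a law with coefficients in a subring comes from the subring -/
theorem exists_law_of_coeff_mem (C : Subring B) (F : Law B) (hF : ∀ d, coeff d F.ps ∈ C) :
    ∃ F₀ : Law C, F₀.map C.subtype = F := by
  let P : MvPowerSeries (Fin 2) C := fun d => ⟨coeff d F.ps, hF d⟩
  have hP : MvPowerSeries.map C.subtype P = F.ps := by
    ext d
    rw [coeff_map]
    rfl
  have hinj : ∀ {σ : Type} , Function.Injective (MvPowerSeries.map (σ := σ) C.subtype) := by
    intro σ a b hab
    ext d
    have := congrArg (coeff d) hab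
    rw [coeff_map, coeff_map] at this
    exact this
  have h0 : constantCoeff P = 0 := by
    apply Subtype.ext
    exact F.toFG.zero_constantCoeff
  have hXs : ∀ (n : ℕ) (i : Fin n), PowerSeries.HasSubst (X i : MvPowerSeries (Fin n) C) :=
    fun n i => hasSubst_of_cc (by simp)
  have hPs : PowerSeries.HasSubst P := hasSubst_of_cc h0
  have hcc : ∀ {a b : MvPowerSeries (Fin 3) C} (_ : constantCoeff a = 0)
      (_ : constantCoeff b = 0), constantCoeff (subst ![a, b] P) = 0 := fun ha hb =>
    constantCoeff_subst_eq_zero (hasSubst_cons ha hb) (constantCoeff_cons ha hb) h0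
  have hcomm : P = subst ![X 1, X 0] P := by
    apply hinj
    rw [map_pair_subst _ (hXs 2 1) (hXs 2 0), map_X, map_X, hP]
    exact F.comm.comm
  have hassoc : subst ![subst ![(X 0 : MvPowerSeries (Fin 3) C), X 1] P, X 2] P =
      subst ![X 0, subst ![X 1, X 2] P] P := by
    apply hinj
    rw [map_pair_subst _ (hasSubst_of_cc (hcc (by simp) (by simp))) (hXs 3 2),
      map_pair_subst _ (hXs 3 0) (hXs 3 1), map_pair_subst _ (hXs 3 0)
        (hasSubst_of_cc (hcc (by simp) (by simp))), map_pair_subst _ (hXs 3 1) (hXs 3 2),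
      map_X, map_X, map_X, hP]
    exact F.toFG.assoc
  have hlX : coeff (Finsupp.single 0 1) P = 1 := Subtype.ext (F.toFG.lin_coeff_X)
  have hlY : coeff (Finsupp.single 1 1) P = 1 := Subtype.ext (F.toFG.lin_coeff_Y)
  exact ⟨⟨⟨P, h0, hlX, hlY, hassoc⟩, ⟨hcomm⟩⟩, Law.ext_ps hP⟩

end Descend

section TowerApp

variable {R : Type u} [CommRing R]

/-- the equations of the tower: `c_0^{q-1} = v`, `c_m^q = v^{m+1} c_m + …`. -/
noncomputable def towerP (g : PowerSeries R) (q : ℕ) : ℕ → Polynomial (MvPolynomial ℕ R)
  | 0 => Polynomial.X ^ (q - 1) - Polynomial.C (MvPolynomial.C (PowerSeries.coeff 1 g))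
  | m + 1 => Polynomial.X ^ q -
      (Polynomial.C (MvPolynomial.C (PowerSeries.coeff 1 g ^ (m + 2))) * Polynomial.X +
        Polynomial.C (∑ i ∈ Finset.range (m + 1), MvPolynomial.X i *
          MvPolynomial.C (PowerSeries.coeff (m + 2) (g ^ (i + 1)))))

theorem towerP_monic (g : PowerSeries R) {q : ℕ} (hq : 2 ≤ q) (m : ℕ) :
    (towerP g q m).Monic := by
  rcases m with _ | m
  · exact Polynomial.monic_X_pow_sub_C _ (by omega)
  · obtain ⟨r, rfl⟩ : ∃ r, q = r + 1 := ⟨q - 1, by omega⟩
    refine Polynomial.monic_X_pow_sub ?_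
    refine (Polynomial.degree_linear_le (R := MvPolynomial ℕ R)).trans_lt ?_
    have : 1 < r + 1 := by omega
    exact_mod_cast this

theorem towerP_natDegree [Nontrivial R] (g : PowerSeries R) {q : ℕ} (hq : 2 ≤ q) (m : ℕ) :
    (towerP g q m).natDegree ≠ 0 := by
  rcases m with _ | m
  · rw [towerP, Polynomial.natDegree_X_pow_sub_C]
    omega
  · rw [towerP, Polynomial.natDegree_sub_eq_left_of_natDegree_lt, Polynomial.natDegree_X_pow]
    · omega
    · rw [Polynomial.natDegree_X_pow]
      exact (Polynomial.natDegree_linear_le).trans_lt (by omega)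

theorem towerP_vars (g : PowerSeries R) (q m k : ℕ) :
    ∀ i ∈ ((towerP g q m).coeff k).vars, i < m := by
  have key : (towerP g q m).coeff k ∈ MvPolynomial.supported R {i | i < m} := by
    have hC : ∀ r : R, MvPolynomial.C r ∈ MvPolynomial.supported R {i | i < m} := fun r =>
      Subalgebra.algebraMap_mem _ r
    have hX : ∀ (n k : ℕ), (Polynomial.X ^ n : Polynomial (MvPolynomial ℕ R)).coeff k ∈
        MvPolynomial.supported R {i | i < m} := by
      intro n k
      rw [Polynomial.coeff_X_pow]
      split_ifs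
      · exact Subalgebra.one_mem _
      · exact Subalgebra.zero_mem _
    have hCC : ∀ (a : MvPolynomial ℕ R) (k : ℕ), a ∈ MvPolynomial.supported R {i | i < m} →
        (Polynomial.C a).coeff k ∈ MvPolynomial.supported R {i | i < m} := by
      intro a k ha
      rw [Polynomial.coeff_C]
      split_ifs
      · exact ha
      · exact Subalgebra.zero_mem _
    rcases m with _ | m
    · rw [towerP, Polynomial.coeff_sub]
      exact Subalgebra.sub_mem _ (hX _ _) (hCC _ _ (hC _))
    · rw [towerP, Polynomial.coeff_sub, Polynomial.coeff_add, Polynomial.coeff_C_mul]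
      refine Subalgebra.sub_mem _ (hX _ _) (Subalgebra.add_mem _ (Subalgebra.mul_mem _ (hC _) ?_)
        (hCC _ _ ?_))
      · have := hX 1 k
        rwa [pow_one] at this
      · refine Subalgebra.sum_mem _ fun i hi => Subalgebra.mul_mem _ ?_ (hC _)
        exact Algebra.subset_adjoin ⟨i, Finset.mem_range.1 hi, rfl⟩
  intro i hi
  exact MvPolynomial.mem_supported.1 key hi

/-- coefficients of `f(g(y))` -/
theorem coeff_subst_eq_sum {B : Type*} [CommRing B] {f g : PowerSeries B}
    (hf : PowerSeries.constantCoeff f = 0) (hg : PowerSeries.constantCoeff g = 0) (m : ℕ) :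
    PowerSeries.coeff (m + 1) (PowerSeries.subst g f : PowerSeries B) =
      PowerSeries.coeff (m + 1) f * PowerSeries.coeff 1 g ^ (m + 1) +
      ∑ i ∈ Finset.range m, PowerSeries.coeff (i + 1) f * PowerSeries.coeff (m + 1) (g ^ (i + 1)) := by
  have hs : PowerSeries.HasSubst g := hasSubst_of_cc hg
  have hXg : PowerSeries.X ∣ g := PowerSeries.X_dvd_iff.2 hg
  rw [PowerSeries.coeff_subst' hs, finsum_eq_sum_of_support_subset (s := Finset.range (m + 2))]
  · rw [Finset.sum_range_succ, Finset.sum_range_succ', add_comm]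
    have h0 : PowerSeries.coeff 0 f = 0 := by
      rw [PowerSeries.coeff_zero_eq_constantCoeff_apply, hf]
    rw [h0, zero_smul, add_zero]
    congr 1
    rw [smul_eq_mul]
    congr 1
    obtain ⟨k, hk⟩ := hXg
    rw [hk, mul_pow, PowerSeries.coeff_X_pow_mul', if_pos le_rfl, Nat.sub_self,
      PowerSeries.coeff_zero_eq_constantCoeff_apply, map_pow, PowerSeries.coeff_succ_X_mul 0 k,
      PowerSeries.coeff_zero_eq_constantCoeff_apply]
  · intro d hd
    rw [Finset.coe_range, Set.mem_Iio]
    by_contra hdm
    apply hd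
    have h1 : PowerSeries.coeff (m + 1) (g ^ d) = 0 :=
      (PowerSeries.X_pow_dvd_iff.1 (pow_dvd_pow_of_dvd hXg d)) _ (by omega)
    change PowerSeries.coeff d f • PowerSeries.coeff (m + 1) (g ^ d) = 0
    rw [h1, smul_zero]

/-- After a faithfully flat extension there is an invertible `f` with `f(g(y)) = f^{(q)}(y)`. -/
theorem exists_ff_frob [Nontrivial R] (g : PowerSeries R) (hg0 : PowerSeries.constantCoeff g = 0)
    (hg1 : IsUnit (PowerSeries.coeff 1 g)) {q : ℕ} (hq : 2 ≤ q) :
    ∃ (B : Type u) (_ : CommRing B) (_ : Algebra R B), Module.FaithfullyFlat R B ∧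
      ∃ f : InvSeries B, ∀ n, PowerSeries.coeff n
        (PowerSeries.subst (PowerSeries.map (algebraMap R B) g) f.val : PowerSeries B) =
          PowerSeries.coeff n f.val ^ q := by
  obtain ⟨B, _, _, hff, c, hc⟩ := exists_tower (towerP g q) (towerP_monic g hq)
    (towerP_natDegree g hq) (towerP_vars g q)
  refine ⟨B, inferInstance, inferInstance, hff, ?_⟩
  have h0 : c 0 ^ (q - 1) = algebraMap R B (PowerSeries.coeff 1 g) := by
    have := hc 0
    rw [towerP, Polynomial.eval₂_sub, Polynomial.eval₂_X_pow, Polynomial.eval₂_C,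
      sub_eq_zero] at this
    rw [this]
    exact MvPolynomial.aeval_C _ _
  have hu : IsUnit (c 0) := by
    have h1 : IsUnit (c 0 ^ (q - 1)) := by
      rw [h0]
      exact hg1.map _
    exact (isUnit_pow_iff (by omega)).1 h1
  have hG0 : PowerSeries.constantCoeff (PowerSeries.map (algebraMap R B) g) = 0 := by
    rw [← PowerSeries.coeff_zero_eq_constantCoeff_apply, PowerSeries.coeff_map,
      PowerSeries.coeff_zero_eq_constantCoeff_apply, hg0, map_zero]
  refine ⟨InvSeries.ofCoeff c hu, fun n => ?_⟩
  have hcoef : ∀ n, PowerSeries.coeff (n + 1) (InvSeries.ofCoeff c hu).val = c n := fun n =>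
    InvSeries.c_ofCoeff c hu n
  rcases n with _ | m
  · have h1 : PowerSeries.constantCoeff (PowerSeries.subst (PowerSeries.map (algebraMap R B) g)
        (InvSeries.ofCoeff c hu).val : PowerSeries B) = 0 :=
      PowerSeries.constantCoeff_subst_eq_zero hG0 _ (InvSeries.ofCoeff c hu).cc
    rw [PowerSeries.coeff_zero_eq_constantCoeff_apply, h1,
      PowerSeries.coeff_zero_eq_constantCoeff_apply, (InvSeries.ofCoeff c hu).cc, zero_pow
      (by omega)]
  · rw [coeff_subst_eq_sum (InvSeries.ofCoeff c hu).cc hG0, hcoef, PowerSeries.coeff_map]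
    simp only [hcoef]
    rcases m with _ | m
    · rw [Finset.sum_range_zero, add_zero, zero_add, pow_one, ← h0, ← pow_succ']
      congr 1
      omega
    · have := hc (m + 1)
      rw [towerP, Polynomial.eval₂_sub, Polynomial.eval₂_X_pow, Polynomial.eval₂_add,
        Polynomial.eval₂_mul, Polynomial.eval₂_C, Polynomial.eval₂_C, Polynomial.eval₂_X,
        sub_eq_zero] at this
      rw [this]
      congr 1
      · rw [mul_comm]
        congr 1
        change _ = MvPolynomial.aeval c _
        rw [MvPolynomial.aeval_C, map_pow]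
      · change _ = MvPolynomial.aeval c _
        rw [map_sum]
        refine Finset.sum_congr rfl fun i _ => ?_
        rw [map_mul, MvPolynomial.aeval_X, MvPolynomial.aeval_C, ← map_pow,
          PowerSeries.coeff_map]

end TowerApp

section Normal

/-- the subring of elements with `a^q = a`, `q = p^h`, in characteristic `p` -/
noncomputable def frobSub (B : Type*) [CommRing B] (p : ℕ) [Fact p.Prime] [CharP B p] (h : ℕ) :
    Subring B := RingHom.eqLocus (iterateFrobenius B p h) (RingHom.id B)

theorem mem_frobSub {B : Type*} [CommRing B] {p : ℕ} [Fact p.Prime] [CharP B p] {h : ℕ} {a : B} :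
    a ∈ frobSub B p h ↔ a ^ (p ^ h) = a := by
  rw [frobSub]
  change iterateFrobenius B p h a = RingHom.id B a ↔ _
  rw [iterateFrobenius_def, RingHom.id_apply]

variable {R : Type u} [CommRing R]

/-- **Normalisation of the `p`-series.** After a faithfully flat extension `B` a law with
`[p] = g(x^q)`, `g = v x + …`, `v` a unit, becomes isomorphic to a law over
`C = {a : a^q = a}` with `[p] = x^q`. -/
theorem exists_ff_normal [Nontrivial R] (p : ℕ) [Fact p.Prime] [CharP R p] {h : ℕ} (hh : h ≠ 0)
    (F : Law R) (g : PowerSeries R) (hg0 : PowerSeries.constantCoeff g = 0)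
    (hg1 : IsUnit (PowerSeries.coeff 1 g))
    (hg : multSeries F.toFG p = PowerSeries.subst (PowerSeries.X ^ (p ^ h) : PowerSeries R) g) :
    ∃ (B : Type u) (_ : CommRing B) (_ : Algebra R B) (_ : CharP B p),
      Module.FaithfullyFlat R B ∧ ∃ (f : InvSeries B) (G : Law (frobSub B p h)),
        multSeries G.toFG p = PowerSeries.X ^ (p ^ h) ∧
        f • F.map (algebraMap R B) = G.map (frobSub B p h).subtype := by
  have hq : 2 ≤ p ^ h := by
    calc 2 ≤ p := (Fact.out : p.Prime).two_le
      _ = p ^ 1 := (pow_one p).symm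
      _ ≤ p ^ h := Nat.pow_le_pow_right (Fact.out : p.Prime).pos (Nat.one_le_iff_ne_zero.2 hh)
  obtain ⟨B, _, _, hff, f, hf⟩ := exists_ff_frob g hg0 hg1 hq
  have hchar : CharP B p := charP_of_injective_algebraMap
    (FaithfulSMul.algebraMap_injective R B) p
  refine ⟨B, inferInstance, inferInstance, hchar, hff, f, ?_⟩
  have hG0 : PowerSeries.constantCoeff (PowerSeries.map (algebraMap R B) g) = 0 := by
    rw [← PowerSeries.coeff_zero_eq_constantCoeff_apply, PowerSeries.coeff_map,
      PowerSeries.coeff_zero_eq_constantCoeff_apply, hg0, map_zero]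
  have hf' : (PowerSeries.subst (PowerSeries.map (algebraMap R B) g) f.val : PowerSeries B) =
      PowerSeries.map (iterateFrobenius B p h) f.val := by
    ext n
    rw [hf, PowerSeries.coeff_map, iterateFrobenius_def]
  have hB : multSeries (F.map (algebraMap R B)).toFG p =
      PowerSeries.subst (PowerSeries.X ^ (p ^ h) : PowerSeries B)
        (PowerSeries.map (algebraMap R B) g) := by
    rw [Law.map_toFG, ← map_multSeries, hg, ← PowerSeries.expand_apply (p ^ h)
      (pow_ne_zero_p p h), ← PowerSeries.expand_apply (p ^ h) (pow_ne_zero_p p h),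
      PowerSeries.map_expand]
  have h1 := multSeries_smul_eq p h hG0 hB hf'
  have h2 : ∀ d, coeff d (f • F.map (algebraMap R B)).ps ∈ frobSub B p h := fun d =>
    mem_frobSub.2 (coeff_pow_eq p h h1 d)
  obtain ⟨G, hG⟩ := exists_law_of_coeff_mem (frobSub B p h) _ h2
  refine ⟨G, ?_, hG.symm⟩
  have h3 : PowerSeries.map (frobSub B p h).subtype (multSeries G.toFG p) =
      PowerSeries.map (frobSub B p h).subtype (PowerSeries.X ^ (p ^ h)) := by
    rw [map_multSeries, ← Law.map_toFG, hG, h1, map_pow, PowerSeries.map_X]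
  ext n
  have h4 := congrArg (PowerSeries.coeff n) h3
  rw [PowerSeries.coeff_map, PowerSeries.coeff_map] at h4
  exact congrArg _ (Subtype.ext h4)

end Normal

end Vale.Agent.P251.F
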