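import Vale.Agent.P251.F.Hom

/-!
# P251, part F (F4): the algebra representing isomorphisms between two formal group laws

For formal group laws `F`, `G` over `R`, `IsoRep F G T` says that the `R`-algebra `T` with the
series `f` represents the functor `B ↦ {isomorphisms F_B → G_B}` on `R`-algebras.
`isoRep F G : IsoRep F G (IsoAlg F G)` is the construction by generators and relations.
-/

namespace Vale.Agent.P251.F

open MvPowerSeries Vale.Agent.P217

universe u

section Defect

variable {R S : Type*} [CommRing R] [CommRing S]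

/-- `f(F(X,Y)) - G(f(X), f(Y))`. -/
noncomputable def homDefect (F G : FormalGroup R) (f : PowerSeries R) : MvPowerSeries (Fin 2) R :=
  (PowerSeries.subst F.toPowerSeries f : MvPowerSeries (Fin 2) R) -
      MvPowerSeries.subst
        ![(PowerSeries.subst (X 0 : MvPowerSeries (Fin 2) R) f : MvPowerSeries (Fin 2) R),
          (PowerSeries.subst (X 1 : MvPowerSeries (Fin 2) R) f : MvPowerSeries (Fin 2) R)]
        G.toPowerSeries

theorem isHom_iff_homDefect {F G : FormalGroup R} {f : PowerSeries R} :
    IsHom F G f ↔ PowerSeries.constantCoeff f = 0 ∧ homDefect F G f = 0 := by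
  rw [IsHom, homDefect, sub_eq_zero]

theorem map_homDefect (φ : R →+* S) (F G : FormalGroup R) {f : PowerSeries R}
    (hf : PowerSeries.constantCoeff f = 0) :
    MvPowerSeries.map φ (homDefect F G f) =
      homDefect (F.map φ) (G.map φ) (PowerSeries.map φ f) := by
  have hX0 : PowerSeries.HasSubst (X 0 : MvPowerSeries (Fin 2) R) := hasSubst_of_cc (by simp)
  have hX1 : PowerSeries.HasSubst (X 1 : MvPowerSeries (Fin 2) R) := hasSubst_of_cc (by simp)
  have hFs : PowerSeries.HasSubst F.toPowerSeries := hasSubst_of_cc F.zero_constantCoeff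
  rw [homDefect, map_sub, PowerSeries.map_subst hFs, map_pair_subst φ (subst_hasSubst hf hX0)
      (subst_hasSubst hf hX1), PowerSeries.map_subst hX0, PowerSeries.map_subst hX1, map_X,
      map_X]
  rfl

end Defect

section Rep

variable {R : Type u} [CommRing R]

/-- the `R`-algebra `T` represents isomorphisms from `F` to `G`; `f` is the universal one. -/
structure IsoRep (F G : FormalGroup R) (T : Type u) [CommRing T] [Algebra R T] where
  f : PowerSeries T
  isIso : IsIso (F.map (algebraMap R T)) (G.map (algebraMap R T)) f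
  exists_hom : ∀ (B : Type u) [CommRing B] [Algebra R B] (g : PowerSeries B),
    IsIso (F.map (algebraMap R B)) (G.map (algebraMap R B)) g →
      ∃ φ : T →ₐ[R] B, PowerSeries.map (φ : T →+* B) f = g
  hom_ext : ∀ (B : Type u) [CommRing B] [Algebra R B] (φ ψ : T →ₐ[R] B),
    PowerSeries.map (φ : T →+* B) f = PowerSeries.map (ψ : T →+* B) f → φ = ψ

variable (F G : FormalGroup R)

/-- the generic series; the variable `X n` is the coefficient of `x^n` for `n ≥ 1`. -/
noncomputable def genSer (R : Type u) [CommRing R] : PowerSeries (MvPolynomial ℕ R) :=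
  PowerSeries.mk fun n => if n = 0 then 0 else MvPolynomial.X n

/-- the relations: `X 0` is inverse to the linear coefficient `X 1`, and the generic series is a
homomorphism. -/
noncomputable def isoIdeal : Ideal (MvPolynomial ℕ R) :=
  Ideal.span ({MvPolynomial.X 0 * MvPolynomial.X 1 - 1} ∪
    Set.range fun d => coeff d (homDefect (F.map MvPolynomial.C) (G.map MvPolynomial.C)
      (genSer R)))

/-- the algebra representing isomorphisms `F → G`. -/
abbrev IsoAlg : Type u := MvPolynomial ℕ R ⧸ isoIdeal F G

theorem constantCoeff_genSer : PowerSeries.constantCoeff (genSer R) = 0 := by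
  rw [← PowerSeries.coeff_zero_eq_constantCoeff_apply, genSer, PowerSeries.coeff_mk, if_pos rfl]

theorem map_comp_C {B : Type u} [CommRing B] [Algebra R B] (φ : MvPolynomial ℕ R →ₐ[R] B)
    (F : FormalGroup R) :
    (F.map MvPolynomial.C).map (φ : MvPolynomial ℕ R →+* B) = F.map (algebraMap R B) := by
  rw [FG_map_map]
  congr 1
  ext r
  exact φ.commutes r

theorem isIso_genSer_iff {B : Type u} [CommRing B] [Algebra R B] (φ : MvPolynomial ℕ R →ₐ[R] B) :
    (∀ a ∈ isoIdeal F G, φ a = 0) ↔ IsIso (F.map (algebraMap R B)) (G.map (algebraMap R B))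
      (PowerSeries.map (φ : MvPolynomial ℕ R →+* B) (genSer R)) ∧
        φ (MvPolynomial.X 0) * φ (MvPolynomial.X 1) = 1 := by
  have h0 : PowerSeries.constantCoeff (PowerSeries.map (φ : MvPolynomial ℕ R →+* B)
      (genSer R)) = 0 := by
    rw [← PowerSeries.coeff_zero_eq_constantCoeff_apply, PowerSeries.coeff_map,
      PowerSeries.coeff_zero_eq_constantCoeff_apply, constantCoeff_genSer, map_zero]
  have h1 : PowerSeries.coeff 1 (PowerSeries.map (φ : MvPolynomial ℕ R →+* B)
      (genSer R)) = φ (MvPolynomial.X 1) := by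
    rw [PowerSeries.coeff_map, genSer, PowerSeries.coeff_mk, if_neg one_ne_zero]
    rfl
  have h2 : ∀ d, φ (coeff d (homDefect (F.map MvPolynomial.C) (G.map MvPolynomial.C)
      (genSer R))) = coeff d (homDefect (F.map (algebraMap R B)) (G.map (algebraMap R B))
        (PowerSeries.map (φ : MvPolynomial ℕ R →+* B) (genSer R))) := by
    intro d
    rw [← map_comp_C φ F, ← map_comp_C φ G, ← map_homDefect _ _ _ constantCoeff_genSer,
      coeff_map]
    rfl
  constructor
  · intro h
    have h3 : φ (MvPolynomial.X 0) * φ (MvPolynomial.X 1) = 1 := by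
      have := h _ (Ideal.subset_span (Or.inl rfl))
      rwa [map_sub, map_mul, map_one, sub_eq_zero] at this
    refine ⟨⟨isHom_iff_homDefect.2 ⟨h0, ?_⟩, ?_⟩, h3⟩
    · ext d
      rw [← h2, h _ (Ideal.subset_span (Or.inr ⟨d, rfl⟩)), map_zero]
    · rw [h1]
      exact IsUnit.of_mul_eq_one _ (by rw [mul_comm]; exact h3)
  · rintro ⟨⟨h3, _⟩, h4⟩
    rw [isHom_iff_homDefect] at h3
    intro a ha
    have : isoIdeal F G ≤ RingHom.ker (φ : MvPolynomial ℕ R →+* B) := by
      rw [isoIdeal, Ideal.span_le]
      rintro _ (rfl | ⟨d, rfl⟩)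
      · change φ _ = 0
        rw [map_sub, map_mul, map_one, h4, sub_self]
      · change φ _ = 0
        rw [h2, h3.2, map_zero]
    exact this ha

/-- the construction of the representing algebra. -/
noncomputable def isoRep : IsoRep F G (IsoAlg F G) where
  f := PowerSeries.map (Ideal.Quotient.mkₐ R (isoIdeal F G) : MvPolynomial ℕ R →+* IsoAlg F G)
    (genSer R)
  isIso := ((isIso_genSer_iff F G (Ideal.Quotient.mkₐ R (isoIdeal F G))).1 fun a ha =>
    Ideal.Quotient.eq_zero_iff_mem.2 ha).1
  exists_hom := by
    intro B _ _ g hg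
    obtain ⟨u, hu⟩ := hg.2
    let φ : MvPolynomial ℕ R →ₐ[R] B := MvPolynomial.aeval
      (fun n => if n = 0 then ((u⁻¹ : Bˣ) : B) else PowerSeries.coeff n g)
    have hφ : PowerSeries.map (φ : MvPolynomial ℕ R →+* B) (genSer R) = g := by
      ext n
      rw [PowerSeries.coeff_map, genSer, PowerSeries.coeff_mk]
      split_ifs with h
      · subst h
        rw [map_zero, PowerSeries.coeff_zero_eq_constantCoeff_apply, hg.1.1]
      · change MvPolynomial.aeval _ _ = _
        rw [MvPolynomial.aeval_X, if_neg h]
    have h1 : ∀ a ∈ isoIdeal F G, φ a = 0 := by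
      refine (isIso_genSer_iff F G φ).2 ⟨by rw [hφ]; exact hg, ?_⟩
      simp only [φ, MvPolynomial.aeval_X, if_pos, if_neg one_ne_zero]
      rw [← hu, Units.inv_mul]
    refine ⟨Ideal.Quotient.liftₐ _ φ h1, ?_⟩
    rw [← hφ]
    ext n
    rw [PowerSeries.coeff_map, PowerSeries.coeff_map, PowerSeries.coeff_map]
    rfl
  hom_ext := by
    intro B _ _ φ ψ h
    apply Ideal.Quotient.algHom_ext
    apply MvPolynomial.algHom_ext
    have hc : ∀ n, n ≠ 0 → φ (Ideal.Quotient.mkₐ R (isoIdeal F G) (MvPolynomial.X n)) =
        ψ (Ideal.Quotient.mkₐ R (isoIdeal F G) (MvPolynomial.X n)) := by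
      intro n hn
      have := congrArg (PowerSeries.coeff n) h
      simp only [PowerSeries.coeff_map, genSer, PowerSeries.coeff_mk, if_neg hn] at this
      exact this
    intro n
    by_cases hn : n = 0
    · subst hn
      have h1 : Ideal.Quotient.mkₐ R (isoIdeal F G) (MvPolynomial.X 0) *
          Ideal.Quotient.mkₐ R (isoIdeal F G) (MvPolynomial.X 1) = 1 :=
        ((isIso_genSer_iff F G (Ideal.Quotient.mkₐ R (isoIdeal F G))).1 fun a ha =>
          Ideal.Quotient.eq_zero_iff_mem.2 ha).2
      have h2 := congrArg φ h1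
      have h3 := congrArg ψ h1
      rw [map_mul, map_one] at h2 h3
      rw [hc 1 one_ne_zero] at h2
      change φ _ = ψ _
      exact left_inv_eq_right_inv h2 (by rw [mul_comm]; exact h3)
    · exact hc n hn

end Rep

end Vale.Agent.P251.F
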