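import Vale.Agent.P251.F.AutRep

/-!
# P251, part F: the algebra of isomorphisms is a torsor

`IsIsoRep F G T f`: the `R`-algebra `T`, with the isomorphism `f : F_T → G_T`, represents the
isomorphisms `F → G`. For `G = H_R`, `H` a formal group law over a finite field `k` with
`[m]_H = X ^ q`, and an `R`-algebra `B` with an isomorphism `g : F_B → H_B`:

* `isoTorsor : B ⊗[R] T ≃ₐ[B] LocallyConstant (AutF H) B`, `b ⊗ t ↦ (γ ↦ b * t(γ ∘ g))`.
-/

namespace Vale.Agent.P251.F

open MvPowerSeries Vale.Agent.P217 TensorProduct Topology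

universe u

section Rep

variable {R : Type u} [CommRing R]

/-- `T`, with the isomorphism `f`, represents the isomorphisms `F → G`. -/
structure IsIsoRep (F G : FormalGroup R) (T : Type u) [CommRing T] [Algebra R T]
    (f : PowerSeries T) : Prop where
  isIso : IsIso (F.map (algebraMap R T)) (G.map (algebraMap R T)) f
  exists_lift : ∀ (B : Type u) [CommRing B] [Algebra R B] (g : PowerSeries B),
    IsIso (F.map (algebraMap R B)) (G.map (algebraMap R B)) g →
      ∃ φ : T →ₐ[R] B, PowerSeries.map (φ : T →+* B) f = g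
  ext : ∀ (B : Type u) [CommRing B] [Algebra R B] (φ ψ : T →ₐ[R] B),
    PowerSeries.map (φ : T →+* B) f = PowerSeries.map (ψ : T →+* B) f → φ = ψ

namespace IsIsoRep

variable {F G : FormalGroup R} {T : Type u} [CommRing T] [Algebra R T] {f : PowerSeries T}
  (hT : IsIsoRep F G T f) {B : Type u} [CommRing B] [Algebra R B] {g : PowerSeries B}
  (hg : IsIso (F.map (algebraMap R B)) (G.map (algebraMap R B)) g)

/-- The point of `T` defined by an isomorphism. -/
noncomputable def lift : T →ₐ[R] B := (hT.exists_lift B g hg).choose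

theorem map_lift : PowerSeries.map (hT.lift hg : T →+* B) f = g :=
  (hT.exists_lift B g hg).choose_spec

theorem eq_lift {φ : T →ₐ[R] B} (h : PowerSeries.map (φ : T →+* B) f = g) : φ = hT.lift hg := by
  apply hT.ext
  rw [h, hT.map_lift hg]

theorem comp_lift {C : Type u} [CommRing C] [Algebra R C] (ψ : B →ₐ[R] C)
    (hg' : IsIso (F.map (algebraMap R C)) (G.map (algebraMap R C))
      (PowerSeries.map (ψ : B →+* C) g)) : ψ.comp (hT.lift hg) = hT.lift hg' := by
  apply hT.eq_lift
  have h := congrArg (PowerSeries.map (ψ : B →+* C)) (hT.map_lift hg)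
  rw [← h]
  ext n
  simp only [PowerSeries.coeff_map]
  rfl

end IsIsoRep

theorem isIso_map {F G : FormalGroup R} {B C : Type u} [CommRing B] [CommRing C] [Algebra R B]
    [Algebra R C] {g : PowerSeries B}
    (hg : IsIso (F.map (algebraMap R B)) (G.map (algebraMap R B)) g) (ψ : B →ₐ[R] C) :
    IsIso (F.map (algebraMap R C)) (G.map (algebraMap R C)) (PowerSeries.map (ψ : B →+* C) g) := by
  have h := hg.mapL (ψ : B →+* C)
  rw [FG_map_map, FG_map_map, ψ.comp_algebraMap] at h
  exact h

end Rep

section Torsor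

variable {k R : Type u} [Field k] [CommRing R] [Algebra k R] {H : FormalGroup k}
  {F : FormalGroup R}

/-- The automorphism of `H` over an `R`-algebra. -/
noncomputable def autR (R : Type u) [CommRing R] [Algebra k R] (B : Type u) [CommRing B]
    [Algebra R B] (γ : AutF H) : PowerSeries B :=
  PowerSeries.map (algebraMap R B) (PowerSeries.map (algebraMap k R) γ.val)

theorem isIso_autR (B : Type u) [CommRing B] [Algebra R B] (γ : AutF H) :
    IsIso ((H.map (algebraMap k R)).map (algebraMap R B))
      ((H.map (algebraMap k R)).map (algebraMap R B)) (autR R B γ) :=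
  (γ.isIso.mapL (algebraMap k R)).mapL (algebraMap R B)

theorem isIso_comp_autR {B : Type u} [CommRing B] [Algebra R B] {g : PowerSeries B}
    (hg : IsIso (F.map (algebraMap R B)) ((H.map (algebraMap k R)).map (algebraMap R B)) g)
    (γ : AutF H) : IsIso (F.map (algebraMap R B)) ((H.map (algebraMap k R)).map (algebraMap R B))
      (PowerSeries.subst g (autR R B γ)) :=
  hg.compL (isIso_autR B γ)

instance lc_isScalarTower {X R S A : Type*} [TopologicalSpace X] [CommSemiring R]
    [CommSemiring S] [Semiring A] [Algebra R S] [Algebra S A] [Algebra R A]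
    [IsScalarTower R S A] : IsScalarTower R S (LocallyConstant X A) where
  smul_assoc r s f := by
    ext x
    exact smul_assoc r s (f x)

/-- `LocallyConstant X B = B ⊗ LocallyConstant X k` as an algebra. -/
noncomputable def tensorLCAlg (k X B : Type*) [TopologicalSpace X] [CommRing k] [CommRing B]
    [Algebra k B] : B ⊗[k] LocallyConstant X k →ₐ[B] LocallyConstant X B :=
  Algebra.TensorProduct.lift (Algebra.ofId B _)
    (LocallyConstant.mapₐ k (Algebra.ofId k B)) (fun _ _ => Commute.all _ _)

theorem tensorLCAlg_tmul {k X B : Type*} [TopologicalSpace X] [CommRing k] [CommRing B]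
    [Algebra k B] (b : B) (φ : LocallyConstant X k) (x : X) :
    tensorLCAlg k X B (b ⊗ₜ φ) x = b * algebraMap k B (φ x) := by
  rw [tensorLCAlg, Algebra.TensorProduct.lift_tmul]
  rfl

theorem tensorLCAlg_bijective {k X B : Type*} [TopologicalSpace X] [CompactSpace X] [CommRing k]
    [CommRing B] [Algebra k B] : Function.Bijective (tensorLCAlg k X B) := by
  have h : ∀ t, tensorLCAlg k X B t = tensorLC k B t := by
    intro t
    induction t using TensorProduct.induction_on with
    | zero => rw [map_zero, map_zero]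
    | add a b ha hb => rw [map_add, map_add, ha, hb]
    | tmul b φ =>
      ext x
      rw [tensorLCAlg_tmul, tensorLC_tmul_apply, Algebra.smul_def, mul_comm]
  have h' : (tensorLCAlg k X B : B ⊗[k] LocallyConstant X k → LocallyConstant X B) =
      tensorLC k B := funext h
  rw [h']
  exact ⟨tensorLC_injective, tensorLC_surjective⟩

/-- The isomorphism over `LocallyConstant (AutF H) B` with value `γ ∘ g` at `γ`. -/
theorem isIso_univ {B : Type u} [CommRing B] [Algebra R B] [Algebra k B] [IsScalarTower k R B]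
    {g : PowerSeries B}
    (hg : IsIso (F.map (algebraMap R B)) ((H.map (algebraMap k R)).map (algebraMap R B)) g) :
    IsIso (F.map (algebraMap R (LocallyConstant (AutF H) B)))
      ((H.map (algebraMap k R)).map (algebraMap R (LocallyConstant (AutF H) B)))
      (PowerSeries.subst (PowerSeries.map (algebraMap B (LocallyConstant (AutF H) B)) g)
        (univAut H B)) := by
  have h1 := hg.mapL (algebraMap B (LocallyConstant (AutF H) B))
  rw [FG_map_map (algebraMap R B), FG_map_map (algebraMap R B)] at h1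
  have h2 := isIso_univAut (H := H) B
  have e1 : (algebraMap B (LocallyConstant (AutF H) B)).comp (algebraMap R B) =
      algebraMap R (LocallyConstant (AutF H) B) := rfl
  have e2 : (H.map (algebraMap k R)).map (algebraMap R (LocallyConstant (AutF H) B)) =
      H.map (algebraMap k (LocallyConstant (AutF H) B)) := by
    rw [FG_map_map]
    congr 1
    ext c γ
    exact (IsScalarTower.algebraMap_apply k R B c).symm
  rw [e1, e2] at h1
  rw [e2]
  exact h1.compL h2

/-- `map` and univariate substitution. -/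
theorem pmap_subst {A C : Type*} [CommRing A] [CommRing C] (φ : A →+* C) {a b : PowerSeries A}
    (ha : PowerSeries.constantCoeff a = 0) :
    PowerSeries.map φ (PowerSeries.subst a b) =
      (PowerSeries.subst (PowerSeries.map φ a) (PowerSeries.map φ b) : PowerSeries C) :=
  PowerSeries.map_subst (hasSubst_of_cc ha) b

theorem pmap_pmap {A C D : Type*} [CommRing A] [CommRing C] [CommRing D] (φ : A →+* C)
    (ψ : C →+* D) (a : PowerSeries A) :
    PowerSeries.map ψ (PowerSeries.map φ a) = PowerSeries.map (ψ.comp φ) a := by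
  ext n
  simp only [PowerSeries.coeff_map]
  rfl

theorem cc_pmap {A C : Type*} [CommRing A] [CommRing C] (φ : A →+* C) {a : PowerSeries A}
    (ha : PowerSeries.constantCoeff a = 0) :
    PowerSeries.constantCoeff (PowerSeries.map φ a) = 0 := by
  rw [← PowerSeries.coeff_zero_eq_constantCoeff_apply, PowerSeries.coeff_map,
    PowerSeries.coeff_zero_eq_constantCoeff_apply, ha, map_zero]

theorem psubst_psubst {A : Type*} [CommRing A] {a b : PowerSeries A}
    (ha : PowerSeries.constantCoeff a = 0) (hb : PowerSeries.constantCoeff b = 0)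
    (c : PowerSeries A) :
    (PowerSeries.subst b (PowerSeries.subst a c : PowerSeries A) : PowerSeries A) =
      PowerSeries.subst (PowerSeries.subst b a : PowerSeries A) c :=
  PowerSeries.subst_comp_subst_apply (hasSubst_of_cc ha) (hasSubst_of_cc hb) c

theorem torsor_aux [Finite k] [H.IsComm] {m : ℕ}
    (hH : multSeries H m = PowerSeries.X ^ Nat.card k) {T : Type u} [CommRing T] [Algebra R T]
    {f : PowerSeries T} (hT : IsIsoRep F (H.map (algebraMap k R)) T f)
    {B : Type u} [CommRing B] [Algebra R B] [Algebra k B] [IsScalarTower k R B]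
    {g : PowerSeries B}
    (hg : IsIso (F.map (algebraMap R B)) ((H.map (algebraMap k R)).map (algebraMap R B)) g) :
    ∃ Φ : B ⊗[R] T ≃ₐ[B] LocallyConstant (AutF H) B, ∀ (b : B) (t : T) (γ : AutF H),
      Φ (b ⊗ₜ t) γ = b * hT.lift (isIso_comp_autR hg γ) t := by
  -- forward map
  have hg0 := hg.1.1
  have hcL : PowerSeries.constantCoeff
      (PowerSeries.map (algebraMap B (LocallyConstant (AutF H) B)) g) = 0 := cc_pmap _ hg0
  let φ₀ : T →ₐ[R] LocallyConstant (AutF H) B := hT.lift (isIso_univ hg)
  have hφ₀ : PowerSeries.map (φ₀ : T →+* LocallyConstant (AutF H) B) f =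
      PowerSeries.subst (PowerSeries.map (algebraMap B (LocallyConstant (AutF H) B)) g)
        (univAut H B) := hT.map_lift _
  let Φ : B ⊗[R] T →ₐ[B] LocallyConstant (AutF H) B :=
    Algebra.TensorProduct.lift (Algebra.ofId B _) φ₀ (fun _ _ => Commute.all _ _)
  have hΦ : ∀ (b : B) (t : T) (γ : AutF H),
      Φ (b ⊗ₜ t) γ = b * hT.lift (isIso_comp_autR hg γ) t := by
    intro b t γ
    have h1 : (LocallyConstant.evalₐ R γ : LocallyConstant (AutF H) B →ₐ[R] B).comp φ₀ =
        hT.lift (isIso_comp_autR hg γ) := by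
      apply hT.eq_lift
      have h2 := congrArg (PowerSeries.map (LocallyConstant.evalRingHom γ :
        LocallyConstant (AutF H) B →+* B)) hφ₀
      rw [pmap_subst _ hcL, map_eval_univAut, pmap_pmap, pmap_pmap] at h2
      refine Eq.trans h2 ?_
      have e1 : (LocallyConstant.evalRingHom γ : LocallyConstant (AutF H) B →+* B).comp
        (algebraMap B (LocallyConstant (AutF H) B)) = RingHom.id B := rfl
      rw [e1, PowerSeries.map_id, autR, pmap_pmap, ← IsScalarTower.algebraMap_eq]
      rfl
    rw [← h1]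
    rfl
  -- the automorphism over `B ⊗ T`
  obtain ⟨g', hg', h1, h2⟩ := hg.symmL
  have hg'0 := hg'.1.1
  let iL : B →+* B ⊗[R] T := algebraMap B (B ⊗[R] T)
  let iR : T →ₐ[R] B ⊗[R] T := Algebra.TensorProduct.includeRight
  have hf1 := isIso_map hT.isIso iR
  have hg1 := hg'.mapL iL
  have e1 : iL.comp (algebraMap R B) = algebraMap R (B ⊗[R] T) := rfl
  rw [FG_map_map (algebraMap R B), FG_map_map (algebraMap R B), e1] at hg1
  have ha := hg1.compL hf1
  have e2 : (H.map (algebraMap k R)).map (algebraMap R (B ⊗[R] T)) =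
      H.map (algebraMap k (B ⊗[R] T)) := by
    rw [FG_map_map]
    congr 1
    ext c
    exact congrArg iL (IsScalarTower.algebraMap_apply k R B c).symm
  rw [e2] at ha
  obtain ⟨θ, hθ⟩ := exists_autRep hH ha
  let Ψ' : B ⊗[k] LocallyConstant (AutF H) k →ₐ[B] B ⊗[R] T :=
    Algebra.TensorProduct.lift (Algebra.ofId B _) θ (fun _ _ => Commute.all _ _)
  let E : B ⊗[k] LocallyConstant (AutF H) k ≃ₐ[B] LocallyConstant (AutF H) B :=
    AlgEquiv.ofBijective (tensorLCAlg k (AutF H) B) tensorLCAlg_bijective
  have hE1 : ∀ n, E (1 ⊗ₜ cfLC H n) = PowerSeries.coeff n (univAut H B) := by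
    intro n
    rw [univAut, PowerSeries.coeff_mk]
    ext γ
    refine (tensorLCAlg_tmul (1 : B) (cfLC H n) γ).trans ?_
    rw [one_mul]
    rfl
  have hΨ1 : ∀ n, Ψ' (1 ⊗ₜ cfLC H n) = PowerSeries.coeff n (PowerSeries.subst
      (PowerSeries.map iL g') (PowerSeries.map (iR : T →+* B ⊗[R] T) f) :
        PowerSeries (B ⊗[R] T)) := by
    intro n
    rw [← hθ]
    refine (Algebra.TensorProduct.lift_tmul _ _ _ _ _).trans ?_
    rw [map_one, one_mul]
  have hL : ∀ χ : B ⊗[R] T →ₐ[B] LocallyConstant (AutF H) B,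
      PowerSeries.map (χ : B ⊗[R] T →+* LocallyConstant (AutF H) B) (PowerSeries.map iL g') =
        PowerSeries.map (algebraMap B (LocallyConstant (AutF H) B)) g' := by
    intro χ
    rw [pmap_pmap]
    have e3 : (χ : B ⊗[R] T →+* LocallyConstant (AutF H) B).comp iL =
        algebraMap B (LocallyConstant (AutF H) B) := χ.comp_algebraMap
    rw [e3]
  have hΦR : PowerSeries.map (Φ : B ⊗[R] T →+* LocallyConstant (AutF H) B)
      (PowerSeries.map (iR : T →+* B ⊗[R] T) f) = PowerSeries.subst
        (PowerSeries.map (algebraMap B (LocallyConstant (AutF H) B)) g) (univAut H B) := by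
    have e3 : ∀ t : T, Φ (iR t) = φ₀ t := by
      intro t
      have h := Algebra.TensorProduct.lift_tmul (Algebra.ofId B (LocallyConstant (AutF H) B)) φ₀
        (fun _ _ => Commute.all _ _) 1 t
      rw [map_one, one_mul] at h
      exact h
    rw [← hφ₀, pmap_pmap]
    ext1 n
    rw [PowerSeries.coeff_map, PowerSeries.coeff_map]
    exact e3 _
  have hΦa : PowerSeries.map (Φ : B ⊗[R] T →+* LocallyConstant (AutF H) B) (PowerSeries.subst
      (PowerSeries.map iL g') (PowerSeries.map (iR : T →+* B ⊗[R] T) f)) = univAut H B := by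
    rw [pmap_subst _ (cc_pmap _ hg'0), hL, hΦR, psubst_psubst hcL (cc_pmap _ hg'0),
      ← pmap_subst _ hg'0, h2, PowerSeries.map_X]
    exact PowerSeries.X_subst _
  have hΦΨ : Φ.comp Ψ' = (E : B ⊗[k] LocallyConstant (AutF H) k →ₐ[B] _) := by
    apply Algebra.TensorProduct.ext_ring
    apply autRep_ext
    intro n
    show Φ (Ψ' (1 ⊗ₜ cfLC H n)) = E (1 ⊗ₜ cfLC H n)
    rw [hΨ1, hE1, ← hΦa, PowerSeries.coeff_map]
    rfl
  let Ψ : LocallyConstant (AutF H) B →ₐ[B] B ⊗[R] T := Ψ'.comp E.symm.toAlgHom
  have hΨu : PowerSeries.map (Ψ : LocallyConstant (AutF H) B →+* B ⊗[R] T) (univAut H B) =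
      PowerSeries.subst (PowerSeries.map iL g') (PowerSeries.map (iR : T →+* B ⊗[R] T) f) := by
    ext n
    rw [PowerSeries.coeff_map, ← hE1, ← hΨ1]
    show Ψ' (E.symm (E _)) = _
    rw [AlgEquiv.symm_apply_apply]
  have h3 : Φ.comp Ψ = AlgHom.id B _ := by
    ext1 x
    show Φ (Ψ' (E.symm x)) = x
    have := congrArg (fun χ => χ (E.symm x)) hΦΨ
    refine Eq.trans this ?_
    exact E.apply_symm_apply x
  have h4 : Ψ.comp Φ = AlgHom.id B _ := by
    apply Algebra.TensorProduct.ext_ring
    apply hT.ext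
    have h5 : PowerSeries.map (Ψ : LocallyConstant (AutF H) B →+* B ⊗[R] T)
        (PowerSeries.map (Φ : B ⊗[R] T →+* LocallyConstant (AutF H) B)
          (PowerSeries.map (iR : T →+* B ⊗[R] T) f)) =
          PowerSeries.map (iR : T →+* B ⊗[R] T) f := by
      rw [hΦR, pmap_subst _ hcL, hΨu, pmap_pmap]
      have e3 : (Ψ : LocallyConstant (AutF H) B →+* B ⊗[R] T).comp
        (algebraMap B (LocallyConstant (AutF H) B)) = iL := Ψ.comp_algebraMap
      rw [e3, psubst_psubst (cc_pmap _ hg'0) (cc_pmap _ hg0), ← pmap_subst _ hg0, h1,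
        PowerSeries.map_X]
      exact PowerSeries.X_subst _
    rw [pmap_pmap, pmap_pmap] at h5
    exact h5
  exact ⟨AlgEquiv.ofAlgHom Φ Ψ h3 h4, hΦ⟩

/-- **The algebra of isomorphisms is a torsor under the automorphisms.** -/
theorem exists_isoTorsor [Finite k] [H.IsComm] {m : ℕ}
    (hH : multSeries H m = PowerSeries.X ^ Nat.card k) {T : Type u} [CommRing T] [Algebra R T]
    {f : PowerSeries T} (hT : IsIsoRep F (H.map (algebraMap k R)) T f)
    {B : Type u} [CommRing B] [Algebra R B] {g : PowerSeries B}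
    (hg : IsIso (F.map (algebraMap R B)) ((H.map (algebraMap k R)).map (algebraMap R B)) g) :
    ∃ Φ : B ⊗[R] T ≃ₐ[B] LocallyConstant (AutF H) B, ∀ (b : B) (t : T) (γ : AutF H),
      Φ (b ⊗ₜ t) γ = b * hT.lift (isIso_comp_autR hg γ) t := by
  let _ : Algebra k B := ((algebraMap R B).comp (algebraMap k R)).toAlgebra
  have _ : IsScalarTower k R B := IsScalarTower.of_algebraMap_eq fun _ => rfl
  exact torsor_aux hH hT hg

section

variable [Finite k] [H.IsComm] {m : ℕ}
    (hH : multSeries H m = PowerSeries.X ^ Nat.card k) {T : Type u} [CommRing T] [Algebra R T]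
    {f : PowerSeries T} (hT : IsIsoRep F (H.map (algebraMap k R)) T f)
    {B : Type u} [CommRing B] [Algebra R B] {g : PowerSeries B}
    (hg : IsIso (F.map (algebraMap R B)) ((H.map (algebraMap k R)).map (algebraMap R B)) g)

/-- `B ⊗[R] T ≃ₐ[B] LocallyConstant (AutF H) B`. -/
noncomputable def isoTorsor : B ⊗[R] T ≃ₐ[B] LocallyConstant (AutF H) B :=
  (exists_isoTorsor hH hT hg).choose

theorem isoTorsor_tmul_apply (b : B) (t : T) (γ : AutF H) :
    isoTorsor hH hT hg (b ⊗ₜ t) γ = b * hT.lift (isIso_comp_autR hg γ) t :=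
  (exists_isoTorsor hH hT hg).choose_spec b t γ

include hH in
theorem isLocallyConstant_lift (t : T) :
    IsLocallyConstant (fun γ : AutF H => hT.lift (isIso_comp_autR hg γ) t) := by
  have h := (isoTorsor hH hT hg (1 ⊗ₜ t)).isLocallyConstant
  have e : (isoTorsor hH hT hg (1 ⊗ₜ t) : AutF H → B) =
      fun γ => hT.lift (isIso_comp_autR hg γ) t := by
    funext γ
    rw [isoTorsor_tmul_apply, one_mul]
  exact e ▸ h

omit [H.IsComm] in
/-- `LocallyConstant (AutF H) B` is faithfully flat over `B`. -/
theorem faithfullyFlat_lc (B : Type*) [CommRing B] [Algebra k B] :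
    Module.FaithfullyFlat B (LocallyConstant (AutF H) B) := by
  have : Nonempty (AutF H) := ⟨1⟩
  have : Nontrivial (LocallyConstant (AutF H) k) := by
    refine ⟨⟨0, 1, fun h => ?_⟩⟩
    have := LocallyConstant.congr_fun h (1 : AutF H)
    exact zero_ne_one this
  exact Module.FaithfullyFlat.of_linearEquiv B (B ⊗[k] LocallyConstant (AutF H) k)
    (AlgEquiv.ofBijective (tensorLCAlg k (AutF H) B) tensorLCAlg_bijective).symm.toLinearEquiv

include hH hT hg in
/-- After base change to `B`, where `F` and `H` are isomorphic, `T` is faithfully flat. -/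
theorem faithfullyFlat_tensor : Module.FaithfullyFlat B (B ⊗[R] T) := by
  let _ : Algebra k B := ((algebraMap R B).comp (algebraMap k R)).toAlgebra
  have := faithfullyFlat_lc (H := H) B
  exact Module.FaithfullyFlat.of_linearEquiv B (LocallyConstant (AutF H) B)
    (isoTorsor hH hT hg).toLinearEquiv

end

end Torsor

section Action

variable {k R : Type u} [Field k] [CommRing R] [Algebra k R] {H : FormalGroup k}
  {F : FormalGroup R} {T : Type u} [CommRing T] [Algebra R T]
  {f : PowerSeries T} (hT : IsIsoRep F (H.map (algebraMap k R)) T f)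

/-- The right action of the automorphisms of `H` on `T`: on points `g ↦ γ ∘ g`. -/
noncomputable def IsIsoRep.ract (γ : AutF H) : T →ₐ[R] T := hT.lift (isIso_comp_autR hT.isIso γ)

theorem IsIsoRep.map_ract (γ : AutF H) :
    PowerSeries.map (hT.ract γ : T →+* T) f = PowerSeries.subst f (autR R T γ) := hT.map_lift _

theorem IsIsoRep.ract_one : hT.ract (1 : AutF H) = AlgHom.id R T := by
  symm
  apply hT.eq_lift
  rw [autR, AutF.val_one, PowerSeries.map_X, PowerSeries.map_X, PowerSeries.subst_X
    (hasSubst_of_cc hT.isIso.1.1)]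
  exact congrFun PowerSeries.map_id f

theorem autR_map {B C : Type u} [CommRing B] [CommRing C] [Algebra R B] [Algebra R C]
    (φ : B →ₐ[R] C) (γ : AutF H) :
    PowerSeries.map (φ : B →+* C) (autR R B γ) = autR R C γ := by
  rw [autR, autR, pmap_pmap, φ.comp_algebraMap]

theorem autR_mul (B : Type u) [CommRing B] [Algebra R B] (γ δ : AutF H) :
    autR R B (γ * δ) = PowerSeries.subst (autR R B δ) (autR R B γ) := by
  rw [autR, AutF.val_mul, pmap_subst _ δ.constantCoeff_val, pmap_subst _
    (cc_pmap _ δ.constantCoeff_val)]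
  rfl

theorem cc_autR (B : Type u) [CommRing B] [Algebra R B] (γ : AutF H) :
    PowerSeries.constantCoeff (autR R B γ) = 0 :=
  cc_pmap _ (cc_pmap _ γ.constantCoeff_val)

/-- On points: `(γ δ) ∘ g = γ ∘ (δ ∘ g)`. -/
theorem IsIsoRep.lift_comp_ract {B : Type u} [CommRing B] [Algebra R B] {g : PowerSeries B}
    (hg : IsIso (F.map (algebraMap R B)) ((H.map (algebraMap k R)).map (algebraMap R B)) g)
    (γ : AutF H) : (hT.lift hg).comp (hT.ract γ) = hT.lift (isIso_comp_autR hg γ) := by
  apply hT.eq_lift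
  have h := congrArg (PowerSeries.map (hT.lift hg : T →+* B)) (hT.map_ract γ)
  rw [pmap_subst _ hT.isIso.1.1, hT.map_lift hg, autR_map, pmap_pmap] at h
  exact h

theorem IsIsoRep.ract_mul (γ δ : AutF H) : hT.ract (γ * δ) = (hT.ract δ).comp (hT.ract γ) := by
  symm
  apply hT.eq_lift
  have h := congrArg (PowerSeries.map (hT.ract δ : T →+* T)) (hT.map_ract γ)
  have h' := hT.map_ract δ
  rw [pmap_subst _ hT.isIso.1.1, h', autR_map,
    ← psubst_psubst (cc_autR T δ) hT.isIso.1.1, ← autR_mul, pmap_pmap] at h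
  exact h

/-- The left action of the automorphisms of `H` on `T`, `γ • t = t(γ⁻¹ ∘ -)`. -/
noncomputable def IsIsoRep.act : AutF H →* (T ≃ₐ[R] T) where
  toFun γ := AlgEquiv.ofAlgHom (hT.ract γ⁻¹) (hT.ract γ)
    (by rw [← hT.ract_mul, mul_inv_cancel, hT.ract_one])
    (by rw [← hT.ract_mul, inv_mul_cancel, hT.ract_one])
  map_one' := by
    ext t
    show hT.ract (1 : AutF H)⁻¹ t = t
    rw [inv_one, hT.ract_one]
    rfl
  map_mul' γ δ := by
    ext t
    show hT.ract (γ * δ)⁻¹ t = hT.ract γ⁻¹ (hT.ract δ⁻¹ t)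
    rw [mul_inv_rev, hT.ract_mul]
    rfl

theorem IsIsoRep.act_apply (γ : AutF H) (t : T) : hT.act γ t = hT.ract γ⁻¹ t := rfl

variable [Finite k] [H.IsComm] {m : ℕ} (hH : multSeries H m = PowerSeries.X ^ Nat.card k)

include hH in
theorem IsIsoRep.isLocallyConstant_ract (t : T) :
    IsLocallyConstant (fun γ : AutF H => hT.ract γ t) :=
  isLocallyConstant_lift hH hT hT.isIso t

include hH in
theorem IsIsoRep.isLocallyConstant_act (t : T) :
    IsLocallyConstant (fun γ : AutF H => hT.act γ t) :=
  (hT.isLocallyConstant_ract hH t).comp_continuous continuous_inv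

/-- `T ⊗[R] T ≃ₐ[T] LocallyConstant (AutF H) T`, `s ⊗ t ↦ (γ ↦ s * γ • t)`. -/
noncomputable def IsIsoRep.torsor : T ⊗[R] T ≃ₐ[T] LocallyConstant (AutF H) T :=
  (isoTorsor hH hT hT.isIso).trans (LocallyConstant.congrLeftₐ T (Homeomorph.inv (AutF H)))

theorem IsIsoRep.torsor_tmul_apply (s t : T) (γ : AutF H) :
    hT.torsor hH (s ⊗ₜ t) γ = s * hT.act γ t :=
  isoTorsor_tmul_apply hH hT hT.isIso s t γ⁻¹

end Action

end Vale.Agent.P251.F
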