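/-
P251, part F (F6a): locally constant functions on a compact space and tensor products.
For a compact space `Z` and `R`-modules `A`, `M`:
  `A ⊗[R] LocallyConstant Z M ≃ₗ[R] LocallyConstant Z (A ⊗[R] M)`,
and currying `LocallyConstant (G × Z) X ≃ LocallyConstant Z (LocallyConstant G X)`.
Author: helper982.
-/
import Mathlib.Topology.LocallyConstant.Algebra
import Mathlib.Topology.DiscreteQuotient
import Mathlib.LinearAlgebra.TensorProduct.Pi
import Mathlib.Topology.Constructions
import Mathlib.Topology.Compactness.Compact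

open scoped TensorProduct

namespace Vale.Agent.P251.F.LCT

section Tensor

variable (R : Type*) [CommRing R] (A : Type*) [AddCommGroup A] [Module R A]
  (M : Type*) [AddCommGroup M] [Module R M] (Z : Type*) [TopologicalSpace Z]

/-- The canonical map `A ⊗ LC(Z, M) → LC(Z, A ⊗ M)`. -/
noncomputable def theta :
    A ⊗[R] LocallyConstant Z M →ₗ[R] LocallyConstant Z (A ⊗[R] M) :=
  TensorProduct.lift (LinearMap.mk₂ R (fun a f => f.map (fun m => a ⊗ₜ[R] m))
    (fun a a' f => by ext z; simp [TensorProduct.add_tmul])
    (fun c a f => by ext z; simp [TensorProduct.smul_tmul'])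
    (fun a f f' => by ext z; simp [TensorProduct.tmul_add])
    (fun c a f => by ext z; simp))

variable {R A M Z}

@[simp] theorem theta_tmul_apply (a : A) (f : LocallyConstant Z M) (z : Z) :
    theta R A M Z (a ⊗ₜ f) z = a ⊗ₜ[R] f z := rfl

variable (R M) in
/-- Functions on a discrete quotient, as locally constant functions. -/
def ofQuot (S : DiscreteQuotient Z) : (S → M) →ₗ[R] LocallyConstant Z M where
  toFun v := ⟨v ∘ S.proj, S.proj_isLocallyConstant.comp v⟩
  map_add' _ _ := rfl
  map_smul' _ _ := rfl

@[simp] theorem ofQuot_apply (S : DiscreteQuotient Z) (v : S → M) (z : Z) :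
    ofQuot R M S v z = v (S.proj z) := rfl

theorem ofQuot_comp_ofLE {S S' : DiscreteQuotient Z} (h : S ≤ S') (v : S' → M) :
    ofQuot R M S (v ∘ DiscreteQuotient.ofLE h) = ofQuot R M S' v := by
  ext z
  simp

theorem exists_ofQuot (u : A ⊗[R] LocallyConstant Z M) :
    ∃ (S : DiscreteQuotient Z) (v : A ⊗[R] (S → M)), (ofQuot R M S).lTensor A v = u := by
  induction u using TensorProduct.induction_on with
  | zero => exact ⟨⊤, 0, by simp⟩
  | tmul a f =>
    refine ⟨f.discreteQuotient, a ⊗ₜ f.lift, ?_⟩
    rw [LinearMap.lTensor_tmul]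
    congr 1
  | add x y hx hy =>
    obtain ⟨S, v, rfl⟩ := hx
    obtain ⟨S', v', rfl⟩ := hy
    refine ⟨S ⊓ S', (LinearMap.funLeft R M (DiscreteQuotient.ofLE (inf_le_left))).lTensor A v +
      (LinearMap.funLeft R M (DiscreteQuotient.ofLE (inf_le_right))).lTensor A v', ?_⟩
    rw [map_add, ← LinearMap.comp_apply, ← LinearMap.comp_apply, ← LinearMap.lTensor_comp,
      ← LinearMap.lTensor_comp]
    congr 1

theorem theta_ofQuot [CompactSpace Z] (S : DiscreteQuotient Z) (v : A ⊗[R] (S → M)) (z : Z) :
    theta R A M Z ((ofQuot R M S).lTensor A v) z =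
      TensorProduct.piRightHom R R A (fun _ : S => M) v (S.proj z) := by
  induction v using TensorProduct.induction_on with
  | zero => simp
  | tmul a f => simp
  | add x y hx hy =>
    simp only [map_add, LocallyConstant.add_apply, Pi.add_apply, hx, hy]

variable (R A M Z)

theorem theta_bijective [CompactSpace Z] : Function.Bijective (theta R A M Z) := by
  classical
  constructor
  · rw [injective_iff_map_eq_zero]
    intro u hu
    obtain ⟨S, v, rfl⟩ := exists_ofQuot u
    have : Fintype S := Fintype.ofFinite S
    have h0 : TensorProduct.piRight R R A (fun _ : S => M) v = 0 := by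
      funext s
      obtain ⟨z, rfl⟩ := S.proj_surjective s
      have := theta_ofQuot S v z
      rw [hu] at this
      rw [TensorProduct.piRight_apply]
      exact this.symm
    have : v = 0 := (TensorProduct.piRight R R A (fun _ : S => M)).map_eq_zero_iff.1 h0
    rw [this, map_zero]
  · intro F
    let S := F.discreteQuotient
    have : Fintype S := Fintype.ofFinite S
    refine ⟨(ofQuot R M S).lTensor A ((TensorProduct.piRight R R A (fun _ : S => M)).symm F.lift),
      ?_⟩
    ext z
    rw [theta_ofQuot, ← TensorProduct.piRight_apply, LinearEquiv.apply_symm_apply]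
    rfl

/-- `A ⊗ LC(Z, M) ≃ LC(Z, A ⊗ M)` for a compact space `Z`. -/
noncomputable def thetaEquiv [CompactSpace Z] :
    A ⊗[R] LocallyConstant Z M ≃ₗ[R] LocallyConstant Z (A ⊗[R] M) :=
  LinearEquiv.ofBijective (theta R A M Z) (theta_bijective R A M Z)

end Tensor

section Curry

variable {G Z X : Type*} [TopologicalSpace G] [TopologicalSpace Z]

/-- A locally constant function of two variables is locally constant as a function with values in
locally constant functions of one (compact) variable. -/
theorem isLocallyConstant_curry [CompactSpace G] (f : LocallyConstant (G × Z) X) :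
    IsLocallyConstant (fun z : Z => (⟨fun g => f (g, z),
      f.isLocallyConstant.comp_continuous (by fun_prop)⟩ : LocallyConstant G X)) := by
  rw [IsLocallyConstant.iff_exists_open]
  intro z
  let _ : TopologicalSpace X := ⊥
  have _ : DiscreteTopology X := ⟨rfl⟩
  have hopen : IsOpen {p : G × Z | f p = f (p.1, z)} := by
    have h1 : Continuous fun p : G × Z => (f p, f (p.1, z)) :=
      (f.continuous).prodMk (f.continuous.comp (by fun_prop))
    exact (isOpen_discrete {q : X × X | q.1 = q.2}).preimage h1
  obtain ⟨U, V, -, hV, hU', hzV, hUV⟩ :=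
    generalized_tube_lemma (s := (Set.univ : Set G)) isCompact_univ (t := {z})
      isCompact_singleton (n := {p : G × Z | f p = f (p.1, z)}) hopen
      (by rintro ⟨g, w⟩ ⟨-, hw⟩; simp only [Set.mem_singleton_iff] at hw; subst hw; rfl)
  refine ⟨V, hV, hzV rfl, fun w hw => ?_⟩
  ext g
  exact hUV (Set.mk_mem_prod (hU' (Set.mem_univ g)) hw)

/-- Currying. -/
def curry [CompactSpace G] (f : LocallyConstant (G × Z) X) :
    LocallyConstant Z (LocallyConstant G X) :=
  ⟨fun z => ⟨fun g => f (g, z), f.isLocallyConstant.comp_continuous (by fun_prop)⟩,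
    isLocallyConstant_curry f⟩

@[simp] theorem curry_apply [CompactSpace G] (f : LocallyConstant (G × Z) X) (z : Z) (g : G) :
    curry f z g = f (g, z) := rfl

theorem isLocallyConstant_uncurry (f : LocallyConstant Z (LocallyConstant G X)) :
    IsLocallyConstant (fun p : G × Z => f p.2 p.1) := by
  rw [IsLocallyConstant.iff_exists_open]
  rintro ⟨g, z⟩
  obtain ⟨V, hV, hzV, h1⟩ := (IsLocallyConstant.iff_exists_open _).1 f.isLocallyConstant z
  obtain ⟨U, hU, hgU, h2⟩ := (IsLocallyConstant.iff_exists_open _).1 (f z).isLocallyConstant g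
  refine ⟨U ×ˢ V, hU.prod hV, ⟨hgU, hzV⟩, ?_⟩
  rintro ⟨g', z'⟩ ⟨hg', hz'⟩
  have e1 : f z' = f z := h1 z' hz'
  have e2 : f z g' = f z g := h2 g' hg'
  show f z' g' = f z g
  rw [e1, e2]

/-- Uncurrying. -/
def uncurry (f : LocallyConstant Z (LocallyConstant G X)) : LocallyConstant (G × Z) X :=
  ⟨fun p => f p.2 p.1, isLocallyConstant_uncurry f⟩

@[simp] theorem uncurry_apply (f : LocallyConstant Z (LocallyConstant G X)) (p : G × Z) :
    uncurry f p = f p.2 p.1 := rfl

/-- Currying, as a linear equivalence. -/
def curryEquiv (R : Type*) [Semiring R] [AddCommMonoid X] [Module R X] [CompactSpace G] :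
    LocallyConstant (G × Z) X ≃ₗ[R] LocallyConstant Z (LocallyConstant G X) where
  toFun := curry
  invFun := uncurry
  map_add' _ _ := rfl
  map_smul' _ _ := rfl
  left_inv _ := rfl
  right_inv _ := rfl

end Curry

end Vale.Agent.P251.F.LCT
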