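/-
P251, part F (F6a (B)): the torsor lemma.
`T` a faithfully flat `R`-algebra with a discrete `R`-linear action of a profinite group `G` such that
`T ⊗[R] T → LC(G, T)`, `t ⊗ t' ↦ (g ↦ t * g • t')` is bijective.  Then for every `R`-module `M`
`H^s_c(G; T ⊗[R] M) = 0` for `s ≥ 1` and `(T ⊗[R] M)^G = M`.
Author: helper982.
-/
import Vale.Agent.P251.C.Basic
import Vale.Agent.P251.F.LCTensor

set_option linter.unusedSectionVars false

open scoped TensorProduct
open Vale.Agent.P251.C

namespace Vale.Agent.P251.F.Torsor

section Smul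

variable {G X : Type*} [Group G] [TopologicalSpace G] [ContinuousMul G] [AddCommGroup X]
  [DistribMulAction G X] [DiscMod G X]

theorem isOpen_smul_eq (x y : X) : IsOpen {g : G | g • x = y} := by
  by_cases h : ∃ g₀ : G, g₀ • x = y
  · obtain ⟨g₀, rfl⟩ := h
    have : {g : G | g • x = g₀ • x} = (fun g => g₀⁻¹ * g) ⁻¹' {g : G | g • x = x} := by
      ext g
      simp only [Set.mem_ofPred_eq, Set.mem_preimage, mul_smul]
      rw [inv_smul_eq_iff]
    rw [this]
    exact (DiscMod.isOpen_stab x).preimage (continuous_const_mul g₀⁻¹)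
  · have : {g : G | g • x = y} = ∅ := by
      ext g
      simp only [Set.mem_ofPred_eq, Set.mem_empty_iff_false, iff_false]
      exact fun hg => h ⟨g, hg⟩
    rw [this]
    exact isOpen_empty

theorem isLocallyConstant_smul {Z : Type*} [TopologicalSpace Z] {a : Z → G} (ha : Continuous a)
    {f : Z → X} (hf : IsLocallyConstant f) : IsLocallyConstant (fun z => a z • f z) := by
  rw [IsLocallyConstant.iff_exists_open]
  intro z
  obtain ⟨U, hU, hzU, h⟩ := (IsLocallyConstant.iff_exists_open _).1 hf z
  refine ⟨U ∩ a ⁻¹' {g : G | g • f z = a z • f z}, hU.inter ((isOpen_smul_eq _ _).preimage ha),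
    ⟨hzU, rfl⟩, ?_⟩
  rintro w ⟨hw, hw'⟩
  show a w • f w = a z • f z
  rw [h w hw]
  exact hw'

end Smul

section Cochains

variable (R : Type*) [CommRing R] (G : Type*) [Group G] [TopologicalSpace G]
  (X : Type*) [AddCommGroup X] [Module R X] [DistribMulAction G X] [SMulCommClass G R X]

/-- Homogeneous cochains (functions of `n` variables), as an `R`-module. -/
def Cn (n : ℕ) : Submodule R (LocallyConstant (Fin n → G) X) where
  carrier := {F | ∀ (g : G) (x : Fin n → G), F (fun i => g * x i) = g • F x}
  zero_mem' := fun g x => by simp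
  add_mem' := fun {F F'} hF hF' g x => by
    simp only [LocallyConstant.add_apply, smul_add]
    rw [hF g x, hF' g x]
  smul_mem' := fun r F hF g x => by
    simp only [LocallyConstant.smul_apply]
    rw [hF g x, smul_comm g r]

/-- The homogeneous coboundary on all locally constant functions. -/
def dL (n : ℕ) : LocallyConstant (Fin n → G) X →ₗ[R] LocallyConstant (Fin (n + 1) → G) X where
  toFun F := ⟨dd F, isLocallyConstant_dd F.isLocallyConstant⟩
  map_add' F F' := by
    ext x
    exact congrFun (dd_add F F') x
  map_smul' r F := by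
    ext x
    show dd (fun y => r • F y) x = r • dd F x
    have := congrFun (dd_map (DistribSMul.toAddMonoidHom X r) (F : (Fin n → G) → X)) x
    exact this

@[simp] theorem dL_apply (n : ℕ) (F : LocallyConstant (Fin n → G) X) (x : Fin (n + 1) → G) :
    dL R G X n F x = dd F x := rfl

/-- The coboundary on cochains. -/
def dC (n : ℕ) : Cn R G X n →ₗ[R] Cn R G X (n + 1) :=
  (dL R G X n).restrict (p := Cn R G X n) (q := Cn R G X (n + 1)) (fun F hF =>
    (IsCoch.dd (G := G) ⟨F.isLocallyConstant, hF⟩).equi)

@[simp] theorem dC_coe (n : ℕ) (F : Cn R G X n) :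
    (dC R G X n F : LocallyConstant (Fin (n + 1) → G) X) = dL R G X n F := rfl

theorem continuous_cons (n : ℕ) (g : G) :
    Continuous (fun y : Fin n → G => (Fin.cons g y : Fin (n + 1) → G)) := by
  refine continuous_pi fun i => ?_
  refine Fin.cases ?_ (fun j => ?_) i
  · simpa using continuous_const
  · simpa using continuous_apply j

/-- The complex of all locally constant functions is exact. -/
theorem dL_exact (n : ℕ) : Function.Exact (dL R G X n) (dL R G X (n + 1)) := by
  intro F
  constructor
  · intro hF
    refine ⟨⟨fun y => F (Fin.cons 1 y),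
      F.isLocallyConstant.comp_continuous (continuous_cons G n 1)⟩, ?_⟩
    ext x
    have h := congrArg (fun H : LocallyConstant (Fin (n + 2) → G) X => H (Fin.cons 1 x)) hF
    simp only [dL_apply, LocallyConstant.zero_apply] at h
    rw [dd_cons] at h
    exact (sub_eq_zero.1 h).symm
  · rintro ⟨F', rfl⟩
    ext x
    exact congrFun (dd_dd (F' : (Fin n → G) → X)) x

variable {R G X}

theorem dL_zero_injective : Function.Injective (dL R G X 0) := by
  rw [injective_iff_map_eq_zero]
  intro F hF
  ext x
  have h := congrArg (fun H : LocallyConstant (Fin 1 → G) X => H (fun _ => 1)) hF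
  simp only [dL_apply, LocallyConstant.zero_apply] at h
  rw [dd_one] at h
  rw [LocallyConstant.zero_apply, ← h]
  congr 1
  funext i
  exact i.elim0

variable [DiscMod G X] [IsTopologicalGroup G]

/-- Restriction of cochains to the slice `x₀ = 1`. -/
def toLC (n : ℕ) : Cn R G X (n + 1) →ₗ[R] LocallyConstant (Fin n → G) X where
  toFun F := ⟨fun y => (F : LocallyConstant (Fin (n + 1) → G) X) (Fin.cons 1 y),
    (F : LocallyConstant (Fin (n + 1) → G) X).isLocallyConstant.comp_continuous
      (continuous_cons G n 1)⟩
  map_add' _ _ := rfl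
  map_smul' _ _ := rfl

@[simp] theorem toLC_apply (n : ℕ) (F : Cn R G X (n + 1)) (y : Fin n → G) :
    toLC n F y = (F : LocallyConstant (Fin (n + 1) → G) X) (Fin.cons 1 y) := rfl

theorem cn_apply (n : ℕ) (F : Cn R G X (n + 1)) (x : Fin (n + 1) → G) :
    (F : LocallyConstant (Fin (n + 1) → G) X) x =
      x 0 • toLC n F (fun i => (x 0)⁻¹ * x i.succ) := by
  rw [toLC_apply, ← F.2 (x 0)]
  congr 1
  funext i
  refine Fin.cases ?_ (fun j => ?_) i <;> simp

theorem toLC_bijective (n : ℕ) : Function.Bijective (toLC (R := R) (G := G) (X := X) n) := by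
  constructor
  · rw [injective_iff_map_eq_zero]
    intro F hF
    apply Subtype.ext
    ext x
    rw [cn_apply, hF]
    simp
  · intro f
    refine ⟨⟨⟨fun x => x 0 • f (fun i => (x 0)⁻¹ * x i.succ), ?_⟩, ?_⟩, ?_⟩
    · exact isLocallyConstant_smul (continuous_apply 0)
        (f.isLocallyConstant.comp_continuous (by fun_prop))
    · intro g x
      show (g * x 0) • f (fun i => (g * x 0)⁻¹ * (g * x i.succ)) =
        g • x 0 • f (fun i => (x 0)⁻¹ * x i.succ)
      rw [mul_smul]
      congr 3
      funext i
      group
    · ext y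
      show (1 : G) • f (fun i => (1 : G)⁻¹ * y i) = f y
      simp

end Cochains

section Descent

variable (R : Type*) [CommRing R] (G : Type*) [Group G] [TopologicalSpace G]
  [IsTopologicalGroup G]
  (T : Type*) [CommRing T] [Algebra R T]
  (X : Type*) [AddCommGroup X] [Module R X] [Module T X] [IsScalarTower R T X]
  [DistribMulAction G X] [SMulCommClass G R X] [DiscMod G X]

theorem isLocallyConstant_orbit (x : X) : IsLocallyConstant (fun g : G => g • x) :=
  isLocallyConstant_smul continuous_id (IsLocallyConstant.const x)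

/-- `T ⊗ X → LC(G, X)`, `t ⊗ x ↦ (g ↦ t • g • x)`. -/
noncomputable def Phi : T ⊗[R] X →ₗ[R] LocallyConstant G X :=
  TensorProduct.lift (LinearMap.mk₂ R
    (fun (t : T) (x : X) => (⟨fun g => t • g • x,
      (isLocallyConstant_orbit G X x).comp (t • ·)⟩ : LocallyConstant G X))
    (fun t t' x => by ext g; exact add_smul t t' _)
    (fun r t x => by ext g; exact smul_assoc r t _)
    (fun t x x' => by
      ext g
      show t • g • (x + x') = t • g • x + t • g • x'
      rw [smul_add, smul_add])
    (fun r t x => by
      ext g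
      show t • g • (r • x) = r • t • g • x
      rw [smul_comm g r, smul_algebra_smul_comm]))

@[simp] theorem Phi_tmul_apply (t : T) (x : X) (g : G) :
    Phi R G T X (t ⊗ₜ x) g = t • g • x := rfl

/-- `T ⊗ C^n(G, X) → LC(G^n, X)`. -/
noncomputable def Th (n : ℕ) : T ⊗[R] Cn R G X n →ₗ[R] LocallyConstant (Fin n → G) X :=
  TensorProduct.lift (LinearMap.mk₂ R
    (fun (t : T) (F : Cn R G X n) => (F : LocallyConstant (Fin n → G) X).map (t • ·))
    (fun t t' F => by ext x; exact add_smul t t' _)
    (fun r t F => by ext x; exact smul_assoc r t _)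
    (fun t F F' => by
      ext x
      exact smul_add t _ _)
    (fun r t F => by
      ext x
      exact smul_algebra_smul_comm _ _ _))

@[simp] theorem Th_tmul_apply (n : ℕ) (t : T) (F : Cn R G X n) (x : Fin n → G) :
    Th R G T X n (t ⊗ₜ F) x = t • (F : LocallyConstant (Fin n → G) X) x := rfl

theorem Th_dC (n : ℕ) (u : T ⊗[R] Cn R G X n) :
    Th R G T X (n + 1) ((dC R G X n).lTensor T u) = dL R G X n (Th R G T X n u) := by
  induction u using TensorProduct.induction_on with
  | zero => simp
  | add u v hu hv => rw [map_add, map_add, hu, hv, map_add, map_add]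
  | tmul t F =>
    ext x
    rw [LinearMap.lTensor_tmul, Th_tmul_apply, dC_coe, dL_apply, dL_apply]
    exact (congrFun (dd_map (DistribSMul.toAddMonoidHom X t)
      ((F : LocallyConstant (Fin n → G) X) : (Fin n → G) → X)) x).symm

/-- The change of variables `G^{n+1} = G × G^n`. -/
def shearFun (n : ℕ) : C(Fin (n + 1) → G, G × (Fin n → G)) :=
  ⟨fun x => (x 0, fun i => (x 0)⁻¹ * x i.succ), by fun_prop⟩

theorem Th_eq (n : ℕ) (u : T ⊗[R] Cn R G X (n + 1)) :
    Th R G T X (n + 1) u =
      (LCT.uncurry ((LCT.theta R T X (Fin n → G) ((toLC n).lTensor T u)).map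
        (Phi R G T X))).comap (shearFun G n) := by
  induction u using TensorProduct.induction_on with
  | zero =>
    ext x
    simp [shearFun]
  | add u v hu hv =>
    ext x
    have hu' := congrArg (fun F : LocallyConstant (Fin (n + 1) → G) X => F x) hu
    have hv' := congrArg (fun F : LocallyConstant (Fin (n + 1) → G) X => F x) hv
    simp only [LocallyConstant.coe_comap, Function.comp_apply, LCT.uncurry_apply,
      LocallyConstant.map_apply, shearFun, ContinuousMap.coe_mk] at hu' hv' ⊢
    rw [map_add, LocallyConstant.add_apply, hu', hv', map_add, map_add,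
      LocallyConstant.add_apply, map_add, LocallyConstant.add_apply]
  | tmul t F =>
    ext x
    simp only [LocallyConstant.coe_comap, Function.comp_apply, LCT.uncurry_apply,
      LocallyConstant.map_apply, shearFun, ContinuousMap.coe_mk, LinearMap.lTensor_tmul,
      LCT.theta_tmul_apply, Phi_tmul_apply, Th_tmul_apply]
    rw [cn_apply]

theorem shear_bijective (n : ℕ) : Function.Bijective
    (fun f : LocallyConstant (G × (Fin n → G)) X => f.comap (shearFun G n)) := by
  let inv : C(G × (Fin n → G), Fin (n + 1) → G) :=
    ⟨fun p => Fin.cons p.1 (fun i => p.1 * p.2 i), by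
      refine continuous_pi fun i => ?_
      refine Fin.cases ?_ (fun j => ?_) i
      · simp only [Fin.cons_zero]; fun_prop
      · simp only [Fin.cons_succ]; fun_prop⟩
  have h1 : ∀ x, inv (shearFun G n x) = x := by
    intro x
    funext i
    refine Fin.cases ?_ (fun j => ?_) i <;> simp [inv, shearFun]
  have h2 : ∀ p, shearFun G n (inv p) = p := by
    rintro ⟨g, y⟩
    simp [inv, shearFun]
  refine Function.bijective_iff_has_inverse.2 ⟨fun f => f.comap inv, ?_, ?_⟩
  · intro f
    ext p
    show f (shearFun G n (inv p)) = f p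
    rw [h2]
  · intro f
    ext x
    show f (inv (shearFun G n x)) = f x
    rw [h1]

variable [CompactSpace G]

theorem Th_bijective (hΦ : Function.Bijective (Phi R G T X)) (n : ℕ) :
    Function.Bijective (Th R G T X (n + 1)) := by
  have e : (fun u => Th R G T X (n + 1) u) =
      (fun f : LocallyConstant (G × (Fin n → G)) X => f.comap (shearFun G n)) ∘
      (fun f => (LCT.curryEquiv (G := G) (Z := Fin n → G) (X := X) R).symm f) ∘
      (fun f : LocallyConstant (Fin n → G) (T ⊗[R] X) => f.map (Phi R G T X)) ∘
      (fun f => LCT.thetaEquiv R T X (Fin n → G) f) ∘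
      (fun u => (LinearEquiv.ofBijective (toLC (R := R) (G := G) (X := X) n)
        (toLC_bijective n)).lTensor T u) := by
    funext u
    exact Th_eq R G T X n u
  show Function.Bijective (fun u => Th R G T X (n + 1) u)
  rw [e]
  refine (shear_bijective G X n).comp ((LinearEquiv.bijective _).comp (Function.Bijective.comp ?_
    ((LinearEquiv.bijective _).comp (LinearEquiv.bijective _))))
  exact (LocallyConstant.congrRight (X := Fin n → G) (Equiv.ofBijective _ hΦ)).bijective

variable [Module.FaithfullyFlat R T]

theorem dC_exact (hΦ : Function.Bijective (Phi R G T X)) (n : ℕ) :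
    Function.Exact (dC R G X (n + 1)) (dC R G X (n + 2)) := by
  rw [← Module.FaithfullyFlat.lTensor_exact_iff_exact R T]
  intro u
  constructor
  · intro hu
    have h1 : dL R G X (n + 2) (Th R G T X (n + 2) u) = 0 := by
      rw [← Th_dC, hu, map_zero]
    obtain ⟨v, hv⟩ := (dL_exact R G X (n + 1) _).1 h1
    obtain ⟨w, rfl⟩ := (Th_bijective R G T X hΦ n).2 v
    refine ⟨w, ?_⟩
    apply (Th_bijective R G T X hΦ (n + 1)).1
    rw [Th_dC, hv]
  · rintro ⟨w, rfl⟩
    apply (Th_bijective R G T X hΦ (n + 2)).1
    rw [Th_dC, Th_dC, map_zero]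
    exact (dL_exact R G X (n + 1) _).2 ⟨_, rfl⟩

/-- **Torsor lemma**, vanishing. -/
theorem hzero_of_bijective (hΦ : Function.Bijective (Phi R G T X)) {s : ℕ} (hs : 1 ≤ s) :
    HZero G X s := by
  obtain ⟨n, rfl⟩ := Nat.exists_eq_add_of_le' hs
  intro F hF hd
  let F' : Cn R G X (n + 2) := ⟨⟨F, hF.lc⟩, hF.equi⟩
  have h0 : dC R G X (n + 2) F' = 0 := by
    apply Subtype.ext
    ext x
    exact congrFun hd x
  obtain ⟨Y, hY⟩ := (dC_exact R G T X hΦ n F').1 h0
  refine ⟨fun x => (Y : LocallyConstant (Fin (n + 1) → G) X) x,
    ⟨(Y : LocallyConstant (Fin (n + 1) → G) X).isLocallyConstant, Y.2⟩, ?_⟩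
  funext x
  exact congrArg (fun H : Cn R G X (n + 2) => (H : LocallyConstant (Fin (n + 2) → G) X) x) hY

/-- **Torsor lemma**, invariants. `ι : M → X` has invariant image and `T ⊗ M → X` is bijective. -/
theorem invariants (hΦ : Function.Bijective (Phi R G T X)) {M : Type*} [AddCommGroup M]
    [Module R M] (ι : M →ₗ[R] X) (hι : ∀ (g : G) (m : M), g • ι m = ι m)
    (hb : Function.Bijective (TensorProduct.lift
      (LinearMap.mk₂ R (fun (t : T) (m : M) => t • ι m) (fun t t' m => add_smul t t' _)
        (fun r t m => smul_assoc r t _) (fun t m m' => by rw [map_add, smul_add])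
        (fun r t m => by rw [map_smul, smul_algebra_smul_comm])))) :
    Function.Injective ι ∧ ∀ x : X, (∀ g : G, g • x = x) → ∃ m, ι m = x := by
  -- the augmented complex `M → C^1 → C^2`
  let ε : M →ₗ[R] Cn R G X 1 :=
    { toFun := fun m => ⟨LocallyConstant.const _ (ι m), fun g x => by
        simp [LocallyConstant.const, hι]⟩
      map_add' := fun m m' => by
        apply Subtype.ext; ext x; simp [LocallyConstant.const]
      map_smul' := fun r m => by
        apply Subtype.ext; ext x; simp [LocallyConstant.const] }
  have hε : ∀ (m : M) (x : Fin 1 → G), (ε m : LocallyConstant (Fin 1 → G) X) x = ι m :=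
    fun _ _ => rfl
  set L : T ⊗[R] M →ₗ[R] X := TensorProduct.lift
      (LinearMap.mk₂ R (fun (t : T) (m : M) => t • ι m) (fun t t' m => add_smul t t' _)
        (fun r t m => smul_assoc r t _) (fun t m m' => by rw [map_add, smul_add])
        (fun r t m => by rw [map_smul, smul_algebra_smul_comm])) with hL
  have hTh : ∀ u : T ⊗[R] M, Th R G T X 1 (ε.lTensor T u) =
      dL R G X 0 (LocallyConstant.const _ (L u)) := by
    intro u
    induction u using TensorProduct.induction_on with
    | zero =>
      ext x
      simp only [map_zero, LocallyConstant.zero_apply, dL_apply]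
      rw [dd_one]
      simp [LocallyConstant.const]
    | add u v hu hv =>
      ext x
      have hu' := congrArg (fun F : LocallyConstant (Fin 1 → G) X => F x) hu
      have hv' := congrArg (fun F : LocallyConstant (Fin 1 → G) X => F x) hv
      simp only [dL_apply] at hu' hv' ⊢
      rw [map_add, map_add, LocallyConstant.add_apply, hu', hv', dd_one, dd_one, dd_one]
      simp [LocallyConstant.const]
    | tmul t m =>
      ext x
      rw [LinearMap.lTensor_tmul, Th_tmul_apply, hε, dL_apply, dd_one]
      simp [LocallyConstant.const, hL]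
  have hdL0 : ∀ x y : X, dL R G X 0 (LocallyConstant.const _ x) =
      dL R G X 0 (LocallyConstant.const _ y) → x = y := by
    intro x y h
    have := congrArg (fun F : LocallyConstant (Fin 1 → G) X => F (fun _ => 1)) h
    simp only [dL_apply] at this
    rw [dd_one, dd_one] at this
    simpa [LocallyConstant.const] using this
  have hex : Function.Exact ε (dC R G X 1) := by
    rw [← Module.FaithfullyFlat.lTensor_exact_iff_exact R T]
    intro u
    constructor
    · intro hu
      have h1 : dL R G X 1 (Th R G T X 1 u) = 0 := by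
        rw [← Th_dC, hu, map_zero]
      obtain ⟨v, hv⟩ := (dL_exact R G X 0 _).1 h1
      obtain ⟨w, hw⟩ := hb.2 (v (fun i => i.elim0))
      refine ⟨w, ?_⟩
      apply (Th_bijective R G T X hΦ 0).1
      rw [hTh, ← hv]
      congr 1
      ext y
      have : y = (fun i => i.elim0) := by funext i; exact i.elim0
      rw [this]
      exact hw
    · rintro ⟨w, rfl⟩
      apply (Th_bijective R G T X hΦ 1).1
      rw [Th_dC, hTh, map_zero]
      exact (dL_exact R G X 0 _).2 ⟨_, rfl⟩
  have hinj : Function.Injective ε := by
    have : Function.Exact (0 : (Fin 0 → R) →ₗ[R] M) ε := by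
      rw [← Module.FaithfullyFlat.lTensor_exact_iff_exact R T]
      intro u
      constructor
      · intro hu
        refine ⟨0, ?_⟩
        rw [map_zero]
        have h2 := hTh u
        rw [hu, map_zero] at h2
        have h3 : L u = 0 := by
          apply hdL0
          rw [← h2]
          ext x
          rw [dL_apply, dd_one]
          rfl
        apply hb.1
        show L 0 = L u
        rw [h3, map_zero]
      · rintro ⟨w, rfl⟩
        rw [LinearMap.lTensor_zero, LinearMap.zero_apply, map_zero]
    rw [injective_iff_map_eq_zero]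
    intro m hm
    obtain ⟨w, hw⟩ := (this m).1 hm
    rw [← hw]
    rfl
  constructor
  · intro m m' h
    apply hinj
    apply Subtype.ext
    ext x
    rw [hε, hε, h]
  · intro x hx
    let F : Cn R G X 1 := ⟨LocallyConstant.const _ x, fun g y => by
      simp [LocallyConstant.const, hx]⟩
    have hF : dC R G X 1 F = 0 := by
      apply Subtype.ext
      ext y
      show dd (fun _ : Fin 1 → G => x) y = 0
      unfold dd
      rw [Fin.sum_univ_two]
      simp
    obtain ⟨m, hm⟩ := (hex F).1 hF
    refine ⟨m, ?_⟩
    have := congrArg (fun H : Cn R G X 1 => (H : LocallyConstant (Fin 1 → G) X) (fun _ => 1)) hm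
    exact this

end Descent

section Tensor

variable (R : Type*) [CommRing R] (G : Type*) [Group G] [TopologicalSpace G]
  [IsTopologicalGroup G]
  (T : Type*) [CommRing T] [Algebra R T] [MulSemiringAction G T] [SMulCommClass G R T]
  [SMulCommClass R G T] [DiscMod G T]
  (M : Type*) [AddCommGroup M] [Module R M]

theorem exists_open_subgroup (u : T ⊗[R] M) :
    ∃ U : Subgroup G, IsOpen (U : Set G) ∧ ∀ g ∈ U, g • u = u := by
  induction u using TensorProduct.induction_on with
  | zero => exact ⟨⊤, isOpen_univ, fun g _ => smul_zero g⟩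
  | tmul t m =>
    refine ⟨MulAction.stabilizer G t, DiscMod.isOpen_stab (G := G) t, fun g hg => ?_⟩
    rw [TensorProduct.smul_tmul', MulAction.mem_stabilizer_iff.1 hg]
  | add u v hu hv =>
    obtain ⟨U, hU, hU'⟩ := hu
    obtain ⟨V, hV, hV'⟩ := hv
    exact ⟨U ⊓ V, hU.inter hV, fun g hg => by rw [smul_add, hU' g hg.1, hV' g hg.2]⟩

instance : DiscMod G (T ⊗[R] M) where
  isOpen_stab u := by
    rw [isOpen_iff_mem_nhds]
    intro g hg
    obtain ⟨U, hU, hU'⟩ := exists_open_subgroup R G T M u
    have h1 : (fun x => g⁻¹ * x) ⁻¹' (U : Set G) ∈ nhds g := by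
      refine (hU.preimage (continuous_const_mul g⁻¹)).mem_nhds ?_
      simp
    refine Filter.mem_of_superset h1 ?_
    intro x hx
    have h2 := hU' _ hx
    show x • u = u
    have h3 : x = g * (g⁻¹ * x) := by group
    rw [h3, mul_smul, h2]
    exact hg

variable [CompactSpace G]

theorem Phi_tensor_bijective (hφ : Function.Bijective (Phi R G T T)) :
    Function.Bijective (Phi R G T (T ⊗[R] M)) := by
  have e : (fun u => Phi R G T (T ⊗[R] M) u) =
      (fun f : LocallyConstant G (M ⊗[R] T) => f.map (TensorProduct.comm R M T)) ∘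
      (fun u => LCT.thetaEquiv R M T G u) ∘
      (fun u => TensorProduct.comm R (LocallyConstant G T) M u) ∘
      (fun u => (LinearEquiv.ofBijective _ hφ).rTensor M u) ∘
      (fun u => (TensorProduct.assoc R T T M).symm u) := by
    funext u
    simp only [Function.comp_apply]
    induction u using TensorProduct.induction_on with
    | zero =>
      ext g
      simp
    | add u v hu hv =>
      ext g
      have hu' := congrArg (fun F : LocallyConstant G (T ⊗[R] M) => F g) hu
      have hv' := congrArg (fun F : LocallyConstant G (T ⊗[R] M) => F g) hv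
      simp only [LocallyConstant.map_apply, Function.comp_apply] at hu' hv' ⊢
      rw [map_add, LocallyConstant.add_apply, hu', hv']
      simp only [map_add, LocallyConstant.add_apply]
    | tmul t v =>
      induction v using TensorProduct.induction_on with
      | zero =>
        ext g
        simp
      | add u v hu hv =>
        ext g
        have hu' := congrArg (fun F : LocallyConstant G (T ⊗[R] M) => F g) hu
        have hv' := congrArg (fun F : LocallyConstant G (T ⊗[R] M) => F g) hv
        simp only [LocallyConstant.map_apply, Function.comp_apply] at hu' hv' ⊢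
        rw [TensorProduct.tmul_add, map_add, LocallyConstant.add_apply, hu', hv']
        simp only [map_add, LocallyConstant.add_apply]
      | tmul t' m =>
        ext g
        simp only [LocallyConstant.map_apply, Function.comp_apply, Phi_tmul_apply,
          TensorProduct.assoc_symm_tmul, LinearEquiv.rTensor_tmul, TensorProduct.comm_tmul,
          LCT.thetaEquiv, LinearEquiv.ofBijective_apply, LCT.theta_tmul_apply,
          TensorProduct.smul_tmul']
  show Function.Bijective (fun u => Phi R G T (T ⊗[R] M) u)
  rw [e]
  exact ((LocallyConstant.congrRight (X := G) (TensorProduct.comm R M T).toEquiv).bijective).comp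
    ((LinearEquiv.bijective _).comp ((LinearEquiv.bijective _).comp
      ((LinearEquiv.bijective _).comp (LinearEquiv.bijective _))))

variable [Module.FaithfullyFlat R T]

/-- `H^s_c(G; T ⊗ M) = 0` for `s ≥ 1`. -/
theorem hzero_tensor (hφ : Function.Bijective (Phi R G T T)) {s : ℕ} (hs : 1 ≤ s) :
    HZero G (T ⊗[R] M) s :=
  hzero_of_bijective R G T (T ⊗[R] M) (Phi_tensor_bijective R G T M hφ) hs

/-- `H^s_c(G; T) = 0` for `s ≥ 1`. -/
theorem hzero_self (hφ : Function.Bijective (Phi R G T T)) {s : ℕ} (hs : 1 ≤ s) :
    HZero G T s :=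
  hzero_of_bijective R G T T hφ hs

/-- `T^G = R`. -/
theorem invariants_self (hφ : Function.Bijective (Phi R G T T)) :
    Function.Injective (algebraMap R T) ∧
      ∀ t : T, (∀ g : G, g • t = t) → ∃ r : R, algebraMap R T r = t := by
  refine invariants R G T T hφ (M := R) (Algebra.linearMap R T) (fun g r => ?_) ?_
  · show g • algebraMap R T r = algebraMap R T r
    rw [Algebra.algebraMap_eq_smul_one, smul_comm g r, smul_one]
  · have : (TensorProduct.lift
      (LinearMap.mk₂ R (fun (t : T) (m : R) => t • Algebra.linearMap R T m)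
        (fun t t' m => add_smul t t' _)
        (fun r t m => smul_assoc r t _) (fun t m m' => by rw [map_add, smul_add])
        (fun r t m => by rw [map_smul, smul_algebra_smul_comm]))) =
        (TensorProduct.rid R T).toLinearMap := by
      apply TensorProduct.ext'
      intro t r
      simp [Algebra.smul_def, mul_comm]
    rw [this]
    exact (TensorProduct.rid R T).bijective

/-- `(T ⊗ M)^G = M`. -/
theorem invariants_tensor (hφ : Function.Bijective (Phi R G T T)) :
    Function.Injective (fun m : M => (1 : T) ⊗ₜ[R] m) ∧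
      ∀ x : T ⊗[R] M, (∀ g : G, g • x = x) → ∃ m : M, (1 : T) ⊗ₜ[R] m = x := by
  refine invariants R G T (T ⊗[R] M) (Phi_tensor_bijective R G T M hφ) (M := M)
    (TensorProduct.mk R T M 1) (fun g m => ?_) ?_
  · show g • ((1 : T) ⊗ₜ[R] m) = (1 : T) ⊗ₜ[R] m
    rw [TensorProduct.smul_tmul', smul_one]
  · have : (TensorProduct.lift
      (LinearMap.mk₂ R (fun (t : T) (m : M) => t • TensorProduct.mk R T M 1 m)
        (fun t t' m => add_smul t t' _)
        (fun r t m => smul_assoc r t _) (fun t m m' => by rw [map_add, smul_add])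
        (fun r t m => by rw [map_smul, smul_algebra_smul_comm]))) =
        (LinearMap.id : T ⊗[R] M →ₗ[R] T ⊗[R] M) := by
      apply TensorProduct.ext'
      intro t r
      simp [TensorProduct.smul_tmul']
    rw [this]
    exact Function.bijective_id

end Tensor

end Vale.Agent.P251.F.Torsor
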