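import Vale.Agent.P251.F.F4Local
import Vale.Agent.P251.F.IsoTorsor
import Vale.Agent.P251.F.IsoRep
import Vale.Agent.P251.F.Torsor

/-!
# P251, part F (F4): the orbit theorem at height `h`

`k` a field with `q = p^h` elements, `H` a law over `k` with `[p] = x^q`, `R` a `k`-algebra, `F` a
law over `R` with `[p] = g(x^q)`, `g = v x + …`, `v` a unit, `T` the `R`-algebra of the
isomorphisms `F → H`. Then `T` is faithfully flat over `R` and a torsor under `AutF H`:
`H^s_c(AutF H; T ⊗ M) = 0` for `s ≥ 1` and `(T ⊗ M)^{AutF H} = M`.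
-/

open TensorProduct Vale.Agent.P217 Vale.Agent.P251.C

namespace Vale.Agent.P251.F

universe u

/-- a flat algebra which maps to a faithfully flat one is faithfully flat -/
theorem faithfullyFlat_of_algHom {R T B : Type*} [CommRing R] [CommRing T] [CommRing B]
    [Algebra R T] [Algebra R B] [Module.Flat R T] [Module.FaithfullyFlat R B] (φ : T →ₐ[R] B) :
    Module.FaithfullyFlat R T := by
  rw [Module.FaithfullyFlat.iff_flat_and_ideal_smul_eq_top]
  refine ⟨inferInstance, fun I hI => ?_⟩
  have h1 : (1 : T) ∈ I • (⊤ : Submodule R T) := by rw [hI]; trivial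
  have h2 : ∀ x ∈ I • (⊤ : Submodule R T), φ x ∈ I • (⊤ : Submodule R B) := by
    intro x hx
    refine Submodule.smul_induction_on hx ?_ ?_
    · intro r hr t _
      rw [map_smul]
      exact Submodule.smul_mem_smul hr trivial
    · intro x y hx hy
      rw [map_add]
      exact Submodule.add_mem _ hx hy
  have h3 := h2 1 h1
  rw [map_one] at h3
  have h4 : I • (⊤ : Submodule R B) = ⊤ := by
    rw [eq_top_iff]
    intro x _
    rw [← mul_one x]
    refine Submodule.smul_induction_on h3 ?_ ?_
    · intro r hr w _
      rw [mul_smul_comm]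
      exact Submodule.smul_mem_smul hr trivial
    · intro a b ha hb
      rw [mul_add]
      exact Submodule.add_mem _ ha hb
  exact ((Module.FaithfullyFlat.iff_flat_and_ideal_smul_eq_top R B).1 inferInstance).2 I h4

/-- my `IsoRep` in the form of helper296 -/
theorem IsoRep.isIsoRep {R : Type u} [CommRing R] {F G : FormalGroup R} {T : Type u} [CommRing T]
    [Algebra R T] (r : IsoRep F G T) : IsIsoRep F G T r.f :=
  ⟨r.isIso, r.exists_hom, r.hom_ext⟩

/-- A law of height exactly `h` over a ring of characteristic `p` (`q = p^h`):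
`[p]_F = g(x^q)`, `g = v x + …`, `v` a unit. -/
def HasHeight {R : Type*} [CommRing R] (p h : ℕ) (F : FormalGroup R) : Prop :=
  ∃ g : PowerSeries R, PowerSeries.constantCoeff g = 0 ∧ IsUnit (PowerSeries.coeff 1 g) ∧
    multSeries F p = PowerSeries.subst (PowerSeries.X ^ (p ^ h) : PowerSeries R) g

/-- The data of the orbit theorem. -/
structure OrbitSetup (p h : ℕ) (k : Type u) [Field k] (H : FormalGroup k) (R : Type u)
    [CommRing R] [Algebra k R] (F : FormalGroup R) : Prop where
  prime : p.Prime
  hh : h ≠ 0
  card : Nat.card k = p ^ h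
  commH : H.IsComm
  hH : multSeries H p = PowerSeries.X ^ (p ^ h)
  commF : F.IsComm
  height : HasHeight p h F

section Main

variable {p h : ℕ} {k R : Type u} [Field k] {H : FormalGroup k} [CommRing R] [Algebra k R]
  {F : FormalGroup R} {T : Type u} [CommRing T] [Algebra R T] {f : PowerSeries T}

theorem OrbitSetup.finite (S : OrbitSetup p h k H R F) : Finite k :=
  Nat.finite_of_card_ne_zero (by rw [S.card]; exact pow_ne_zero _ S.prime.ne_zero)

theorem OrbitSetup.hH' (S : OrbitSetup p h k H R F) :
    multSeries H p = PowerSeries.X ^ Nat.card k := by rw [S.card]; exact S.hH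

/-- **F4, part 1.** `T` is faithfully flat over `R`. -/
theorem IsIsoRep.faithfullyFlat (S : OrbitSetup p h k H R F)
    (hT : IsIsoRep F (H.map (algebraMap k R)) T f) : Module.FaithfullyFlat R T := by
  have := Fact.mk S.prime
  have := S.finite
  have := S.commH
  obtain ⟨g, hg0, hg1, hg⟩ := S.height
  let HL : Law k := ⟨H, S.commH⟩
  let FL : Law R := ⟨F, S.commF⟩
  obtain ⟨B, _, _, hff, f₁, hf₁⟩ := exists_ff_iso p S.hh S.card HL S.hH
    (R := R) FL g hg0 hg1 hg
  have hi : IsIso (F.map (algebraMap R B)) ((H.map (algebraMap k R)).map (algebraMap R B))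
      f₁.val := (InvSeries.smul_eq_iff f₁ (FL.map (algebraMap R B))
        ((HL.map (algebraMap k R)).map (algebraMap R B))).1 hf₁
  have h1 : Module.FaithfullyFlat B (B ⊗[R] T) := faithfullyFlat_tensor S.hH' hT hi
  have h3 : Module.Flat B (B ⊗[R] T) := h1.toFlat
  have h2 : Module.Flat R T := Module.Flat.of_flat_tensorProduct R T B
  exact faithfullyFlat_of_algHom (hT.lift hi)

/-- the action of `AutF H` on `T` as a typeclass instance -/
@[reducible] noncomputable def IsIsoRep.mulSemiringAction
    (hT : IsIsoRep F (H.map (algebraMap k R)) T f) : MulSemiringAction (AutF H) T :=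
  MulSemiringAction.compHom T hT.act

theorem IsIsoRep.smulCommClass (hT : IsIsoRep F (H.map (algebraMap k R)) T f) :
    letI := hT.mulSemiringAction; SMulCommClass (AutF H) R T :=
  letI := hT.mulSemiringAction
  ⟨fun γ r t => map_smul (hT.act γ) r t⟩

theorem IsIsoRep.discMod (S : OrbitSetup p h k H R F)
    (hT : IsIsoRep F (H.map (algebraMap k R)) T f) :
    letI := hT.mulSemiringAction; DiscMod (AutF H) T :=
  letI := hT.mulSemiringAction
  have := S.finite
  have := S.commH
  ⟨fun t => (hT.isLocallyConstant_act S.hH' t).isOpen_fiber t⟩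

/-- **F4, part 2.** `T ⊗ T = LocallyConstant (AutF H) T`. -/
theorem IsIsoRep.phi_bijective (S : OrbitSetup p h k H R F)
    (hT : IsIsoRep F (H.map (algebraMap k R)) T f) :
    letI := hT.mulSemiringAction
    haveI := hT.smulCommClass
    haveI := hT.discMod S
    Function.Bijective (Torsor.Phi R (AutF H) T T) := by
  letI := hT.mulSemiringAction
  haveI := hT.smulCommClass
  haveI := hT.discMod S
  have := S.finite
  have := S.commH
  have e : ∀ u : T ⊗[R] T, Torsor.Phi R (AutF H) T T u = hT.torsor S.hH' u := by
    intro u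
    induction u using TensorProduct.induction_on with
    | zero => rw [map_zero, map_zero]
    | add a b ha hb => rw [map_add, map_add, ha, hb]
    | tmul s t =>
      ext γ
      exact (hT.torsor_tmul_apply S.hH' s t γ).symm
  have e' : (Torsor.Phi R (AutF H) T T : T ⊗[R] T → LocallyConstant (AutF H) T) =
      hT.torsor S.hH' := funext e
  show Function.Bijective (Torsor.Phi R (AutF H) T T : T ⊗[R] T → LocallyConstant (AutF H) T)
  rw [e']
  exact (hT.torsor S.hH').bijective

/-- **F4, part 3.** `H^s_c(AutF H; T) = 0` for `s ≥ 1`. -/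
theorem IsIsoRep.hzero (S : OrbitSetup p h k H R F)
    (hT : IsIsoRep F (H.map (algebraMap k R)) T f) {s : ℕ} (hs : 1 ≤ s) :
    letI := hT.mulSemiringAction; HZero (AutF H) T s := by
  letI := hT.mulSemiringAction
  haveI := hT.smulCommClass
  haveI := hT.discMod S
  have := S.finite
  have := hT.faithfullyFlat S
  have : SMulCommClass R (AutF H) T := SMulCommClass.symm _ _ _
  exact Torsor.hzero_self R (AutF H) T (hT.phi_bijective S) hs

/-- **F4, part 4.** `T^{AutF H} = R`. -/
theorem IsIsoRep.invariants (S : OrbitSetup p h k H R F)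
    (hT : IsIsoRep F (H.map (algebraMap k R)) T f) :
    Function.Injective (algebraMap R T) ∧
      ∀ t : T, (∀ γ : AutF H, hT.act γ t = t) → ∃ r : R, algebraMap R T r = t := by
  letI := hT.mulSemiringAction
  haveI := hT.smulCommClass
  haveI := hT.discMod S
  have := S.finite
  have := hT.faithfullyFlat S
  have : SMulCommClass R (AutF H) T := SMulCommClass.symm _ _ _
  exact Torsor.invariants_self R (AutF H) T (hT.phi_bijective S)

end Main

end Vale.Agent.P251.F
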