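import Vale.Agent.P251.F.F1p

/-!
# P251, part F (F4): a law of height `h` is faithfully flat locally isomorphic to `H`

`k` a field with `q = p^h` elements, `H` a law over `k` with `[p] = x^q`, `R` a `k`-algebra, `F` a
law over `R` with `[p] = g(x^q)`, `g = v x + …`, `v` a unit. Then `F` and `H` become isomorphic
over a faithfully flat extension of `R`.
-/

namespace Vale.Agent.P251.F

open MvPowerSeries Vale.Agent.P217

universe u v

theorem exists_ff_iso {k : Type v} [Field k] (p : ℕ) [Fact p.Prime] {h : ℕ} (hh : h ≠ 0)
    (hk : Nat.card k = p ^ h) (H : Law k) (hH : multSeries H.toFG p = PowerSeries.X ^ (p ^ h))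
    {R : Type u} [CommRing R] [Algebra k R]
    (F : Law R) (g : PowerSeries R) (hg0 : PowerSeries.constantCoeff g = 0)
    (hg1 : IsUnit (PowerSeries.coeff 1 g))
    (hg : multSeries F.toFG p = PowerSeries.subst (PowerSeries.X ^ (p ^ h) : PowerSeries R) g) :
    ∃ (B : Type u) (_ : CommRing B) (_ : Algebra R B), Module.FaithfullyFlat R B ∧
      ∃ f : InvSeries B, f • F.map (algebraMap R B) =
        (H.map (algebraMap k R)).map (algebraMap R B) := by
  cases subsingleton_or_nontrivial R with
  | inl hR =>
    refine ⟨R, inferInstance, inferInstance, inferInstance, 1, ?_⟩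
    apply Law.ext_ps
    ext d
    exact Subsingleton.elim _ _
  | inr hR =>
    have hp : p.Prime := Fact.out
    have hfin : Finite k := Nat.finite_of_card_ne_zero (by
      rw [hk]; exact pow_ne_zero _ hp.ne_zero)
    have hkq : ∀ c : k, c ^ (p ^ h) = c := by
      intro c
      have := Fintype.ofFinite k
      rw [← hk, Nat.card_eq_fintype_card]
      exact FiniteField.pow_card c
    have hkp : CharP k p := by
      have := Fintype.ofFinite k
      obtain ⟨r, hr⟩ := CharP.exists k
      obtain ⟨n, hrp, hn⟩ := FiniteField.card k r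
      rw [← Nat.card_eq_fintype_card, hk] at hn
      have h1 : p ∣ r := by
        have h2 : p ∣ r ^ (n : ℕ) := by
          rw [← hn]
          exact dvd_pow_self p hh
        exact hp.dvd_of_dvd_pow h2
      have h3 : p = r := (Nat.prime_dvd_prime_iff_eq hp hrp).1 h1
      rw [h3]
      exact hr
    have hRp : CharP R p := charP_of_injective_algebraMap (algebraMap k R).injective p
    obtain ⟨B, _, _, hBp, hff, f, G, hG1, hG2⟩ := exists_ff_normal p hh F g hg0 hg1 hg
    refine ⟨B, inferInstance, inferInstance, hff, ?_⟩
    let φ : k →+* frobSub B p h := ((algebraMap R B).comp (algebraMap k R)).codRestrict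
      (frobSub B p h) (fun c => by
        rw [mem_frobSub, ← map_pow, hkq])
    have hBn : Nontrivial B := CharP.nontrivial_of_char_ne_one hp.ne_one
    have hCn : Nontrivial (frobSub B p h) :=
      ⟨⟨0, 1, fun h01 => zero_ne_one (congrArg Subtype.val h01)⟩⟩
    have hCp : CharP (frobSub B p h) p :=
      charP_of_injective_ringHom φ.injective p
    have hC : ∀ a : frobSub B p h, a ^ (p ^ h) = a := fun a =>
      Subtype.ext (mem_frobSub.1 a.2)
    have hH' : multSeries (H.map φ).toFG p = PowerSeries.X ^ (p ^ h) := by
      rw [Law.map_toFG, ← map_multSeries, hH, map_pow, PowerSeries.map_X]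
    obtain ⟨s, _, hs⟩ := exists_strict_iso p h hC hG1 hH'
    refine ⟨InvSeries.map (frobSub B p h).subtype s * f, ?_⟩
    rw [mul_smul, hG2, ← InvSeries.map_smul, hs, Law.map_map, Law.map_map]
    rfl

end Vale.Agent.P251.F
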