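import Vale.Agent.P251.F.Cob

/-!
# P251, part F (F6b): framed law rings, contraction of the cobar complex

A *framed* law ring `T` is a law ring with a series `f ∈ InvSeries T` which is equivariant:
points of `T` with values in `B` carry a coordinate change `f_x`, with `f_{g x} = g f_x`.
Hence every point `x` comes with a canonical strict isomorphism `σ_x` from the base point
`σ_x⁻¹ x`; adding the base vertex is a contraction of the cobar complex of `T`.
-/

namespace Vale.Agent.P251.F

open LawRing

/-- A framed law ring. -/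
class Framed (T : Type) [CommRing T] [LawRing T] where
  /-- the frame -/
  fr : InvSeries T
  map_act_fr : ∀ {B : Type} [CommRing B] (g : InvSeries B) (x : T →+* B),
    InvSeries.map (act g x) fr = g * InvSeries.map x fr

namespace InvSeries

variable {B C : Type*} [CommRing B] [CommRing C]

/-- the leading coefficient as a unit -/
noncomputable def lead (f : InvSeries B) : Bˣ := f.isUnit.unit

@[simp] theorem lead_val (f : InvSeries B) : (f.lead : B) = f.c 0 := rfl

theorem lead_mul (f g : InvSeries B) : (f * g).lead = f.lead * g.lead := by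
  ext
  rw [Units.val_mul, lead_val, lead_val, lead_val, c_zero_mul]

@[simp] theorem lead_lin (u : Bˣ) : (lin u).lead = u := by
  ext
  rw [lead_val, c_zero_lin]

theorem lead_inv (f : InvSeries B) : (f⁻¹).lead = f.lead⁻¹ := by
  rw [eq_comm, inv_eq_iff_mul_eq_one, ← lead_mul, mul_inv_cancel]
  ext
  rw [lead_val, c_zero_one, Units.val_one]

theorem lead_map (φ : B →+* C) (f : InvSeries B) :
    (map φ f).lead = Units.map (φ : B →* C) f.lead := by
  ext
  rw [lead_val, c_map, Units.coe_map]
  rfl

theorem lead_eq_one {f : InvSeries B} (hf : f ∈ strict B) : f.lead = 1 := by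
  ext
  rw [lead_val, Units.val_one]
  exact hf

/-- the strict part `f(c₀⁻¹ x)` of an invertible series `f = c₀ x + …` -/
noncomputable def str (f : InvSeries B) : InvSeries B := f * (lin f.lead)⁻¹

theorem str_mem (f : InvSeries B) : f.str ∈ strict B := by
  have h : (f.str.lead : B) = 1 := by
    rw [str, lead_mul, lead_inv, lead_lin, mul_inv_cancel, Units.val_one]
  exact h

theorem map_str (φ : B →+* C) (f : InvSeries B) : map φ f.str = (map φ f).str := by
  rw [str, str, map_mul, map_inv, map_lin, lead_map]

theorem str_mul_of_mem {g : InvSeries B} (hg : g ∈ strict B) (f : InvSeries B) :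
    (g * f).str = g * f.str := by
  rw [str, str, lead_mul, lead_eq_one hg, one_mul, mul_assoc]

theorem str_lin_mul (u : Bˣ) (f : InvSeries B) :
    ((lin u)⁻¹ * f).str = (lin u)⁻¹ * f.str * lin u := by
  rw [str, str, lead_mul, lead_inv, lead_lin, map_mul, mul_inv_rev, map_inv, inv_inv]
  simp only [mul_assoc]

end InvSeries

open InvSeries

variable {T : Type} [CommRing T] [LawRing T] [Framed T]
variable {B C : Type} [CommRing B] [CommRing C] {n m : ℕ}

/-- The strict isomorphism from the base point to `x`. -/
noncomputable def frσ (x : T →+* B) : InvSeries B := (InvSeries.map x Framed.fr).str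

theorem frσ_mem (x : T →+* B) : frσ x ∈ strict B := str_mem _

theorem frσ_act {g : InvSeries B} (hg : g ∈ strict B) (x : T →+* B) :
    frσ (act g x) = g * frσ x := by
  rw [frσ, Framed.map_act_fr, str_mul_of_mem hg]
  rfl

theorem frσ_act_lin (u : Bˣ) (x : T →+* B) :
    frσ (act (lin u)⁻¹ x) = (lin u)⁻¹ * frσ x * lin u := by
  rw [frσ, Framed.map_act_fr, str_lin_mul]
  rfl

theorem map_frσ (φ : B →+* C) (x : T →+* B) :
    InvSeries.map φ (frσ x) = frσ (φ.comp x) := by
  rw [frσ, map_str, InvSeries.map_map]
  rfl

namespace Chain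

/-- Adding the base vertex in front of a chain. -/
noncomputable def cone (c : Chain T n B) : Chain T (n + 1) B where
  pt := act (frσ c.pt)⁻¹ c.pt
  g := Fin.cons 1 fun i => c.g i * frσ c.pt
  strict := by
    intro i
    refine Fin.cases ?_ (fun i => ?_) i
    · rw [Fin.cons_zero]
      exact one_mem _
    · rw [Fin.cons_succ]
      exact mul_mem (c.strict i) (frσ_mem _)
  zero := Fin.cons_zero _ _

theorem cone_pt (c : Chain T n B) : c.cone.pt = act (frσ c.pt)⁻¹ c.pt := rfl

theorem cone_g_zero (c : Chain T n B) : c.cone.g 0 = 1 := c.cone.zero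

theorem cone_g_succ (c : Chain T n B) (i : Fin (n + 1)) :
    c.cone.g i.succ = c.g i * frσ c.pt := by
  unfold cone
  exact Fin.cons_succ (α := fun _ => InvSeries B) 1 (fun i => c.g i * frσ c.pt) i

theorem map_cone (φ : B →+* C) (c : Chain T n B) : c.cone.map φ = (c.map φ).cone := by
  ext1
  · rw [map_pt, cone_pt, cone_pt, comp_act, map_inv, map_frσ]
    rfl
  · funext i
    refine Fin.cases ?_ (fun i => ?_) i
    · rw [map_g, cone_g_zero, cone_g_zero, map_one]
    · rw [map_g, cone_g_succ, cone_g_succ, map_mul, map_frσ]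
      rfl

/-- Dropping the base vertex of the cone gives the chain back. -/
theorem cone_res_zero (c : Chain T n B) : c.cone.res (Fin.succAbove 0) = c := by
  have h0 : (0 : Fin (n + 2)).succAbove 0 = (0 : Fin (n + 1)).succ := by simp
  ext1
  · rw [res_pt, h0, cone_g_succ, c.zero, one_mul, cone_pt, ← act_mul, mul_inv_cancel, act_one]
  · funext i
    rw [res_g, h0, Fin.zero_succAbove, cone_g_succ, cone_g_succ, c.zero, one_mul,
      mul_inv_cancel_right]

/-- Dropping another vertex commutes with the cone. -/
theorem cone_res_succ (c : Chain T (n + 1) B) (i : Fin (n + 2)) :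
    c.cone.res (i.succ.succAbove) = (c.res i.succAbove).cone := by
  have h0 : i.succ.succAbove 0 = (0 : Fin (n + 3)) := by simp
  have hs : ∀ j : Fin (n + 1), i.succ.succAbove j.succ = (i.succAbove j).succ := fun j => by
    rw [Fin.succ_succAbove_succ]
  have hσ : frσ (act (c.g (i.succAbove 0)) c.pt) = c.g (i.succAbove 0) * frσ c.pt :=
    frσ_act (c.strict _) _
  ext1
  · rw [res_pt, h0, cone_g_zero, act_one, cone_pt, cone_pt, res_pt, hσ, ← act_mul]
    congr 1
    group
  · funext j
    refine Fin.cases ?_ (fun j => ?_) j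
    · rw [res_g, h0, cone_g_zero, cone_g_zero, inv_one, mul_one]
    · rw [res_g, h0, hs, cone_g_zero, inv_one, mul_one, cone_g_succ, cone_g_succ, res_g, res_pt,
        hσ]
      group

theorem scale_cone (c : Chain T n B) (u : Bˣ) : (c.scale u).cone = c.cone.scale u := by
  have hσ : frσ (c.scale u).pt = (lin u)⁻¹ * frσ c.pt * lin u := frσ_act_lin u c.pt
  ext1
  · change act (frσ (c.scale u).pt)⁻¹ (act (lin u)⁻¹ c.pt) =
      act (lin u)⁻¹ (act (frσ c.pt)⁻¹ c.pt)
    rw [hσ, ← act_mul, ← act_mul]
    congr 1
    group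
  · funext i
    refine Fin.cases ?_ (fun i => ?_) i
    · rw [cone_g_zero, (c.cone.scale u).zero]
    · rw [cone_g_succ, hσ]
      change (lin u)⁻¹ * c.g i * lin u * ((lin u)⁻¹ * frσ c.pt * lin u) =
        (lin u)⁻¹ * c.cone.g i.succ * lin u
      rw [cone_g_succ]
      group

end Chain

namespace Cob

/-- The contraction: functions on chains of length `n+1` evaluated at the cone. -/
noncomputable def ctr (T : Type) [CommRing T] [LawRing T] [Framed T] (n : ℕ) :
    Cob T (n + 1) →+* Cob T n := ev (univ T n).cone

theorem ev_ctr (c : Chain T n B) (x : Cob T (n + 1)) : ev c (ctr T n x) = ev c.cone x := by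
  rw [ctr, ← ev_map, Chain.map_cone, univ_map_ev]

theorem ctr_map_zero (x : Cob T n) : ctr T n (map (Fin.succAbove 0) x) = x := by
  apply ext_ev
  intro B _ c
  rw [ev_ctr, ev_map_res, Chain.cone_res_zero]

theorem ctr_map_succ (i : Fin (n + 2)) (x : Cob T (n + 1)) :
    ctr T (n + 1) (map (i.succ.succAbove) x) = map i.succAbove (ctr T n x) := by
  apply ext_ev
  intro B _ c
  rw [ev_ctr, ev_map_res, ev_map_res, ev_ctr, Chain.cone_res_succ]

theorem ctr_d (x : Cob T (n + 1)) : ctr T (n + 1) (d (n + 1) x) = x - d n (ctr T n x) := by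
  rw [d_apply, _root_.map_sum, Fin.sum_univ_succ, d_apply, sub_eq_add_neg, ← Finset.sum_neg_distrib]
  congr 1
  · rw [Fin.val_zero, pow_zero, one_smul, ctr_map_zero]
  · refine Finset.sum_congr rfl fun i _ => ?_
    rw [map_zsmul, ctr_map_succ, Fin.val_succ, pow_succ, mul_neg_one, neg_smul]

theorem IsWt.ctr {w : ℤ} {x : Cob T (n + 1)} (hx : IsWt w x) : IsWt w (ctr T n x) :=
  fun B _ c u => by rw [ev_ctr, ev_ctr, Chain.scale_cone, hx]

/-- The cobar complex of a framed law ring is exact in positive degrees. -/
theorem exact_of_framed {x : Cob T (n + 1)} (hx : d (n + 1) x = 0) : d n (ctr T n x) = x := by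
  have h := ctr_d x
  rw [hx, map_zero] at h
  exact (sub_eq_zero.1 h.symm).symm

end Cob

end Vale.Agent.P251.F
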