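import Mathlib.RingTheory.Flat.Equalizer
import Mathlib.RingTheory.Flat.Tensor
import Mathlib.RingTheory.Flat.FaithfullyFlat.Basic
import Mathlib.RingTheory.Flat.FaithfullyFlat.Algebra
import Mathlib.LinearAlgebra.TensorProduct.Quotient
import Mathlib.RingTheory.Idempotents
import Mathlib.Algebra.Module.Torsion.Basic
import Mathlib.Tactic

/-!
# P251, part F, F5: nilpotent thickenings

* `bijective_of_mod`: a linear map to a flat module which is bijective modulo a nilpotent ideal is
  bijective;
* `flat_of_nilpotent`: local criterion of flatness for a nilpotent ideal.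
-/

namespace Vale.Agent.P251.F

open TensorProduct

universe u v w

section Nakayama

variable {R : Type u} [CommRing R] {I : Ideal R} {M : Type v} [AddCommGroup M] [Module R M]

/-- Nakayama for a nilpotent ideal. -/
theorem eq_bot_of_le_smul_nilp (hI : IsNilpotent I) (N : Submodule R M) (h : N ≤ I • N) :
    N = ⊥ := by
  obtain ⟨n, hn⟩ := hI
  have key : ∀ k : ℕ, N ≤ I ^ k • N := by
    intro k
    induction k with
    | zero => simp
    | succ k ih =>
      calc N ≤ I ^ k • N := ih
        _ ≤ I ^ k • (I • N) := Submodule.smul_mono le_rfl h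
        _ = I ^ (k + 1) • N := by rw [← Submodule.smul_assoc, smul_eq_mul, pow_succ]
  have := key n
  rw [hn] at this
  simpa using this

/-- Nakayama for a nilpotent ideal. -/
theorem eq_top_of_sup_smul_nilp (hI : IsNilpotent I) (N : Submodule R M)
    (h : ⊤ ≤ N ⊔ I • (⊤ : Submodule R M)) : N = ⊤ := by
  obtain ⟨n, hn⟩ := hI
  have key : ∀ k : ℕ, (⊤ : Submodule R M) ≤ N ⊔ I ^ k • ⊤ := by
    intro k
    induction k with
    | zero => simp
    | succ k ih =>
      refine ih.trans (sup_le le_sup_left ?_)
      calc I ^ k • (⊤ : Submodule R M) ≤ I ^ k • (N ⊔ I • ⊤) := Submodule.smul_mono le_rfl h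
        _ = I ^ k • N ⊔ I ^ k • (I • ⊤) := Submodule.smul_sup _ _ _
        _ ≤ N ⊔ I ^ (k + 1) • ⊤ := by
          refine sup_le_sup Submodule.smul_le_right ?_
          rw [← Submodule.smul_assoc, smul_eq_mul, pow_succ]
  have := key n
  rw [hn] at this
  simpa using this

end Nakayama

section ModI

variable {R : Type u} [CommRing R] (I : Ideal R) {M : Type v} [AddCommGroup M] [Module R M]

/-- `1 ⊗ m = 0` in `R/I ⊗ M` iff `m ∈ I M`. -/
theorem one_tmul_eq_zero_iff_mem (m : M) :
    ((1 : R ⧸ I) ⊗ₜ[R] m = 0) ↔ m ∈ I • (⊤ : Submodule R M) := by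
  have h := TensorProduct.quotTensorEquivQuotSMul_mk_tmul (M := M) (I := I) (1 : R) m
  rw [← (TensorProduct.quotTensorEquivQuotSMul M I).map_eq_zero_iff]
  have h1 : (1 : R ⧸ I) = Ideal.Quotient.mk I 1 := rfl
  rw [h1, h, one_smul, Submodule.Quotient.mk_eq_zero]

/-- A linear map to a flat module which is bijective modulo a nilpotent ideal is bijective. -/
theorem bijective_of_mod {I : Ideal R} (hI : IsNilpotent I) {N : Type w} [AddCommGroup N]
    [Module R N] [Module.Flat R N] (f : M →ₗ[R] N)
    (hs : ∀ y : N, ∃ x : M, y - f x ∈ I • (⊤ : Submodule R N))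
    (hi : ∀ x : M, f x ∈ I • (⊤ : Submodule R N) → x ∈ I • (⊤ : Submodule R M)) :
    Function.Bijective f := by
  have hsurj : Function.Surjective f := by
    rw [← LinearMap.range_eq_top]
    apply eq_top_of_sup_smul_nilp hI
    intro y _
    obtain ⟨x, hx⟩ := hs y
    have : y = f x + (y - f x) := by abel
    rw [this]
    exact Submodule.add_mem_sup (LinearMap.mem_range_self f x) hx
  refine ⟨?_, hsurj⟩
  rw [← LinearMap.ker_eq_bot]
  have hbot : (⊤ : Submodule R (LinearMap.ker f)) = ⊥ := by
    apply eq_bot_of_le_smul_nilp hI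
    intro k _
    have hinj := LinearMap.lTensor_injective_of_exact_of_flat f hsurj (LinearMap.ker f).subtype
      (Submodule.subtype_injective _) (by
        intro x
        simp) (R ⧸ I)
    rw [← one_tmul_eq_zero_iff_mem I k]
    apply hinj
    rw [map_zero, LinearMap.lTensor_tmul, one_tmul_eq_zero_iff_mem]
    apply hi
    have : f ((LinearMap.ker f).subtype k) = 0 := k.2
    rw [this]
    exact Submodule.zero_mem _
  rw [eq_bot_iff]
  intro x hx
  have : (⟨x, hx⟩ : LinearMap.ker f) ∈ (⊤ : Submodule R (LinearMap.ker f)) := trivial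
  rw [hbot, Submodule.mem_bot] at this
  exact congrArg Subtype.val this

end ModI

section LocalCriterion

variable {R : Type u} [CommRing R] (I : Ideal R) (M : Type v) [AddCommGroup M] [Module R M]

/-- if `I ⊗ M → M` is injective and `P` is flat, then `IP ⊗ M → P ⊗ M` is injective. -/
theorem smul_top_rTensor_injective (h1 : Function.Injective (I.subtype.rTensor M))
    (P : Type w) [AddCommGroup P] [Module R P] [Module.Flat R P] :
    Function.Injective ((I • (⊤ : Submodule R P)).subtype.rTensor M) := by
  -- the isomorphism `P ⊗ I → IP`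
  have hPI : Function.Injective (I.subtype.lTensor P) :=
    Module.Flat.lTensor_preserves_injective_linearMap _ (Submodule.subtype_injective _)
  let g : P ⊗[R] I →ₗ[R] P := (TensorProduct.rid R P).toLinearMap ∘ₗ I.subtype.lTensor P
  have hg : Function.Injective g := (TensorProduct.rid R P).injective.comp hPI
  have hrange : LinearMap.range g = I • (⊤ : Submodule R P) := by
    apply le_antisymm
    · rintro _ ⟨x, rfl⟩
      induction x using TensorProduct.induction_on with
      | zero => simp
      | tmul x i =>
        have : g (x ⊗ₜ i) = (i : R) • x := by simp [g]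
        rw [this]
        exact Submodule.smul_mem_smul i.2 trivial
      | add x y hx hy =>
        rw [map_add]
        exact Submodule.add_mem _ hx hy
    · rw [Submodule.smul_le]
      intro i hi x _
      exact ⟨x ⊗ₜ ⟨i, hi⟩, by simp [g]⟩
  let e : P ⊗[R] I ≃ₗ[R] ↥(I • (⊤ : Submodule R P)) :=
    (LinearEquiv.ofInjective g hg).trans (LinearEquiv.ofEq _ _ hrange)
  have he : ∀ x, (I • (⊤ : Submodule R P)).subtype (e x) = g x := fun x => rfl
  have hcomp : (I • (⊤ : Submodule R P)).subtype ∘ₗ e.toLinearMap = g := LinearMap.ext he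
  have h2 : Function.Injective (g.rTensor M) := by
    -- `(P ⊗ I) ⊗ M = P ⊗ (I ⊗ M) → P ⊗ (R ⊗ M)`
    have h3 : Function.Injective ((I.subtype.rTensor M).lTensor P) :=
      Module.Flat.lTensor_preserves_injective_linearMap _ h1
    have h4 : g.rTensor M = ((TensorProduct.rid R P).toLinearMap.rTensor M) ∘ₗ
        (TensorProduct.assoc R P R M).symm.toLinearMap ∘ₗ
        ((I.subtype.rTensor M).lTensor P) ∘ₗ (TensorProduct.assoc R P I M).toLinearMap := by
      apply TensorProduct.ext_threefold
      intro x i m
      simp [g]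
    rw [h4]
    have h5 : Function.Injective ((TensorProduct.rid R P).toLinearMap.rTensor M) := by
      have : (TensorProduct.rid R P).toLinearMap.rTensor M =
          ((TensorProduct.rid R P).rTensor M).toLinearMap := rfl
      rw [this]
      exact ((TensorProduct.rid R P).rTensor M).injective
    simp only [LinearMap.coe_comp]
    exact h5.comp ((TensorProduct.assoc R P R M).symm.injective.comp
      (h3.comp (TensorProduct.assoc R P I M).injective))
  rw [← hcomp, LinearMap.rTensor_comp] at h2
  intro x y hxy
  obtain ⟨x', rfl⟩ := (e.rTensor M).surjective x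
  obtain ⟨y', rfl⟩ := (e.rTensor M).surjective y
  have : x' = y' := h2 hxy
  rw [this]

/-- an injection of modules killed by `I` stays injective after `⊗ M` if `R/I ⊗ M` is flat. -/
theorem rTensor_injective_of_torsion (h2 : Module.Flat (R ⧸ I) ((R ⧸ I) ⊗[R] M))
    {A : Type w} [AddCommGroup A] [Module R A] {B : Type*} [AddCommGroup B] [Module R B]
    (hA : Module.IsTorsionBySet R A (I : Set R)) (hB : Module.IsTorsionBySet R B (I : Set R))
    (j : A →ₗ[R] B) (hj : Function.Injective j) : Function.Injective (j.rTensor M) := by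
  let _ := hA.module
  let _ := hB.module
  have _ : IsScalarTower R (R ⧸ I) A := hA.isScalarTower
  have _ : IsScalarTower R (R ⧸ I) B := hB.isScalarTower
  let j' : A →ₗ[R ⧸ I] B :=
    { toFun := j
      map_add' := j.map_add
      map_smul' := by
        intro c x
        obtain ⟨c, rfl⟩ := Ideal.Quotient.mk_surjective c
        exact j.map_smul c x }
  have h3 : Function.Injective (j'.rTensor ((R ⧸ I) ⊗[R] M)) :=
    Module.Flat.rTensor_preserves_injective_linearMap j' hj
  let eA := TensorProduct.AlgebraTensorModule.cancelBaseChange R (R ⧸ I) (R ⧸ I) A M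
  let eB := TensorProduct.AlgebraTensorModule.cancelBaseChange R (R ⧸ I) (R ⧸ I) B M
  have h4 : ∀ x, j.rTensor M x = eB (j'.rTensor ((R ⧸ I) ⊗[R] M) (eA.symm x)) := by
    intro x
    induction x using TensorProduct.induction_on with
    | zero => simp
    | tmul a m =>
      simp only [eA, eB, LinearMap.rTensor_tmul,
        TensorProduct.AlgebraTensorModule.cancelBaseChange_symm_tmul,
        TensorProduct.AlgebraTensorModule.cancelBaseChange_tmul, one_smul]
      rfl
    | add x y hx hy => simp only [map_add, hx, hy]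
  intro x y hxy
  rw [h4, h4] at hxy
  exact eA.symm.injective (h3 (eB.injective hxy))

/-- step: `P` flat, `IP ⊆ X ⊆ P`. -/
theorem rTensor_injective_of_flat (h1 : Function.Injective (I.subtype.rTensor M))
    (h2 : Module.Flat (R ⧸ I) ((R ⧸ I) ⊗[R] M))
    (P : Type w) [AddCommGroup P] [Module R P] [Module.Flat R P] (X : Submodule R P)
    (hX : I • (⊤ : Submodule R P) ≤ X) : Function.Injective (X.subtype.rTensor M) := by
  rw [← LinearMap.ker_eq_bot, eq_bot_iff]
  intro x hx
  rw [Submodule.mem_bot]
  rw [LinearMap.mem_ker] at hx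
  set Q : Submodule R P := I • (⊤ : Submodule R P) with hQ
  let i : Q →ₗ[R] X := Submodule.inclusion hX
  let π : X →ₗ[R] X ⧸ LinearMap.range i := (LinearMap.range i).mkQ
  have hex : Function.Exact i π := LinearMap.exact_map_mkQ_range i
  have hex2 : Function.Exact (i.rTensor M) (π.rTensor M) :=
    rTensor_exact M hex (Submodule.mkQ_surjective _)
  let j : (X ⧸ LinearMap.range i) →ₗ[R] P ⧸ Q :=
    (LinearMap.range i).mapQ Q X.subtype (by
      rintro _ ⟨q, rfl⟩
      exact q.2)
  have hj : Function.Injective j := by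
    rw [← LinearMap.ker_eq_bot, eq_bot_iff]
    intro y hy
    obtain ⟨y, rfl⟩ := Submodule.Quotient.mk_surjective _ y
    rw [LinearMap.mem_ker] at hy
    have hy' : (X.subtype y) ∈ Q := (Submodule.Quotient.mk_eq_zero _).1 hy
    rw [Submodule.mem_bot, Submodule.Quotient.mk_eq_zero]
    exact ⟨⟨X.subtype y, hy'⟩, Subtype.ext rfl⟩
  have hcomp : j ∘ₗ π = Q.mkQ ∘ₗ X.subtype := LinearMap.ext fun y => rfl
  have hA : Module.IsTorsionBySet R (X ⧸ LinearMap.range i) (I : Set R) := by
    rw [Module.isTorsionBySet_quotient_iff]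
    intro y r hr
    exact ⟨⟨r • X.subtype y, Submodule.smul_mem_smul hr trivial⟩, Subtype.ext rfl⟩
  have hB : Module.IsTorsionBySet R (P ⧸ Q) (I : Set R) := by
    rw [Module.isTorsionBySet_quotient_iff]
    intro y r hr
    exact Submodule.smul_mem_smul hr trivial
  have hinj := rTensor_injective_of_torsion I M h2 hA hB j hj
  have h5 : π.rTensor M x = 0 := by
    apply hinj
    rw [map_zero, ← LinearMap.comp_apply, ← LinearMap.rTensor_comp, hcomp,
      LinearMap.rTensor_comp, LinearMap.comp_apply, hx, map_zero]
  obtain ⟨z, hz⟩ := (hex2 x).1 h5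
  have h6 := smul_top_rTensor_injective I M h1 P
  have h7 : Q.subtype.rTensor M z = 0 := by
    have : Q.subtype = X.subtype ∘ₗ i := LinearMap.ext fun y => rfl
    rw [this, LinearMap.rTensor_comp, LinearMap.comp_apply, hz, hx]
  have h8 : z = 0 := h6 (by rw [h7, map_zero])
  rw [← hz, h8, map_zero]

/-- step: `IY ⊆ X ⊆ Y`, `Y` a quotient of a flat module. -/
theorem rTensor_injective_step_aux (h1 : Function.Injective (I.subtype.rTensor M))
    (h2 : Module.Flat (R ⧸ I) ((R ⧸ I) ⊗[R] M))
    (Y : Type w) [AddCommGroup Y] [Module R Y] (X : Submodule R Y)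
    (hX : I • (⊤ : Submodule R Y) ≤ X) (P : Type*) [AddCommGroup P] [Module R P] [Module.Flat R P]
    (q : P →ₗ[R] Y) (hq : Function.Surjective q) : Function.Injective (X.subtype.rTensor M) := by
  let X' : Submodule R P := X.comap q
  have hX' : I • (⊤ : Submodule R P) ≤ X' := by
    rw [Submodule.smul_le]
    intro r hr y _
    change q (r • y) ∈ X
    rw [map_smul]
    exact hX (Submodule.smul_mem_smul hr trivial)
  have hinj := rTensor_injective_of_flat I M h1 h2 P X' hX'
  let K := LinearMap.ker q
  have hKX : K ≤ X' := by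
    intro y hy
    change q y ∈ X
    rw [LinearMap.mem_ker.1 hy]
    exact X.zero_mem
  let i : K →ₗ[R] X' := Submodule.inclusion hKX
  let π : X' →ₗ[R] X := q.restrict (p := X') (q := X) (fun y hy => hy)
  have hπ : Function.Surjective π := by
    rintro ⟨y, hy⟩
    obtain ⟨z, rfl⟩ := hq y
    exact ⟨⟨z, hy⟩, rfl⟩
  have hexK : Function.Exact K.subtype q := by
    intro y
    simp [K]
  have hexK' : Function.Exact (K.subtype.rTensor M) (q.rTensor M) := rTensor_exact M hexK hq
  rw [← LinearMap.ker_eq_bot, eq_bot_iff]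
  intro x hx
  rw [Submodule.mem_bot]
  rw [LinearMap.mem_ker] at hx
  obtain ⟨x', rfl⟩ := LinearMap.rTensor_surjective M hπ x
  have h3 : q.rTensor M (X'.subtype.rTensor M x') = 0 := by
    rw [← LinearMap.comp_apply, ← LinearMap.rTensor_comp]
    have : q ∘ₗ X'.subtype = X.subtype ∘ₗ π := LinearMap.ext fun y => rfl
    rw [this, LinearMap.rTensor_comp, LinearMap.comp_apply, hx]
  obtain ⟨k, hk⟩ := (hexK' _).1 h3
  have h4 : i.rTensor M k = x' := by
    apply hinj
    rw [← hk, ← LinearMap.comp_apply, ← LinearMap.rTensor_comp]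
    rfl
  rw [← h4, ← LinearMap.comp_apply, ← LinearMap.rTensor_comp]
  have : π ∘ₗ i = 0 := by
    ext y
    exact LinearMap.mem_ker.1 y.2
  rw [this, LinearMap.rTensor_zero, LinearMap.zero_apply]

/-- step: `IY ⊆ X ⊆ Y`, `Y` arbitrary. -/
theorem rTensor_injective_step (h1 : Function.Injective (I.subtype.rTensor M))
    (h2 : Module.Flat (R ⧸ I) ((R ⧸ I) ⊗[R] M))
    (Y : Type w) [AddCommGroup Y] [Module R Y] (X : Submodule R Y)
    (hX : I • (⊤ : Submodule R Y) ≤ X) : Function.Injective (X.subtype.rTensor M) :=
  rTensor_injective_step_aux I M h1 h2 Y X hX (Y →₀ R) (Finsupp.linearCombination R id)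
    (Finsupp.linearCombination_id_surjective R Y)

/-- **Local criterion of flatness** for a nilpotent ideal: if `R/I ⊗ M` is flat over `R/I` and
`I ⊗ M → M` is injective, then `M` is flat. -/
theorem flat_of_nilpotent (hI : IsNilpotent I) (h1 : Function.Injective (I.subtype.rTensor M))
    (h2 : Module.Flat (R ⧸ I) ((R ⧸ I) ⊗[R] M)) : Module.Flat R M := by
  rw [Module.Flat.iff_rTensor_injective']
  intro J
  obtain ⟨n, hn⟩ := hI
  have key : ∀ k : ℕ, ∀ (J : Ideal R), I ^ k ≤ J → Function.Injective (J.subtype.rTensor M) := by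
    intro k
    induction k with
    | zero =>
      intro J hJ
      rw [pow_zero, Ideal.one_eq_top, top_le_iff] at hJ
      subst hJ
      have : (⊤ : Ideal R).subtype = (Submodule.topEquiv (R := R) (M := R)).toLinearMap := by
        ext; rfl
      rw [this]
      exact ((Submodule.topEquiv (R := R) (M := R)).rTensor M).injective
    | succ k ih =>
      intro J hJ
      let J' : Ideal R := J ⊔ I ^ k
      have h3 := ih J' le_sup_right
      let X : Submodule R J' := Submodule.comap J'.subtype J
      have hXle : I • (⊤ : Submodule R J') ≤ X := by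
        rw [Submodule.smul_le]
        intro r hr y _
        change r * (y : R) ∈ J
        obtain ⟨a, ha, b, hb, hab⟩ := Submodule.mem_sup.1 y.2
        rw [← hab, mul_add]
        refine J.add_mem (J.mul_mem_left r ha) (hJ ?_)
        rw [pow_succ, mul_comm]
        exact Ideal.mul_mem_mul hb hr |> fun h => by simpa [mul_comm] using h
      have h4 := rTensor_injective_step I M h1 h2 J' X hXle
      let e : J ≃ₗ[R] X := (Submodule.comapSubtypeEquivOfLe (le_sup_left : J ≤ J')).symm
      have h5 : J.subtype = J'.subtype ∘ₗ X.subtype ∘ₗ e.toLinearMap := LinearMap.ext fun y => rfl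
      rw [h5, LinearMap.rTensor_comp, LinearMap.rTensor_comp]
      simp only [LinearMap.coe_comp]
      exact h3.comp (h4.comp (e.rTensor M).injective)
  exact key n J (by rw [hn]; exact bot_le)

end LocalCriterion

end Vale.Agent.P251.F
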