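/-
P251, part F (F5): nilpotent thickenings of torsors in characteristic `p`. Author: helper288.

* `GAct.relPerf`: a faithfully flat torsor `B/A` in characteristic `p` is relatively perfect:
  `A ⊗[A, Frob^N] B → B` is bijective.
* `GAct.thick_bijective`: if `T/R` is a thickening of the torsor `T₁/R₁` along a nilpotent ideal
  `m` of `Λ` (`Λ → R → T`, `T` flat over `Λ`), then `R ⊗[R₁, s] T₁ → T` is bijective, where
  `s : R₁ → R`, `t : T₁ → T` are the factorizations of the `p ^ N`-power maps.
-/
import Vale.Agent.P251.F.TorsorMap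
import Vale.Agent.P251.F.ThickFlat
import Mathlib.LinearAlgebra.TensorProduct.RightExactness

open TensorProduct

namespace Vale.Agent.P251.F

/-- The ring `A`, seen as an `A`-algebra through the `p ^ N`-power Frobenius. -/
def Tw (_p _N : ℕ) (A : Type*) : Type _ := A

section Tw

variable (p N : ℕ) (A B : Type*) [CommRing A] [CommRing B] [Algebra A B]

instance : CommRing (Tw p N A) := inferInstanceAs (CommRing A)

instance : Algebra (Tw p N A) (Tw p N B) := inferInstanceAs (Algebra A B)

/-- the identity `A → Tw p N A` -/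
def Tw.of : A ≃+* Tw p N A := RingEquiv.refl A

variable {A B} in
theorem Tw.algebraMap_of (a : A) :
    algebraMap (Tw p N A) (Tw p N B) (Tw.of p N A a) = Tw.of p N B (algebraMap A B a) := rfl

/-- the algebra structure by Frobenius -/
noncomputable instance [ExpChar A p] : Algebra A (Tw p N A) :=
  ((Tw.of p N A : A →+* Tw p N A).comp (iterateFrobenius A p N)).toAlgebra

variable {A} in
theorem Tw.algebraMap_apply [ExpChar A p] (a : A) :
    algebraMap A (Tw p N A) a = Tw.of p N A (a ^ p ^ N) := rfl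

variable [ExpChar B p]

noncomputable instance (priority := 500) : Algebra A (Tw p N B) :=
  ((algebraMap B (Tw p N B)).comp (algebraMap A B)).toAlgebra

instance : IsScalarTower A B (Tw p N B) := IsScalarTower.of_algebraMap_eq fun _ => rfl

instance [ExpChar A p] : IsScalarTower A (Tw p N A) (Tw p N B) :=
  IsScalarTower.of_algebraMap_eq fun a => by
    rw [Tw.algebraMap_apply, Tw.algebraMap_of, map_pow]
    rfl

end Tw

namespace GAct

variable {G : Type*} [Group G] [TopologicalSpace G]

section RelPerf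

variable {A B : Type*} [CommRing A] [CommRing B] [Algebra A B]

/-- the action on the twisted algebra -/
noncomputable def tw (α : GAct G A B) (p N : ℕ) : GAct G (Tw p N A) (Tw p N B) where
  ρ := α.ρ
  one := α.one
  mul := α.mul
  lc := α.lc

theorem isTorsor_tw {α : GAct G A B} (p N : ℕ) (h : α.IsTorsor) : (α.tw p N).IsTorsor := h

/-- **Relative perfectness** of torsors. -/
theorem relPerf [CompactSpace G] {α : GAct G A B} (h : α.IsTorsor) [Module.FaithfullyFlat A B]
    (p N : ℕ) [ExpChar A p] [ExpChar B p] :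
    Function.Bijective (push A B (Tw p N A) (Tw p N B)) := by
  have : Module.FaithfullyFlat (Tw p N A) (Tw p N B) := inferInstanceAs (Module.FaithfullyFlat A B)
  refine push_bijective h (isTorsor_tw p N h) ?_
  intro g b
  change (α.ρ g b) ^ p ^ N = α.ρ g (b ^ p ^ N)
  rw [map_pow]

end RelPerf

section Thick

variable {Λ R T R₁ T₁ : Type*} [CommRing Λ] [CommRing R] [CommRing T] [CommRing R₁] [CommRing T₁]
  [Algebra Λ R] [Algebra R T] [Algebra Λ T] [IsScalarTower Λ R T]
  [Algebra R₁ T₁] [Algebra R₁ R] [Algebra T₁ T] [Algebra R₁ T] [IsScalarTower R₁ R T]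
  [IsScalarTower R₁ T₁ T]

/-- **Nilpotent thickenings of torsors.** -/
theorem thick_bijective [CompactSpace G] {α : GAct G R₁ T₁} (h : α.IsTorsor)
    [Module.FaithfullyFlat R₁ T₁] (p N : ℕ) [ExpChar R₁ p] [ExpChar T₁ p] [Module.Flat Λ T]
    {m : Ideal Λ} (hm : IsNilpotent m) (πR : R →+* R₁) (πT : T →+* T₁)
    (hπ : ∀ r, πT (algebraMap R T r) = algebraMap R₁ T₁ (πR r))
    (hR : Function.Surjective πR) (hT : Function.Surjective πT)
    (kR : RingHom.ker πR ≤ m.map (algebraMap Λ R)) (kT : RingHom.ker πT = m.map (algebraMap Λ T))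
    (hs : ∀ r, algebraMap R₁ R (πR r) = r ^ p ^ N)
    (ht : ∀ t, algebraMap T₁ T (πT t) = t ^ p ^ N) :
    Function.Bijective (push R₁ T₁ R T) := by
  have hφ := relPerf h p N
  set φ := push R₁ T₁ (Tw p N R₁) (Tw p N T₁) with hφdef
  -- `q : R ⊗ T₁ → Tw R₁ ⊗ T₁`
  let π' : R →ₐ[R₁] Tw p N R₁ :=
    { (Tw.of p N R₁ : R₁ →+* Tw p N R₁).comp πR with
      commutes' := fun r₁ => by
        obtain ⟨r, rfl⟩ := hR r₁
        change Tw.of p N R₁ (πR (algebraMap R₁ R (πR r))) = _
        rw [hs, map_pow, Tw.algebraMap_apply] }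
  have hπ's : Function.Surjective π' := hR
  let q : R ⊗[R₁] T₁ →ₐ[R₁] Tw p N R₁ ⊗[R₁] T₁ := Algebra.TensorProduct.map π' (AlgHom.id R₁ T₁)
  have hq : Function.Surjective q :=
    Algebra.TensorProduct.map_surjective _ _ hπ's Function.surjective_id
  have hcomm : ∀ x, Tw.of p N T₁ (πT (push R₁ T₁ R T x)) = φ (q x) := by
    intro x
    induction x using TensorProduct.induction_on with
    | zero => simp
    | tmul r t =>
      obtain ⟨t, rfl⟩ := hT t
      rw [push_tmul, map_mul, hπ, ht, map_pow]
      have : q (r ⊗ₜ πT t) = (π' r) ⊗ₜ (πT t) := rfl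
      rw [this, hφdef, push_tmul, map_mul]
      rfl
    | add x y hx hy => simp only [map_add, hx, hy]
  have _ : SMulCommClass R₁ Λ R := ⟨fun a b x => by
    simp only [Algebra.smul_def]
    ring⟩
  have hb := bijective_of_mod hm ((push R₁ T₁ R T).restrictScalars Λ).toLinearMap ?_ ?_
  · exact hb
  · intro y
    obtain ⟨z, hz⟩ := hφ.2 (Tw.of p N T₁ (πT y))
    obtain ⟨x, rfl⟩ := hq z
    refine ⟨x, ?_⟩
    rw [Ideal.smul_top_eq_map, Submodule.restrictScalars_mem, ← kT, RingHom.mem_ker, map_sub,
      sub_eq_zero]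
    rw [← hcomm] at hz
    exact ((Tw.of p N T₁).injective hz).symm
  · intro x hx
    rw [Ideal.smul_top_eq_map, Submodule.restrictScalars_mem, ← kT, RingHom.mem_ker] at hx
    have h1 : φ (q x) = 0 := by
      rw [← hcomm]
      exact (congrArg _ hx).trans (map_zero _)
    have h2 : q x = 0 := hφ.1 (h1.trans (map_zero _).symm)
    have h3 : x ∈ (RingHom.ker π').map
        (Algebra.TensorProduct.includeLeft : R →ₐ[R₁] R ⊗[R₁] T₁) := by
      rw [← Algebra.TensorProduct.rTensor_ker _ hπ's]
      exact h2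
    rw [Ideal.smul_top_eq_map, Submodule.restrictScalars_mem]
    have h4 : RingHom.ker π' ≤ m.map (algebraMap Λ R) := by
      intro r hr
      exact kR hr
    have h5 := Ideal.map_mono (f := (Algebra.TensorProduct.includeLeft : R →ₐ[R₁] R ⊗[R₁] T₁)) h4 h3
    refine (Ideal.map_le_iff_le_comap.2 (Ideal.map_le_iff_le_comap.2 ?_) :
      Ideal.map _ (Ideal.map (algebraMap Λ R) m) ≤ _) h5
    intro z hz
    exact Ideal.mem_map_of_mem (algebraMap Λ (R ⊗[R₁] T₁)) hz

end Thick

end GAct

end Vale.Agent.P251.F
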