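/-
P251, part F (F5): the action of `G` on a nilpotent thickening of a torsor. Author: helper288.

Given a commutative square `R₁ → T₁`, `R₁ → R`, `T₁ → T`, `R → T` of rings with
`R ⊗[R₁] T₁ → T` bijective:
* `GAct.lift α hb : GAct G R T`, the base change of `α : GAct G R₁ T₁`;
* `GAct.isTorsor_lift`, `GAct.faithfullyFlat_lift`;
* `GAct.lift_reduce`: it lifts `α` if the square is the one of Frobenius factorizations.
`GAct.hom_ext_of_nilpotent`: two ring homomorphisms `T → C` which agree on `R` and agree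
modulo a nilpotent ideal are equal.
-/
import Vale.Agent.P251.F.FrobThick
import Mathlib.RingTheory.Flat.FaithfullyFlat.Algebra

open TensorProduct

namespace Vale.Agent.P251.F

namespace GAct

variable {G : Type*} [Group G] [TopologicalSpace G]

section Base

variable {R T R₁ T₁ : Type*} [CommRing R] [CommRing T] [CommRing R₁] [CommRing T₁]
  [Algebra R T] [Algebra R₁ T₁] [Algebra R₁ R] [Algebra T₁ T] [Algebra R₁ T]
  [IsScalarTower R₁ R T] [IsScalarTower R₁ T₁ T]

variable (hb : Function.Bijective (push R₁ T₁ R T))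

/-- the isomorphism `R ⊗[R₁] T₁ ≃ T` -/
noncomputable def pushEquiv : R ⊗[R₁] T₁ ≃ₐ[R] T := AlgEquiv.ofBijective (push R₁ T₁ R T) hb

theorem pushEquiv_apply (x : R ⊗[R₁] T₁) : pushEquiv hb x = push R₁ T₁ R T x := rfl

include hb in
theorem push_induction {P : T → Prop} (h1 : ∀ (r : R) (t : T₁), P (algebraMap R T r *
    algebraMap T₁ T t)) (h2 : ∀ x y, P x → P y → P (x + y)) (x : T) : P x := by
  obtain ⟨z, rfl⟩ := hb.2 x
  induction z using TensorProduct.induction_on with
  | zero =>
    have := h1 0 0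
    rwa [map_zero, map_zero, zero_mul, ← map_zero (push R₁ T₁ R T)] at this
  | tmul r t => exact h1 r t
  | add a b ha hb => rw [map_add]; exact h2 _ _ ha hb

/-- the algebra map of the base change -/
noncomputable def liftHom (α : GAct G R₁ T₁) (g : G) : T →ₐ[R] T :=
  ((pushEquiv hb : R ⊗[R₁] T₁ →ₐ[R] T).comp
    (Algebra.TensorProduct.map (AlgHom.id R R) (α.ρ g))).comp (pushEquiv hb).symm

theorem liftHom_mul (α : GAct G R₁ T₁) (g : G) (r : R) (t : T₁) :
    liftHom hb α g (algebraMap R T r * algebraMap T₁ T t) =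
      algebraMap R T r * algebraMap T₁ T (α.ρ g t) := by
  have h1 : (pushEquiv hb).symm (algebraMap R T r * algebraMap T₁ T t) = r ⊗ₜ t := by
    rw [AlgEquiv.symm_apply_eq]
    rfl
  change pushEquiv hb (Algebra.TensorProduct.map (AlgHom.id R R) (α.ρ g)
    ((pushEquiv hb).symm (algebraMap R T r * algebraMap T₁ T t))) = _
  rw [h1, Algebra.TensorProduct.map_tmul, pushEquiv_apply, push_tmul]
  rfl

/-- **The base change of an action.** -/
noncomputable def lift (α : GAct G R₁ T₁) : GAct G R T where
  ρ := liftHom hb α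
  one b := by
    induction b using push_induction hb with
    | h1 r t => rw [liftHom_mul, α.one]
    | h2 x y hx hy => rw [map_add, hx, hy]
  mul g h b := by
    induction b using push_induction hb with
    | h1 r t => rw [liftHom_mul, liftHom_mul, liftHom_mul, α.mul]
    | h2 x y hx hy => rw [map_add, map_add, map_add, hx, hy]
  lc b := by
    induction b using push_induction hb with
    | h1 r t =>
      simp only [liftHom_mul]
      exact (α.lc t).comp fun u => algebraMap R T r * algebraMap T₁ T u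
    | h2 x y hx hy =>
      simp only [map_add]
      exact hx.add hy

theorem lift_mul (α : GAct G R₁ T₁) (g : G) (r : R) (t : T₁) :
    (lift hb α).ρ g (algebraMap R T r * algebraMap T₁ T t) =
      algebraMap R T r * algebraMap T₁ T (α.ρ g t) := liftHom_mul hb α g r t

theorem lift_algebraMap (α : GAct G R₁ T₁) (g : G) (t : T₁) :
    (lift hb α).ρ g (algebraMap T₁ T t) = algebraMap T₁ T (α.ρ g t) := by
  have := lift_mul hb α g 1 t
  rwa [map_one, one_mul, one_mul] at this

theorem isTorsor_lift [CompactSpace G] {α : GAct G R₁ T₁} (h : α.IsTorsor) :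
    (lift hb α).IsTorsor := by
  let e1 : T ⊗[R] (R ⊗[R₁] T₁) ≃ₗ[T] T ⊗[R₁] T₁ :=
    TensorProduct.AlgebraTensorModule.cancelBaseChange R₁ R T T T₁
  let e2 : T ⊗[R] (R ⊗[R₁] T₁) ≃ₗ[R] T ⊗[R] T :=
    TensorProduct.congr (LinearEquiv.refl R T) (pushEquiv hb).toLinearEquiv
  have key : ∀ x : T ⊗[R] (R ⊗[R₁] T₁), (lift hb α).gal T (e2 x) = α.gal T (e1 x) := by
    intro x
    induction x using TensorProduct.induction_on with
    | zero => simp
    | tmul c y =>
      induction y using TensorProduct.induction_on with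
      | zero => simp
      | tmul a b =>
        ext z
        have h1 : e1 (c ⊗ₜ (a ⊗ₜ b)) = (a • c) ⊗ₜ b :=
          TensorProduct.AlgebraTensorModule.cancelBaseChange_tmul _ _ _ _ _ _
        have h2 : e2 (c ⊗ₜ (a ⊗ₜ b)) = c ⊗ₜ (algebraMap R T a * algebraMap T₁ T b) := rfl
        rw [h1, h2, gal_tmul_apply, gal_tmul_apply, lift_mul, Algebra.smul_def]
        change c * (algebraMap R T a * _) = _
        ring
      | add y y' hy hy' =>
        rw [TensorProduct.tmul_add, map_add, map_add, map_add, map_add, hy, hy']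
    | add x x' hx hx' =>
      rw [map_add, map_add, map_add, map_add, hx, hx']
  have hcomp : ((lift hb α).gal T : T ⊗[R] T → _) ∘ e2 = (α.gal T : T ⊗[R₁] T₁ → _) ∘ e1 :=
    funext key
  have h2 : Function.Bijective (((lift hb α).gal T : T ⊗[R] T → _) ∘ e2) := by
    rw [hcomp]
    exact (gal_bijective T h).comp e1.bijective
  exact (Function.Bijective.of_comp_iff _ e2.bijective).1 h2

include hb in
theorem faithfullyFlat_lift [Module.FaithfullyFlat R₁ T₁] : Module.FaithfullyFlat R T :=
  Module.FaithfullyFlat.of_linearEquiv R (R ⊗[R₁] T₁) (pushEquiv hb).symm.toLinearEquiv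

/-- the action on the thickening lifts the given one. -/
theorem lift_reduce (α : GAct G R₁ T₁) (p N : ℕ) (πR : R →+* R₁) (πT : T →+* T₁)
    (hπ : ∀ r, πT (algebraMap R T r) = algebraMap R₁ T₁ (πR r))
    (hT : Function.Surjective πT)
    (ht : ∀ t, algebraMap T₁ T (πT t) = t ^ p ^ N) (g : G) (x : T) :
    πT ((lift hb α).ρ g x) = α.ρ g (πT x) := by
  induction x using push_induction hb with
  | h1 r t =>
    obtain ⟨t, rfl⟩ := hT t
    obtain ⟨u, hu⟩ := hT (α.ρ g (πT t))
    rw [lift_mul, map_mul, map_mul, map_mul, hπ, AlgHom.commutes, ht, ← hu, ht, map_pow, map_pow,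
      map_pow, hu]
  | h2 x y hx hy => rw [map_add, map_add, map_add, map_add, hx, hy]

include hb in
/-- Uniqueness: two ring homomorphisms out of a thickening of a torsor which agree on the base
and have the same `p ^ N`-th powers are equal. -/
theorem hom_ext_of_pow (p N : ℕ) (πT : T →+* T₁) (hT : Function.Surjective πT)
    (ht : ∀ t, algebraMap T₁ T (πT t) = t ^ p ^ N) {C : Type*} [CommRing C] (φ ψ : T →+* C)
    (h : ∀ r : R, φ (algebraMap R T r) = ψ (algebraMap R T r))
    (h2 : ∀ t : T, φ t ^ p ^ N = ψ t ^ p ^ N) : φ = ψ := by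
  ext x
  induction x using push_induction hb with
  | h1 r t =>
    obtain ⟨t, rfl⟩ := hT t
    rw [map_mul, map_mul, h, ht, map_pow, map_pow, h2]
  | h2 x y hx hy => rw [map_add, map_add, hx, hy]

end Base

theorem pow_eq_of_sub_mem {C : Type*} [CommRing C] {p N : ℕ} (hp : p.Prime) (hC : (p : C) = 0)
    {J : Ideal C} (hJ : J ^ p ^ N = ⊥) {x y : C} (h : x - y ∈ J) : x ^ p ^ N = y ^ p ^ N := by
  rcases subsingleton_or_nontrivial C with _ | _
  · exact Subsingleton.elim _ _
  have hc : CharP C p := by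
    have := CharP.ringChar_of_prime_eq_zero hp hC
    exact this ▸ ringChar.charP C
  have _ : Fact p.Prime := ⟨hp⟩
  have h1 : (x - y) ^ p ^ N = 0 := by
    have := Ideal.pow_mem_pow h (p ^ N)
    rwa [hJ, Ideal.mem_bot] at this
  rwa [sub_pow_char_pow, sub_eq_zero] at h1

section Unique

variable {R T R₁ T₁ : Type*} [CommRing R] [CommRing T] [CommRing R₁] [CommRing T₁]
  [Algebra R T] [Algebra R₁ T₁] [Algebra R₁ R] [Algebra T₁ T] [Algebra R₁ T]
  [IsScalarTower R₁ R T] [IsScalarTower R₁ T₁ T]

/-- Uniqueness: two ring homomorphisms `T → C` out of a thickening of a torsor which agree on the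
base and modulo a nilpotent ideal are equal. -/
theorem hom_ext_of_nilpotent (hb : Function.Bijective (push R₁ T₁ R T))
    {p N : ℕ} (hp : p.Prime) (πT : T →+* T₁) (hT : Function.Surjective πT)
    (ht : ∀ t, algebraMap T₁ T (πT t) = t ^ p ^ N) {C : Type*} [CommRing C] (φ ψ : T →+* C)
    (h : ∀ r : R, φ (algebraMap R T r) = ψ (algebraMap R T r)) (hC : (p : C) = 0)
    {J : Ideal C} (hJ : J ^ p ^ N = ⊥) (h2 : ∀ t, φ t - ψ t ∈ J) : φ = ψ :=
  hom_ext_of_pow hb p N πT hT ht φ ψ h fun t => pow_eq_of_sub_mem hp hC hJ (h2 t)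

end Unique

end GAct

end Vale.Agent.P251.F
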