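import Vale.Agent.P251.C.LES

/-!
# P251, part F (F6b): abstract descent for complexes of discrete `G`-modules

`descent_rel`: let `A' → A` be a map of cochain complexes of discrete `G`-modules, `A'` exact in
positive degrees, all `A b` acyclic. If homogeneous `s+1`-cocycles with values in
`ker (A' 0 → A' 1)` become coboundaries in `ker (A 0 → A 1)`, then invariant `s+1`-cocycles of
`A'` become coboundaries of invariant elements of `A`.
-/

namespace Vale.Agent.P251.F

open Vale.Agent.P251.C

section Descent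

variable {G : Type*} [Group G] [TopologicalSpace G] [IsTopologicalGroup G]

/-- Lifting equivariant locally constant cochains along a map with chosen preimages. -/
theorem coch_lift {M N P : Type*} [AddCommGroup M] [DistribMulAction G M] [DiscMod G M]
    [AddCommGroup N] [DistribMulAction G N] [AddCommGroup P]
    (u : M →+[G] N) (v : N → P) (hex : ∀ x, v x = 0 → ∃ y, u y = x)
    {n : ℕ} {F : (Fin (n + 1) → G) → N} (hF : IsCoch G F) (hv : ∀ x, v (F x) = 0) :
    ∃ Y : (Fin (n + 1) → G) → M, IsCoch G Y ∧ ∀ x, u (Y x) = F x := by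
  classical
  let sec : N → M := fun x => if h : v x = 0 then (hex x h).choose else 0
  have hsec : ∀ x, v x = 0 → u (sec x) = x := by
    intro x h
    simp only [sec, dif_pos h]
    exact (hex x h).choose_spec
  let c : (Fin (n + 1) → G) → N := fun x => F (fun i => (x 0)⁻¹ * x i)
  have hc : IsLocallyConstant c := by
    apply hF.lc.comp_continuous
    fun_prop
  refine ⟨fun x => x 0 • sec (c x), ⟨?_, ?_⟩, ?_⟩
  · rw [IsLocallyConstant.iff_eventually_eq]
    intro x
    have h1 : ∀ᶠ y in nhds x, c y = c x := (IsLocallyConstant.iff_eventually_eq c).1 hc x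
    have h2 : IsLocallyConstant (fun y : Fin (n + 1) → G => y 0 • sec (c x)) :=
      (smul_lc (G := G) (sec (c x))).comp_continuous (continuous_apply 0)
    have h3 := (IsLocallyConstant.iff_eventually_eq _).1 h2 x
    filter_upwards [h1, h3] with y hy1 hy2
    rw [hy1]
    exact hy2
  · intro g x
    have : c (fun i => g * x i) = c x := by
      simp only [c]
      congr 1
      funext i
      group
    simp only [this, mul_smul]
  · intro x
    rw [map_smul, hsec _ (hv _), ← hF.equi]
    congr 1
    funext i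
    group

variable {A' A : ℕ → Type*} [∀ b, AddCommGroup (A' b)] [∀ b, AddCommGroup (A b)]
  [∀ b, DistribMulAction G (A' b)] [∀ b, DistribMulAction G (A b)]

/-- Abstract descent, relative form. -/
theorem descent_rel [∀ b, DiscMod G (A' b)]
    (d' : ∀ b, A' b →+[G] A' (b + 1)) (d : ∀ b, A b →+[G] A (b + 1)) (φ : ∀ b, A' b →+[G] A b)
    (hφ : ∀ b x, φ (b + 1) (d' b x) = d b (φ b x))
    (hdd : ∀ b x, d (b + 1) (d b x) = 0)
    (hex : ∀ b x, d' (b + 1) x = 0 → ∃ y, d' b y = x)
    (hG : ∀ a b, HZero G (A b) (a + 1))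
    (s : ℕ)
    (hM : ∀ c : (Fin (s + 2) → G) → A' 0, IsCoch G c → dd c = 0 → (∀ x, d' 0 (c x) = 0) →
      ∃ m : (Fin (s + 1) → G) → A 0, IsCoch G m ∧ (∀ x, d 0 (m x) = 0) ∧
        ∀ x, φ 0 (c x) = dd m x)
    (z : A' (s + 1)) (hz : ∀ g : G, g • z = z) (hdz : d' (s + 1) z = 0) :
    ∃ y : A s, (∀ g : G, g • y = y) ∧ d s y = φ (s + 1) z := by
  have Q : ∀ b a : ℕ, a + b = s → ∀ c : (Fin (a + 2) → G) → A' b, IsCoch G c → dd c = 0 →
      (∀ x, d' b (c x) = 0) → ∃ m : (Fin (a + 1) → G) → A b, IsCoch G m ∧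
        (∀ x, d b (m x) = 0) ∧ ∀ x, φ b (c x) = dd m x := by
    intro b
    induction b with
    | zero =>
      intro a ha
      obtain rfl : a = s := ha
      exact hM
    | succ b ih =>
      intro a ha c hc hdc hd
      obtain ⟨y, hy, hyc⟩ := coch_lift (d' b) (d' (b + 1)) (hex b) hc hd
      have hyc' : (fun x => d' b (y x)) = c := funext hyc
      obtain ⟨m, hm, hdm, hφm⟩ := ih (a + 1) (by omega) (dd y) hy.dd (dd_dd y) (by
        intro x
        have h1 := congrFun (dd_mapG (d' b) y) x
        rw [hyc', hdc] at h1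
        exact h1.symm)
      obtain ⟨w, hw, hdw⟩ := hG a b ((fun x => φ b (y x)) - m) ((hy.map (φ b)).sub hm) (by
        rw [dd_sub, dd_mapG]
        funext x
        simp only [Pi.sub_apply, hφm x, sub_self, Pi.zero_apply])
      refine ⟨fun x => d b (w x), hw.map (d b), fun x => hdd b _, ?_⟩
      intro x
      have h1 := congrFun (dd_mapG (d b) w) x
      refine Eq.trans ?_ h1.symm
      rw [hdw, ← hyc, hφ, Pi.sub_apply, map_sub, hdm, sub_zero]
  obtain ⟨y, hy, hyz⟩ := coch_lift (n := 0) (d' s) (d' (s + 1)) (hex s)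
    (F := fun _ => z) ⟨IsLocallyConstant.const z, fun g _ => (hz g).symm⟩ (fun _ => hdz)
  have hyz' : (fun x => d' s (y x)) = fun _ => z := funext hyz
  obtain ⟨m, hm, hdm, hφm⟩ := Q s 0 (by omega) (dd y) hy.dd (dd_dd y) (by
    intro x
    have h1 := congrFun (dd_mapG (d' s) y) x
    rw [hyz'] at h1
    refine h1.symm.trans ?_
    simp [dd, Fin.sum_univ_succ])
  have h0 : dd ((fun x => φ s (y x)) - m) = 0 := by
    rw [dd_sub, dd_mapG]
    funext x
    simp only [Pi.sub_apply, hφm x, sub_self, Pi.zero_apply]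
  have h1 : ∀ g h : G, φ s (y fun _ => g) - m (fun _ => g) = φ s (y fun _ => h) - m fun _ => h := by
    intro g h
    have := congrFun h0 (Fin.cons h (fun _ => g))
    rw [dd_cons, dd_one] at this
    simp only [Pi.sub_apply, Pi.zero_apply, sub_eq_zero] at this
    have e : (Fin.cons h (fun i : Fin 0 => i.elim0) : Fin 1 → G) = fun _ => h := by
      funext j
      fin_cases j
      rfl
    rw [e] at this
    exact this
  refine ⟨φ s (y fun _ => 1) - m fun _ => 1, fun g => ?_, ?_⟩
  · have h2 := ((hy.map (φ s)).sub hm).equi g (fun _ => 1)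
    simp only [Pi.sub_apply, Function.comp_apply] at h2
    rw [← h2, ← h1 (g * 1) 1]
  · rw [map_sub, hdm, sub_zero, ← hφ, hyz]

end Descent

end Vale.Agent.P251.F
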