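import Vale.Agent.P251.F.Framed
import Vale.Agent.P251.F.LawHom
import Vale.Agent.P251.F.WtProj
import Vale.Agent.P251.F.GDescent

/-!
# P251, part F (F6b): groups acting on a law ring, the bicomplex

`LawAction G T`: the group `G` acts on the law ring `T` by ring automorphisms which commute with
coordinate changes. Then `G` acts on the cobar complex `Cob T n` coefficientwise.
Main result: `descent_weight`.
-/

namespace Vale.Agent.P251.F

open LawRing Vale.Agent.P251.C

section Poly

variable {G : Type*} [Group G] [TopologicalSpace G] {M : Type*} [CommRing M]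
  [DistribMulAction G M] {σ : Type*}

omit [TopologicalSpace G] in
theorem smul_coeff_mv (g : G) (p : MvPolynomial σ M) (m : σ →₀ ℕ) :
    (g • p).coeff m = g • p.coeff m := MvPolynomial.coeff_smul m g p

omit [TopologicalSpace G] in
theorem smul_eq_self_iff (g : G) (p : MvPolynomial σ M) :
    g • p = p ↔ ∀ m, g • p.coeff m = p.coeff m := by
  constructor
  · intro h m
    rw [← smul_coeff_mv, h]
  · intro h
    ext m
    rw [smul_coeff_mv, h]

instance [DiscMod G M] : DiscMod G (MvPolynomial σ M) where
  isOpen_stab p := by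
    have h : {g : G | g • p = p} = ⋂ m ∈ p.support, {g : G | g • p.coeff m = p.coeff m} := by
      ext g
      simp only [Set.mem_iInter]
      constructor
      · intro h m _
        exact (smul_eq_self_iff g p).1 h m
      · intro h
        refine (smul_eq_self_iff g p).2 fun m => ?_
        by_cases hm : m ∈ p.support
        · exact h m hm
        · rw [MvPolynomial.notMem_support_iff.1 hm, smul_zero]
    rw [h]
    exact isOpen_biInter_finset fun m _ => DiscMod.isOpen_stab _

/-- The monomial map as a `G`-map. -/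
noncomputable def monG (G : Type*) [Group G] [DistribMulAction G M] (m : σ →₀ ℕ) :
    M →+[G] MvPolynomial σ M where
  toFun a := MvPolynomial.monomial m a
  map_smul' g a := by
    classical
    ext m'
    change (MvPolynomial.monomial m (g • a)).coeff m' = (g • MvPolynomial.monomial m a).coeff m'
    rw [smul_coeff_mv, MvPolynomial.coeff_monomial, MvPolynomial.coeff_monomial]
    split_ifs
    · rfl
    · rw [smul_zero]
  map_zero' := map_zero _
  map_add' a b := map_add _ a b

/-- The coefficient map as a `G`-map. -/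
noncomputable def coeffG (G : Type*) [Group G] [DistribMulAction G M] (m : σ →₀ ℕ) :
    MvPolynomial σ M →+[G] M where
  toFun p := p.coeff m
  map_smul' g p := smul_coeff_mv g p m
  map_zero' := MvPolynomial.coeff_zero m
  map_add' a b := MvPolynomial.coeff_add m a b

theorem isCoch_sum {M' : Type*} [AddCommGroup M'] [DistribMulAction G M'] {ι : Type*}
    (S : Finset ι) {n : ℕ} (Y : ι → (Fin n → G) → M') (h : ∀ i ∈ S, IsCoch G (Y i)) :
    IsCoch G (∑ i ∈ S, Y i) := by
  classical
  induction S using Finset.induction_on with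
  | empty => simpa using IsCoch.zero
  | insert i S hi ih =>
    rw [Finset.sum_insert hi]
    exact (h i (Finset.mem_insert_self i S)).add
      (ih fun j hj => h j (Finset.mem_insert_of_mem hj))

/-- Polynomials over a module without cohomology have no cohomology. -/
theorem hzero_mv [CompactSpace G] {s : ℕ} (h : HZero G M s) : HZero G (MvPolynomial σ M) s := by
  classical
  intro F hF hd
  have hfin : (Set.range F).Finite := hF.lc.range_finite
  let S : Finset (σ →₀ ℕ) := hfin.toFinset.biUnion fun p => p.support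
  have hS : ∀ x m, m ∉ S → (F x).coeff m = 0 := by
    intro x m hm
    by_contra hne
    apply hm
    refine Finset.mem_biUnion.2 ⟨F x, ?_, MvPolynomial.mem_support_iff.2 hne⟩
    exact hfin.mem_toFinset.2 ⟨x, rfl⟩
  have hY : ∀ m, ∃ Y : (Fin s → G) → M, IsCoch G Y ∧ dd Y = fun x => (F x).coeff m := by
    intro m
    refine h (fun x => (F x).coeff m) (hF.map (coeffG G m)) ?_
    have h1 := dd_mapG (coeffG G m) F
    rw [hd] at h1
    exact h1.trans (funext fun x => rfl)
  choose Y hYc hYd using hY
  refine ⟨∑ m ∈ S, (fun x => monG G m (Y m x)), isCoch_sum S _ fun m _ => (hYc m).map (monG G m),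
    ?_⟩
  rw [dd_sum]
  funext x
  rw [Finset.sum_apply]
  have h1 : ∀ m, dd (fun x => monG G m (Y m x)) x = monG G m ((F x).coeff m) := by
    intro m
    rw [dd_mapG, hYd]
  simp only [h1]
  ext m
  rw [MvPolynomial.coeff_sum]
  have h2 : ∀ m', (monG G m' ((F x).coeff m')).coeff m = if m' = m then (F x).coeff m' else 0 :=
    fun m' => MvPolynomial.coeff_monomial _ _ _
  simp only [h2]
  rw [Finset.sum_ite_eq']
  split_ifs with hm
  · rfl
  · exact (hS x m hm).symm

end Poly


section LawAction

/-- The group `G` acts on the law ring `T` by automorphisms of law rings. -/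
class LawAction (G : Type*) (T : Type) [Group G] [CommRing T] [LawRing T]
    [MulSemiringAction G T] : Prop where
  isLawHom : ∀ γ : G, IsLawHom (MulSemiringAction.toRingHom G T γ)

variable {G : Type*} [Group G] {T : Type} [CommRing T] [LawRing T] [MulSemiringAction G T]
  {n m : ℕ}

omit [LawRing T] in
theorem smul_cob (γ : G) (x : Cob T n) :
    γ • x = Cob.mapRing (MulSemiringAction.toRingHom G T γ) n x := by
  ext m
  rw [smul_coeff_mv, Cob.mapRing, MvPolynomial.coeff_map]
  rfl

variable [LawAction G T]

theorem d_smul_cob (γ : G) (x : Cob T n) : Cob.d n (γ • x) = γ • Cob.d n x := by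
  rw [smul_cob, smul_cob, Cob.mapRing_d (LawAction.isLawHom γ)]

theorem isWt_smul (γ : G) {w : ℤ} {x : Cob T n} (hx : Cob.IsWt w x) : Cob.IsWt w (γ • x) := by
  rw [smul_cob]
  exact Cob.IsWt.mapRing (LawAction.isLawHom γ) hx

theorem pr_smul (γ : G) (w : ℤ) (x : Cob T n) :
    Cob.pr T n w (γ • x) = γ • Cob.pr T n w x :=
  Cob.pr_comm (DistribSMul.toAddMonoidHom (Cob T n) γ) (fun _ _ h => isWt_smul γ h) w x

/-- The action of `G` on the functions of weight `w` on chains. -/
noncomputable instance (w : ℤ) : DistribMulAction G (Cob.wt T n w) :=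
  subAct (Cob.wt T n w) fun γ _ hx => isWt_smul γ hx

@[simp] theorem coe_smul_wt (w : ℤ) (γ : G) (x : Cob.wt T n w) :
    ((γ • x : Cob.wt T n w) : Cob T n) = γ • (x : Cob T n) := rfl

instance [TopologicalSpace G] [DiscMod G T] (w : ℤ) : DiscMod G (Cob.wt T n w) where
  isOpen_stab x := by
    have : {g : G | g • x = x} = {g : G | g • (x : Cob T n) = (x : Cob T n)} := by
      ext g
      exact Subtype.ext_iff
    rw [this]
    exact DiscMod.isOpen_stab _

/-- The inclusion of the functions of weight `w`. -/
noncomputable def wtInc (G : Type*) [Group G] (T : Type) [CommRing T] [LawRing T]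
    [MulSemiringAction G T] [LawAction G T] (n : ℕ) (w : ℤ) : Cob.wt T n w →+[G] Cob T n where
  toFun x := x
  map_smul' _ _ := rfl
  map_zero' := rfl
  map_add' _ _ := rfl

/-- The projection to the functions of weight `w`. -/
noncomputable def wtPr (G : Type*) [Group G] (T : Type) [CommRing T] [LawRing T]
    [MulSemiringAction G T] [LawAction G T] (n : ℕ) (w : ℤ) : Cob T n →+[G] Cob.wt T n w where
  toFun x := ⟨Cob.pr T n w x, Cob.isWt_pr w x⟩
  map_smul' γ x := Subtype.ext (pr_smul γ w x)
  map_zero' := Subtype.ext (map_zero _)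
  map_add' x y := Subtype.ext (map_add _ x y)

/-- The differential on the functions of weight `w`. -/
noncomputable def wtD (G : Type*) [Group G] (T : Type) [CommRing T] [LawRing T]
    [MulSemiringAction G T] [LawAction G T] (n : ℕ) (w : ℤ) :
    Cob.wt T n w →+[G] Cob.wt T (n + 1) w where
  toFun x := ⟨Cob.d n x, Cob.IsWt.d x.2⟩
  map_smul' γ x := Subtype.ext (d_smul_cob γ x.1)
  map_zero' := Subtype.ext (map_zero _)
  map_add' x y := Subtype.ext (map_add _ x.1 y.1)

theorem hzero_wt [TopologicalSpace G] [CompactSpace G] {s : ℕ} (h : HZero G T s) (w : ℤ) :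
    HZero G (Cob.wt T n w) s := by
  intro F hF hd
  obtain ⟨Y, hY, hYd⟩ := hzero_mv (σ := Fin n × ℕ) h (fun x => wtInc G T n w (F x))
    (hF.map (wtInc G T n w)) (by
      rw [dd_mapG, hd]
      funext x
      rfl)
  refine ⟨fun x => wtPr G T n w (Y x), hY.map (wtPr G T n w), ?_⟩
  rw [dd_mapG, hYd]
  funext x
  exact Subtype.ext (Cob.pr_eq_self (F x).2)

end LawAction

section Descent

variable {G : Type*} [Group G] [TopologicalSpace G] [IsTopologicalGroup G] [CompactSpace G]
variable {T' T : Type} [CommRing T'] [CommRing T] [LawRing T'] [LawRing T]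
  [MulSemiringAction G T'] [MulSemiringAction G T] [LawAction G T'] [LawAction G T]

/-- The primitive functions of weight `w` on the points of `T`. -/
noncomputable abbrev Prim (T : Type) [CommRing T] [LawRing T] (w : ℤ) :
    AddSubgroup (Cob.wt T 0 w) where
  carrier := {x | Cob.d 0 x.1 = 0}
  zero_mem' := map_zero _
  add_mem' {a b} ha hb := by
    change Cob.d 0 (a.1 + b.1) = 0
    change Cob.d 0 a.1 = 0 at ha
    change Cob.d 0 b.1 = 0 at hb
    rw [map_add, ha, hb, add_zero]
  neg_mem' {a} ha := by
    change Cob.d 0 (-a.1) = 0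
    change Cob.d 0 a.1 = 0 at ha
    rw [map_neg, ha, neg_zero]

noncomputable instance (w : ℤ) : DistribMulAction G (Prim T w) :=
  subAct (Prim T w) fun γ x hx => by
    change Cob.d 0 (γ • x.1) = 0
    change Cob.d 0 x.1 = 0 at hx
    rw [d_smul_cob, hx, smul_zero]

instance [DiscMod G T] (w : ℤ) : DiscMod G (Prim T w) where
  isOpen_stab x := by
    have : {g : G | g • x = x} = {g : G | g • x.1 = x.1} := by
      ext g
      exact Subtype.ext_iff
    rw [this]
    exact DiscMod.isOpen_stab _

variable {φ : T' →+* T}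

/-- The map induced by an equivariant morphism of law rings. -/
noncomputable def wtMap (hφ : IsLawHom φ) (hG : ∀ (γ : G) (t : T'), φ (γ • t) = γ • φ t)
    (n : ℕ) (w : ℤ) : Cob.wt T' n w →+[G] Cob.wt T n w where
  toFun x := ⟨Cob.mapRing φ n x, Cob.IsWt.mapRing hφ x.2⟩
  map_smul' γ x := Subtype.ext (by
    change Cob.mapRing φ n (γ • x.1) = γ • Cob.mapRing φ n x.1
    ext m
    rw [smul_coeff_mv, Cob.mapRing, MvPolynomial.coeff_map, MvPolynomial.coeff_map,
      smul_coeff_mv, hG])
  map_zero' := Subtype.ext (map_zero _)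
  map_add' x y := Subtype.ext (map_add _ x.1 y.1)

/-- The map on primitive functions. -/
noncomputable def primMap (hφ : IsLawHom φ) (hG : ∀ (γ : G) (t : T'), φ (γ • t) = γ • φ t)
    (w : ℤ) : Prim T' w →+[G] Prim T w where
  toFun x := ⟨wtMap hφ hG 0 w x.1, by
    have hx : Cob.d 0 x.1.1 = 0 := x.2
    change Cob.d 0 (Cob.mapRing φ 0 x.1.1) = 0
    rw [← Cob.mapRing_d hφ, hx, map_zero]⟩
  map_smul' γ x := Subtype.ext (map_smul (wtMap hφ hG 0 w) γ x.1)
  map_zero' := Subtype.ext (map_zero (wtMap hφ hG 0 w))
  map_add' x y := Subtype.ext (map_add (wtMap hφ hG 0 w) x.1 y.1)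

/-- **Descent.** Let `T' → T` be an equivariant morphism of law rings with an action of `G`,
`T'` framed, `T` without cohomology. If `H^{s+1}(G; -)` vanishes on the map of the primitive
functions of weight `w`, then invariant cocycles of degree `s + 1` and weight `w` of the cobar
complex of `T'` become coboundaries of invariant cochains of weight `w` for `T`. -/
theorem descent_weight [DiscMod G T'] [Framed T'] (hφ : IsLawHom φ)
    (hφG : ∀ (γ : G) (t : T'), φ (γ • t) = γ • φ t)
    (hT : ∀ a, HZero G T (a + 1)) (w : ℤ) (s : ℕ)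
    (hM : HMapZero G (s + 1) (primMap hφ hφG w))
    (z : Cob T' (s + 1)) (hz : ∀ γ : G, γ • z = z) (hw : Cob.IsWt w z)
    (hdz : Cob.d (s + 1) z = 0) :
    ∃ y : Cob T s, (∀ γ : G, γ • y = y) ∧ Cob.IsWt w y ∧
      Cob.d s y = Cob.mapRing φ (s + 1) z := by
  obtain ⟨y, hy, hdy⟩ := descent_rel (G := G) (A' := fun b => Cob.wt T' b w)
    (A := fun b => Cob.wt T b w) (fun b => wtD G T' b w) (fun b => wtD G T b w)
    (fun b => wtMap hφ hφG b w) (fun b x => Subtype.ext (Cob.mapRing_d hφ x.1))
    (fun b x => Subtype.ext (Cob.d_d x.1))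
    (fun b x hx => ⟨⟨Cob.ctr T' b x.1, Cob.IsWt.ctr x.2⟩,
      Subtype.ext (Cob.exact_of_framed (congrArg Subtype.val hx))⟩)
    (fun a b => hzero_wt (hT a) w) s
    (fun c hc hdc hd => by
      let P : Prim T' w →+[G] Cob.wt T' 0 w :=
        { toFun := fun x => x.1
          map_smul' := fun _ _ => rfl
          map_zero' := rfl
          map_add' := fun _ _ => rfl }
      obtain ⟨c', hc', hcc'⟩ := IsCoch.of_inj P Subtype.val_injective hc
        (fun x => ⟨⟨c x, congrArg Subtype.val (hd x)⟩, rfl⟩)
      obtain ⟨Y, hY, hdY⟩ := hM c' hc' (by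
        funext x
        apply Subtype.val_injective
        have h1 := congrFun (dd_mapG P c') x
        rw [show (fun x => P (c' x)) = c from funext hcc', hdc] at h1
        exact h1.symm)
      refine ⟨fun x => (Y x).1, ⟨hY.lc.comp Subtype.val, fun g x => ?_⟩, fun x => ?_,
        fun x => ?_⟩
      · exact congrArg Subtype.val (hY.equi g x)
      · exact Subtype.ext (Y x).2
      · let Q : Prim T w →+ Cob.wt T 0 w := (Prim T w).subtype
        have h1 := congrFun (dd_map Q Y) x
        refine Eq.trans ?_ h1.symm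
        change _ = (dd Y x).1
        rw [hdY, ← hcc' x]
        rfl)
    ⟨z, hw⟩ (fun γ => Subtype.ext (hz γ)) (Subtype.ext hdz)
  exact ⟨y.1, fun γ => congrArg Subtype.val (hy γ), y.2, congrArg Subtype.val hdy⟩

end Descent

end Vale.Agent.P251.F
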