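import Vale.Agent.P251.F.Honda

/-!
# P251, part F: the Honda formal group law over a field with `p^h` elements
-/

namespace Vale.Agent.P251.F

open MvPowerSeries Vale.Agent.P217

variable {p h : ℕ} [hp : Fact p.Prime]

/-- The base change of the Honda law to a field with `p^h` elements is Honda-like. -/
theorem hondaOver_of_isHonda {Γ : FormalGroup (ZMod p)} (hΓ : IsHonda p h Γ) (hh : 1 ≤ h)
    {k : Type*} [Field k] (hk : Nat.card k = p ^ h) (f : ZMod p →+* k) :
    HondaOver p h (Γ.map f) where
  mult := hΓ.map_multSeries_eqL hh f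
  frob d := by
    rw [map_toPowerSeries, coeff_map, ← map_pow, ZMod.pow_card]
  teich a := by
    refine hΓ.isHom_C_mulL hh f a ?_
    have : Finite k := Nat.finite_of_card_ne_zero (by
      rw [hk]; exact pow_ne_zero _ hp.out.ne_zero)
    have := Fintype.ofFinite k
    rw [← hk, Nat.card_eq_fintype_card]
    exact FiniteField.pow_card a

/-- Existence of the Honda law over a field with `p^h` elements: a commutative law `H` defined over
the prime field which is Honda-like and whose coefficients vanish in total degrees not congruent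
to `1` modulo `p^h - 1`. -/
theorem exists_hondaOver (hh : 1 ≤ h) {k : Type*} [Field k] (hk : Nat.card k = p ^ h)
    (f : ZMod p →+* k) : ∃ Γ : FormalGroup (ZMod p), IsHonda p h Γ ∧ Γ.IsComm ∧
      HondaOver p h (Γ.map f) ∧
      ∀ d : Fin 2 →₀ ℕ, coeff d Γ.toPowerSeries ≠ 0 → ∃ j, d 0 + d 1 = 1 + (p ^ h - 1) * j := by
  obtain ⟨Γ, hΓ⟩ := exists_isHonda (p := p) hh
  exact ⟨Γ, hΓ, hΓ.isCommL hh, hondaOver_of_isHonda hΓ hh hk f, fun d hd =>
    hΓ.coeff_eq_zeroL hh d hd⟩

end Vale.Agent.P251.F
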