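import Vale.Agent.P251.F.TTower
import Vale.Agent.P251.F.F3w
import Vale.Agent.P251.I.C

/-!
# P251, part F (F10): `FV_statement` and `FS_statement` from C-V, C-P and the descent data
-/

namespace Vale.Agent.P251.F

open LawRing Vale.Agent.P251.C Vale.Agent.P251.S

theorem NN.p_eq_zero (p h j : ℕ) [Fact p.Prime] : (p : NN p h j) = 0 := by
  have h1 : (p : QN p h j) = 0 := by
    have : Ideal.Quotient.mk (Laz.IJ p h j) (p : Laz) = 0 :=
      Ideal.Quotient.eq_zero_iff_mem.2 (Ideal.mem_sup_left (Ideal.mem_span_singleton_self _))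
    rwa [map_natCast] at this
  have h2 := congrArg (algebraMap (QN p h j) (NN p h j)) h1
  rwa [map_natCast, map_zero] at h2

namespace TTower

variable {p h : ℕ} [Fact p.Prime] {G : Type} [Group G] [TopologicalSpace G]
  (X : TTower p h G)

theorem p_smul (w : ℤ) (j : ℕ) (x : X.M w j) : p • x = 0 := by
  have h1 : (p : X.T j) = 0 := by
    have := congrArg (X.ι j) (NN.p_eq_zero p h (j + 1))
    rwa [map_natCast, map_zero] at this
  apply Subtype.val_injective
  apply Subtype.val_injective
  change p • x.1.1 = 0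
  rw [← Nat.cast_smul_eq_nsmul (X.T j), h1, zero_smul]

end TTower

/-- The group-theoretic input at height `h`: a profinite group `G` with descent data, virtually
uniform of dimension `h²`. -/
structure GData (p h : ℕ) [Fact p.Prime] where
  /-- the automorphism group of the Honda law of height `h` -/
  G : Type
  [grp : Group G]
  [top : TopologicalSpace G]
  [tgrp : IsTopologicalGroup G]
  [cpt : CompactSpace G]
  [t2 : T2Space G]
  [td : TotallyDisconnectedSpace G]
  /-- the descent data -/
  X : TTower p h G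
  /-- the uniform subgroup -/
  unif : I.VirtUnif p (h ^ 2) G

attribute [instance] GData.grp GData.top GData.tgrp GData.cpt GData.t2 GData.td

/-- Height `n = p`. -/
theorem FV_of_GData (hCV : I.CV_statement)
    (hG : ∀ (p : ℕ) [Fact p.Prime], p ≠ 2 → ∃ D : GData p p, ∀ g : D.G, g ^ p = 1 → g = 1) :
    I.FV_statement := by
  intro p _ hp j w s hs z hw hz
  obtain ⟨D, hD⟩ := hG p hp
  exact D.X.vanish j w s (hCV p (p ^ 2) D.G hp D.unif hD (D.X.M w j) (D.X.p_smul w j) (s + 1)
    (by omega)) z hw hz

theorem HMapZero.congrFun {G M N : Type} [Group G] [TopologicalSpace G] [AddCommGroup M]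
    [DistribMulAction G M] [AddCommGroup N] [DistribMulAction G N] {s : ℕ} {u v : M → N}
    (h : HMapZero G s u) (huv : ∀ x, u x = v x) : HMapZero G s v := by
  have : u = v := funext huv
  rwa [← this]

/-- Height `p - 1`. -/
theorem FS_of_GData (hCP : I.CP_statement)
    (hG : ∀ (p : ℕ) [Fact p.Prime], p ≠ 2 → ∃ D : GData p (p - 1),
      (∀ P : Subgroup D.G, Finite P → IsPGroup p P → Nat.card P ∣ p) ∧
      ∀ w : ℤ, ((p : ℤ) - 1) ∣ w → ¬ ((p : ℤ) ∣ w ∨ (p : ℤ) ∣ w + 1) → ∀ j, ∃ j', ∃ hj : j ≤ j',
        I.CycZero p D.G (D.X.f w hj)) : I.FS_statement := by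
  intro p _ hp
  obtain ⟨D, hfin, hcyc⟩ := hG p hp
  obtain ⟨K, hK⟩ := hCP p ((p - 1) ^ 2) D.G hp D.unif hfin
  refine ⟨K, fun w hw s hs => ?_⟩
  by_cases hdvd : ((p : ℤ) - 1) ∣ w
  · have hw' : ¬ ((p : ℤ) ∣ w ∨ (p : ℤ) ∣ w + 1) := fun h => hw ⟨hdvd, h⟩
    refine D.X.proZero w s fun j => ?_
    choose C hC hC' using hcyc w hdvd hw'
    -- the levels
    let lev : ℕ → ℕ := fun i => C^[i] j
    have hlev : ∀ i, lev i ≤ lev (i + 1) := fun i => by
      change C^[i] j ≤ C^[i + 1] j
      rw [Function.iterate_succ_apply']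
      exact hC _
    have hmono : ∀ i, lev 0 ≤ lev i := fun i => by
      induction i with
      | zero => exact le_refl _
      | succ i ih => exact ih.trans (hlev i)
    have key := hK (fun i => D.X.M w (lev i)) (fun i => D.X.f w (hlev i))
      (fun i => D.X.p_smul w (lev i)) (fun i => by
        have h1 := hC' (lev i)
        have h2 : C (lev i) = lev (i + 1) := (Function.iterate_succ_apply' C i j).symm
        have : ∀ (a : ℕ) (ha : C (lev i) = a) (hle : lev i ≤ a),
            I.CycZero p D.G (D.X.f w hle) := by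
          intro a ha hle
          subst ha
          exact h1
        exact this _ h2 _) (s + 1) (by omega)
    refine ⟨lev K, hmono K, HMapZero.congrFun key fun x => ?_⟩
    have : ∀ (i : ℕ) (x : D.X.M w (lev i)),
        I.towerMap (M := fun i => D.X.M w (lev i)) (fun i => D.X.f w (hlev i)) i x =
          D.X.f w (hmono i) x := by
      intro i
      induction i with
      | zero => intro x; exact (D.X.f_self w _ x).symm
      | succ i ih =>
        intro x
        change I.towerMap (M := fun i => D.X.M w (lev i)) (fun i => D.X.f w (hlev i)) i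
          (D.X.f w (hlev i) x) = _
        rw [ih, D.X.f_f]
    exact this K x
  · intro j
    refine ⟨j, le_refl j, fun z hz => ?_⟩
    obtain ⟨y, hy, hdy⟩ := (F3w p hp (NN p (p - 1) (j + 1)) (epi_NN p (p - 1) (j + 1))
      (NN.p_eq_zero p (p - 1) (j + 1)) w hdvd).2 s (tval z)
      (show Cob.wt (NN p (p - 1) (j + 1)) (s + 1) w from z).2 (congrArg Subtype.val hz)
    refine ⟨(show Cob.wt (NN p (p - 1) (j + 1)) s w from ⟨y, hy⟩), ?_⟩
    apply tval_injective
    rw [TowerCx.res_self]
    exact hdy

end Vale.Agent.P251.F
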