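import Vale.Agent.P251.F.GroupFinal
import Vale.Agent.P251.F.HondaMain
import Vale.Agent.P251.F.Vanish

/-!
# P251, part F (F10): `GData` from the Honda law and the descent data for its automorphism group
-/

namespace Vale.Agent.P251.F

open Vale.Agent.P217 Vale.Agent.P251.C

/-- The automorphism group of a Honda law with descent data. -/
noncomputable def GData.ofHonda {p h : ℕ} [Fact p.Prime] {k : Type} [Field k] [Finite k]
    [CharP k p] {H : FormalGroup k} [H.IsComm] (hH : HondaOver p h H) (hk : Nat.card k = p ^ h)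
    (hh : 1 ≤ h) (X : TTower p h (AutF H)) : GData p h where
  G := AutF H
  X := X
  unif := (pow_two h).symm ▸ hH.virtUnif_sq hk hh

/-- The descent data needed at height `h`, for some Honda law over a field with `p^h` elements. -/
def HasTTower (p h : ℕ) [Fact p.Prime] : Prop :=
  ∃ (k : Type) (_ : Field k) (_ : Finite k) (_ : CharP k p) (H : FormalGroup k) (_ : H.IsComm)
    (_ : HondaOver p h H) (_ : Nat.card k = p ^ h), Nonempty (TTower p h (AutF H))

/-- `FV_statement` from C-V and the descent data. -/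
theorem FV_of_hasTTower (hCV : I.CV_statement)
    (hX : ∀ (p : ℕ) [Fact p.Prime], p ≠ 2 → HasTTower p p) : I.FV_statement := by
  refine FV_of_GData hCV fun p hp hp2 => ?_
  obtain ⟨k, _, _, _, H, _, hH, hk, ⟨X⟩⟩ := hX p hp2
  exact ⟨GData.ofHonda hH hk hp.out.one_lt.le X,
    fun g hg => hH.eq_one_of_pow_p (not_sub_one_dvd hp.out hp2) g hg⟩

/-- `FS_statement` from C-P, the descent data and the vanishing for cyclic subgroups. -/
theorem FS_of_hasTTower (hCP : I.CP_statement)
    (hX : ∀ (p : ℕ) [Fact p.Prime], p ≠ 2 → ∃ (k : Type) (_ : Field k) (_ : Finite k)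
      (_ : CharP k p) (H : FormalGroup k) (_ : H.IsComm) (_ : HondaOver p (p - 1) H)
      (_ : Nat.card k = p ^ (p - 1)) (X : TTower p (p - 1) (AutF H)),
      ∀ w : ℤ, ((p : ℤ) - 1) ∣ w → ¬ ((p : ℤ) ∣ w ∨ (p : ℤ) ∣ w + 1) → ∀ j, ∃ j', ∃ hj : j ≤ j',
        I.CycZero p (AutF H) (X.f w hj)) : I.FS_statement := by
  refine FS_of_GData hCP fun p hp hp2 => ?_
  obtain ⟨k, _, _, _, H, _, hH, hk, X, hX⟩ := hX p hp2
  have h2 := hp.out.two_le
  exact ⟨GData.ofHonda hH hk (by omega) X, fun P hf hP => HondaOver.card_dvd hH P hf hP, hX⟩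

/-- The standard choice: the base change to the Galois field of a Honda law over the prime
field, all of whose coefficients lie in total degrees `≡ 1` modulo `p^h - 1`. -/
theorem exists_honda_galoisField (p h : ℕ) [hp : Fact p.Prime] (hh : 1 ≤ h) :
    ∃ Γ : FormalGroup (ZMod p), Γ.IsComm ∧
      HondaOver p h (Γ.map (algebraMap (ZMod p) (GaloisField p h))) ∧
      Nat.card (GaloisField p h) = p ^ h ∧
      ∀ d : Fin 2 →₀ ℕ, MvPowerSeries.coeff d Γ.toPowerSeries ≠ 0 →
        ∃ j, d 0 + d 1 = 1 + (p ^ h - 1) * j := by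
  have hk : Nat.card (GaloisField p h) = p ^ h := GaloisField.card p h (by omega)
  obtain ⟨Γ, _, h2, h3, h4⟩ := exists_hondaOver (p := p) hh hk
    (algebraMap (ZMod p) (GaloisField p h))
  exact ⟨Γ, h2, h3, hk, h4⟩

end Vale.Agent.P251.F
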