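import Vale.Agent.P251.F.ElemP

/-!
# P251, part F: final forms for the automorphism group of a Honda law
-/

namespace Vale.Agent.P251.F

open Vale.Agent.P217 Vale.Agent.P251.C

variable {k : Type} [Field k] [Finite k] {p : ℕ} [hp : Fact p.Prime] [CharP k p]
  {H : FormalGroup k} [H.IsComm]

/-- `U = 1 + p O` is uniform of dimension `h^2`. -/
theorem HondaOver.isUnif_unif {h : ℕ} (hH : HondaOver p h H) (hk : Nat.card k = p ^ h)
    (hh : 1 ≤ h) : I.IsUnif p (h * h) (HondaOver.unif p h H) :=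
  hH.isUnif hk hh

/-- Vanishing of the cohomology of `AutF H` above `h^2` if `p - 1` does not divide the
height `h`. -/
theorem HondaOver.hZero_sq (hCV : I.CV_statement) (hp2 : p ≠ 2) {h : ℕ} (hh : 1 ≤ h)
    (hk : Nat.card k = p ^ h) (hd : ¬ (p - 1) ∣ h) (hH : HondaOver p h H) (M : Type)
    [AddCommGroup M] [DistribMulAction (AutF H) M] [DiscMod (AutF H) M]
    (hM : ∀ m : M, p • m = 0) (s : ℕ) (hs : h * h < s) : HZero (AutF H) M s :=
  hH.hZero hCV hp2 hh hd (hH.isUnif_unif hk hh) M hM s hs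

/-- Vanishing of the cohomology of `AutF H` above `p^2` for height `p`. -/
theorem HondaOver.hZero_p (hCV : I.CV_statement) (hp2 : p ≠ 2) (hk : Nat.card k = p ^ p)
    (hH : HondaOver p p H) (M : Type) [AddCommGroup M] [DistribMulAction (AutF H) M]
    [DiscMod (AutF H) M] (hM : ∀ m : M, p • m = 0) (s : ℕ) (hs : p * p < s) :
    HZero (AutF H) M s :=
  hH.hZero_sq hCV hp2 hp.out.one_lt.le hk (not_sub_one_dvd hp.out hp2) M hM s hs

/-- Uniform vanishing of composites in the cohomology of `AutF H` at height `p - 1`. -/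
theorem HondaOver.exists_hMapZero_sq (hCP : I.CP_statement) (hp2 : p ≠ 2)
    (hk : Nat.card k = p ^ (p - 1)) (hH : HondaOver p (p - 1) H) :
    ∃ K : ℕ, ∀ (M : ℕ → Type) [∀ i, AddCommGroup (M i)] [∀ i, DistribMulAction (AutF H) (M i)]
      [∀ i, DiscMod (AutF H) (M i)] (f : ∀ i, M (i + 1) →+[AutF H] M i),
      (∀ i, ∀ m : M i, p • m = 0) → (∀ i, I.CycZero p (AutF H) (f i)) →
      ∀ s : ℕ, K < s →
        HMapZero (AutF H) s (I.towerMap (fun i => (f i : M (i + 1) → M i)) K) :=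
  hH.exists_hMapZero hCP hp2 (hH.isUnif_unif hk (by have := hp.out.two_le; omega))

/-- An element of order `p` at height `p - 1`, with its leading coefficients. -/
theorem HondaOver.exists_orderOf_cf (hp2 : p ≠ 2) (hk : Nat.card k = p ^ (p - 1))
    (hH : HondaOver p (p - 1) H) : ∃ σ : AutF H, orderOf σ = p ∧
      (∀ i < p, σ.cf i = if i = 1 then 1 else 0) ∧ σ.cf p ≠ 0 := by
  obtain ⟨σ, hσ⟩ := hH.exists_orderOf hk rfl hp2
  exact ⟨σ, hσ, HondaOver.cf_of_orderOf hH hσ⟩

end Vale.Agent.P251.F
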