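import Vale.Agent.P251.F.EndHonda
import Vale.Agent.P251.I.C

/-!
# P251, part F: the automorphism group of a Honda law as a profinite group

Let `H` be Honda-like of height `h` over a field `k` with `p^h` elements, `O = EndF H` and
`G = AutF H = O^×`. We show: the subgroup `S` of principal units is open, normal, of index
prime to `p`; `U = 1 + p O` is open, normal, of `p`-power index in `S`; there are no elements of
order `p` if `p - 1` does not divide `h`; if `h = p - 1`, then the finite `p`-subgroups have order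
dividing `p`, and an element of order `p` is `x + β x^p + …`, `β ≠ 0`.
-/

namespace Vale.Agent.P251.F

open MvPowerSeries Vale.Agent.P217

namespace AutF

variable {R : Type*} [CommRing R] {H : FormalGroup R} [H.IsComm]

/-- The inclusion of the automorphisms in the endomorphism ring. -/
noncomputable def toEnd : AutF H →* EndF H :=
  (Units.coeHom (EndF H)).comp (toUnits (H := H)).toMonoidHom

theorem toEnd_val (f : AutF H) : (toEnd f).val = f.val := rfl

theorem toEnd_cf (f : AutF H) (n : ℕ) : (toEnd f).cf n = f.cf n := rfl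

theorem toEnd_injective : Function.Injective (toEnd : AutF H → EndF H) := fun _ _ h =>
  ext (congrArg EndF.val h)

/-- A series which is invertible as an endomorphism comes from an automorphism. -/
theorem exists_toEnd_eq {f : EndF H} (hf : IsUnit (f.cf 1)) : ∃ g : AutF H, toEnd g = f :=
  ⟨mk f.val ⟨f.isHom, hf⟩, EndF.ext rfl⟩

end AutF

namespace HondaOver

variable {k : Type*} [Field k] {p h : ℕ} [hp : Fact p.Prime] [CharP k p] {H : FormalGroup k}
  [H.IsComm] (hH : HondaOver p h H)

theorem r_eq (f : EndF H) : hH.D.r f = f.cf 1 := rfl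

theorem r_toEnd (g : AutF H) : hH.D.r (AutF.toEnd g) = g.cf 1 := rfl

/-- Congruence subgroups in terms of the filtration of `O`. -/
theorem mem_congr_iff {n : ℕ} {g : AutF H} :
    g ∈ AutF.congr H (p ^ n) ↔ AutF.toEnd g - 1 ∈ hH.D.I n := by
  have h1 := EndF.sub_mem_I_iff hH.frob hH.teich (n := n) (f := 1) (g := AutF.toEnd g)
  change _ ↔ AutF.toEnd g - 1 ∈ (EndF.sring hH.frob hH.teich).I n
  rw [h1]
  rfl

/-- The principal units. -/
noncomputable def prin (H : FormalGroup k) : Subgroup (AutF H) := AutF.congr H 2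

omit [H.IsComm] in
theorem mem_prin {g : AutF H} : g ∈ prin H ↔ g.cf 1 = 1 := by
  constructor
  · intro h1
    have h2 := h1 1 (by norm_num)
    rw [h2]
    exact AutF.cf_one_one
  · intro h1 i hi
    interval_cases i
    · rw [AutF.cf_zero, AutF.cf_zero]
    · rw [h1, AutF.cf_one_one]

include hH in
theorem mem_prin_iff {g : AutF H} : g ∈ prin H ↔ AutF.toEnd g - 1 ∈ hH.D.I 1 := by
  rw [mem_prin, hH.D.mem_I_one, map_sub, map_one, sub_eq_zero, hH.r_toEnd]

/-- The subgroup `U = 1 + p O`. -/
noncomputable def unif (p h : ℕ) (H : FormalGroup k) : Subgroup (AutF H) := AutF.congr H (p ^ h)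

include hH in
theorem mem_unif_iff {g : AutF H} : g ∈ unif p h H ↔ AutF.toEnd g - 1 ∈ hH.D.I h :=
  hH.mem_congr_iff

include hH in
theorem mem_unif_iff_exists {g : AutF H} :
    g ∈ unif p h H ↔ ∃ x : EndF H, AutF.toEnd g = 1 + (p : EndF H) * x := by
  rw [hH.mem_unif_iff, SRing.mem_I]
  refine exists_congr fun x => ?_
  rw [hH.D.p_mul_eq hH.p_eq, sub_eq_iff_eq_add']

omit [H.IsComm] in
theorem isOpen_prin : IsOpen (prin H : Set (AutF H)) := AutF.isOpen_congr 2

omit hp [CharP k p] [H.IsComm] in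
theorem isOpen_unif : IsOpen (unif p h H : Set (AutF H)) := AutF.isOpen_congr _

instance : (prin H).Normal := inferInstanceAs (AutF.congr H 2).Normal

instance : (unif p h H).Normal := inferInstanceAs (AutF.congr H (p ^ h)).Normal

omit [CharP k p] [H.IsComm] in
theorem unif_le_prin (hh : 1 ≤ h) : unif p h H ≤ prin H := by
  intro g hg i hi
  refine hg i (lt_of_lt_of_le hi ?_)
  calc 2 ≤ p := hp.out.two_le
    _ = p ^ 1 := (pow_one p).symm
    _ ≤ p ^ h := Nat.pow_le_pow_right hp.out.pos hh

omit [H.IsComm] in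
/-- The index of the principal units is prime to `p`. -/
theorem coprime_index_prin [Finite k] : p.Coprime (prin H).index := by
  classical
  have := Fintype.ofFinite k
  -- the leading coefficient as a homomorphism
  let c : AutF H →* kˣ :=
    { toFun := fun g => Units.mk0 (g.cf 1) (AutF.cf_one_isUnit g).ne_zero
      map_one' := Units.ext AutF.cf_one_one
      map_mul' := fun f g => Units.ext (AutF.cf_one_mul f g) }
  have h1 : c.ker = prin H := by
    ext g
    rw [MonoidHom.mem_ker, mem_prin]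
    exact ⟨fun h2 => congrArg Units.val h2, fun h2 => Units.ext h2⟩
  have h2 : (prin H).index ∣ Nat.card kˣ := by
    rw [← h1, Subgroup.index_ker]
    exact Subgroup.card_subgroup_dvd_card _
  refine Nat.Coprime.coprime_dvd_right h2 ?_
  rw [Nat.card_units, Nat.card_eq_fintype_card]
  obtain ⟨n, hn, hc⟩ := FiniteField.card k p
  rw [hc]
  refine (Nat.Prime.coprime_iff_not_dvd hp.out).2 fun hd => ?_
  have h3 : p ∣ p ^ (n : ℕ) := dvd_pow_self p n.2.ne'
  have h4 : p ∣ p ^ (n : ℕ) - (p ^ (n : ℕ) - 1) := Nat.dvd_sub h3 hd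
  have h5 : 1 ≤ p ^ (n : ℕ) := Nat.one_le_pow _ _ hp.out.pos
  have h6 : p ^ (n : ℕ) - (p ^ (n : ℕ) - 1) = 1 := by omega
  rw [h6] at h4
  exact hp.out.one_lt.ne' (Nat.dvd_one.1 h4)

include hH in
/-- Iterated `p`-th powers of principal units. -/
theorem pow_mem {g : AutF H} (hg : g ∈ prin H) (n : ℕ) (hn : n + 1 ≤ h) :
    AutF.toEnd (g ^ (p ^ n)) - 1 ∈ hH.D.I (n + 1) := by
  induction n with
  | zero =>
    rw [pow_zero, pow_one]
    exact (hH.mem_prin_iff).1 hg
  | succ n ih =>
    have h1 := ih (by omega)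
    rw [map_pow] at h1
    have h2 := hH.D.pow_p_sub_one_mem (Nat.succ_le_succ (Nat.zero_le n)) h1 hH.p_eq
    rw [pow_succ, pow_mul, map_pow, map_pow]
    refine hH.D.I_anti ?_ h2
    rw [le_min_iff]
    have := hp.out.two_le
    constructor
    · omega
    · calc n + 1 + 1 ≤ 2 * (n + 1) := by omega
        _ ≤ p * (n + 1) := Nat.mul_le_mul_right _ this

include hH in
/-- `[S : U]` is a power of `p`. -/
theorem exists_relIndex [Finite k] (hh : 1 ≤ h) :
    ∃ n : ℕ, (unif p h H).relIndex (prin H) = p ^ n := by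
  have hfin : Finite (AutF H ⧸ unif p h H) := Subgroup.quotient_finite_of_isOpen _ isOpen_unif
  have h1 : IsPGroup p (prin H ⧸ (unif p h H).subgroupOf (prin H)) := by
    intro x
    obtain ⟨g, rfl⟩ := QuotientGroup.mk_surjective x
    refine ⟨h - 1, ?_⟩
    rw [← QuotientGroup.mk_pow, QuotientGroup.eq_one_iff, Subgroup.mem_subgroupOf,
      hH.mem_unif_iff]
    have h2 := hH.pow_mem g.2 (h - 1) (by omega)
    rw [Nat.sub_add_cancel hh] at h2
    exact h2
  have hfin2 : Finite (prin H ⧸ (unif p h H).subgroupOf (prin H)) := by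
    have h3 : (unif p h H).FiniteIndex := Subgroup.finiteIndex_of_finite_quotient
    have h4 : ((unif p h H).subgroupOf (prin H)).FiniteIndex := inferInstance
    exact Subgroup.finite_quotient_of_finiteIndex
  obtain ⟨n, hn⟩ := (IsPGroup.iff_card (G := prin H ⧸ (unif p h H).subgroupOf (prin H))).1 h1
  exact ⟨n, hn⟩

include hH in
/-- No elements of order `p` if `p - 1` does not divide `h`. -/
theorem eq_one_of_pow_p (hd : ¬ (p - 1) ∣ h) (g : AutF H) (hg : g ^ p = 1) : g = 1 := by
  apply AutF.toEnd_injective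
  rw [map_one]
  exact hH.D.eq_one_of_pow_p (by rw [← map_pow, hg, map_one]) hH.p_eq hd

include hH in
/-- Elements of `p`-power order are principal units. -/
theorem r_eq_one_of_pow {g : AutF H} {n : ℕ} (hg : g ^ (p ^ n) = 1) :
    hH.D.r (AutF.toEnd g) = 1 := by
  have h1 : (hH.D.r (AutF.toEnd g)) ^ (p ^ n) = 1 := by
    rw [← map_pow, ← map_pow, hg, map_one, map_one]
  have h2 : (hH.D.r (AutF.toEnd g) - 1) ^ (p ^ n) = 0 := by
    rw [sub_pow_char_pow, h1, one_pow, sub_self]
  exact sub_eq_zero.1 (pow_eq_zero_iff (pow_ne_zero n hp.out.ne_zero) |>.1 h2)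

/-- Finite `p`-subgroups have order dividing `p` if `h = p - 1`. -/
theorem card_dvd (hH : HondaOver p (p - 1) H) (P : Subgroup (AutF H)) (hf : Finite P)
    (hP : IsPGroup p P) : Nat.card P ∣ p := by
  refine hH.D.card_dvd_of_finite (AutF.toEnd.comp P.subtype)
    (AutF.toEnd_injective.comp Subtype.val_injective) (fun x => ?_) hH.p_eq
  obtain ⟨n, hn⟩ := hP x
  refine hH.r_eq_one_of_pow (n := n) ?_
  have := congrArg Subtype.val hn
  exact this

/-- An element of order `p` is `x + β x^p + …` with `β ≠ 0`, if `h = p - 1`. -/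
theorem cf_of_orderOf (hH : HondaOver p (p - 1) H) {g : AutF H} (hg : orderOf g = p) :
    (∀ i < p, g.cf i = if i = 1 then 1 else 0) ∧ g.cf p ≠ 0 := by
  have h1 : g ^ p = 1 := by rw [← hg]; exact pow_orderOf_eq_one g
  have hne : g ≠ 1 := by
    rintro rfl
    rw [orderOf_one] at hg
    exact hp.out.one_lt.ne hg
  obtain ⟨m, x, hx, hr, hm⟩ := hH.D.exists_of_pow_eq_one (σ := AutF.toEnd g)
    (fun h2 => hne (AutF.toEnd_injective (by rw [h2, map_one])))
    (by rw [← map_pow, h1, map_one]) hH.p_eq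
  have hp2 := hp.out.two_le
  have hp1 : 0 < p - 1 := by omega
  have hm1 : m = 1 := Nat.eq_of_mul_eq_mul_left hp1 (by rw [hm, mul_one])
  subst hm1
  have h3 : g ∈ AutF.congr H (p ^ 1) := by
    rw [hH.mem_congr_iff, hx]
    exact hH.D.mul_S_pow_mem x 1
  rw [pow_one] at h3
  refine ⟨fun i hi => ?_, fun h4 => ?_⟩
  · rw [h3 i hi, AutF.cf, AutF.val_one, PowerSeries.coeff_X]
  · have h5 : Agr EndF.cf (p + 1) 1 (AutF.toEnd g) := by
      intro i hi
      rcases Nat.lt_succ_iff_lt_or_eq.1 hi with hi | rfl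
      · exact h3 i hi
      · rw [AutF.toEnd_cf, h4, EndF.cf, EndF.val_one, PowerSeries.coeff_X,
          if_neg hp.out.one_lt.ne']
    have h6 := EndF.agr_add h5 (Agr.refl EndF.cf (p + 1) (-1 : EndF H)) p (Nat.lt_succ_self p)
    rw [add_neg_cancel, ← sub_eq_add_neg, hx] at h6
    have h7 : (x * hH.D.S ^ 1).cf p = x.cf 1 := by
      have h8 := EndF.cf_mul_S_pow hH.frob x 1 p
      rw [pow_one p, if_pos (dvd_refl p), Nat.div_self hp.out.pos] at h8
      exact h8
    rw [h7] at h6
    apply hr
    rw [hH.r_eq, h6]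
    exact map_zero _

/-- `G` is virtually uniform, from coordinates on `U = 1 + p O`. -/
noncomputable def virtUnif [Finite k] (hh : 1 ≤ h) {d : ℕ}
    (hU : I.IsUnif p d (unif p h H)) : I.VirtUnif p d (AutF H) where
  S := prin H
  U := unif p h H
  S_normal := inferInstance
  U_normal := inferInstance
  le := unif_le_prin hh
  isOpen := isOpen_unif
  coprime := coprime_index_prin
  relIndex := hH.exists_relIndex hh
  unif := hU

end HondaOver

section Final

open Vale.Agent.P251.C

variable {k : Type} [Field k] [Finite k] {p : ℕ} [hp : Fact p.Prime] [CharP k p]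
  {H : FormalGroup k} [H.IsComm]

omit hp in
theorem not_sub_one_dvd (hp' : p.Prime) (hp2 : p ≠ 2) : ¬ (p - 1) ∣ p := by
  intro hd
  have h1 := hp'.two_le
  have h2 : p - 1 ∣ p - (p - 1) := Nat.dvd_sub hd (dvd_refl _)
  have h3 : p - (p - 1) = 1 := by omega
  rw [h3] at h2
  have h4 := Nat.dvd_one.1 h2
  omega

/-- Vanishing of the cohomology of `AutF H` above the dimension if `p - 1` does not divide the
height. -/
theorem HondaOver.hZero (hCV : I.CV_statement) (hp2 : p ≠ 2) {h : ℕ} (hh : 1 ≤ h)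
    (hd : ¬ (p - 1) ∣ h) (hH : HondaOver p h H) {d : ℕ}
    (hU : I.IsUnif p d (HondaOver.unif p h H)) (M : Type) [AddCommGroup M]
    [DistribMulAction (AutF H) M] [DiscMod (AutF H) M] (hM : ∀ m : M, p • m = 0) (s : ℕ)
    (hs : d < s) : HZero (AutF H) M s :=
  hCV p d (AutF H) hp2 (hH.virtUnif hh hU) (fun g hg => hH.eq_one_of_pow_p hd g hg) M hM s hs

/-- Sparseness of the cohomology of `AutF H` at height `p - 1`. -/
theorem HondaOver.exists_hMapZero (hCP : I.CP_statement) (hp2 : p ≠ 2)
    (hH : HondaOver p (p - 1) H) {d : ℕ} (hU : I.IsUnif p d (HondaOver.unif p (p - 1) H)) :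
    ∃ K : ℕ, ∀ (M : ℕ → Type) [∀ i, AddCommGroup (M i)] [∀ i, DistribMulAction (AutF H) (M i)]
      [∀ i, DiscMod (AutF H) (M i)] (f : ∀ i, M (i + 1) →+[AutF H] M i),
      (∀ i, ∀ m : M i, p • m = 0) → (∀ i, I.CycZero p (AutF H) (f i)) →
      ∀ s : ℕ, K < s →
        HMapZero (AutF H) s (I.towerMap (fun i => (f i : M (i + 1) → M i)) K) :=
  hCP p d (AutF H) hp2 (hH.virtUnif (by have := hp.out.two_le; omega) hU)
    (fun P hf hP => HondaOver.card_dvd hH P hf hP)

end Final

end Vale.Agent.P251.F
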