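import Vale.Agent.P251.F.EndHonda

/-!
# P251, part F: the Honda formal group law

Light copy of the material of P217 (bundle B3): the Honda logarithm, existence of the Honda law,
`[p](x) = x^(p^n)`, sparseness of the coefficients, endomorphisms `z x` and `x^(p^i)`; conclusion:
the Honda law over a field with `p^n` elements satisfies `HondaOver`.
-/

namespace Vale.Agent.P251.F

open MvPowerSeries Vale.Agent.P217

section HondaFacts

open MvPowerSeries

section Log

variable (p n : ℕ) [hp : Fact p.Prime]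

theorem one_lt_pow_n (hn : 1 ≤ n) : 1 < p ^ n := Nat.one_lt_pow (by omega) hp.out.one_lt

theorem coeff_hondaLog_pow (hn : 1 ≤ n) (i : ℕ) :
    PowerSeries.coeff (p ^ (n * i)) (hondaLog p n) = ((p : ℚ_[p]) ^ i)⁻¹ := by
  rw [hondaLog, PowerSeries.coeff_mk, Finset.sum_eq_single i]
  · simp
  · intro j _ hj
    rw [if_neg]
    intro h
    have := Nat.pow_right_injective hp.out.two_le h
    exact hj (Nat.eq_of_mul_eq_mul_left (by omega) this).symm
  · intro h
    exfalso
    apply h
    rw [Finset.mem_range]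
    have h1 : i < p ^ i := Nat.lt_pow_self hp.out.one_lt
    have h2 : p ^ i ≤ p ^ (n * i) := Nat.pow_le_pow_right hp.out.pos (Nat.le_mul_of_pos_left i hn)
    omega

theorem coeff_hondaLog_eq_zero (m : ℕ) (hm : ∀ i, m ≠ p ^ (n * i)) :
    PowerSeries.coeff m (hondaLog p n) = 0 := by
  rw [hondaLog, PowerSeries.coeff_mk]
  exact Finset.sum_eq_zero fun i _ => by rw [if_neg (hm i)]

theorem hondaLog_zero : PowerSeries.constantCoeff (hondaLog p n) = 0 := by
  rw [← PowerSeries.coeff_zero_eq_constantCoeff_apply]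
  exact coeff_hondaLog_eq_zero p n 0 fun i => (pow_pos hp.out.pos _).ne

theorem hondaLog_one (hn : 1 ≤ n) : PowerSeries.coeff 1 (hondaLog p n) = 1 := by
  simpa using coeff_hondaLog_pow p n hn 0

/-- the functional equation `p l(X) = p X + l(X^q)`. -/
theorem honda_fe (hn : 1 ≤ n) : PowerSeries.C (p : ℚ_[p]) * hondaLog p n =
    PowerSeries.C (p : ℚ_[p]) * PowerSeries.X +
      PowerSeries.subst (PowerSeries.X ^ (p ^ n) : PowerSeries ℚ_[p]) (hondaLog p n) := by
  have hp0 : (p : ℚ_[p]) ≠ 0 := by exact_mod_cast hp.out.ne_zero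
  have hq : p ^ n ≠ 0 := (pow_pos hp.out.pos _).ne'
  ext m
  rw [map_add, PowerSeries.coeff_C_mul, PowerSeries.coeff_C_mul,
    PowerSeries.coeff_subst_X_pow hq]
  by_cases hm : ∃ i, m = p ^ (n * i)
  · obtain ⟨i, rfl⟩ := hm
    rcases Nat.eq_zero_or_pos i with rfl | hi
    · rw [coeff_hondaLog_pow p n hn]
      have : ¬ p ^ n ∣ 1 := by
        rw [Nat.dvd_one]
        exact (one_lt_pow_n p n hn).ne'
      simp [this]
    · obtain ⟨j, rfl⟩ : ∃ j, i = j + 1 := ⟨i - 1, by omega⟩
      have hdiv : p ^ (n * (j + 1)) / p ^ n = p ^ (n * j) := by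
        rw [mul_add, mul_one, pow_add, Nat.mul_div_cancel _ (pow_pos hp.out.pos _)]
      have hdvd : p ^ n ∣ p ^ (n * (j + 1)) := by
        rw [mul_add, mul_one, pow_add]
        exact dvd_mul_left _ _
      have hne : p ^ (n * (j + 1)) ≠ 1 :=
        (Nat.one_lt_pow (Nat.mul_ne_zero (by omega) (by omega)) hp.out.one_lt).ne'
      rw [if_pos hdvd, hdiv, coeff_hondaLog_pow p n hn, coeff_hondaLog_pow p n hn,
        PowerSeries.coeff_X, if_neg hne, Algebra.algebraMap_self, RingHom.id_apply, pow_succ,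
        mul_zero, zero_add, mul_inv]
      field_simp
  · push Not at hm
    rw [coeff_hondaLog_eq_zero p n m hm, mul_zero, PowerSeries.coeff_X, if_neg (by
      simpa using hm 0), mul_zero, zero_add]
    split_ifs with hd
    · obtain ⟨k, rfl⟩ := hd
      rw [Nat.mul_div_cancel_left _ (pow_pos hp.out.pos _)]
      rw [coeff_hondaLog_eq_zero p n k, map_zero]
      rintro i rfl
      apply hm (i + 1)
      ring
    · rfl

end Log

section Main

variable {p n : ℕ} [hp : Fact p.Prime]

theorem pow_dvd_coeff_pow {R : Type*} [CommRing R] (π : R) (E : PowerSeries R) (m : ℕ)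
    (hE : ∀ i < m, π ∣ PowerSeries.coeff i E) :
    ∀ s N k, N < m * (s + 1 - k) → π ^ k ∣ PowerSeries.coeff N (E ^ s) := by
  intro s
  induction s with
  | zero =>
    intro N k h
    rcases Nat.eq_zero_or_pos k with rfl | hk
    · simp
    · have : 0 + 1 - k = 0 := by omega
      rw [this, mul_zero] at h
      omega
  | succ s ih =>
    intro N k h
    rcases Nat.eq_zero_or_pos k with rfl | hk
    · simp
    obtain ⟨k, rfl⟩ : ∃ j, k = j + 1 := ⟨k - 1, by omega⟩
    rw [pow_succ' E, PowerSeries.coeff_mul]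
    refine Finset.dvd_sum fun ij hij => ?_
    rw [Finset.HasAntidiagonal.mem_antidiagonal] at hij
    rcases lt_or_ge ij.1 m with hi | hi
    · rw [pow_succ']
      refine mul_dvd_mul (hE _ hi) (ih _ _ ?_)
      have : s + 1 + 1 - (k + 1) = s + 1 - k := by omega
      rw [this] at h
      omega
    · refine (ih ij.2 (k + 1) ?_).mul_left _
      have h1 : s + 1 + 1 - (k + 1) = s + 1 - k := by omega
      rw [h1] at h
      rcases Nat.lt_or_ge k (s + 1) with hks | hks
      · obtain ⟨j, hj⟩ : ∃ j, s + 1 - k = j + 1 := ⟨s - k, by omega⟩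
        have h2 : s + 1 - (k + 1) = j := by omega
        rw [hj, mul_add, mul_one] at h
        rw [h2]
        omega
      · have : s + 1 - k = 0 := by omega
        rw [this, mul_zero] at h
        omega

theorem aux_ineq {q : ℕ} (hq : 2 ≤ q) (i : ℕ) : q + (i + 2) ≤ q ^ (i + 2) := by
  have h1 : i + 1 < 2 ^ (i + 1) := Nat.lt_two_pow_self
  have h2 : 2 ^ (i + 1) ≤ q ^ (i + 1) := Nat.pow_le_pow_left hq _
  calc q + (i + 2) ≤ q * (i + 2) := by nlinarith
    _ ≤ q * q ^ (i + 1) := Nat.mul_le_mul_left _ (by omega)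
    _ = q ^ (i + 2) := by ring

theorem psubst_X_pow_comp {R : Type*} [CommRing R] {N : ℕ} (hN : N ≠ 0) (l : PowerSeries R)
    {E : PowerSeries R} (hE : PowerSeries.constantCoeff E = 0) :
    PowerSeries.subst E (PowerSeries.subst (PowerSeries.X ^ N : PowerSeries R) l :
      PowerSeries R) = PowerSeries.subst (E ^ N) l := by
  rw [psubst_comp (by rw [map_pow, PowerSeries.constantCoeff_X, zero_pow hN]) hE,
    PowerSeries.subst_pow (hs hE), PowerSeries.subst_X (hs hE)]

theorem honda_fe_subst (hn : 1 ≤ n) {E : PowerSeries ℚ_[p]}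
    (hE : PowerSeries.constantCoeff E = 0) :
    PowerSeries.C (p : ℚ_[p]) * PowerSeries.subst E (hondaLog p n) =
      PowerSeries.C (p : ℚ_[p]) * E + PowerSeries.subst (E ^ (p ^ n)) (hondaLog p n) := by
  have h := congrArg (PowerSeries.subst (R := ℚ_[p]) E) (honda_fe p n hn)
  rw [PowerSeries.subst_mul (hs hE), PowerSeries.subst_add (hs hE),
    PowerSeries.subst_mul (hs hE), PowerSeries.subst_X (hs hE),
    psubst_X_pow_comp (pow_pos hp.out.pos _).ne' _ hE] at h
  have hC : (PowerSeries.subst E (PowerSeries.C (p : ℚ_[p])) : PowerSeries ℚ_[p]) =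
      PowerSeries.C (p : ℚ_[p]) := PowerSeries.subst_C _
  rw [hC] at h
  exact h

theorem toZMod_eq_zero_of_log (hn : 1 ≤ n) (E : PowerSeries ℤ_[p])
    (hE0 : PowerSeries.constantCoeff E = 0)
    (hE : (PowerSeries.subst (E.map (algebraMap ℤ_[p] ℚ_[p])) (hondaLog p n) :
      PowerSeries ℚ_[p]) = PowerSeries.C (p : ℚ_[p]) * PowerSeries.X) :
    E.map (PadicInt.toZMod (p := p)) = 0 := by
  classical
  have hq2 : 2 ≤ p ^ n := one_lt_pow_n p n hn
  have hpQ : (p : ℚ_[p]) ≠ 0 := by exact_mod_cast hp.out.ne_zero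
  set q := p ^ n with hq
  set EQ : PowerSeries ℚ_[p] := E.map (algebraMap ℤ_[p] ℚ_[p]) with hEQ
  have hEQ0 : PowerSeries.constantCoeff EQ = 0 := by
    rw [hEQ, ← PowerSeries.coeff_zero_eq_constantCoeff_apply, PowerSeries.coeff_map,
      PowerSeries.coeff_zero_eq_constantCoeff_apply, hE0, map_zero]
  have hEQq : PowerSeries.constantCoeff (EQ ^ q) = 0 := by
    rw [map_pow, hEQ0, zero_pow (by omega)]
  have hEQqq : PowerSeries.constantCoeff (EQ ^ (q * q)) = 0 := by
    rw [map_pow, hEQ0, zero_pow (by positivity)]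
  have e1 := honda_fe_subst (p := p) hn hEQ0
  have e2 := honda_fe_subst (p := p) hn hEQq
  rw [← hq] at e1 e2
  rw [hE] at e1
  rw [← pow_mul] at e2
  by_contra hne
  obtain ⟨m, hm, hmin⟩ : ∃ m, PowerSeries.coeff m (E.map (PadicInt.toZMod (p := p))) ≠ 0 ∧
      ∀ i < m, PowerSeries.coeff i (E.map (PadicInt.toZMod (p := p))) = 0 := by
    have hex : ∃ m, PowerSeries.coeff m (E.map (PadicInt.toZMod (p := p))) ≠ 0 := by
      by_contra h
      push Not at h
      exact hne (by ext m; simpa using h m)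
    refine ⟨Nat.find hex, Nat.find_spec hex, fun i hi => ?_⟩
    have := Nat.find_min hex hi
    simpa using this
  have hm0 : 0 < m := by
    rcases Nat.eq_zero_or_pos m with rfl | h
    · exfalso
      apply hm
      rw [PowerSeries.coeff_map, PowerSeries.coeff_zero_eq_constantCoeff_apply, hE0, map_zero]
    · exact h
  have hdvd : ∀ x : ℤ_[p], PadicInt.toZMod x = 0 → (p : ℤ_[p]) ∣ x := by
    intro x hx
    have : x ∈ RingHom.ker (PadicInt.toZMod (p := p)) := hx
    rwa [PadicInt.ker_toZMod, PadicInt.maximalIdeal_eq_span_p, Ideal.mem_span_singleton] at this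
  have hlow : ∀ i < m, (p : ℤ_[p]) ∣ PowerSeries.coeff i E := fun i hi =>
    hdvd _ (by simpa using hmin i hi)
  set N := m * q with hN
  have hN1 : N ≠ 1 := by
    have : 2 ≤ N := by rw [hN]; nlinarith
    omega
  -- the last term
  obtain ⟨z, hz⟩ : ∃ z : ℤ_[p], (p : ℚ_[p]) ^ 2 * (z : ℚ_[p]) =
      PowerSeries.coeff N (PowerSeries.subst (EQ ^ (q * q)) (hondaLog p n) :
        PowerSeries ℚ_[p]) := by
    rw [PowerSeries.coeff_subst' (hs hEQqq)]
    refine finsum_induction (fun x : ℚ_[p] => ∃ z : ℤ_[p], (p : ℚ_[p]) ^ 2 * (z : ℚ_[p]) = x)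
      ⟨0, by simp⟩ ?_ ?_
    · rintro _ _ ⟨a, rfl⟩ ⟨b, rfl⟩
      exact ⟨a + b, by push_cast; ring⟩
    · intro d
      by_cases hd : ∃ i, d = p ^ (n * i)
      · obtain ⟨i, rfl⟩ := hd
        rw [coeff_hondaLog_pow p n hn]
        have h1 : (p : ℤ_[p]) ^ (i + 2) ∣ PowerSeries.coeff N (E ^ (q ^ (i + 2))) := by
          refine pow_dvd_coeff_pow _ E m hlow _ _ _ ?_
          rw [hN]
          refine Nat.mul_lt_mul_of_pos_left ?_ hm0
          have := aux_ineq hq2 i
          omega
        obtain ⟨w, hw⟩ := h1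
        refine ⟨w, ?_⟩
        have h2 : (EQ ^ (q * q)) ^ (p ^ (n * i)) = EQ ^ (q ^ (i + 2)) := by
          rw [← pow_mul, pow_mul p n i, ← hq]
          congr 1
          ring
        have h3 : PowerSeries.coeff N (EQ ^ (q ^ (i + 2))) =
            ((PowerSeries.coeff N (E ^ (q ^ (i + 2))) : ℤ_[p]) : ℚ_[p]) := by
          rw [hEQ, ← map_pow, PowerSeries.coeff_map]
          rfl
        rw [h2, h3, hw]
        push_cast
        rw [smul_eq_mul]
        field_simp
        ring
      · push Not at hd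
        rw [coeff_hondaLog_eq_zero p n d hd, zero_smul]
        exact ⟨0, by simp⟩
  have c1 := congrArg (PowerSeries.coeff N) e1
  have c2 := congrArg (PowerSeries.coeff N) e2
  rw [map_add, PowerSeries.coeff_C_mul, PowerSeries.coeff_C_mul, PowerSeries.coeff_C_mul,
    PowerSeries.coeff_X, if_neg hN1] at c1
  rw [map_add, PowerSeries.coeff_C_mul, PowerSeries.coeff_C_mul, ← hz] at c2
  have h3 : PowerSeries.coeff N (EQ ^ q) =
      ((PowerSeries.coeff N (E ^ q) : ℤ_[p]) : ℚ_[p]) := by
    rw [hEQ, ← map_pow, PowerSeries.coeff_map]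
    rfl
  have h4 : PowerSeries.coeff N EQ = ((PowerSeries.coeff N E : ℤ_[p]) : ℚ_[p]) := by
    rw [hEQ, PowerSeries.coeff_map]
    rfl
  rw [h4] at c1
  rw [h3] at c2
  have h5 : ((PowerSeries.coeff N (E ^ q) : ℤ_[p]) : ℚ_[p]) =
      ((-(p * (PowerSeries.coeff N E + z)) : ℤ_[p]) : ℚ_[p]) := by
    push_cast
    have : (p : ℚ_[p]) * ((PowerSeries.coeff N (E ^ q) : ℤ_[p]) : ℚ_[p]) =
        p * -(p * (((PowerSeries.coeff N E : ℤ_[p]) : ℚ_[p]) + z)) := by
      linear_combination (-1 : ℚ_[p]) * c2 - (p : ℚ_[p]) * c1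
    exact mul_left_cancel₀ hpQ this
  have h6 : PowerSeries.coeff N (E ^ q) = -(p * (PowerSeries.coeff N E + z)) := by
    exact Subtype.ext h5
  have h7 : PowerSeries.coeff N ((E.map (PadicInt.toZMod (p := p))) ^ q) = 0 := by
    rw [← map_pow, PowerSeries.coeff_map, h6]
    simp
  obtain ⟨B, hB⟩ := PowerSeries.X_pow_dvd_iff.mpr hmin
  rw [hB] at h7 hm
  rw [mul_pow, ← pow_mul, ← hN, mul_comm, ← Nat.zero_add N, PowerSeries.coeff_mul_X_pow',
    if_pos (by omega)] at h7
  rw [mul_comm, ← Nat.zero_add m, PowerSeries.coeff_mul_X_pow', if_pos (by omega)] at hm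
  simp only [Nat.zero_add, Nat.sub_self, PowerSeries.coeff_zero_eq_constantCoeff_apply,
    map_pow] at h7 hm
  exact hm (pow_eq_zero_iff (by omega) |>.mp h7)

/-- the data of a Honda group. -/
theorem _root_.Vale.Agent.P217.IsHonda.exists_logL {Γ : FormalGroup (ZMod p)} (h : IsHonda p n Γ) (hn : 1 ≤ n) :
    ∃ H : FormalGroup ℤ_[p], H.map PadicInt.toZMod = Γ ∧
      IsLog (H.map (algebraMap ℤ_[p] ℚ_[p])) (hondaLog p n) := by
  obtain ⟨H, h1, h2⟩ := h
  exact ⟨H, h1, hondaLog_zero p n, by rw [hondaLog_one p n hn]; exact isUnit_one, h2⟩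

theorem algebraMap_injective : Function.Injective (algebraMap ℤ_[p] ℚ_[p]) :=
  fun _ _ h => Subtype.ext h

theorem _root_.Vale.Agent.P217.IsHonda.lift_commL {H : FormalGroup ℤ_[p]}
    (hl : IsLog (H.map (algebraMap ℤ_[p] ℚ_[p])) (hondaLog p n)) : H.IsComm where
  comm := by
    have h1 := hl.isComm.comm
    have h2 : (H.map (algebraMap ℤ_[p] ℚ_[p])).toPowerSeries =
        MvPowerSeries.map (algebraMap ℤ_[p] ℚ_[p])
          (H.toPowerSeries.subst ![(X 1 : MvPowerSeries (Fin 2) ℤ_[p]), X 0]) := by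
      rw [map_cons_subst _ H (by simp) (by simp), map_X, map_X]
      exact h1
    rw [map_toPowerSeries] at h2
    ext d
    have h3 := congrArg (coeff d) h2
    rw [coeff_map, coeff_map] at h3
    exact algebraMap_injective h3

theorem _root_.Vale.Agent.P217.IsHonda.isCommL {Γ : FormalGroup (ZMod p)} (h : IsHonda p n Γ) (hn : 1 ≤ n) :
    Γ.IsComm := by
  obtain ⟨H, h1, h2⟩ := h.exists_logL hn
  have := IsHonda.lift_commL h2
  rw [← h1]
  exact isComm_map _ H

theorem lift_multSeries (hn : 1 ≤ n) {H : FormalGroup ℤ_[p]}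
    (hl : IsLog (H.map (algebraMap ℤ_[p] ℚ_[p])) (hondaLog p n)) :
    PowerSeries.map (PadicInt.toZMod (p := p)) (multSeries H p) =
      (PowerSeries.X : PowerSeries (ZMod p)) ^ (p ^ n) := by
  have := IsHonda.lift_commL hl
  have := isComm_map (algebraMap ℤ_[p] ℚ_[p]) H
  have hq : p ^ n ≠ 0 := (pow_pos hp.out.pos _).ne'
  have hX0 : constantCoeff (PowerSeries.X : PowerSeries ℤ_[p]) = 0 :=
    PowerSeries.constantCoeff_X
  have hXq0 : constantCoeff ((PowerSeries.X : PowerSeries ℤ_[p]) ^ (p ^ n)) = 0 := by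
    rw [map_pow, hX0, zero_pow hq]
  have hXQ0 : constantCoeff (PowerSeries.X : PowerSeries ℚ_[p]) = 0 :=
    PowerSeries.constantCoeff_X
  have hXqQ0 : constantCoeff ((PowerSeries.X : PowerSeries ℚ_[p]) ^ (p ^ n)) = 0 := by
    rw [map_pow, hXQ0, zero_pow hq]
  let a : ZPt H Unit := ZPt.mk H PowerSeries.X hX0
  let b : ZPt H Unit := ZPt.mk H (PowerSeries.X ^ (p ^ n)) hXq0
  let e : ZPt H Unit := p • a - b
  have h1 : e + b = p • a := sub_add_cancel _ _
  have h2 : (p • a).val = multSeries H p := by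
    rw [ZPt.val_nsmul]
    exact PowerSeries.X_subst (multSeries H p)
  have h3 : H.toPowerSeries.subst ![e.val, (PowerSeries.X : PowerSeries ℤ_[p]) ^ (p ^ n)] =
      multSeries H p := by
    rw [← h2, ← h1, ZPt.val_add]
    rfl
  -- over `ℚ_p`
  have h4 := congrArg (MvPowerSeries.map (algebraMap ℤ_[p] ℚ_[p])) h3
  rw [map_cons_subst _ H e.constantCoeff_val hXq0, map_pow] at h4
  have hXX : MvPowerSeries.map (algebraMap ℤ_[p] ℚ_[p]) (PowerSeries.X : PowerSeries ℤ_[p]) =
      (PowerSeries.X : PowerSeries ℚ_[p]) := PowerSeries.map_X _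
  rw [hXX] at h4
  have h5 : MvPowerSeries.map (algebraMap ℤ_[p] ℚ_[p]) (multSeries H p) =
      multSeries (H.map (algebraMap ℤ_[p] ℚ_[p])) p := map_multSeries _ H p
  rw [h5] at h4
  have he0 : constantCoeff (MvPowerSeries.map (algebraMap ℤ_[p] ℚ_[p]) e.val) = 0 := by
    rw [constantCoeff_map, e.constantCoeff_val, map_zero]
  have h6 := congrArg (fun f : PowerSeries ℚ_[p] =>
    (PowerSeries.subst f (hondaLog p n) : PowerSeries ℚ_[p])) h4
  have h6' := hl.subst_add he0 hXqQ0
  have h7 := hl.subst_nsmul p (ZPt.mk (H.map (algebraMap ℤ_[p] ℚ_[p])) PowerSeries.X hXQ0)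
  rw [ZPt.val_nsmul] at h7
  have h8 : (PowerSeries.subst (ZPt.mk (H.map (algebraMap ℤ_[p] ℚ_[p])) PowerSeries.X hXQ0).val
      (multSeries (H.map (algebraMap ℤ_[p] ℚ_[p])) p) : PowerSeries ℚ_[p]) =
      multSeries (H.map (algebraMap ℤ_[p] ℚ_[p])) p := PowerSeries.X_subst _
  have h9 : (PowerSeries.subst (ZPt.mk (H.map (algebraMap ℤ_[p] ℚ_[p])) PowerSeries.X hXQ0).val
      (hondaLog p n) : PowerSeries ℚ_[p]) = hondaLog p n := PowerSeries.X_subst _
  have h10 : (PowerSeries.subst (MvPowerSeries.map (algebraMap ℤ_[p] ℚ_[p]) e.val)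
      (hondaLog p n) : PowerSeries ℚ_[p]) + PowerSeries.subst
      ((PowerSeries.X : PowerSeries ℚ_[p]) ^ (p ^ n)) (hondaLog p n) =
      p • hondaLog p n := by
    rw [h8, h9] at h7
    exact (h6'.symm.trans h6).trans h7
  have h11 := honda_fe p n hn
  have h12 : (PowerSeries.subst (MvPowerSeries.map (algebraMap ℤ_[p] ℚ_[p]) e.val)
      (hondaLog p n) : PowerSeries ℚ_[p]) = PowerSeries.C (p : ℚ_[p]) * PowerSeries.X := by
    rw [nsmul_eq_mul, ← map_natCast (PowerSeries.C (R := ℚ_[p])) p] at h10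
    rw [h11] at h10
    exact add_right_cancel h10
  have h13 := toZMod_eq_zero_of_log hn e.val e.constantCoeff_val h12
  -- reduction
  have h14 := congrArg (MvPowerSeries.map (PadicInt.toZMod (p := p))) h3
  rw [map_cons_subst _ H e.constantCoeff_val hXq0, map_pow] at h14
  have hXX' : MvPowerSeries.map (PadicInt.toZMod (p := p)) (PowerSeries.X : PowerSeries ℤ_[p]) =
      (PowerSeries.X : PowerSeries (ZMod p)) := PowerSeries.map_X _
  have h15 : MvPowerSeries.map (PadicInt.toZMod (p := p)) e.val = 0 := h13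
  rw [hXX', h15] at h14
  have h16 : PowerSeries.map (PadicInt.toZMod (p := p)) (multSeries H p) =
    MvPowerSeries.map (PadicInt.toZMod (p := p)) (multSeries H p) := rfl
  rw [h16, ← h14]
  refine FormalGroup.zero_add (H.map (PadicInt.toZMod (p := p))) (hs ?_)
  rw [map_pow]
  exact (congrArg (· ^ (p ^ n)) PowerSeries.constantCoeff_X).trans (zero_pow hq)

theorem hondaLog_rescale (hn : 1 ≤ n) {K : Type*} [Field K] (f : ℚ_[p] →+* K) {ω : K}
    (hω : ω ^ (p ^ n - 1) = 1) :
    PowerSeries.rescale ω (PowerSeries.map f (hondaLog p n)) =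
      PowerSeries.C ω * PowerSeries.map f (hondaLog p n) := by
  have hq : 1 < p ^ n := one_lt_pow_n p n hn
  have h1 : ω ^ (p ^ n) = ω := by
    have : p ^ n = (p ^ n - 1) + 1 := by omega
    rw [this, pow_succ, hω, one_mul]
  have h2 : ∀ i, ω ^ (p ^ (n * i)) = ω := by
    intro i
    induction i with
    | zero => simp
    | succ i ih => rw [mul_add, mul_one, pow_add, pow_mul, ih, h1]
  ext m
  rw [PowerSeries.coeff_rescale, PowerSeries.coeff_C_mul, PowerSeries.coeff_map]
  by_cases hm : ∃ i, m = p ^ (n * i)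
  · obtain ⟨i, rfl⟩ := hm
    rw [h2]
  · push Not at hm
    rw [coeff_hondaLog_eq_zero p n m hm, map_zero, mul_zero, mul_zero]

theorem IsLog.map {R S : Type*} [CommRing R] [CommRing S] (f : R →+* S) {F : FormalGroup R}
    {l : PowerSeries R} (h : IsLog F l) : IsLog (F.map f) (PowerSeries.map f l) where
  zero := by
    rw [← PowerSeries.coeff_zero_eq_constantCoeff_apply, PowerSeries.coeff_map,
      PowerSeries.coeff_zero_eq_constantCoeff_apply, h.zero, map_zero]
  unit := by
    rw [PowerSeries.coeff_map]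
    exact h.unit.map f
  add := by
    have := congrArg (MvPowerSeries.map f) h.add
    rw [map_add, PowerSeries.map_subst (hs F.zero_constantCoeff),
      PowerSeries.map_subst (hs (by simp)), PowerSeries.map_subst (hs (by simp)),
      map_X, map_X] at this
    exact this

theorem lift_coeff_eq_zero (hn : 1 ≤ n) {H : FormalGroup ℤ_[p]}
    (hl : IsLog (H.map (algebraMap ℤ_[p] ℚ_[p])) (hondaLog p n)) (d : Fin 2 →₀ ℕ)
    (hd : coeff d H.toPowerSeries ≠ 0) : ∃ k, d 0 + d 1 = 1 + (p ^ n - 1) * k := by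
  have hq : 1 < p ^ n := one_lt_pow_n p n hn
  have : NeZero (p ^ n - 1) := ⟨by omega⟩
  let K := AlgebraicClosure ℚ_[p]
  have : CharZero K := charZero_of_injective_algebraMap (algebraMap ℚ_[p] K).injective
  have : NeZero ((p ^ n - 1 : ℕ) : K) := ⟨by
    rw [Nat.cast_ne_zero]; omega⟩
  obtain ⟨ω, hω⟩ := HasEnoughRootsOfUnity.exists_primitiveRoot K (p ^ n - 1)
  have h1 := (hl.map (algebraMap ℚ_[p] K)).rescale_eq
    (hondaLog_rescale hn (algebraMap ℚ_[p] K) hω.pow_eq_one)
  have h2 := congrArg (coeff d) h1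
  rw [coeff_rescale_const, coeff_C_mul] at h2
  have h3 : coeff d ((H.map (algebraMap ℤ_[p] ℚ_[p])).map (algebraMap ℚ_[p] K)).toPowerSeries
      = algebraMap ℚ_[p] K (algebraMap ℤ_[p] ℚ_[p] (coeff d H.toPowerSeries)) := rfl
  have h4 : coeff d ((H.map (algebraMap ℤ_[p] ℚ_[p])).map (algebraMap ℚ_[p] K)).toPowerSeries
      ≠ 0 := by
    rw [h3, map_ne_zero]
    intro h
    exact hd (algebraMap_injective (by rw [h, map_zero]))
  have h5 := mul_right_cancel₀ h4 h2
  have h6 : d 0 + d 1 ≠ 0 := by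
    intro h
    apply hd
    have : d = 0 := by
      ext i
      fin_cases i
      · simp; omega
      · simp; omega
    rw [this, coeff_zero_eq_constantCoeff_apply, H.zero_constantCoeff]
  obtain ⟨m, hm⟩ := Nat.exists_eq_succ_of_ne_zero h6
  rw [hm, Nat.succ_eq_add_one, pow_succ] at h5
  have hω0 : ω ≠ 0 := hω.ne_zero (NeZero.ne _)
  have h7 : ω ^ m = 1 := by
    have : ω ^ m * ω = 1 * ω := by rw [h5, one_mul]
    exact mul_right_cancel₀ hω0 this
  obtain ⟨k, hk⟩ := hω.dvd_of_pow_eq_one _ h7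
  exact ⟨k, by rw [hm, hk, Nat.succ_eq_add_one, add_comm]⟩

variable {Γ : FormalGroup (ZMod p)}

theorem _root_.Vale.Agent.P217.IsHonda.coeff_eq_zeroL (h : IsHonda p n Γ) (hn : 1 ≤ n) (d : Fin 2 →₀ ℕ)
    (hd : coeff d Γ.toPowerSeries ≠ 0) : ∃ k, d 0 + d 1 = 1 + (p ^ n - 1) * k := by
  obtain ⟨H, h1, h2⟩ := h.exists_logL hn
  refine lift_coeff_eq_zero hn h2 d fun h3 => hd ?_
  rw [← h1, map_toPowerSeries, coeff_map, h3, map_zero]

theorem _root_.Vale.Agent.P217.IsHonda.multSeries_eqL (h : IsHonda p n Γ) (hn : 1 ≤ n) :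
    multSeries Γ p = PowerSeries.X ^ (p ^ n) := by
  obtain ⟨H, h1, h2⟩ := h.exists_logL hn
  rw [← h1, ← map_multSeries]
  exact lift_multSeries hn h2

theorem _root_.Vale.Agent.P217.IsHonda.map_isCommL (h : IsHonda p n Γ) (hn : 1 ≤ n) {k : Type*} [CommRing k]
    (f : ZMod p →+* k) : (Γ.map f).IsComm := by
  have := h.isCommL hn
  exact isComm_map f Γ

theorem _root_.Vale.Agent.P217.IsHonda.map_multSeries_eqL (h : IsHonda p n Γ) (hn : 1 ≤ n) {k : Type*} [CommRing k]
    (f : ZMod p →+* k) : multSeries (Γ.map f) p = PowerSeries.X ^ (p ^ n) := by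
  rw [← map_multSeries, h.multSeries_eqL hn, map_pow, PowerSeries.map_X]

/-- the endomorphism `z X`. -/
theorem _root_.Vale.Agent.P217.IsHonda.isHom_C_mulL (h : IsHonda p n Γ) (hn : 1 ≤ n) {k : Type*} [CommRing k]
    (f : ZMod p →+* k) (z : k) (hz : z ^ (p ^ n) = z) :
    IsHom (Γ.map f) (Γ.map f) (PowerSeries.C z * PowerSeries.X) := by
  have hq : 1 < p ^ n := one_lt_pow_n p n hn
  refine ⟨by simp, ?_⟩
  have e0 : (PowerSeries.subst (X 0 : MvPowerSeries (Fin 2) k)
      (PowerSeries.C z * PowerSeries.X) : MvPowerSeries (Fin 2) k) = C z * X 0 := by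
    rw [psubst_C_mul _ _ (by simp), PowerSeries.subst_X (hs (by simp))]
  have e1 : (PowerSeries.subst (X 1 : MvPowerSeries (Fin 2) k)
      (PowerSeries.C z * PowerSeries.X) : MvPowerSeries (Fin 2) k) = C z * X 1 := by
    rw [psubst_C_mul _ _ (by simp), PowerSeries.subst_X (hs (by simp))]
  rw [e0, e1, subst_cons_C_mul, psubst_C_mul _ _ (Γ.map f).zero_constantCoeff,
    PowerSeries.subst_X (hs (Γ.map f).zero_constantCoeff)]
  ext d
  rw [coeff_rescale_const, coeff_C_mul, map_toPowerSeries, coeff_map]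
  by_cases hd : coeff d Γ.toPowerSeries = 0
  · rw [hd, map_zero, mul_zero, mul_zero]
  · obtain ⟨j, hj⟩ := h.coeff_eq_zeroL hn d hd
    rw [hj]
    have : ∀ j, z ^ (1 + (p ^ n - 1) * j) = z := by
      intro j
      induction j with
      | zero => simp
      | succ j ih =>
        have : 1 + (p ^ n - 1) * (j + 1) = (1 + (p ^ n - 1) * j) + (p ^ n - 1) := by ring
        rw [this, pow_add, ih, ← pow_succ']
        have : p ^ n - 1 + 1 = p ^ n := by omega
        rw [this, hz]
    rw [this]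

theorem isHom_X_pow (Γ : FormalGroup (ZMod p)) {k : Type*} [CommRing k] [CharP k p]
    (f : ZMod p →+* k) (i : ℕ) :
    IsHom (Γ.map f) (Γ.map f) (PowerSeries.X ^ (p ^ i)) := by
  have hpi : p ^ i ≠ 0 := (pow_pos hp.out.pos _).ne'
  have : ExpChar k p := ExpChar.prime hp.out
  refine ⟨by rw [map_pow, PowerSeries.constantCoeff_X, zero_pow hpi], ?_⟩
  rw [PowerSeries.subst_pow (hs (Γ.map f).zero_constantCoeff),
    PowerSeries.subst_pow (hs (by simp)), PowerSeries.subst_pow (hs (by simp)),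
    PowerSeries.subst_X (hs (Γ.map f).zero_constantCoeff), PowerSeries.subst_X (hs (by simp)),
    PowerSeries.subst_X (hs (by simp))]
  have h1 := MvPowerSeries.map_iterateFrobenius_expand p hp.out.ne_zero
    (Γ.map f).toPowerSeries i
  rw [← h1, map_expand]
  have h2 : MvPowerSeries.map (iterateFrobenius k p i) (Γ.map f).toPowerSeries =
      (Γ.map f).toPowerSeries := by
    ext d
    rw [coeff_map, map_toPowerSeries, coeff_map, iterateFrobenius_def, ← map_pow,
      ZMod.pow_card_pow]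
  rw [h2, expand, substAlgHom_apply]
  congr 1
  funext j
  fin_cases j <;> rfl


section Gal

theorem gal_pow_card (hn : 1 ≤ n) (z : GaloisField p n) : z ^ (p ^ n) = z := by
  have h1 := GaloisField.card p n (by omega)
  have := Fintype.ofFinite (GaloisField p n)
  rw [Nat.card_eq_fintype_card] at h1
  rw [← h1]
  exact FiniteField.pow_card z

theorem _root_.Vale.Agent.P217.IsHonda.gal_isCommL (h : IsHonda p n Γ) (hn : 1 ≤ n) :
    (Γ.map (algebraMap (ZMod p) (GaloisField p n))).IsComm := h.map_isCommL hn _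

/-- the endomorphism `z X` of the Honda group over `𝔽_{p^n}`. -/
theorem _root_.Vale.Agent.P217.IsHonda.gal_isHom_C_mulL (h : IsHonda p n Γ) (hn : 1 ≤ n) (z : GaloisField p n) :
    IsHom (Γ.map (algebraMap (ZMod p) (GaloisField p n)))
      (Γ.map (algebraMap (ZMod p) (GaloisField p n))) (PowerSeries.C z * PowerSeries.X) :=
  h.isHom_C_mulL hn _ z (gal_pow_card hn z)

/-- the powers of the Frobenius. -/
theorem gal_isHom_X_pow (Γ : FormalGroup (ZMod p)) (i : ℕ) :
    IsHom (Γ.map (algebraMap (ZMod p) (GaloisField p n)))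
      (Γ.map (algebraMap (ZMod p) (GaloisField p n))) (PowerSeries.X ^ (p ^ i)) :=
  isHom_X_pow Γ _ i

end Gal

end Main


end HondaFacts

open Finsupp

open MvPowerSeries Finsupp

section Agree

variable {τ L : Type*} [CommRing L]

/-- `A` and `B` agree in degrees `< d`. -/
def AgreeLT (d : ℕ) (A B : MvPowerSeries τ L) : Prop :=
  ∀ e : τ →₀ ℕ, degree e < d → coeff e A = coeff e B

/-- If `A`, `B` have no constant term and agree in degrees `< d` then their `k`-th powers agree in
degrees `≤ d` when `k ≥ 2`. -/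
theorem AgreeLT.pow {d : ℕ} {A B : MvPowerSeries τ L} (h : AgreeLT d A B)
    (hA : constantCoeff A = 0) (hB : constantCoeff B = 0) {k : ℕ} (hk : 2 ≤ k) :
    AgreeLT (d + 1) (A ^ k) (B ^ k) := by
  intro e he
  have h1 : (d : ℕ∞) ≤ (A - B).order := by
    apply nat_le_order
    intro f hf
    rw [map_sub, h f hf, sub_self]
  have h2 : (1 : ℕ∞) ≤ (∑ i ∈ Finset.range k, A ^ i * B ^ (k - 1 - i)).order := by
    rw [one_le_order_iff_constCoeff_eq_zero, map_sum]
    apply Finset.sum_eq_zero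
    intro i hi
    rw [Finset.mem_range] at hi
    rw [map_mul, map_pow, map_pow, hA, hB]
    rcases Nat.eq_zero_or_pos i with rfl | hi0
    · rw [zero_pow (by omega : k - 1 - 0 ≠ 0), mul_zero]
    · rw [zero_pow (by omega : i ≠ 0), zero_mul]
  have h3 : ((d + 1 : ℕ) : ℕ∞) ≤ (A ^ k - B ^ k).order := by
    rw [← (Commute.all A B).mul_geom_sum₂]
    refine le_trans ?_ (le_order_mul)
    push_cast
    exact add_le_add h1 h2
  have h4 : coeff e (A ^ k - B ^ k) = 0 := by
    apply coeff_of_lt_order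
    refine lt_of_lt_of_le ?_ h3
    exact_mod_cast he
  rw [map_sub] at h4
  exact sub_eq_zero.1 h4

/-- powers agree in the same range. -/
theorem AgreeLT.pow' {d : ℕ} {A B : MvPowerSeries τ L} (h : AgreeLT d A B) (k : ℕ) :
    AgreeLT d (A ^ k) (B ^ k) := by
  intro e he
  have h1 : (d : ℕ∞) ≤ (A - B).order := by
    apply nat_le_order
    intro f hf
    rw [map_sub, h f hf, sub_self]
  have h3 : (d : ℕ∞) ≤ (A ^ k - B ^ k).order := by
    rw [← (Commute.all A B).mul_geom_sum₂]
    refine le_trans ?_ (le_order_mul)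
    exact h1.trans (le_add_right le_rfl)
  have h4 : coeff e (A ^ k - B ^ k) = 0 := by
    apply coeff_of_lt_order
    refine lt_of_lt_of_le ?_ h3
    exact_mod_cast he
  rw [map_sub] at h4
  exact sub_eq_zero.1 h4

end Agree

section Log

variable {τ L : Type*} [CommRing L]

/-- The series `∑ c_i X^(q^i)`. -/
noncomputable def lser (q : ℕ) (c : ℕ → L) : PowerSeries L :=
  PowerSeries.mk fun m => ∑ i ∈ Finset.range (m + 1), if m = q ^ i then c i else 0

theorem coeff_lser_pow {q : ℕ} (hq : 2 ≤ q) (c : ℕ → L) (i : ℕ) :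
    PowerSeries.coeff (q ^ i) (lser q c) = c i := by
  rw [lser, PowerSeries.coeff_mk, Finset.sum_eq_single i]
  · simp
  · intro j _ hj
    rw [if_neg]
    intro h
    exact hj (Nat.pow_right_injective hq h).symm
  · intro h
    exfalso
    apply h
    rw [Finset.mem_range]
    have := Nat.lt_pow_self (n := i) hq
    omega

theorem coeff_lser_of_ne {q : ℕ} (c : ℕ → L) {m : ℕ} (hm : ∀ i, m ≠ q ^ i) :
    PowerSeries.coeff m (lser q c) = 0 := by
  rw [lser, PowerSeries.coeff_mk]
  exact Finset.sum_eq_zero fun i _ => if_neg (hm i)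

/-- **(LF)** The coefficients of `ℓ(A)`. -/
theorem coeff_subst_lser {q : ℕ} (hq : 2 ≤ q) (c : ℕ → L) {A : MvPowerSeries τ L}
    (hA : constantCoeff A = 0) (e : τ →₀ ℕ) {M : ℕ} (hM : degree e < M) :
    coeff e (PowerSeries.subst A (lser q c) : MvPowerSeries τ L) =
      ∑ i ∈ Finset.range M, c i * coeff e (A ^ (q ^ i)) := by
  have hs : PowerSeries.HasSubst A := PowerSeries.HasSubst.of_constantCoeff_zero hA
  rw [PowerSeries.coeff_subst hs]
  have hinj : Set.InjOn (fun i => q ^ i) (Finset.range M : Set ℕ) :=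
    fun a _ b _ h => Nat.pow_right_injective hq h
  rw [finsum_eq_sum_of_support_subset (s := (Finset.range M).image (fun i => q ^ i)),
    Finset.sum_image hinj]
  · refine Finset.sum_congr rfl (fun i _ => ?_)
    rw [coeff_lser_pow hq, smul_eq_mul]
  · intro m hm
    rw [Function.mem_support] at hm
    rw [Finset.coe_image, Set.mem_image]
    by_cases h : ∃ i, m = q ^ i
    · obtain ⟨i, rfl⟩ := h
      refine ⟨i, ?_, rfl⟩
      rw [Finset.coe_range, Set.mem_Iio]
      by_contra hi
      apply hm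
      have h1 : coeff e (A ^ (q ^ i)) = 0 := by
        apply coeff_eq_zero_of_constantCoeff_nilpotent (m := 1) (by rw [hA]; simp)
        have := Nat.lt_pow_self (n := i) hq
        omega
      rw [h1, smul_zero]
    · exfalso
      apply hm
      rw [coeff_lser_of_ne c (fun i hi => h ⟨i, hi⟩), zero_smul]

/-- separating the first term. -/
theorem coeff_subst_lser' {q : ℕ} (hq : 2 ≤ q) (c : ℕ → L) (hc : c 0 = 1)
    {A : MvPowerSeries τ L} (hA : constantCoeff A = 0) (e : τ →₀ ℕ) :
    coeff e (PowerSeries.subst A (lser q c) : MvPowerSeries τ L) =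
      coeff e A + ∑ i ∈ Finset.range (degree e), c (i + 1) * coeff e (A ^ (q ^ (i + 1))) := by
  rw [coeff_subst_lser hq c hA e (Nat.lt_succ_self _), Finset.sum_range_succ', hc, pow_zero,
    pow_one, one_mul, add_comm]

/-- **Uniqueness**: `ℓ` is injective on series without constant term. -/
theorem lser_injective {q : ℕ} (hq : 2 ≤ q) (c : ℕ → L) (hc : c 0 = 1)
    {A B : MvPowerSeries τ L} (hA : constantCoeff A = 0) (hB : constantCoeff B = 0)
    (h : (PowerSeries.subst A (lser q c) : MvPowerSeries τ L) = PowerSeries.subst B (lser q c)) :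
    A = B := by
  have key : ∀ d : ℕ, AgreeLT d A B := by
    intro d
    induction d with
    | zero => intro e he; omega
    | succ d ih =>
      intro e he
      have h1 := congrArg (coeff e) h
      rw [coeff_subst_lser' hq c hc hA, coeff_subst_lser' hq c hc hB] at h1
      have h2 : ∑ i ∈ Finset.range (degree e), c (i + 1) * coeff e (A ^ (q ^ (i + 1))) =
          ∑ i ∈ Finset.range (degree e), c (i + 1) * coeff e (B ^ (q ^ (i + 1))) := by
        refine Finset.sum_congr rfl (fun i _ => ?_)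
        congr 1
        have hk : 2 ≤ q ^ (i + 1) := by
          calc 2 ≤ q := hq
            _ = q ^ 1 := (pow_one q).symm
            _ ≤ q ^ (i + 1) := Nat.pow_le_pow_right (by omega) (by omega)
        exact ih.pow hA hB hk e he
      rw [h2] at h1
      exact add_right_cancel h1
  ext e
  exact key (degree e + 1) e (Nat.lt_succ_self _)

/-- **Existence**: every series without constant term is of the form `ℓ(A)`. -/
theorem lser_surjective {q : ℕ} (hq : 2 ≤ q) (c : ℕ → L) (hc : c 0 = 1)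
    (R : MvPowerSeries τ L) (hR : constantCoeff R = 0) :
    ∃ A : MvPowerSeries τ L, constantCoeff A = 0 ∧
      (PowerSeries.subst A (lser q c) : MvPowerSeries τ L) = R := by
  -- one step of the iteration
  let step : MvPowerSeries τ L → MvPowerSeries τ L := fun G e =>
    coeff e R - ∑ i ∈ Finset.range (degree e), c (i + 1) * coeff e (G ^ (q ^ (i + 1)))
  have hstep : ∀ G e, coeff e (step G) =
      coeff e R - ∑ i ∈ Finset.range (degree e), c (i + 1) * coeff e (G ^ (q ^ (i + 1))) :=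
    fun _ _ => rfl
  have hstep0 : ∀ G, constantCoeff (step G) = 0 := by
    intro G
    rw [← coeff_zero_eq_constantCoeff_apply, hstep]
    simp [hR]
  let G : ℕ → MvPowerSeries τ L := fun k => step^[k] 0
  have hG0 : ∀ k, constantCoeff (G k) = 0 := by
    intro k
    cases k with
    | zero => simp [G]
    | succ k =>
      simp only [G, Function.iterate_succ_apply']
      exact hstep0 _
  have hGs : ∀ k, G (k + 1) = step (G k) := by
    intro k
    simp only [G, Function.iterate_succ_apply']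
  have hpow : ∀ i, 2 ≤ q ^ (i + 1) := by
    intro i
    calc 2 ≤ q := hq
      _ = q ^ 1 := (pow_one q).symm
      _ ≤ q ^ (i + 1) := Nat.pow_le_pow_right (by omega) (by omega)
  have hstepA : ∀ (d : ℕ) (A B : MvPowerSeries τ L), constantCoeff A = 0 → constantCoeff B = 0 →
      AgreeLT d A B → AgreeLT (d + 1) (step A) (step B) := by
    intro d A B hA hB h e he
    rw [hstep, hstep]
    congr 1
    refine Finset.sum_congr rfl (fun i _ => ?_)
    congr 1
    exact h.pow hA hB (hpow i) e he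
  have hcons : ∀ k, AgreeLT k (G k) (G (k + 1)) := by
    intro k
    induction k with
    | zero => intro e he; omega
    | succ k ih =>
      rw [hGs k, hGs (k + 1)]
      exact hstepA k _ _ (hG0 _) (hG0 _) ih
  have hcons2 : ∀ k j, AgreeLT k (G k) (G (k + j)) := by
    intro k j
    induction j with
    | zero => intro e _; rfl
    | succ j ih =>
      intro e he
      rw [ih e he]
      exact hcons (k + j) e (by omega)
  let A : MvPowerSeries τ L := fun e => coeff e (G (degree e + 1))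
  have hA : ∀ e, coeff e A = coeff e (G (degree e + 1)) := fun _ => rfl
  have hAG : ∀ k, AgreeLT k A (G k) := by
    intro k e he
    rw [hA]
    obtain ⟨j, rfl⟩ := Nat.exists_eq_add_of_le (Nat.succ_le_of_lt he)
    exact hcons2 (degree e + 1) j e (by omega)
  have hA0 : constantCoeff A = 0 := by
    rw [← coeff_zero_eq_constantCoeff_apply, hA, coeff_zero_eq_constantCoeff_apply, hG0]
  refine ⟨A, hA0, ?_⟩
  ext e
  rw [coeff_subst_lser' hq c hc hA0, hA, hGs, hstep]
  have h2 : ∑ i ∈ Finset.range (degree e), c (i + 1) * coeff e (A ^ (q ^ (i + 1))) =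
      ∑ i ∈ Finset.range (degree e), c (i + 1) * coeff e (G (degree e) ^ (q ^ (i + 1))) := by
    refine Finset.sum_congr rfl (fun i _ => ?_)
    congr 1
    exact (hAG (degree e)).pow hA0 (hG0 _) (hpow i) e (Nat.lt_succ_self _)
  rw [h2, sub_add_cancel]

end Log

section Congruence

variable {τ : Type*} {S : Type*} [CommRing S]

/-- congruence modulo `p` in degrees `< d`. -/
def CongLT (p d : ℕ) (A B : MvPowerSeries τ S) : Prop :=
  ∀ e : τ →₀ ℕ, degree e < d → (p : S) ∣ coeff e A - coeff e B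

theorem coeff_natCast_pow_mul (p k : ℕ) (C' : MvPowerSeries τ S) (e : τ →₀ ℕ) :
    coeff e ((p : MvPowerSeries τ S) ^ k * C') = (p : S) ^ k * coeff e C' := by
  have h1 : (p : MvPowerSeries τ S) ^ k = C ((p : S) ^ k) := by
    rw [map_pow, map_natCast]
  rw [h1, coeff_C_mul]

theorem dvd_pow_sub_pow {p : ℕ} {A B : MvPowerSeries τ S}
    (h : ∀ e, (p : S) ∣ coeff e A - coeff e B) (k : ℕ) (e : τ →₀ ℕ) :
    (p : S) ^ (k + 1) ∣ coeff e (A ^ (p ^ k)) - coeff e (B ^ (p ^ k)) := by
  have h1 : (p : MvPowerSeries τ S) ∣ A - B := by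
    choose g hg using h
    refine ⟨fun e => g e, ?_⟩
    ext e
    have := coeff_natCast_pow_mul (τ := τ) p 1 (fun e => g e : MvPowerSeries τ S) e
    rw [pow_one, pow_one] at this
    rw [this, map_sub, hg e]
    rfl
  obtain ⟨D, hD⟩ := dvd_sub_pow_of_dvd_sub h1 k
  rw [← map_sub, hD, coeff_natCast_pow_mul]
  exact Dvd.intro _ rfl

/-- If `A ≡ B mod p` in degrees `< d`, no constant terms, then `A^(p^k) ≡ B^(p^k) mod p^(k+1)` in
degrees `≤ d`, for `k ≥ 1`. -/
theorem CongLT.pow {p : ℕ} (hp : 2 ≤ p) {d : ℕ} {A B : MvPowerSeries τ S} (h : CongLT p d A B)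
    (hA : constantCoeff A = 0) (hB : constantCoeff B = 0) {k : ℕ} (hk : 1 ≤ k) (e : τ →₀ ℕ)
    (he : degree e ≤ d) : (p : S) ^ (k + 1) ∣ coeff e (A ^ (p ^ k)) - coeff e (B ^ (p ^ k)) := by
  classical
  let B' : MvPowerSeries τ S := fun f => if degree f < d then coeff f B else coeff f A
  have hB' : ∀ f, coeff f B' = if degree f < d then coeff f B else coeff f A := fun _ => rfl
  have hB'0 : constantCoeff B' = 0 := by
    rw [← coeff_zero_eq_constantCoeff_apply, hB']
    split_ifs
    · rw [coeff_zero_eq_constantCoeff_apply, hB]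
    · rw [coeff_zero_eq_constantCoeff_apply, hA]
  have h1 : ∀ f, (p : S) ∣ coeff f A - coeff f B' := by
    intro f
    rw [hB']
    split_ifs with hf
    · exact h f hf
    · rw [sub_self]; exact dvd_zero _
  have h2 : AgreeLT d B' B := by
    intro f hf
    rw [hB', if_pos hf]
  have hpk : 2 ≤ p ^ k := by
    calc 2 ≤ p := hp
      _ = p ^ 1 := (pow_one p).symm
      _ ≤ p ^ k := Nat.pow_le_pow_right (by omega) hk
  rw [← h2.pow hB'0 hB hpk e (Nat.lt_succ_of_le he)]
  exact dvd_pow_sub_pow h1 k e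

end Congruence

section Padic

variable (p n : ℕ) [Fact p.Prime]

theorem hondaLog_eq : hondaLog p n = lser (p ^ n) (fun i => ((p : ℚ_[p]) ^ i)⁻¹) := by
  ext m
  rw [hondaLog, lser, PowerSeries.coeff_mk, PowerSeries.coeff_mk]
  refine Finset.sum_congr rfl (fun i _ => ?_)
  rw [pow_mul]

variable {p n}

/-- coercion of power series. -/
noncomputable abbrev toQ {τ : Type*} (A : MvPowerSeries τ ℤ_[p]) : MvPowerSeries τ ℚ_[p] :=
  A.map (algebraMap ℤ_[p] ℚ_[p])

theorem two_le_q (hn : 1 ≤ n) : 2 ≤ p ^ n := by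
  calc 2 ≤ p := (Fact.out : p.Prime).two_le
    _ = p ^ 1 := (pow_one p).symm
    _ ≤ p ^ n := Nat.pow_le_pow_right (Fact.out : p.Prime).pos hn

/-- If `A ≡ B mod p` in degrees `< d` then the tails of the logarithms are congruent mod `p` in
degrees `≤ d`. -/
theorem tail_congr {τ : Type*} (hn : 1 ≤ n) {d : ℕ} {A B : MvPowerSeries τ ℤ_[p]}
    (h : CongLT p d A B) (hA : constantCoeff A = 0) (hB : constantCoeff B = 0) (e : τ →₀ ℕ)
    (he : degree e ≤ d) (i : ℕ) : ∃ z : ℤ_[p],
    ((p : ℚ_[p]) ^ (i + 1))⁻¹ * coeff e (toQ A ^ ((p ^ n) ^ (i + 1))) -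
      ((p : ℚ_[p]) ^ (i + 1))⁻¹ * coeff e (toQ B ^ ((p ^ n) ^ (i + 1))) = (p : ℚ_[p]) * z := by
  have hp := (Fact.out : p.Prime)
  have hk : 1 ≤ n * (i + 1) := Nat.mul_pos hn (Nat.succ_pos _)
  obtain ⟨w, hw⟩ := h.pow hp.two_le hA hB hk e he
  have hle : i + 1 + 1 ≤ n * (i + 1) + 1 := by
    have : i + 1 ≤ n * (i + 1) := Nat.le_mul_of_pos_left _ hn
    omega
  have h1 : coeff e (toQ A ^ ((p ^ n) ^ (i + 1))) - coeff e (toQ B ^ ((p ^ n) ^ (i + 1))) =
      (p : ℚ_[p]) ^ (n * (i + 1) + 1) * (w : ℚ_[p]) := by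
    have h2 : ∀ C' : MvPowerSeries τ ℤ_[p], coeff e (toQ C' ^ ((p ^ n) ^ (i + 1))) =
        algebraMap ℤ_[p] ℚ_[p] (coeff e (C' ^ (p ^ (n * (i + 1))))) := by
      intro C'
      rw [toQ, ← map_pow, coeff_map, ← pow_mul]
    rw [h2, h2, ← map_sub, hw, map_mul, map_pow, map_natCast]
    rfl
  refine ⟨(p : ℤ_[p]) ^ (n * (i + 1) + 1 - (i + 1 + 1)) * w, ?_⟩
  rw [← mul_sub, h1]
  have hp0 : (p : ℚ_[p]) ≠ 0 := by exact_mod_cast hp.ne_zero
  have h3 : (p : ℚ_[p]) ^ (n * (i + 1) + 1) =
      (p : ℚ_[p]) ^ (n * (i + 1) + 1 - (i + 1 + 1)) * (p : ℚ_[p]) ^ (i + 1 + 1) := by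
    rw [← pow_add, Nat.sub_add_cancel hle]
  rw [h3]
  push_cast
  rw [pow_succ (p : ℚ_[p]) (i + 1)]
  field_simp

end Padic


open MvPowerSeries Finsupp

section Agree2

variable {τ L : Type*} [CommRing L]

theorem AgreeLT.lser {q : ℕ} (hq : 2 ≤ q) (c : ℕ → L) {d : ℕ} {A B : MvPowerSeries τ L}
    (h : AgreeLT d A B) (hA : constantCoeff A = 0) (hB : constantCoeff B = 0) :
    AgreeLT d (PowerSeries.subst A (lser q c) : MvPowerSeries τ L)
      (PowerSeries.subst B (lser q c)) := by
  intro e he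
  rw [coeff_subst_lser hq c hA e (Nat.lt_succ_self _),
    coeff_subst_lser hq c hB e (Nat.lt_succ_self _)]
  refine Finset.sum_congr rfl (fun i _ => ?_)
  rw [h.pow' _ e he]

theorem degree_smul (q : ℕ) (g : τ →₀ ℕ) : degree (q • g) = q * degree g := by
  rw [map_nsmul, smul_eq_mul]

theorem AgreeLT.expand {q : ℕ} (hq : 2 ≤ q) {d : ℕ} {A B : MvPowerSeries τ L}
    (h : AgreeLT d A B) (hA : constantCoeff A = 0) (hB : constantCoeff B = 0) :
    AgreeLT (d + 1) (MvPowerSeries.expand q (by omega) A) (MvPowerSeries.expand q (by omega) B) := by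
  intro e he
  by_cases hdvd : ∀ i, q ∣ e i
  · obtain ⟨g, rfl⟩ : ∃ g : τ →₀ ℕ, e = q • g := by
      refine ⟨e.mapRange (fun m => m / q) (Nat.zero_div _), ?_⟩
      ext i
      rw [Finsupp.smul_apply, Finsupp.mapRange_apply, smul_eq_mul, Nat.mul_div_cancel' (hdvd i)]
    rw [coeff_expand_smul, coeff_expand_smul]
    rw [degree_smul] at he
    rcases Nat.eq_zero_or_pos (degree g) with h0 | h0
    · have hg : g = 0 := (Finsupp.degree_eq_zero_iff g).1 h0
      rw [hg, coeff_zero_eq_constantCoeff_apply, coeff_zero_eq_constantCoeff_apply, hA, hB]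
    · apply h
      nlinarith
  · push Not at hdvd
    obtain ⟨i, hi⟩ := hdvd
    rw [coeff_expand_of_not_dvd q _ _ hi, coeff_expand_of_not_dvd q _ _ hi]

/-- in degree one the logarithm is the identity. -/
theorem coeff_subst_lser_of_degree_one {q : ℕ} (hq : 2 ≤ q) (c : ℕ → L) (hc : c 0 = 1)
    {A : MvPowerSeries τ L} (hA : constantCoeff A = 0) {e : τ →₀ ℕ} (he : degree e = 1) :
    coeff e (PowerSeries.subst A (lser q c) : MvPowerSeries τ L) = coeff e A := by
  rw [coeff_subst_lser' hq c hc hA, he, Finset.sum_range_one]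
  have h1 : coeff e (A ^ (q ^ (0 + 1))) = 0 := by
    apply coeff_eq_zero_of_constantCoeff_nilpotent (m := 1) (by rw [hA]; simp)
    rw [he, zero_add, pow_one]
    omega
  rw [h1, mul_zero, add_zero]

end Agree2

section Padic2

variable {p n : ℕ} [Fact p.Prime]

/-- `p * tail = ℓ(A^q)` coefficientwise, i.e. `p ℓ(A) = p A + ℓ(A^q)`. -/
theorem p_mul_log {τ : Type*} (hn : 1 ≤ n) {A : MvPowerSeries τ ℚ_[p]}
    (hA : constantCoeff A = 0) (e : τ →₀ ℕ) :
    (p : ℚ_[p]) * coeff e (PowerSeries.subst A (hondaLog p n) : MvPowerSeries τ ℚ_[p]) =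
      (p : ℚ_[p]) * coeff e A +
        coeff e (PowerSeries.subst (A ^ (p ^ n)) (hondaLog p n) : MvPowerSeries τ ℚ_[p]) := by
  have hq := two_le_q (p := p) hn
  have hp0 : (p : ℚ_[p]) ≠ 0 := by exact_mod_cast (Fact.out : p.Prime).ne_zero
  have hAq : constantCoeff (A ^ (p ^ n)) = 0 := by
    rw [map_pow, hA, zero_pow (by omega)]
  have hlast : coeff e ((A ^ (p ^ n)) ^ ((p ^ n) ^ (degree e))) = 0 := by
    apply coeff_eq_zero_of_constantCoeff_nilpotent (m := 1) (by rw [hAq]; simp)
    have := Nat.lt_pow_self (n := degree e) (show 1 < p ^ n by omega)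
    omega
  rw [hondaLog_eq, coeff_subst_lser' hq _ (by simp) hA, mul_add,
    coeff_subst_lser hq _ hAq e (Nat.lt_succ_self _), Finset.sum_range_succ, hlast, mul_zero,
    add_zero, Finset.mul_sum]
  congr 1
  refine Finset.sum_congr rfl (fun i _ => ?_)
  have h1 : A ^ ((p ^ n) ^ (i + 1)) = (A ^ (p ^ n)) ^ ((p ^ n) ^ i) := by
    rw [pow_succ' (p ^ n) i, pow_mul A]
  rw [h1, pow_succ (p : ℚ_[p]) i]
  field_simp

/-- reduction of `F̃(X^q)` and `F̃^q`. -/
theorem dvd_expand_sub_pow {τ : Type*} (hq0 : p ^ n ≠ 0) (A : MvPowerSeries τ ℤ_[p])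
    (e : τ →₀ ℕ) :
    (p : ℤ_[p]) ∣ coeff e (MvPowerSeries.expand (p ^ n) hq0 A) - coeff e (A ^ (p ^ n)) := by
  have h1 : (MvPowerSeries.expand (p ^ n) hq0 A).map PadicInt.toZMod =
      (A ^ (p ^ n)).map PadicInt.toZMod := by
    have hp : p ≠ 0 := (Fact.out : p.Prime).ne_zero
    have h0 := map_iterateFrobenius_expand p hp (A.map (PadicInt.toZMod (p := p))) n
    have h1 : iterateFrobenius (ZMod p) p n = RingHom.id (ZMod p) := by
      ext x
      rw [iterateFrobenius_def, RingHom.id_apply]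
      exact ZMod.pow_card_pow x
    rw [h1, map_id] at h0
    rw [map_expand, map_pow]
    exact h0
  have h2 := congrArg (coeff e) h1
  rw [coeff_map, coeff_map, ← sub_eq_zero, ← map_sub] at h2
  have h3 : coeff e (MvPowerSeries.expand (p ^ n) hq0 A) - coeff e (A ^ (p ^ n)) ∈
      RingHom.ker (PadicInt.toZMod (p := p)) := h2
  rw [PadicInt.ker_toZMod, PadicInt.maximalIdeal_eq_span_p, Ideal.mem_span_singleton] at h3
  exact h3

/-- the solution of `ℓ(F) = ℓ(X) + ℓ(Y)`. -/
theorem exists_FQ (hn : 1 ≤ n) : ∃ F : MvPowerSeries (Fin 2) ℚ_[p], constantCoeff F = 0 ∧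
    (PowerSeries.subst F (hondaLog p n) : MvPowerSeries (Fin 2) ℚ_[p]) =
      PowerSeries.subst (X 0 : MvPowerSeries (Fin 2) ℚ_[p]) (hondaLog p n) +
        PowerSeries.subst (X 1 : MvPowerSeries (Fin 2) ℚ_[p]) (hondaLog p n) := by
  have hq := two_le_q (p := p) hn
  have h0 : ∀ i : Fin 2, constantCoeff (PowerSeries.subst (X i : MvPowerSeries (Fin 2) ℚ_[p])
      (hondaLog p n) : MvPowerSeries (Fin 2) ℚ_[p]) = 0 := by
    intro i
    rw [← coeff_zero_eq_constantCoeff_apply, hondaLog_eq,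
      coeff_subst_lser hq _ (constantCoeff_X i) 0 (M := 1) (by simp)]
    simp
  have h1 := lser_surjective hq (fun i => ((p : ℚ_[p]) ^ i)⁻¹) (by simp)
    (PowerSeries.subst (X 0 : MvPowerSeries (Fin 2) ℚ_[p]) (hondaLog p n) +
        PowerSeries.subst (X 1 : MvPowerSeries (Fin 2) ℚ_[p]) (hondaLog p n))
    (by rw [map_add, h0, h0, add_zero])
  rw [← hondaLog_eq] at h1
  exact h1

theorem expand_log {τ : Type*} (hq0 : p ^ n ≠ 0) {A : MvPowerSeries τ ℚ_[p]}
    (hA : constantCoeff A = 0) (f : PowerSeries ℚ_[p]) :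
    MvPowerSeries.expand (p ^ n) hq0 (PowerSeries.subst A f : MvPowerSeries τ ℚ_[p]) =
      PowerSeries.subst (MvPowerSeries.expand (p ^ n) hq0 A) f := by
  rw [PowerSeries.subst_def, PowerSeries.subst_def]
  have hs : PowerSeries.HasSubst A := PowerSeries.HasSubst.of_constantCoeff_zero hA
  exact expand_subst (p ^ n) hq0 hs.const

/-- integrality. -/
theorem integral_FQ (hn : 1 ≤ n) {F : MvPowerSeries (Fin 2) ℚ_[p]} (hF0 : constantCoeff F = 0)
    (hF : (PowerSeries.subst F (hondaLog p n) : MvPowerSeries (Fin 2) ℚ_[p]) =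
      PowerSeries.subst (X 0 : MvPowerSeries (Fin 2) ℚ_[p]) (hondaLog p n) +
        PowerSeries.subst (X 1 : MvPowerSeries (Fin 2) ℚ_[p]) (hondaLog p n)) :
    ∀ e, ∃ z : ℤ_[p], coeff e F = (z : ℚ_[p]) := by
  classical
  have hq := two_le_q (p := p) hn
  have hq0 : p ^ n ≠ 0 := by omega
  have hp0 : (p : ℚ_[p]) ≠ 0 := by exact_mod_cast (Fact.out : p.Prime).ne_zero
  have key : ∀ d : ℕ, ∀ e : Fin 2 →₀ ℕ, degree e < d → ∃ z : ℤ_[p], coeff e F = (z : ℚ_[p]) := by
    intro d
    induction d with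
    | zero => intro e he; omega
    | succ d ih =>
      intro e he
      -- the truncated lift
      choose z hz using ih
      let Ft : MvPowerSeries (Fin 2) ℤ_[p] := fun f => if h : degree f < d then z f h else 0
      have hFt : ∀ f, coeff f Ft = if h : degree f < d then z f h else 0 := fun _ => rfl
      have hcoe : Function.Injective (fun z : ℤ_[p] => (z : ℚ_[p])) := Subtype.coe_injective
      have hFt0 : constantCoeff Ft = 0 := by
        rw [← coeff_zero_eq_constantCoeff_apply, hFt]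
        split_ifs with h
        · apply hcoe
          show (z 0 h : ℚ_[p]) = ((0 : ℤ_[p]) : ℚ_[p])
          rw [← hz, coeff_zero_eq_constantCoeff_apply, hF0]
          simp
        · rfl
      have hagree : AgreeLT d (toQ Ft) F := by
        intro f hf
        rw [toQ, coeff_map, hFt, dif_pos hf, hz f hf]
        rfl
      have hFtQ0 : constantCoeff (toQ Ft) = 0 := by
        rw [toQ, constantCoeff_map, hFt0, map_zero]
      -- the two sides
      set A : MvPowerSeries (Fin 2) ℤ_[p] := MvPowerSeries.expand (p ^ n) hq0 Ft with hAdef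
      set B : MvPowerSeries (Fin 2) ℤ_[p] := Ft ^ (p ^ n) with hBdef
      have hA0 : constantCoeff A = 0 := by rw [hAdef, constantCoeff_expand, hFt0]
      have hB0 : constantCoeff B = 0 := by rw [hBdef, map_pow, hFt0, zero_pow hq0]
      have hAQ : toQ A = MvPowerSeries.expand (p ^ n) hq0 (toQ Ft) := by
        rw [hAdef, toQ, map_expand]
      have hBQ : toQ B = toQ Ft ^ (p ^ n) := by rw [hBdef, toQ, map_pow]
      have hcong : CongLT p (degree e) A B := fun f _ => dvd_expand_sub_pow hq0 Ft f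
      have hA0' : constantCoeff (toQ A) = 0 := by rw [toQ, constantCoeff_map, hA0, map_zero]
      have hB0' : constantCoeff (toQ B) = 0 := by rw [toQ, constantCoeff_map, hB0, map_zero]
      have hFe0 : constantCoeff (MvPowerSeries.expand (p ^ n) hq0 F) = 0 := by
        rw [constantCoeff_expand, hF0]
      have hFq0 : constantCoeff (F ^ (p ^ n)) = 0 := by rw [map_pow, hF0, zero_pow hq0]
      -- replace by truncations
      have h1 : coeff e (PowerSeries.subst (MvPowerSeries.expand (p ^ n) hq0 F) (hondaLog p n) :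
          MvPowerSeries (Fin 2) ℚ_[p]) =
          coeff e (PowerSeries.subst (toQ A) (hondaLog p n) : MvPowerSeries (Fin 2) ℚ_[p]) := by
        rw [hondaLog_eq]
        refine (AgreeLT.lser hq _ (d := d + 1) ?_ hFe0 hA0') e he
        rw [hAQ]
        intro f hf
        exact (hagree.expand hq hFtQ0 hF0 f hf).symm
      have h2 : coeff e (PowerSeries.subst (F ^ (p ^ n)) (hondaLog p n) :
          MvPowerSeries (Fin 2) ℚ_[p]) =
          coeff e (PowerSeries.subst (toQ B) (hondaLog p n) : MvPowerSeries (Fin 2) ℚ_[p]) := by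
        rw [hondaLog_eq]
        refine (AgreeLT.lser hq _ (d := d + 1) ?_ hFq0 hB0') e he
        rw [hBQ]
        intro f hf
        exact (hagree.pow hFtQ0 hF0 hq f hf).symm
      -- the main equation
      have h3 := p_mul_log hn hF0 e
      have h4 : (p : ℚ_[p]) * coeff e (PowerSeries.subst F (hondaLog p n) :
          MvPowerSeries (Fin 2) ℚ_[p]) = (p : ℚ_[p]) * coeff e (X 0 + X 1) +
          coeff e (PowerSeries.subst (MvPowerSeries.expand (p ^ n) hq0 F) (hondaLog p n) :
            MvPowerSeries (Fin 2) ℚ_[p]) := by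
        have h4' : MvPowerSeries.expand (p ^ n) hq0
            (PowerSeries.subst (X 0 : MvPowerSeries (Fin 2) ℚ_[p]) (hondaLog p n) +
              PowerSeries.subst (X 1 : MvPowerSeries (Fin 2) ℚ_[p]) (hondaLog p n)) =
            PowerSeries.subst ((X 0 : MvPowerSeries (Fin 2) ℚ_[p]) ^ (p ^ n)) (hondaLog p n) +
              PowerSeries.subst ((X 1 : MvPowerSeries (Fin 2) ℚ_[p]) ^ (p ^ n))
                (hondaLog p n) := by
          rw [map_add, expand_log hq0 (constantCoeff_X 0),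
            expand_log hq0 (constantCoeff_X 1), expand_X, expand_X]
        rw [← expand_log hq0 hF0, hF, h4', map_add, map_add, map_add, mul_add,
          p_mul_log hn (constantCoeff_X 0), p_mul_log hn (constantCoeff_X 1)]
        ring
      -- difference of the logarithms
      obtain ⟨w0, hw0⟩ := dvd_expand_sub_pow hq0 Ft e
      have h5 := fun i => tail_congr hn hcong hA0 hB0 e le_rfl i
      choose w hw using h5
      have h6 : coeff e (PowerSeries.subst (toQ A) (hondaLog p n) :
            MvPowerSeries (Fin 2) ℚ_[p]) -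
          coeff e (PowerSeries.subst (toQ B) (hondaLog p n) : MvPowerSeries (Fin 2) ℚ_[p]) =
          (p : ℚ_[p]) * ((w0 + ∑ i ∈ Finset.range (degree e), w i : ℤ_[p]) : ℚ_[p]) := by
        rw [hondaLog_eq, coeff_subst_lser' hq _ (by simp) hA0',
          coeff_subst_lser' hq _ (by simp) hB0']
        have h7 : ∑ i ∈ Finset.range (degree e),
              ((p : ℚ_[p]) ^ (i + 1))⁻¹ * coeff e (toQ A ^ ((p ^ n) ^ (i + 1))) -
            ∑ i ∈ Finset.range (degree e),
              ((p : ℚ_[p]) ^ (i + 1))⁻¹ * coeff e (toQ B ^ ((p ^ n) ^ (i + 1))) =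
            (p : ℚ_[p]) * ((∑ i ∈ Finset.range (degree e), w i : ℤ_[p]) : ℚ_[p]) := by
          rw [← Finset.sum_sub_distrib, PadicInt.coe_sum, Finset.mul_sum]
          exact Finset.sum_congr rfl (fun i _ => hw i)
        have h8 : coeff e (toQ A) - coeff e (toQ B) = (p : ℚ_[p]) * (w0 : ℚ_[p]) := by
          have h9 : coeff e (toQ A) = ((coeff e A : ℤ_[p]) : ℚ_[p]) := by rw [toQ, coeff_map]; rfl
          have h10 : coeff e (toQ B) = ((coeff e B : ℤ_[p]) : ℚ_[p]) := by
            rw [toQ, coeff_map]; rfl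
          rw [h9, h10, ← PadicInt.coe_sub, hAdef, hBdef, hw0, PadicInt.coe_mul,
            PadicInt.coe_natCast]
        rw [PadicInt.coe_add, mul_add]
        linear_combination h7 + h8
      have h11 : coeff e F = coeff e (X 0 + X 1 : MvPowerSeries (Fin 2) ℚ_[p]) +
          ((w0 + ∑ i ∈ Finset.range (degree e), w i : ℤ_[p]) : ℚ_[p]) := by
        apply mul_left_cancel₀ hp0
        rw [mul_add, ← h6, ← h1, ← h2]
        linear_combination h4 - h3
      refine ⟨coeff e (X 0 + X 1 : MvPowerSeries (Fin 2) ℤ_[p]) +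
        (w0 + ∑ i ∈ Finset.range (degree e), w i), ?_⟩
      rw [h11, PadicInt.coe_add]
      congr 1
      have h12 : (X 0 + X 1 : MvPowerSeries (Fin 2) ℚ_[p]) =
          toQ (X 0 + X 1 : MvPowerSeries (Fin 2) ℤ_[p]) := by
        rw [toQ, map_add, map_X, map_X]
      rw [h12, toQ, coeff_map]
      rfl
  intro e
  exact key (degree e + 1) e (Nat.lt_succ_self _)

/-- additivity of the logarithm for general arguments. -/
theorem log_subst {τ : Type*} {F : MvPowerSeries (Fin 2) ℚ_[p]} (hF0 : constantCoeff F = 0)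
    (hF : (PowerSeries.subst F (hondaLog p n) : MvPowerSeries (Fin 2) ℚ_[p]) =
      PowerSeries.subst (X 0 : MvPowerSeries (Fin 2) ℚ_[p]) (hondaLog p n) +
        PowerSeries.subst (X 1 : MvPowerSeries (Fin 2) ℚ_[p]) (hondaLog p n))
    {a b : MvPowerSeries τ ℚ_[p]} (ha : constantCoeff a = 0) (hb : constantCoeff b = 0) :
    (PowerSeries.subst (MvPowerSeries.subst ![a, b] F) (hondaLog p n) : MvPowerSeries τ ℚ_[p]) =
      PowerSeries.subst a (hondaLog p n) + PowerSeries.subst b (hondaLog p n) := by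
  have hs : MvPowerSeries.HasSubst ![a, b] := by
    apply hasSubst_of_constantCoeff_zero
    intro i
    fin_cases i
    · exact ha
    · exact hb
  have hsF : PowerSeries.HasSubst F := PowerSeries.HasSubst.of_constantCoeff_zero hF0
  have h1 : ∀ (G : MvPowerSeries (Fin 2) ℚ_[p]) (hG : constantCoeff G = 0),
      MvPowerSeries.subst ![a, b] (PowerSeries.subst G (hondaLog p n) :
        MvPowerSeries (Fin 2) ℚ_[p]) =
      PowerSeries.subst (MvPowerSeries.subst ![a, b] G) (hondaLog p n) := by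
    intro G hG
    rw [PowerSeries.subst_def, PowerSeries.subst_def]
    exact subst_comp_subst_apply (PowerSeries.HasSubst.of_constantCoeff_zero hG).const hs _
  rw [← h1 F hF0, hF, subst_add hs, h1 _ (constantCoeff_X 0), h1 _ (constantCoeff_X 1),
    subst_X hs, subst_X hs]
  rfl

/-- **The Honda formal group law exists.** -/
theorem exists_isHonda (hn : 1 ≤ n) : ∃ Γ : FormalGroup (ZMod p), IsHonda p n Γ := by
  obtain ⟨F, hF0, hF⟩ := exists_FQ (p := p) hn
  have hint := integral_FQ hn hF0 hF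
  choose z hz using hint
  have hq := two_le_q (p := p) hn
  have hcoe : Function.Injective (algebraMap ℤ_[p] ℚ_[p]) := Subtype.coe_injective
  let Hs : MvPowerSeries (Fin 2) ℤ_[p] := fun e => z e
  have hHs : toQ Hs = F := by
    ext e
    rw [toQ, coeff_map, hz e]
    rfl
  have hHs0 : constantCoeff Hs = 0 := by
    apply hcoe
    rw [← constantCoeff_map, map_zero]
    exact (congrArg _ hHs).trans hF0
  have hlin : ∀ i : Fin 2, coeff (single i 1) F = 1 := by
    intro i
    have hd : degree (single i 1 : Fin 2 →₀ ℕ) = 1 := by simp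
    have h1 := congrArg (coeff (single i 1)) hF
    rw [hondaLog_eq, map_add, coeff_subst_lser_of_degree_one hq _ (by simp) hF0 hd,
      coeff_subst_lser_of_degree_one hq _ (by simp) (constantCoeff_X 0) hd,
      coeff_subst_lser_of_degree_one hq _ (by simp) (constantCoeff_X 1) hd] at h1
    rw [h1]
    fin_cases i
    · simp [coeff_index_single_X]
    · simp [coeff_index_single_X]
  have hlin' : ∀ i : Fin 2, coeff (single i 1) Hs = 1 := by
    intro i
    apply hcoe
    rw [← coeff_map, map_one]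
    exact (congrArg _ hHs).trans (hlin i)
  have hmap2 : ∀ (τ : Type) (a b : MvPowerSeries τ ℤ_[p]), constantCoeff a = 0 →
      constantCoeff b = 0 → toQ (MvPowerSeries.subst ![a, b] Hs) =
        MvPowerSeries.subst ![toQ a, toQ b] F := by
    intro τ a b ha hb
    have hs : MvPowerSeries.HasSubst ![a, b] := by
      apply hasSubst_of_constantCoeff_zero
      intro i
      fin_cases i
      · exact ha
      · exact hb
    rw [toQ, map_subst hs]
    have h1 : (fun i => MvPowerSeries.map (algebraMap ℤ_[p] ℚ_[p]) (![a, b] i)) =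
        ![toQ a, toQ b] := by
      ext1 i
      fin_cases i <;> rfl
    rw [h1]
    exact congrArg _ hHs
  have hc2 : ∀ (τ : Type) (a b : MvPowerSeries τ ℤ_[p]), constantCoeff a = 0 →
      constantCoeff b = 0 → constantCoeff (MvPowerSeries.subst ![a, b] Hs) = 0 := by
    intro τ a b ha hb
    apply constantCoeff_subst_eq_zero
    · apply hasSubst_of_constantCoeff_zero
      intro i
      fin_cases i
      · exact ha
      · exact hb
    · intro i
      fin_cases i
      · exact ha
      · exact hb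
    · exact hHs0
  have hQ0 : ∀ (τ : Type) (a : MvPowerSeries τ ℤ_[p]), constantCoeff a = 0 →
      constantCoeff (toQ a) = 0 := by
    intro τ a ha
    rw [toQ, constantCoeff_map, ha, map_zero]
  have hinjQ : ∀ (τ : Type) (a b : MvPowerSeries τ ℤ_[p]), toQ a = toQ b → a = b := by
    intro τ a b hab
    ext1 e
    apply hcoe
    rw [← coeff_map, ← coeff_map]
    exact congrArg _ hab
  let H : FormalGroup ℤ_[p] :=
    { toPowerSeries := Hs
      zero_constantCoeff := hHs0
      lin_coeff_X := hlin' 0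
      lin_coeff_Y := hlin' 1
      assoc := by
        have hX : ∀ i : Fin 3, constantCoeff (X i : MvPowerSeries (Fin 3) ℤ_[p]) = 0 :=
          fun i => constantCoeff_X i
        have h01 := hc2 (Fin 3) (X 0) (X 1) (hX 0) (hX 1)
        have h12 := hc2 (Fin 3) (X 1) (X 2) (hX 1) (hX 2)
        apply hinjQ
        rw [hmap2 _ _ _ h01 (hX 2), hmap2 _ _ _ (hX 0) h12, hmap2 _ _ _ (hX 0) (hX 1),
          hmap2 _ _ _ (hX 1) (hX 2)]
        have hA0 : constantCoeff (MvPowerSeries.subst ![toQ (X 0 : MvPowerSeries (Fin 3) ℤ_[p]),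
            toQ (X 1)] F) = 0 := by
          rw [← hmap2 _ _ _ (hX 0) (hX 1)]
          exact hQ0 _ _ h01
        have hB0 : constantCoeff (MvPowerSeries.subst ![toQ (X 1 : MvPowerSeries (Fin 3) ℤ_[p]),
            toQ (X 2)] F) = 0 := by
          rw [← hmap2 _ _ _ (hX 1) (hX 2)]
          exact hQ0 _ _ h12
        have hL0 : constantCoeff (MvPowerSeries.subst ![MvPowerSeries.subst
            ![toQ (X 0 : MvPowerSeries (Fin 3) ℤ_[p]), toQ (X 1)] F, toQ (X 2)] F) = 0 := by
          rw [← hmap2 _ _ _ (hX 0) (hX 1), ← hmap2 _ _ _ h01 (hX 2)]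
          exact hQ0 _ _ (hc2 _ _ _ h01 (hX 2))
        have hR0 : constantCoeff (MvPowerSeries.subst
            ![toQ (X 0 : MvPowerSeries (Fin 3) ℤ_[p]), MvPowerSeries.subst
            ![toQ (X 1 : MvPowerSeries (Fin 3) ℤ_[p]), toQ (X 2)] F] F) = 0 := by
          rw [← hmap2 _ _ _ (hX 1) (hX 2), ← hmap2 _ _ _ (hX 0) h12]
          exact hQ0 _ _ (hc2 _ _ _ (hX 0) h12)
        apply lser_injective hq (fun i => ((p : ℚ_[p]) ^ i)⁻¹) (by simp) hL0 hR0
        rw [← hondaLog_eq, log_subst hF0 hF hA0 (hQ0 _ _ (hX 2)),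
          log_subst hF0 hF (hQ0 _ _ (hX 0)) (hQ0 _ _ (hX 1)),
          log_subst hF0 hF (hQ0 _ _ (hX 0)) hB0,
          log_subst hF0 hF (hQ0 _ _ (hX 1)) (hQ0 _ _ (hX 2)), add_assoc] }
  refine ⟨H.map PadicInt.toZMod, H, rfl, ?_⟩
  have h1 : (H.map (algebraMap ℤ_[p] ℚ_[p])).toPowerSeries = F := hHs
  rw [h1]
  exact hF

end Padic2


end Vale.Agent.P251.F
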