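import Vale.Agent.P251.F.HondaMain

/-!
# P251, part F: the Honda law over the `p`-adic integers
-/

namespace Vale.Agent.P251.F

open MvPowerSeries Vale.Agent.P217

universe u

variable {p h : ℕ} [hp : Fact p.Prime]

/-- A ring homomorphism from the `p`-adic integers to a ring of characteristic `p` factors through
the reduction modulo `p`. -/
theorem padicInt_hom_eq {k : Type u} [CommRing k] [CharP k p] (g : ℤ_[p] →+* k) :
    g = (ZMod.castHom (dvd_refl p) k).comp PadicInt.toZMod := by
  ext x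
  have h1 := PadicInt.toZMod_spec x
  rw [PadicInt.maximalIdeal_eq_span_p, Ideal.mem_span_singleton] at h1
  obtain ⟨y, hy⟩ := h1
  have h2 : g (x - (ZMod.cast (PadicInt.toZMod x) : ℤ_[p])) = 0 := by
    rw [hy, map_mul, map_natCast, CharP.cast_eq_zero, zero_mul]
  rw [map_sub, sub_eq_zero] at h2
  rw [h2, RingHom.comp_apply, ZMod.castHom_apply, ← ZMod.natCast_val, ← ZMod.natCast_val,
    map_natCast]

/-- The Honda law over the `p`-adic integers: commutative, with logarithm `hondaLog`, coefficients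
only in total degrees congruent to `1` modulo `p^h - 1`, and every base change to a field with
`p^h` elements is Honda-like. -/
theorem exists_hondaLift (hh : 1 ≤ h) : ∃ F : FormalGroup ℤ_[p], F.IsComm ∧
    IsLog (F.map (algebraMap ℤ_[p] ℚ_[p])) (hondaLog p h) ∧
    (∀ d : Fin 2 →₀ ℕ, coeff d F.toPowerSeries ≠ 0 → ∃ j, d 0 + d 1 = 1 + (p ^ h - 1) * j) ∧
    ∀ (k : Type u) [Field k] [CharP k p], Nat.card k = p ^ h → ∀ g : ℤ_[p] →+* k,
      (F.map g).IsComm ∧ HondaOver p h (F.map g) := by
  obtain ⟨Γ, hΓ⟩ := exists_isHonda (p := p) hh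
  obtain ⟨F, h1, h2⟩ := hΓ.exists_logL hh
  have h3 : F.IsComm := IsHonda.lift_commL h2
  refine ⟨F, h3, h2, lift_coeff_eq_zero hh h2, fun k _ _ hk g => ⟨isComm_map g F, ?_⟩⟩
  have h4 : F.map g = Γ.map (ZMod.castHom (dvd_refl p) k) := by
    rw [← h1, padicInt_hom_eq g]
    rfl
  rw [h4]
  exact hondaOver_of_isHonda hΓ hh hk _

end Vale.Agent.P251.F
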