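import Vale.Agent.P251.F.GCob

/-!
# P251, part F (F6b): removing the residue field, descent for `N → T`

`InvBasis G ι b`: the invariants of `T` are the free `N`-module on the constants `b i`.
Main result: `descent_N`.
-/

namespace Vale.Agent.P251.F

open LawRing Vale.Agent.P251.C

/-- The invariants of `T` are the direct sum of the `b i * ι(N)`, the `b i` are constants (functions
invariant under all coordinate changes), and one of the `b i` is `1`. -/
structure InvBasis (G : Type*) {N T I : Type} [Group G] [CommRing N] [CommRing T] [LawRing T]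
    [MulSemiringAction G T] [Fintype I] (ι : N →+* T) (b : I → T) (i₀ : I) : Prop where
  one : b i₀ = 1
  const : ∀ (B : Type) [CommRing B] (g : InvSeries B) (x : T →+* B) (i : I),
    act g x (b i) = x (b i)
  fix : ∀ (γ : G) (n : N), γ • ι n = ι n
  exist : ∀ t : T, (∀ γ : G, γ • t = t) → ∃ n : I → N, t = ∑ i, b i * ι (n i)
  uniq : ∀ n : I → N, ∑ i, b i * ι (n i) = 0 → n = 0

section Const

variable {T : Type} [CommRing T] [LawRing T] {n m : ℕ}

theorem Cob.map_const {b : T} (hb : ∀ (B : Type) [CommRing B] (g : InvSeries B) (x : T →+* B),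
    act g x b = x b) (α : Fin (m + 1) → Fin (n + 1)) :
    Cob.map α (MvPolynomial.C b : Cob T m) = MvPolynomial.C b := by
  apply Cob.ext_ev
  intro B _ c
  rw [Cob.ev_map_res, Cob.ev_C, Cob.ev_C, Chain.res_pt, hb]

theorem Cob.d_const_mul {b : T} (hb : ∀ (B : Type) [CommRing B] (g : InvSeries B) (x : T →+* B),
    act g x b = x b) (x : Cob T n) :
    Cob.d n (MvPolynomial.C b * x) = MvPolynomial.C b * Cob.d n x := by
  rw [Cob.d_apply, Cob.d_apply, Finset.mul_sum]
  refine Finset.sum_congr rfl fun i _ => ?_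
  rw [_root_.map_mul, Cob.map_const hb, mul_smul_comm]

end Const

section

variable {G : Type*} {N T I : Type} [Group G] [CommRing N] [CommRing T] [LawRing T]
  [MulSemiringAction G T] [Fintype I] {ι : N →+* T} {b : I → T} {i₀ : I}

omit [LawRing T] in
theorem InvBasis.coeff_sum (n : ℕ) (y : I → Cob N n) (m : Fin n × ℕ →₀ ℕ) :
    (∑ i, MvPolynomial.C (b i) * Cob.mapRing ι n (y i)).coeff m =
      ∑ i, b i * ι ((y i).coeff m) := by
  rw [MvPolynomial.coeff_sum]
  refine Finset.sum_congr rfl fun i _ => ?_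
  rw [MvPolynomial.coeff_C_mul, Cob.mapRing, MvPolynomial.coeff_map]

theorem InvBasis.exist_cob (h : InvBasis G ι b i₀) {n : ℕ} (y : Cob T n)
    (hy : ∀ γ : G, γ • y = y) :
    ∃ y' : I → Cob N n, y = ∑ i, MvPolynomial.C (b i) * Cob.mapRing ι n (y' i) := by
  classical
  have h1 : ∀ m, ∃ c : I → N, y.coeff m = ∑ i, b i * ι (c i) := fun m =>
    h.exist _ fun γ => (smul_eq_self_iff γ y).1 (hy γ) m
  choose c hc using h1
  refine ⟨fun i => ∑ m ∈ y.support, MvPolynomial.monomial m (c m i), ?_⟩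
  ext m
  rw [InvBasis.coeff_sum]
  have h2 : ∀ i, (∑ m' ∈ y.support, MvPolynomial.monomial m' (c m' i) : Cob N n).coeff m =
      if m ∈ y.support then c m i else 0 := by
    intro i
    rw [MvPolynomial.coeff_sum]
    simp only [MvPolynomial.coeff_monomial]
    rw [Finset.sum_ite_eq']
  simp only [h2]
  split_ifs with hm
  · exact hc m
  · rw [MvPolynomial.notMem_support_iff.1 hm]
    simp

theorem InvBasis.uniq_cob (h : InvBasis G ι b i₀) {n : ℕ} (y y' : I → Cob N n)
    (hy : ∑ i, MvPolynomial.C (b i) * Cob.mapRing ι n (y i) =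
      ∑ i, MvPolynomial.C (b i) * Cob.mapRing ι n (y' i)) : y = y' := by
  funext i
  ext m
  have h1 := congrArg (fun z : Cob T n => z.coeff m) hy
  simp only [InvBasis.coeff_sum] at h1
  have h2 := h.uniq (fun i => (y i).coeff m - (y' i).coeff m) (by
    simp only [map_sub, mul_sub, Finset.sum_sub_distrib, h1, sub_self])
  exact sub_eq_zero.1 (congrFun h2 i)

theorem InvBasis.fix_cob (h : InvBasis G ι b i₀) {n : ℕ} (y : Cob N n) (γ : G) :
    γ • Cob.mapRing ι n y = Cob.mapRing ι n y := by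
  rw [smul_eq_self_iff]
  intro m
  rw [Cob.mapRing, MvPolynomial.coeff_map, h.fix]

end

section Main

variable {G : Type*} [Group G] [TopologicalSpace G] [IsTopologicalGroup G] [CompactSpace G]
variable {T' T N' N I : Type} [CommRing T'] [CommRing T] [LawRing T'] [LawRing T]
  [MulSemiringAction G T'] [MulSemiringAction G T] [LawAction G T'] [LawAction G T]
  [CommRing N'] [CommRing N] [LawRing N'] [LawRing N] [Fintype I]

/-- **Descent for `N → T`.** -/
theorem descent_N [DiscMod G T'] [Framed T'] {φ : T' →+* T} (hφ : IsLawHom φ)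
    (hφG : ∀ (γ : G) (t : T'), φ (γ • t) = γ • φ t)
    (hT : ∀ a, HZero G T (a + 1))
    {ι' : N' →+* T'} (hι' : IsLawHom ι') (hfix' : ∀ (γ : G) (n : N'), γ • ι' n = ι' n)
    {ι : N →+* T} (hι : IsLawHom ι) {b : I → T} {i₀ : I} (hb : InvBasis G ι b i₀)
    {ρ : N' →+* N} (hρL : IsLawHom ρ) (hρ : φ.comp ι' = ι.comp ρ) (w : ℤ) (s : ℕ)
    (hM : HMapZero G (s + 1) (primMap hφ hφG w))
    (z : Cob N' (s + 1)) (hw : Cob.IsWt w z) (hdz : Cob.d (s + 1) z = 0) :
    ∃ y : Cob N s, Cob.IsWt w y ∧ Cob.d s y = Cob.mapRing ρ (s + 1) z := by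
  classical
  obtain ⟨y, hy, -, hdy⟩ := descent_weight hφ hφG hT w s hM (Cob.mapRing ι' (s + 1) z) (by
      intro γ
      rw [smul_eq_self_iff]
      intro m
      rw [Cob.mapRing, MvPolynomial.coeff_map, hfix'])
    (Cob.IsWt.mapRing hι' hw) (by rw [← Cob.mapRing_d hι', hdz, map_zero])
  rw [Cob.mapRing_mapRing, hρ, ← Cob.mapRing_mapRing] at hdy
  obtain ⟨c, rfl⟩ := hb.exist_cob y hy
  have h1 : Cob.d s (∑ i, MvPolynomial.C (b i) * Cob.mapRing ι s (c i)) =
      ∑ i, MvPolynomial.C (b i) * Cob.mapRing ι (s + 1) (Cob.d s (c i)) := by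
    rw [map_sum]
    refine Finset.sum_congr rfl fun i _ => ?_
    rw [Cob.d_const_mul (fun B _ g x => hb.const B g x i), Cob.mapRing_d hι]
  have h2 : Cob.mapRing ι (s + 1) (Cob.mapRing ρ (s + 1) z) =
      ∑ i, MvPolynomial.C (b i) * Cob.mapRing ι (s + 1)
        (if i = i₀ then Cob.mapRing ρ (s + 1) z else 0) := by
    rw [Finset.sum_eq_single i₀]
    · rw [if_pos rfl, hb.one, MvPolynomial.C_1, one_mul]
    · intro i _ hi
      rw [if_neg hi, map_zero, mul_zero]
    · intro hi
      exact absurd (Finset.mem_univ i₀) hi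
  rw [h1, h2] at hdy
  have h3 := congrFun (hb.uniq_cob _ _ hdy) i₀
  rw [if_pos rfl] at h3
  refine ⟨Cob.pr N s w (c i₀), Cob.isWt_pr w _, ?_⟩
  rw [← Cob.pr_d, h3, Cob.pr_eq_self (Cob.IsWt.mapRing hρL hw)]

end Main

end Vale.Agent.P251.F
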