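import Vale.Agent.P251.F.VTwist

/-!
# P251, part F: the generators of the law `b • F` over `A[b_0, b_1, …]`

`F` a law over `A` (`p = 0`) with `v_i = 0` for `i < h`; `bL F = (x + b_0 x^2 + b_1 x^3 + …) • F`
over `A[b_0, b_1, …]`. The function `kgen p h F j` is `v_{h+i}(bL F)` if `j + 2 = p ^ i` and
`xC (bL F) j` otherwise; its leading term is `- v b_j^{p^h}` resp. `d_{j+2} b_j`.
-/

namespace Vale.Agent.P251.F

open MvPowerSeries Vale.Agent.P217 Finsupp

variable {A B : Type*} [CommRing A] [CommRing B]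

/-- a strict series whose coefficients lie in a subring acts on laws over the subring. -/
theorem coeff_smul_law_mem (S : Subring B) (F : Law B) (hF : ∀ d, coeff d F.ps ∈ S) (b : ℕ → B)
    (hb : ∀ i, b i ∈ S) (d : Fin 2 →₀ ℕ) : coeff d ((strictMk b) • F).ps ∈ S := by
  obtain ⟨P, hP⟩ := exists_lift_subring S F.ps hF
  -- `F` comes from a law over `S`
  have hx : ∀ n, xC F n ∈ S := fun n => by
    rw [xC]
    exact Subring.sum_mem _ fun i _ => zsmul_mem (hF _) _
  set F' : Law S := lawOfX fun n => ⟨xC F n, hx n⟩ with hF'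
  have h1 : F'.map S.subtype = F := by
    rw [hF', map_lawOfX]
    exact lawOfX_xC F
  have h : (strictMk b) • F = ((strictMk fun i => (⟨b i, hb i⟩ : S)) • F').map S.subtype := by
    rw [InvSeries.map_smul, map_strictMk, h1]
    rfl
  rw [h, Law.map_ps, coeff_map]
  exact Subtype.mem _

/-- the leading term of `strictMk b • F` in degree `n + 2`. -/
theorem coeff_strictMk_smul_law (S : Subring B) (F : Law B) (hF : ∀ d, coeff d F.ps ∈ S)
    (b : ℕ → B) (n : ℕ) (hb : ∀ k < n, b k ∈ S) (i j : ℕ) (hi : 1 ≤ i) (hj : 1 ≤ j)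
    (hij : i + j = n + 2) :
    coeff (e2 i j) ((strictMk b) • F).ps - ((n + 2).choose i) • b n ∈ S := by
  classical
  set b' : ℕ → B := fun k => if k < n then b k else 0 with hb'
  have hb'S : ∀ k, b' k ∈ S := fun k => by
    rw [hb']
    dsimp only
    split_ifs with h
    · exact hb k h
    · exact S.zero_mem
  set f := strictMk b with hf
  set g := strictMk b' with hg
  have h1 : (f * g⁻¹) • (g • F) = f • F := by
    rw [mul_smul, inv_smul_smul]
  have h2 := mul_inv_sub_mem (f := f) (g := g) (strictMk_mem b') (n := n) (fun k hk => by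
    rcases k with _ | k
    · rw [hf, hg, c_zero_strictMk, c_zero_strictMk]
    · rw [hf, hg, c_succ_strictMk, c_succ_strictMk, hb']
      exact (if_pos (by omega)).symm)
  rw [hf, hg, c_succ_strictMk, c_succ_strictMk, ← hf, ← hg] at h2
  have h3 : b' n = 0 := if_neg (lt_irrefl n)
  rw [h3, sub_zero] at h2
  have h4 := change_of_variable (isLaw_formalGroup (g • F).toFG)
    (isLaw_formalGroup (f • F).toFG) (by omega) h2 (by
      have h5 := (InvSeries.isHom_smul (f * g⁻¹) (g • F)).2
      rw [h1] at h5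
      exact h5) (e2 i j) (by rw [degree_e2]; omega)
  have h6 : coeff (e2 i j) ((X 0 + X 1 : MvPowerSeries (Fin 2) B) ^ (n + 2) - X 0 ^ (n + 2) -
      X 1 ^ (n + 2)) = ((n + 2).choose i : B) := by
    rw [← dC_smul_CPS (by omega), ← map_natCast (MvPowerSeries.C (σ := Fin 2) (R := B)),
      coeff_C_mul, coeff_CPS (n + 2) i j hi hj hij, ← Nat.cast_mul, dC_mul_cC hi (by omega)]
  rw [map_sub, map_sub, coeff_C_mul, h6] at h4
  have h7 : coeff (e2 i j) (f • F).ps - ((n + 2).choose i) • b n =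
      coeff (e2 i j) (g • F).ps := by
    rw [nsmul_eq_mul]
    linear_combination h4
  rw [h7]
  exact coeff_smul_law_mem S F hF b' hb'S _

/-- `xC` of the law `strictMk b • F` is `d_{n+2} b_n` up to polynomials in the lower
coefficients. -/
theorem xC_strictMk_smul_law (S : Subring B) (F : Law B) (hF : ∀ d, coeff d F.ps ∈ S)
    (b : ℕ → B) (n : ℕ) (hb : ∀ k < n, b k ∈ S) :
    xC ((strictMk b) • F) n - dC (n + 2) • b n ∈ S := by
  have h1 : dC (n + 2) • b n = ∑ i ∈ Finset.Ioo 0 (n + 2), lz n i • (((n + 2).choose i) • b n) := by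
    have h2 : ∀ i ∈ Finset.Ioo 0 (n + 2), lz n i • (((n + 2).choose i) • b n) =
        (lz n i * (cC (n + 2) i : ℤ)) • (dC (n + 2) • b n) := by
      intro i hi
      rw [Finset.mem_Ioo] at hi
      rw [← dC_mul_cC (by omega) hi.2]
      simp only [zsmul_eq_mul, nsmul_eq_mul]
      push_cast
      ring
    rw [Finset.sum_congr rfl h2, ← Finset.sum_smul, lz_spec, one_smul]
  rw [h1, xC, ← Finset.sum_sub_distrib]
  refine Subring.sum_mem _ fun i hi => ?_
  rw [Finset.mem_Ioo] at hi
  rw [← smul_sub]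
  exact zsmul_mem (coeff_strictMk_smul_law S F hF b n hb i (n + 2 - i) (by omega) (by omega)
    (by omega)) _

/-- The law `(x + b_0 x^2 + b_1 x^3 + …) • F` over `A[b_0, b_1, …]`. -/
noncomputable def bL (F : Law A) : Law (MvPolynomial ℕ A) :=
  strictMk (MvPolynomial.X : ℕ → MvPolynomial ℕ A) • F.map MvPolynomial.C

/-- the subring of polynomials in the variables `X_k`, `k < n`. -/
noncomputable def belowS (A : Type*) [CommRing A] (n : ℕ) : Subring (MvPolynomial ℕ A) :=
  (below A n).toSubring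

theorem C_mem_belowS (a : A) (n : ℕ) : MvPolynomial.C a ∈ belowS A n :=
  (below A n).algebraMap_mem a

theorem X_mem_belowS {i n : ℕ} (h : i < n) :
    (MvPolynomial.X i : MvPolynomial ℕ A) ∈ belowS A n := X_mem_below h

theorem coeff_map_C_mem (F : Law A) (n : ℕ) (d : Fin 2 →₀ ℕ) :
    coeff d (F.map (MvPolynomial.C : A →+* MvPolynomial ℕ A)).ps ∈ belowS A n := by
  rw [Law.map_ps, coeff_map]
  exact C_mem_belowS _ n

theorem xC_bL (F : Law A) (n : ℕ) :
    xC (bL F) n - MvPolynomial.C (dC (n + 2) : A) * MvPolynomial.X n ∈ below A n := by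
  have h := xC_strictMk_smul_law (belowS A n) (F.map MvPolynomial.C) (coeff_map_C_mem F n)
    MvPolynomial.X n fun k hk => X_mem_belowS hk
  rw [nsmul_eq_mul] at h
  have h1 : (MvPolynomial.C (dC (n + 2) : A) : MvPolynomial ℕ A) =
      ((dC (n + 2) : ℕ) : MvPolynomial ℕ A) := map_natCast _ _
  rw [h1]
  exact h

theorem vv_map_C {p i : ℕ} (F : Law A) :
    vv p i (F.map (MvPolynomial.C : A →+* MvPolynomial ℕ A)) = MvPolynomial.C (vv p i F) :=
  vv_map p i _ F

theorem vv_bL_lt {p : ℕ} [Fact p.Prime] {h : ℕ} {F : Law A} (hF : ∀ i < h, vv p i F = 0)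
    {i : ℕ} (hi : i < h) : vv p i (bL F) = 0 :=
  (vv_smul_of_zero p h _ _ fun i hi => by rw [vv_map, hF i hi, map_zero]).1 i hi

theorem vv_bL_self {p : ℕ} [Fact p.Prime] {h : ℕ} {F : Law A} (hF : ∀ i < h, vv p i F = 0) :
    vv p h (bL F) = MvPolynomial.C (vv p h F) := by
  have h1 := (vv_smul_of_zero p h (F.map (MvPolynomial.C : A →+* MvPolynomial ℕ A))
    (strictMk MvPolynomial.X) fun i hi => by rw [vv_map, hF i hi, map_zero]).2
  rw [c_zero_strictMk, one_pow, mul_one, one_mul, vv_map] at h1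
  exact h1

theorem vv_bL_add {p : ℕ} [hp : Fact p.Prime] (hA : (p : A) = 0) {h : ℕ} {F : Law A}
    (hF : ∀ i < h, vv p i F = 0) {i : ℕ} (hi : i ≠ 0) :
    vv p (h + i) (bL F) - (MvPolynomial.C (vv p h F) ^ (p ^ i) * MvPolynomial.X (p ^ i - 2) -
      MvPolynomial.C (vv p h F) * MvPolynomial.X (p ^ i - 2) ^ (p ^ h)) ∈
        below A (p ^ i - 2) := by
  have h2 := two_le_pow hp.out hi
  have hB : ((p : ℕ) : MvPolynomial ℕ A) = 0 := by
    rw [← map_natCast (MvPolynomial.C (σ := ℕ) (R := A)), hA, map_zero]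
  have h1 := vv_add_smul_sub_mem hB (F := F.map (MvPolynomial.C : A →+* MvPolynomial ℕ A))
    (h := h) (fun i hi => by rw [vv_map, hF i hi, map_zero]) (belowS A (p ^ i - 2))
    (fun k => by
      rw [Law.map_toFG, ← map_multSeries, PowerSeries.coeff_map]
      exact C_mem_belowS _ _)
    (f := strictMk (MvPolynomial.X : ℕ → MvPolynomial ℕ A)) (strictMk_mem _) hi
    (fun k hk => by
      rcases k with _ | k
      · rw [c_zero_strictMk]
        exact Subring.one_mem _
      · rw [c_succ_strictMk]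
        exact X_mem_belowS (by omega))
  rw [show p ^ i - 1 = (p ^ i - 2) + 1 by omega, c_succ_strictMk, vv_map] at h1
  exact h1

open Classical in
/-- `v_{h+i}` if `j + 2 = p ^ i`, the generator `xC F j` otherwise. -/
noncomputable def kgen (p h : ℕ) (F : Law B) (j : ℕ) : B :=
  if hj : ∃ i, j + 2 = p ^ i then vv p (h + hj.choose) F else xC F j

theorem kgen_of_pow {p : ℕ} (hp : p.Prime) (h : ℕ) (F : Law B) {i : ℕ} (hi : i ≠ 0) :
    kgen p h F (p ^ i - 2) = vv p (h + i) F := by
  have hj : ∃ l, p ^ i - 2 + 2 = p ^ l := ⟨i, Nat.sub_add_cancel (two_le_pow hp hi)⟩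
  rw [kgen, dif_pos hj]
  have h1 : p ^ i = p ^ hj.choose :=
    (Nat.sub_add_cancel (two_le_pow hp hi)).symm.trans hj.choose_spec
  rw [← Nat.pow_right_injective hp.two_le h1]

theorem kgen_of_not {p : ℕ} (h : ℕ) (F : Law B) {j : ℕ} (hj : ¬ ∃ i, j + 2 = p ^ i) :
    kgen p h F j = xC F j := dif_neg hj

theorem map_kgen (p h : ℕ) (φ : A →+* B) (F : Law A) (j : ℕ) :
    φ (kgen p h F j) = kgen p h (F.map φ) j := by
  unfold kgen
  split_ifs with hj
  · rw [vv_map]
  · rw [map_xC]

open Classical in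
/-- the degree of the leading term of `kgen (bL F) j` in `b_j` -/
noncomputable def kdeg (p h j : ℕ) : ℕ := if ∃ i, j + 2 = p ^ i then p ^ h else 1

open Classical in
/-- the leading coefficient of `kgen (bL F) j` -/
noncomputable def klead (p : ℕ) (v : A) (j : ℕ) : A :=
  if ∃ i, j + 2 = p ^ i then -v else (dC (j + 2) : A)

theorem kdeg_pos {p : ℕ} (hp : p ≠ 0) (h j : ℕ) : 0 < kdeg p h j := by
  unfold kdeg
  split_ifs
  · exact Nat.pos_of_ne_zero (pow_ne_zero _ hp)
  · exact one_pos

theorem isUnit_natCast_of_coprime {p m : ℕ} (hA : (p : A) = 0) (h : Nat.Coprime m p) :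
    IsUnit (m : A) := by
  have h1 := (Nat.isCoprime_iff_coprime.2 h)
  obtain ⟨a, b, hab⟩ := h1
  have h2 := congrArg (Int.cast : ℤ → A) hab
  push_cast at h2
  rw [hA, mul_zero, add_zero] at h2
  exact IsUnit.of_mul_eq_one _ ((mul_comm _ _).trans h2)

theorem isUnit_klead {p : ℕ} [hp : Fact p.Prime] (hA : (p : A) = 0) {v : A} (hv : IsUnit v)
    (j : ℕ) : IsUnit (klead p v j) := by
  unfold klead
  split_ifs with h
  · exact hv.neg
  · by_cases h1 : IsPrimePow (j + 2)
    · obtain ⟨q, k, hq, hk, hqk⟩ := (isPrimePow_nat_iff _).1 h1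
      rw [← hqk, dC_pow hq hk.ne']
      apply isUnit_natCast_of_coprime hA
      rw [Nat.coprime_primes hq hp.out]
      rintro rfl
      exact h ⟨k, hqk.symm⟩
    · rw [dC_of_not h1, Nat.cast_one]
      exact isUnit_one

theorem support_of_mem_below {n : ℕ} {s : MvPolynomial ℕ A} (hs : s ∈ below A n)
    {c : ℕ →₀ ℕ} (hc : c ∈ s.support) {k : ℕ} (hk : n ≤ k) : c k = 0 := by
  by_contra h0
  have h1 : k ∈ s.vars := (MvPolynomial.mem_vars_iff_mem_support k).2 ⟨c, hc, Finsupp.mem_support_iff.2 h0⟩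
  have h2 : k < n := (MvPolynomial.mem_supported.1 hs) h1
  omega

/-- **The leading terms of the generators of `bL F`.** -/
theorem kgen_bL {p : ℕ} [hp : Fact p.Prime] (hA : (p : A) = 0) {h : ℕ} (hh : h ≠ 0) {F : Law A}
    (hF : ∀ i < h, vv p i F = 0) (j : ℕ) :
    ∃ r : MvPolynomial ℕ A, (∀ c ∈ r.support, (∀ k, j < k → c k = 0) ∧ c j < kdeg p h j) ∧
      kgen p h (bL F) j =
        MvPolynomial.C (klead p (vv p h F) j) * MvPolynomial.X j ^ kdeg p h j + r := by
  classical
  by_cases hj : ∃ i, j + 2 = p ^ i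
  · have hd : kdeg p h j = p ^ h := if_pos hj
    have hl : klead p (vv p h F) j = - vv p h F := if_pos hj
    obtain ⟨i, hi⟩ := hj
    have hi0 : i ≠ 0 := by
      rintro rfl
      rw [pow_zero] at hi
      omega
    obtain rfl : j = p ^ i - 2 := by omega
    rw [hd, hl]
    refine ⟨kgen p h (bL F) (p ^ i - 2) - MvPolynomial.C (-vv p h F) *
      MvPolynomial.X (p ^ i - 2) ^ p ^ h, ?_, by ring⟩
    have h1 := vv_bL_add hA hF hi0
    set s := vv p (h + i) (bL F) - (MvPolynomial.C (vv p h F) ^ (p ^ i) *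
      MvPolynomial.X (p ^ i - 2) - MvPolynomial.C (vv p h F) *
        MvPolynomial.X (p ^ i - 2) ^ (p ^ h)) with hs
    have h2 : kgen p h (bL F) (p ^ i - 2) - MvPolynomial.C (-vv p h F) *
        MvPolynomial.X (p ^ i - 2) ^ p ^ h =
        s + MvPolynomial.C (vv p h F ^ (p ^ i)) * MvPolynomial.X (p ^ i - 2) := by
      rw [kgen_of_pow hp.out h _ hi0, hs, map_neg, map_pow]
      ring
    rw [h2]
    have hq : 1 < p ^ h := Nat.one_lt_pow hh hp.out.one_lt
    intro c hc
    rcases Finset.mem_union.1 (MvPolynomial.support_add hc) with hc | hc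
    · refine ⟨fun k hk => support_of_mem_below h1 hc hk.le, ?_⟩
      rw [support_of_mem_below h1 hc le_rfl]
      omega
    · rw [MvPolynomial.C_mul_X_eq_monomial] at hc
      have h3 := Finset.mem_singleton.1 (MvPolynomial.support_monomial_subset hc)
      subst h3
      refine ⟨fun k hk => ?_, ?_⟩
      · rw [Finsupp.single_apply, if_neg (by omega)]
      · rw [Finsupp.single_eq_same]
        exact hq
  · have hd : kdeg p h j = 1 := if_neg hj
    have hl : klead p (vv p h F) j = (dC (j + 2) : A) := if_neg hj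
    rw [hd, hl, pow_one]
    refine ⟨kgen p h (bL F) j - MvPolynomial.C (dC (j + 2) : A) * MvPolynomial.X j, ?_, by ring⟩
    rw [kgen_of_not h _ hj]
    intro c hc
    refine ⟨fun k hk => support_of_mem_below (xC_bL F j) hc hk.le, ?_⟩
    rw [support_of_mem_below (xC_bL F j) hc le_rfl]
    exact one_pos

end Vale.Agent.P251.F
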