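/-
P251, part F (F5): kernels of `OInv E → OInv E'`, and flatness of `OInv E` for a twisted
structure. Author: helper288.

* `OInv.mapE_surjective`, `OInv.ker_mapE`;
* `OInv.tensor_bijective : OInv k ⊗[k] E ≃ OInv E`;
* `OInv.flat_of_twist`: `OInv E` is flat over `Λ ≃ E` for every `Λ`-algebra structure
  which generates the same ideal.
-/
import Vale.Agent.P251.F.OInv
import Vale.Agent.P251.F.ThickFlat
import Mathlib.RingTheory.OrzechProperty
import Mathlib.RingTheory.FiniteType
import Mathlib.RingTheory.TensorProduct.Finite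
import Mathlib.RingTheory.TensorProduct.Maps
import Mathlib.RingTheory.Flat.Stability

open TensorProduct

namespace Vale.Agent.P251.F

universe u

namespace OInv

section Ker

variable {E E' : Type u} [CommRing E] [CommRing E'] {φ : E →+* E'}

theorem exists_section (hφ : Function.Surjective φ) :
    ∃ g : OInv E' →+* OInv E ⧸ (RingHom.ker φ).map (inc E),
      g.comp (mapE φ) = Ideal.Quotient.mk _ := by
  set K := (RingHom.ker φ).map (inc E) with hK
  have hle : RingHom.ker φ ≤ RingHom.ker ((Ideal.Quotient.mk K).comp (inc E)) := by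
    intro x hx
    rw [RingHom.mem_ker, RingHom.comp_apply, Ideal.Quotient.eq_zero_iff_mem]
    exact Ideal.mem_map_of_mem _ hx
  let x : E' →+* OInv E ⧸ K := φ.liftOfSurjective hφ ⟨(Ideal.Quotient.mk K).comp (inc E), hle⟩
  have hx : x.comp φ = (Ideal.Quotient.mk K).comp (inc E) :=
    RingHom.liftOfSurjective_comp φ hφ ⟨_, hle⟩
  refine ⟨lift x (InvSeries.map (Ideal.Quotient.mk K) (f E)), ?_⟩
  rw [lift_comp_mapE, hx, lift_eta]

theorem map_ker_le : (RingHom.ker φ).map (inc E) ≤ RingHom.ker (mapE φ) := by
  rw [Ideal.map_le_iff_le_comap]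
  intro x hx
  rw [Ideal.mem_comap, RingHom.mem_ker, mapE_inc, hx, map_zero]

theorem ker_mapE (hφ : Function.Surjective φ) :
    RingHom.ker (mapE φ) = (RingHom.ker φ).map (inc E) := by
  refine le_antisymm ?_ map_ker_le
  intro x hx
  obtain ⟨g, hg⟩ := exists_section hφ
  rw [← Ideal.Quotient.eq_zero_iff_mem, ← hg, RingHom.comp_apply, hx, map_zero]

theorem mapE_surjective (hφ : Function.Surjective φ) : Function.Surjective (mapE φ) := by
  obtain ⟨g, hg⟩ := exists_section hφ
  let q : OInv E ⧸ (RingHom.ker φ).map (inc E) →+* OInv E' :=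
    Ideal.Quotient.lift _ (mapE φ) fun a ha => map_ker_le ha
  have hq : q.comp (Ideal.Quotient.mk _) = mapE φ := Ideal.Quotient.lift_comp_mk _ _ _
  have hqg : q.comp g = RingHom.id (OInv E') := by
    apply hom_ext
    · ext e'
      obtain ⟨e, rfl⟩ := hφ e'
      have : (q.comp (g.comp (mapE φ))) (inc E e) = mapE φ (inc E e) := by rw [hg, hq]
      rw [RingHom.comp_apply, RingHom.comp_apply, mapE_inc] at this
      exact this
    · have : InvSeries.map (q.comp (g.comp (mapE φ))) (f E) = f E' := by
        rw [hg, hq, map_mapE_f]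
      rw [← RingHom.comp_assoc, ← InvSeries.map_map, map_mapE_f] at this
      rw [this, InvSeries.map_id]
  intro y
  obtain ⟨x, hx⟩ := Ideal.Quotient.mk_surjective (g y)
  refine ⟨x, ?_⟩
  rw [← hq, RingHom.comp_apply, hx, ← RingHom.comp_apply, hqg, RingHom.id_apply]

end Ker

section Tensor

variable (k E : Type u) [CommRing k] [CommRing E] [Algebra k E]

theorem algebraMap_eq : algebraMap k (OInv E) = (inc E).comp (algebraMap k E) := by
  ext a
  rw [RingHom.comp_apply, inc, ← IsScalarTower.algebraMap_apply]

theorem algebraMap_self_eq : algebraMap k (OInv k) = inc k := rfl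

/-- `OInv k → OInv E` as an algebra homomorphism. -/
noncomputable def mapA : OInv k →ₐ[k] OInv E :=
  { mapE (algebraMap k E) with
    commutes' := fun a => by
      change mapE (algebraMap k E) (inc k a) = _
      rw [mapE_inc, algebraMap_eq]
      rfl }

theorem mapA_apply (x : OInv k) : mapA k E x = mapE (algebraMap k E) x := rfl

/-- `E → OInv E` as an algebra homomorphism. -/
noncomputable def incA : E →ₐ[k] OInv E :=
  { inc E with
    commutes' := fun a => by
      rw [algebraMap_eq]
      rfl }

/-- the map `OInv k ⊗[k] E → OInv E` -/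
noncomputable def tens : OInv k ⊗[k] E →ₐ[k] OInv E :=
  Algebra.TensorProduct.productMap (mapA k E) (incA k E)

@[simp] theorem tens_tmul (a : OInv k) (e : E) :
    tens k E (a ⊗ₜ e) = mapE (algebraMap k E) a * inc E e := rfl

theorem tens_bijective : Function.Bijective (tens k E) := by
  let iR : E →+* OInv k ⊗[k] E := (Algebra.TensorProduct.includeRight : E →ₐ[k] OInv k ⊗[k] E)
  let iL : OInv k →+* OInv k ⊗[k] E :=
    (Algebra.TensorProduct.includeLeft : OInv k →ₐ[k] OInv k ⊗[k] E)
  have hLR : iL.comp (inc k) = iR.comp (algebraMap k E) := by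
    ext a
    change (algebraMap k (OInv k) a) ⊗ₜ[k] (1 : E) = (1 : OInv k) ⊗ₜ[k] (algebraMap k E a)
    rw [Algebra.algebraMap_eq_smul_one, Algebra.algebraMap_eq_smul_one, TensorProduct.smul_tmul]
  let g : OInv E →+* OInv k ⊗[k] E := lift iR (InvSeries.map iL (f k))
  have h1 : ((tens k E : OInv k ⊗[k] E →+* OInv E)).comp g = RingHom.id _ := by
    apply hom_ext
    · rw [RingHom.comp_assoc, lift_comp_inc]
      ext e
      change tens k E (1 ⊗ₜ e) = _
      rw [tens_tmul, map_one, one_mul]
      rfl
    · rw [← InvSeries.map_map, map_lift_f, InvSeries.map_map, InvSeries.map_id]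
      have : ((tens k E : OInv k ⊗[k] E →+* OInv E)).comp iL = mapE (algebraMap k E) := by
        ext a
        change tens k E (a ⊗ₜ 1) = _
        rw [tens_tmul, map_one, mul_one]
      rw [this, map_mapE_f]
  have h3 : g.comp (mapE (algebraMap k E)) = iL := by
    rw [lift_comp_mapE, ← hLR, lift_eta]
  have h2 : ∀ x, g (tens k E x) = x := by
    intro x
    induction x using TensorProduct.induction_on with
    | zero => rw [map_zero, map_zero]
    | tmul a e =>
      rw [tens_tmul, map_mul, ← RingHom.comp_apply, h3]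
      have : g (inc E e) = iR e := lift_inc _ _ _
      rw [this]
      change (a ⊗ₜ[k] (1 : E)) * ((1 : OInv k) ⊗ₜ[k] e) = _
      rw [Algebra.TensorProduct.tmul_mul_tmul, mul_one, one_mul]
    | add x y hx hy => rw [map_add, map_add, hx, hy]
  refine ⟨Function.LeftInverse.injective h2, fun y => ⟨g y, ?_⟩⟩
  exact RingHom.congr_fun h1 y

end Tensor

section Twist

variable {k Λ E : Type u} [CommRing k] [CommRing Λ] [CommRing E] [Algebra k Λ] [Algebra k E]

/-- **Twisted flatness.** -/
theorem flat_of_twist [Module.Finite k E] [Module.Flat k (OInv k)] (e : Λ ≃ₐ[k] E) (m : Ideal Λ)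
    (hm : IsNilpotent m) (π : E →+* k) (hπ : π.comp (algebraMap k E) = RingHom.id k)
    (hker : RingHom.ker π = m.map (e : Λ →+* E)) [Algebra Λ (OInv E)]
    (hk : (algebraMap Λ (OInv E)).comp (algebraMap k Λ) = (inc E).comp (algebraMap k E))
    (hmap : m.map (algebraMap Λ (OInv E)) = (m.map (e : Λ →+* E)).map (inc E)) :
    Module.Flat Λ (OInv E) := by
  have _ : IsScalarTower k Λ (OInv E) := IsScalarTower.of_algebraMap_eq' (by
    rw [hk, algebraMap_eq])
  let ψ : Λ ⊗[k] OInv k →ₐ[Λ] OInv E :=
    Algebra.TensorProduct.lift (Algebra.ofId Λ (OInv E)) (mapA k E) fun _ _ => Commute.all _ _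
  have ψt : ∀ (l : Λ) (a : OInv k), ψ (l ⊗ₜ a) = algebraMap Λ (OInv E) l *
      mapE (algebraMap k E) a := fun _ _ => rfl
  have hπs : Function.Surjective π := fun c => ⟨algebraMap k E c, RingHom.congr_fun hπ c⟩
  -- surjectivity
  have hsurj : Function.Surjective ψ := by
    have : LinearMap.range ψ.toLinearMap = ⊤ := by
      apply eq_top_of_sup_smul_nilp hm
      intro t _
      have h1 : t - mapE (algebraMap k E) (mapE π t) ∈ m • (⊤ : Submodule Λ (OInv E)) := by
        rw [Ideal.smul_top_eq_map, Submodule.restrictScalars_mem, hmap, ← hker,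
          ← ker_mapE hπs, RingHom.mem_ker, map_sub, ← RingHom.comp_apply (mapE π)]
        have : (mapE π).comp (mapE (algebraMap k E)) = RingHom.id _ := by
          rw [mapE, lift_comp_mapE, RingHom.comp_assoc, hπ, RingHom.comp_id]
          have := lift_eta (RingHom.id (OInv k))
          rwa [RingHom.id_comp, InvSeries.map_id] at this
        rw [this, RingHom.id_apply, sub_self]
      have h2 : mapE (algebraMap k E) (mapE π t) ∈ LinearMap.range ψ.toLinearMap :=
        ⟨1 ⊗ₜ mapE π t, by
          have h := ψt 1 (mapE π t)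
          rw [map_one, one_mul] at h
          exact h⟩
      have : t = mapE (algebraMap k E) (mapE π t) + (t - mapE (algebraMap k E) (mapE π t)) := by
        abel
      rw [this]
      exact Submodule.add_mem_sup h2 h1
    exact LinearMap.range_eq_top.1 this
  -- injectivity
  let _ : Algebra (OInv k) (OInv E) := (mapE (algebraMap k E)).toAlgebra
  have _ : IsScalarTower k (OInv k) (OInv E) := IsScalarTower.of_algebraMap_eq' (by
    change _ = (mapE (algebraMap k E)).comp (algebraMap k (OInv k))
    rw [algebraMap_self_eq, mapE_comp_inc, algebraMap_eq])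
  let χ : OInv k ⊗[k] E →ₐ[OInv k] OInv E :=
    Algebra.TensorProduct.lift (Algebra.ofId (OInv k) (OInv E)) (incA k E)
      fun _ _ => Commute.all _ _
  have hχ : Function.Bijective χ := by
    have : (χ : OInv k ⊗[k] E → OInv E) = tens k E := by
      ext x
      induction x using TensorProduct.induction_on with
      | zero => rw [map_zero, map_zero]
      | tmul a b => rfl
      | add x y hx hy => rw [map_add, map_add, hx, hy]
    rw [this]
    exact tens_bijective k E
  let ω : OInv k ⊗[k] E →ₐ[OInv k] OInv E :=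
    Algebra.TensorProduct.lift (Algebra.ofId (OInv k) (OInv E))
      ((IsScalarTower.toAlgHom k Λ (OInv E)).comp (e.symm : E →ₐ[k] Λ))
      fun _ _ => Commute.all _ _
  have ωt : ∀ (a : OInv k) (b : E), ω (a ⊗ₜ b) = mapE (algebraMap k E) a *
      algebraMap Λ (OInv E) (e.symm b) := fun _ _ => rfl
  have hωψ : ∀ (l : Λ) (a : OInv k), ω (a ⊗ₜ e l) = ψ (l ⊗ₜ a) := by
    intro l a
    rw [ωt, ψt, AlgEquiv.symm_apply_apply, mul_comm]
  let s : Λ ⊗[k] OInv k ≃ₗ[k] OInv k ⊗[k] E :=
    (TensorProduct.comm k Λ (OInv k)).trans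
      (TensorProduct.congr (LinearEquiv.refl k (OInv k)) e.toLinearEquiv)
  have hs : ∀ x, ω (s x) = ψ x := by
    intro x
    induction x using TensorProduct.induction_on with
    | zero => simp only [map_zero]
    | tmul l a => exact hωψ l a
    | add x y hx hy => rw [map_add, map_add, map_add, hx, hy]
  have hω : Function.Surjective ω := by
    intro y
    obtain ⟨x, rfl⟩ := hsurj y
    exact ⟨s x, hs x⟩
  let χe : OInv k ⊗[k] E ≃ₗ[OInv k] OInv E := LinearEquiv.ofBijective χ.toLinearMap hχ
  let θ : OInv k ⊗[k] E →ₗ[OInv k] OInv k ⊗[k] E := χe.symm.toLinearMap ∘ₗ ω.toLinearMap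
  have hθ : Function.Surjective θ := χe.symm.surjective.comp hω
  have hθi : Function.Injective θ := OrzechProperty.injective_of_surjective_endomorphism θ hθ
  have hωi : Function.Injective ω := by
    intro a b hab
    apply hθi
    change χe.symm (ω a) = χe.symm (ω b)
    rw [hab]
  have hψ : Function.Bijective ψ := by
    refine ⟨fun a b hab => ?_, hsurj⟩
    rw [← hs, ← hs] at hab
    exact s.injective (hωi hab)
  exact Module.Flat.of_linearEquiv (LinearEquiv.ofBijective ψ.toLinearMap hψ).symm

end Twist

end OInv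

end Vale.Agent.P251.F
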