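/-
P251, part F (F5): Lubin–Tate data, the rings `T_j = E_j[c₀^{±1}, c₁, …]`. Author: helper288.

`LTD p h k`: a Honda law `H` over `k` (`Nat.card k = p^h`) and a law `F` over `k[X_1,…,X_{h-1}]`
with `I_h(F) = (X)`, `F mod (X) = H`, with the endomorphisms `ζ x`, `ζ^(p-1) = 1`.
`D.EJ j = k[X]/(X)^(j+1)`, `D.FE j : Law (D.EJ j)`, `D.TT j = OInv (D.EJ j)`.
-/
import Vale.Agent.P251.F.EJ
import Vale.Agent.P251.F.TwistFlat
import Vale.Agent.P251.F.Deform
import Vale.Agent.P251.F.HondaMain
import Vale.Agent.P251.F.Framed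

set_option linter.unusedSectionVars false

namespace Vale.Agent.P251.F

open Vale.Agent.P217 LawRing

section Pre

variable {B : Type*} [CommRing B]

theorem Ih_eq_span {p : ℕ} {h : ℕ} (hB : (p : B) = 0) (F : Law B) :
    Ih p h F = Ideal.span (Set.range fun i : Fin (h - 1) => vv p (i + 1) F) := by
  apply le_antisymm
  · refine Ideal.span_le.2 ?_
    rintro _ ⟨i, hi, rfl⟩
    rcases Nat.eq_zero_or_pos i with rfl | hi0
    · rw [vv_zero, hB]
      exact Ideal.zero_mem _
    · refine Ideal.subset_span ⟨⟨i - 1, by omega⟩, ?_⟩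
      change vv p (i - 1 + 1) F = _
      rw [Nat.sub_add_cancel hi0]
  · refine Ideal.span_le.2 ?_
    rintro _ ⟨i, rfl⟩
    exact vv_mem_Ih (by omega) F

end Pre

/-- Lubin–Tate data. -/
structure LTD (p h : ℕ) (k : Type) [Field k] where
  /-- the law of height `h` over `k` -/
  H : Law k
  /-- its deformation -/
  FU : Law (MvPolynomial (Fin (h - 1)) k)
  hh : h ≠ 0
  card : Nat.card k = p ^ h
  honda : HondaOver p h H.toFG
  ih : Ih p h FU = MvPolynomial.idealOfVars (Fin (h - 1)) k
  red : FU.map MvPolynomial.constantCoeff = H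
  typ : ∀ ζ : kˣ, ζ ^ (p - 1) = 1 →
    InvSeries.lin (Units.map (MvPolynomial.C : k →+* MvPolynomial (Fin (h - 1)) k).toMonoidHom ζ) •
      FU = FU

section Exists

variable {p h : ℕ} {k : Type} [Field k]

theorem vv_of_mult {H : Law k} (hH : multSeries H.toFG p = PowerSeries.X ^ (p ^ h)) (i : ℕ) :
    vv p i H = if p ^ i = p ^ h then 1 else 0 := by
  rw [vv, hH, PowerSeries.coeff_X_pow]

theorem natCast_eq_zero_of_mult [hp : Fact p.Prime] (hh : h ≠ 0) {H : Law k}
    (hH : multSeries H.toFG p = PowerSeries.X ^ (p ^ h)) : (p : k) = 0 := by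
  rw [← vv_zero p H, vv_of_mult hH, pow_zero, if_neg]
  exact (Nat.one_lt_pow hh hp.out.one_lt).ne

theorem vv_of_mult_lt [hp : Fact p.Prime] {H : Law k}
    (hH : multSeries H.toFG p = PowerSeries.X ^ (p ^ h)) {i : ℕ} (hi : i < h) : vv p i H = 0 := by
  rw [vv_of_mult hH, if_neg]
  exact (Nat.pow_lt_pow_right hp.out.one_lt hi).ne

/-- Existence of Lubin–Tate data. -/
theorem LTD.exists_of_honda [hp : Fact p.Prime] (hh : h ≠ 0) (card : Nat.card k = p ^ h)
    (H : Law k) (honda : HondaOver p h H.toFG) : Nonempty (LTD p h k) := by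
  have hk : (p : k) = 0 := natCast_eq_zero_of_mult hh honda.mult
  have hP : (p : MvPolynomial (Fin (h - 1)) k) = 0 := by
    rw [← map_natCast (MvPolynomial.C : k →+* MvPolynomial (Fin (h - 1)) k), hk, map_zero]
  let S : Set ℕ := {i | i < h}
  let u : ℕ → MvPolynomial (Fin (h - 1)) k := fun i =>
    if hi : i - 1 < h - 1 then MvPolynomial.X ⟨i - 1, hi⟩ else 0
  have hu : ∀ i : Fin (h - 1), u (i + 1) = MvPolynomial.X i := by
    intro i
    have : (i : ℕ) + 1 - 1 < h - 1 := by omega
    simp only [u, dif_pos this]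
    congr 1
  refine ⟨⟨H, deform hP H S u, hh, card, honda, ?_, ?_, ?_⟩⟩
  · rw [Ih_eq_span hP, MvPolynomial.idealOfVars]
    congr 2
    funext i
    rw [vv_deform_of_mem hP H S u (i := (i : ℕ) + 1) (show (i : ℕ) + 1 < h by omega)
      (Nat.succ_ne_zero _), hu]
  · rw [deform_map_eq_map hP H S u MvPolynomial.constantCoeff]
    · have : (MvPolynomial.constantCoeff : MvPolynomial (Fin (h - 1)) k →+* k).comp
          (algebraMap k (MvPolynomial (Fin (h - 1)) k)) = RingHom.id k := by
        ext a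
        exact MvPolynomial.constantCoeff_C _ a
      rw [this, Law.map_id]
    · intro i hi hi0
      rw [vv_of_mult_lt honda.mult hi, map_zero, map_zero]
      simp only [u]
      split_ifs
      · exact MvPolynomial.constantCoeff_X _ _
      · exact map_zero _
  · intro ζ hζ
    refine lin_smul_deform hP H S u ζ ?_ ?_
    · rw [InvSeries.smul_eq_iff_isHom]
      exact honda.teich ζ
    · intro i _ hi0
      have h1 : p - 1 ∣ p ^ i - 1 := by
        have := Nat.sub_dvd_pow_sub_pow p 1 i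
        rwa [one_pow] at this
      obtain ⟨m, hm⟩ := h1
      rw [← map_pow, hm, pow_mul, ← Units.val_pow_eq_pow_val, hζ, Units.val_one, one_pow,
        map_one, one_mul]

end Exists

namespace LTD

variable {p h : ℕ} [hp : Fact p.Prime] {k : Type} [Field k] (D : LTD p h k) (j : ℕ)

include D in
theorem finite : Finite k := Nat.finite_of_card_ne_zero (by
  rw [D.card]
  exact pow_ne_zero _ hp.out.ne_zero)

include D in
theorem p_eq_zero : (p : k) = 0 := natCast_eq_zero_of_mult D.hh D.honda.mult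

include D in
theorem p_eq_zero' {B : Type*} [CommRing B] (x : k →+* B) : (p : B) = 0 := by
  rw [← map_natCast x, D.p_eq_zero, map_zero]

include D in
theorem charP : CharP k p := (CharP.charP_iff_prime_eq_zero hp.out).2 D.p_eq_zero

/-- `k[X_1, …, X_{h-1}]/(X)^(j+1)` -/
abbrev EJ (_D : LTD p h k) (j : ℕ) : Type := EE k (h - 1) j

/-- the law over `E_j` -/
noncomputable def FE : Law (D.EJ j) := D.FU.map (EE.mk k (h - 1) j)

omit hp in
theorem FE_map_π : (D.FE j).map (EE.π k (h - 1) j) = D.H := by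
  rw [FE, Law.map_map, EE.π_comp_mk, D.red]

omit hp in
theorem Ih_FE : Ih p h (D.FE j) = EE.m k (h - 1) j := by
  rw [FE, Ih_map, D.ih]
  rfl

omit hp in
theorem FE_map_red {j' : ℕ} (hj : j ≤ j') :
    (D.FE j').map (EE.red k (h - 1) hj : D.EJ j' →+* D.EJ j) = D.FE j := by
  rw [FE, Law.map_map]
  rfl

omit hp in
theorem isUnit_vv_FE : IsUnit (vv p h (D.FE j)) := by
  have h1 : EE.π k (h - 1) j (vv p h (D.FE j)) = 1 := by
    rw [← vv_map, D.FE_map_π, vv_of_mult D.honda.mult, if_pos rfl]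
  have h2 : vv p h (D.FE j) - 1 ∈ EE.m k (h - 1) j := by
    rw [← EE.ker_π, RingHom.mem_ker, map_sub, h1, map_one, sub_self]
  have h3 : IsNilpotent (vv p h (D.FE j) - 1) := by
    refine ⟨j + 1, ?_⟩
    have := Ideal.pow_mem_pow h2 (j + 1)
    rwa [EE.m_pow, Ideal.mem_bot] at this
  have h4 := h3.isUnit_one_add
  rwa [add_sub_cancel] at h4

/-- The ring `T_j = E_j[c₀^{±1}, c₁, …]`. -/
def TT (D : LTD p h k) (j : ℕ) : Type := OInv (D.EJ j)

noncomputable instance : CommRing (D.TT j) := inferInstanceAs (CommRing (OInv (D.EJ j)))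

/-- `T_j` is a law ring: the law is `f • F_j`. -/
noncomputable instance : LawRing (D.TT j) := LawRing.oinv (D.FE j)

/-- the inclusion of `E_j` -/
noncomputable def inc : D.EJ j →+* D.TT j := OInv.inc (D.EJ j)

/-- the generic series -/
noncomputable def ser : InvSeries (D.TT j) := OInv.f (D.EJ j)

/-- the points of `T_j` -/
noncomputable def pt {B : Type*} [CommRing B] (x : D.EJ j →+* B) (g : InvSeries B) :
    D.TT j →+* B := OInv.lift x g

variable {j}

@[simp] theorem pt_comp_inc {B : Type*} [CommRing B] (x : D.EJ j →+* B) (g : InvSeries B) :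
    (D.pt j x g).comp (D.inc j) = x := OInv.lift_comp_inc _ _

@[simp] theorem map_pt_ser {B : Type*} [CommRing B] (x : D.EJ j →+* B) (g : InvSeries B) :
    InvSeries.map (D.pt j x g) (D.ser j) = g := OInv.map_lift_f _ _

theorem pt_eta {B : Type*} [CommRing B] (φ : D.TT j →+* B) :
    D.pt j (φ.comp (D.inc j)) (InvSeries.map φ (D.ser j)) = φ := OInv.lift_eta _

theorem hom_ext {B : Type*} [CommRing B] {φ ψ : D.TT j →+* B}
    (h1 : φ.comp (D.inc j) = ψ.comp (D.inc j))
    (h2 : InvSeries.map φ (D.ser j) = InvSeries.map ψ (D.ser j)) : φ = ψ := OInv.hom_ext h1 h2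

theorem comp_pt {B C : Type*} [CommRing B] [CommRing C] (φ : B →+* C) (x : D.EJ j →+* B)
    (g : InvSeries B) : φ.comp (D.pt j x g) = D.pt j (φ.comp x) (InvSeries.map φ g) :=
  OInv.comp_lift _ _ _

theorem law_eq : law (N := D.TT j) = D.ser j • (D.FE j).map (D.inc j) := rfl

theorem act_eq {B : Type} [CommRing B] (s : InvSeries B) (φ : D.TT j →+* B) :
    act s φ = D.pt j (φ.comp (D.inc j)) (s * InvSeries.map φ (D.ser j)) := rfl

noncomputable instance : Framed (D.TT j) where
  fr := D.ser j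
  map_act_fr g x := by rw [act_eq, map_pt_ser]

theorem Ih_law : Ih p h (law (N := D.TT j)) = (EE.m k (h - 1) j).map (D.inc j) := by
  rw [law_eq, Ih_smul, Ih_map, Ih_FE]

theorem Ih_law_pow : Ih p h (law (N := D.TT j)) ^ (j + 1) = ⊥ := by
  rw [Ih_law, ← Ideal.map_pow, EE.m_pow, Ideal.map_bot]

theorem isUnit_vv_law : IsUnit (vv p h (law (N := D.TT j))) := by
  refine isUnit_vv_smul (B := D.TT j) p h (j + 1) ((D.FE j).map (D.inc j)) (D.ser j) ?_ ?_
  · rw [Ih_map, Ih_FE, ← Ideal.map_pow, EE.m_pow, Ideal.map_bot]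
  · rw [vv_map]
    exact (D.isUnit_vv_FE j).map _

/-- `k → T_j` -/
noncomputable def kk (j : ℕ) : k →+* D.TT j := (D.inc j).comp (algebraMap k (D.EJ j))

noncomputable instance : Algebra k (D.TT j) := (D.kk j).toAlgebra

theorem algebraMap_TT : algebraMap k (D.TT j) = D.kk j := rfl

/-- the projection `T_j → OInv k` -/
noncomputable def πT (j : ℕ) : D.TT j →+* OInv k := OInv.mapE (EE.π k (h - 1) j)

theorem πT_surjective : Function.Surjective (D.πT j) :=
  OInv.mapE_surjective (EE.π_surjective k (h - 1) j)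

theorem ker_πT : RingHom.ker (D.πT j) = (EE.m k (h - 1) j).map (D.inc j) := by
  rw [← EE.ker_π]
  exact OInv.ker_mapE (EE.π_surjective k (h - 1) j)

theorem πT_comp_inc : (D.πT j).comp (D.inc j) = (OInv.inc k).comp (EE.π k (h - 1) j) :=
  OInv.mapE_comp_inc _

theorem map_πT_ser : InvSeries.map (D.πT j) (D.ser j) = OInv.f k := OInv.map_mapE_f _

theorem πT_comp_kk : (D.πT j).comp (D.kk j) = OInv.inc k := by
  rw [kk, ← RingHom.comp_assoc, πT_comp_inc, RingHom.comp_assoc, EE.π_comp_algebraMap,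
    RingHom.comp_id]

theorem map_πT_law : (law (N := D.TT j)).map (D.πT j) = OInv.f k • D.H.map (OInv.inc k) := by
  rw [law_eq, InvSeries.map_smul, map_πT_ser, Law.map_map, πT_comp_inc, ← Law.map_map, FE_map_π]

instance : Nontrivial (OInv k) := by
  refine ⟨⟨0, 1, fun h01 => ?_⟩⟩
  have := congrArg (OInv.lift (RingHom.id k) 1) h01
  rw [map_zero, map_one] at this
  exact zero_ne_one this

instance : Nontrivial (D.TT j) := (D.πT j).domain_nontrivial

/-- transition maps `T_{j'} → T_j` -/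
noncomputable def redT {j j' : ℕ} (hj : j ≤ j') : D.TT j' →+* D.TT j :=
  OInv.mapE (EE.red k (h - 1) hj : D.EJ j' →+* D.EJ j)

theorem redT_comp_inc {j j' : ℕ} (hj : j ≤ j') :
    (D.redT hj).comp (D.inc j') = (D.inc j).comp (EE.red k (h - 1) hj : D.EJ j' →+* D.EJ j) :=
  OInv.mapE_comp_inc _

theorem map_redT_ser {j j' : ℕ} (hj : j ≤ j') : InvSeries.map (D.redT hj) (D.ser j') = D.ser j :=
  OInv.map_mapE_f _

theorem redT_comp_kk {j j' : ℕ} (hj : j ≤ j') : (D.redT hj).comp (D.kk j') = D.kk j := by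
  rw [kk, ← RingHom.comp_assoc, redT_comp_inc, RingHom.comp_assoc]
  congr 1

theorem isLawHom_redT {j j' : ℕ} (hj : j ≤ j') : IsLawHom (D.redT hj) where
  law := by
    rw [law_eq, InvSeries.map_smul, map_redT_ser, Law.map_map, redT_comp_inc, ← Law.map_map,
      FE_map_red]
    rfl
  act B _ s x := by
    apply D.hom_ext
    · rw [RingHom.comp_assoc, redT_comp_inc, ← RingHom.comp_assoc, act_eq, pt_comp_inc, act_eq,
        pt_comp_inc, RingHom.comp_assoc, RingHom.comp_assoc, redT_comp_inc]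
    · rw [← InvSeries.map_map, map_redT_ser, act_eq, map_pt_ser, act_eq, map_pt_ser,
        ← InvSeries.map_map, map_redT_ser]

theorem πT_redT {j j' : ℕ} (hj : j ≤ j') : (D.πT j).comp (D.redT hj) = D.πT j' := by
  apply D.hom_ext
  · rw [RingHom.comp_assoc, redT_comp_inc, ← RingHom.comp_assoc, πT_comp_inc, πT_comp_inc,
      RingHom.comp_assoc]
    congr 1
    exact RingHom.ext fun x => EE.π_red k (h - 1) hj x
  · rw [← InvSeries.map_map, map_redT_ser, map_πT_ser, map_πT_ser]

end LTD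

end Vale.Agent.P251.F
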