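import Vale.Agent.P251.F.T1

/-!
# P251, part F (F5): the rings `R_j = k ⊗ v_h⁻¹ Laz/(p, I_h^j)`

* `NN.lift`: points of `NN p h j` are laws with `p = 0`, `I_h^j = 0`, `v_h` a unit;
* `RJ k p h j = k ⊗[ℤ] NN p h j`, its law, `RJ.lift`, `RJ.hom_ext`, `RJ.red`;
* `j = 1`: the orbit theorem for `OInv k`.
-/

open TensorProduct Vale.Agent.P217 Vale.Agent.P251.C

namespace Vale.Agent.P251.F

section NN

variable {p h j : ℕ} {B : Type*} [CommRing B]

/-- the law over `NN p h j` -/
noncomputable def NN.law (p h j : ℕ) : Law (NN p h j) :=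
  (Laz.univ.map (Ideal.Quotient.mk (Laz.IJ p h j))).map (algebraMap (QN p h j) (NN p h j))

theorem NN.law_eq [Fact p.Prime] : NN.law p h j = LawRing.law (N := NN p h j) := rfl

/-- A law of type `(h, j)`: `p = 0`, `I_h^j = 0`, `v_h` a unit. -/
structure IsTy (p h j : ℕ) (F : Law B) : Prop where
  p0 : (p : B) = 0
  pow : Ih p h F ^ j = ⊥
  unit : IsUnit (vv p h F)

theorem IsTy.map {C : Type*} [CommRing C] {F : Law B} (hF : IsTy p h j F) (φ : B →+* C) :
    IsTy p h j (F.map φ) where
  p0 := by rw [← map_natCast φ, hF.p0, map_zero]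
  pow := by rw [Ih_map, ← Ideal.map_pow, hF.pow, Ideal.map_bot]
  unit := by rw [vv_map]; exact hF.unit.map φ

theorem IsTy.smul [Fact p.Prime] {F : Law B} (hF : IsTy p h j F) (f : InvSeries B) :
    IsTy p h j (f • F) where
  p0 := hF.p0
  pow := by rw [Ih_smul]; exact hF.pow
  unit := isUnit_vv_smul p h j F f hF.pow hF.unit

theorem IsTy.mono {F : Law B} {j' : ℕ} (hF : IsTy p h j F) (hj : j ≤ j') : IsTy p h j' F where
  p0 := hF.p0
  pow := by
    rw [eq_bot_iff, ← hF.pow]
    exact Ideal.pow_le_pow_right hj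
  unit := hF.unit

theorem isTy_one_iff {F : Law B} (hh : h ≠ 0) :
    IsTy p h 1 F ↔ (∀ i < h, vv p i F = 0) ∧ IsUnit (vv p h F) := by
  constructor
  · intro hF
    refine ⟨fun i hi => ?_, hF.unit⟩
    have h1 := vv_mem_Ih hi F (p := p)
    have h2 := hF.pow
    rw [pow_one] at h2
    rw [h2] at h1
    exact h1
  · rintro ⟨h1, h2⟩
    refine ⟨?_, ?_, h2⟩
    · rw [← vv_zero p F]
      exact h1 0 (Nat.pos_of_ne_zero hh)
    · rw [pow_one, Ih, Ideal.span_eq_bot]
      rintro _ ⟨i, hi, rfl⟩
      exact h1 i hi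

theorem IsTy.hasHeight [Fact p.Prime] (hh : h ≠ 0) {F : Law B} (hF : IsTy p h 1 F) :
    HasHeight p h F.toFG :=
  hasHeight_of_vv p h F ((isTy_one_iff hh).1 hF).1 ((isTy_one_iff hh).1 hF).2

end NN

section Lift

variable {p h j : ℕ} {B C : Type} [CommRing B] [CommRing C]

theorem IsTy.vanish {F : Law B} (hF : IsTy p h j F) : ∀ a ∈ Laz.IJ p h j, Laz.lift F a = 0 :=
  (Laz.IJ_vanish_iff p h j (Laz.lift F)).2 ⟨hF.p0, by rw [Laz.univ_map_lift]; exact hF.pow⟩

/-- the point of `QN p h j` -/
noncomputable def QN.lift (F : Law B) (hF : IsTy p h j F) : QN p h j →+* B :=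
  Ideal.Quotient.lift (Laz.IJ p h j) (Laz.lift F) hF.vanish

theorem QN.lift_comp_mk (F : Law B) (hF : IsTy p h j F) :
    (QN.lift F hF).comp (Ideal.Quotient.mk (Laz.IJ p h j)) = Laz.lift F := rfl

theorem QN.lift_v (F : Law B) (hF : IsTy p h j F) :
    QN.lift F hF (Ideal.Quotient.mk (Laz.IJ p h j) (Laz.v p h)) = vv p h F :=
  Laz.lift_v p h F

/-- the point of `NN p h j` -/
noncomputable def NN.lift (F : Law B) (hF : IsTy p h j F) : NN p h j →+* B :=
  IsLocalization.Away.lift (S := NN p h j) (Ideal.Quotient.mk (Laz.IJ p h j) (Laz.v p h))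
    (g := QN.lift F hF) (by rw [QN.lift_v]; exact hF.unit)

theorem NN.lift_comp (F : Law B) (hF : IsTy p h j F) :
    (NN.lift F hF).comp (algebraMap (QN p h j) (NN p h j)) = QN.lift F hF :=
  IsLocalization.Away.lift_comp _ _

@[simp] theorem NN.law_map_lift (F : Law B) (hF : IsTy p h j F) :
    (NN.law p h j).map (NN.lift F hF) = F := by
  rw [NN.law, Law.map_map, NN.lift_comp, Law.map_map, QN.lift_comp_mk, Laz.univ_map_lift]

theorem NN.isTy : IsTy p h j (NN.law p h j) where
  p0 := by
    have h1 : (p : QN p h j) = 0 := by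
      have h2 : (Ideal.Quotient.mk (Laz.IJ p h j)) (p : Laz) = 0 :=
        Ideal.Quotient.eq_zero_iff_mem.2 (Ideal.mem_sup_left (Ideal.mem_span_singleton_self _))
      rwa [map_natCast] at h2
    rw [← map_natCast (algebraMap (QN p h j) (NN p h j)), h1, map_zero]
  pow := by
    rw [NN.law, Ih_map, ← Ideal.map_pow, Ih_map, ← Ideal.map_pow]
    have h1 : (Ih p h Laz.univ ^ j).map (Ideal.Quotient.mk (Laz.IJ p h j)) = ⊥ := by
      rw [Ideal.map_eq_bot_iff_le_ker, Ideal.mk_ker]
      exact le_sup_right
    rw [h1, Ideal.map_bot]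
  unit := by
    rw [NN.law, vv_map, vv_map]
    exact IsLocalization.Away.algebraMap_isUnit (Ideal.Quotient.mk (Laz.IJ p h j) (Laz.v p h))

theorem NN.hom_ext_law {x y : NN p h j →+* B} (h1 : (NN.law p h j).map x = (NN.law p h j).map y) :
    x = y := by
  refine IsLocalization.ringHom_ext (Submonoid.powers (Ideal.Quotient.mk (Laz.IJ p h j)
    (Laz.v p h))) (Ideal.Quotient.ringHom_ext (Laz.equiv.injective ?_))
  change Laz.univ.map _ = Laz.univ.map _
  rw [← Law.map_map, ← Law.map_map]
  exact h1

/-- every law of type `(h,j)` comes from a unique point -/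
theorem NN.lift_eta (x : NN p h j →+* B) : NN.lift ((NN.law p h j).map x) (NN.isTy.map x) = x :=
  NN.hom_ext_law (NN.law_map_lift _ _)

end Lift

/-- a copy of `NN p h j` which carries only its ring structure (no diamonds over `ℤ`) -/
def NC (p h j : ℕ) : Type := NN p h j

noncomputable instance (p h j : ℕ) : CommRing (NC p h j) := inferInstanceAs (CommRing (NN p h j))

/-- the identity `NN → NC` -/
noncomputable def NC.of (p h j : ℕ) : NN p h j ≃+* NC p h j := RingEquiv.refl (NN p h j)

/-- `R_j = k ⊗ v_h⁻¹ Laz/(p, I_h^j)`. -/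
def RJ (k : Type) [CommRing k] (p h j : ℕ) : Type := k ⊗[ℤ] NC p h j

noncomputable instance (k : Type) [CommRing k] (p h j : ℕ) : CommRing (RJ k p h j) :=
  inferInstanceAs (CommRing (k ⊗[ℤ] NC p h j))

noncomputable instance (k : Type) [CommRing k] (p h j : ℕ) : Algebra k (RJ k p h j) :=
  inferInstanceAs (Algebra k (k ⊗[ℤ] NC p h j))

namespace RJ

variable {k : Type} [CommRing k] {p h j : ℕ} {B C : Type} [CommRing B] [CommRing C]

/-- the inclusion of `NN` -/
noncomputable def incR (k : Type) [CommRing k] (p h j : ℕ) : NN p h j →+* RJ k p h j :=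
  ((Algebra.TensorProduct.includeRight : NC p h j →ₐ[ℤ] k ⊗[ℤ] NC p h j).toRingHom).comp
    (NC.of p h j : NN p h j →+* NC p h j)

/-- the law over `R_j` -/
noncomputable def law (k : Type) [CommRing k] (p h j : ℕ) : Law (RJ k p h j) :=
  (NN.law p h j).map (incR k p h j)

theorem isTy : IsTy p h j (law k p h j) := NN.isTy.map _

/-- the point of `R_j` -/
noncomputable def lift (x : k →+* B) (F : Law B) (hF : IsTy p h j F) : RJ k p h j →+* B :=
  (Algebra.TensorProduct.lift x.toIntAlgHom
    (((NN.lift F hF).comp ((NC.of p h j).symm : NC p h j →+* NN p h j)).toIntAlgHom)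
    (fun _ _ => Commute.all _ _) : k ⊗[ℤ] NC p h j →ₐ[ℤ] B).toRingHom

theorem lift_tmul (x : k →+* B) (F : Law B) (hF : IsTy p h j F) (c : k) (n : NN p h j) :
    lift x F hF (c ⊗ₜ[ℤ] NC.of p h j n : k ⊗[ℤ] NC p h j) = x c * NN.lift F hF n := by
  refine (Algebra.TensorProduct.lift_tmul _ _ _ _ _).trans ?_
  rfl

theorem algebraMap_apply (c : k) :
    algebraMap k (RJ k p h j) c = (c ⊗ₜ[ℤ] NC.of p h j 1 : k ⊗[ℤ] NC p h j) := rfl

theorem incR_apply (n : NN p h j) :
    incR k p h j n = (1 ⊗ₜ[ℤ] NC.of p h j n : k ⊗[ℤ] NC p h j) := rfl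

@[simp] theorem lift_comp_algebraMap (x : k →+* B) (F : Law B) (hF : IsTy p h j F) :
    (lift x F hF).comp (algebraMap k (RJ k p h j)) = x := by
  ext c
  rw [RingHom.comp_apply, algebraMap_apply, lift_tmul, map_one, mul_one]

@[simp] theorem lift_comp_incR (x : k →+* B) (F : Law B) (hF : IsTy p h j F) :
    (lift x F hF).comp (incR k p h j) = NN.lift F hF := by
  refine RingHom.ext fun c => ?_
  rw [RingHom.comp_apply, incR_apply, lift_tmul, map_one, one_mul]

@[simp] theorem law_map_lift (x : k →+* B) (F : Law B) (hF : IsTy p h j F) :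
    (law k p h j).map (lift x F hF) = F := by
  rw [law, Law.map_map, lift_comp_incR, NN.law_map_lift]

theorem tmul_eq (c : k) (n : NN p h j) :
    (c ⊗ₜ[ℤ] NC.of p h j n : k ⊗[ℤ] NC p h j) =
      algebraMap k (RJ k p h j) c * incR k p h j n := by
  rw [algebraMap_apply, incR_apply]
  refine Eq.symm ?_
  refine (Algebra.TensorProduct.tmul_mul_tmul c 1 (NC.of p h j 1) (NC.of p h j n)).trans ?_
  rw [mul_one, map_one, one_mul]

theorem ind {P : RJ k p h j → Prop} (h0 : P 0) (hadd : ∀ a b, P a → P b → P (a + b))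
    (hm : ∀ c n, P (algebraMap k (RJ k p h j) c * incR k p h j n)) (t : RJ k p h j) : P t := by
  induction t using TensorProduct.induction_on with
  | zero => exact h0
  | add a b ha hb => exact hadd a b ha hb
  | tmul c n =>
    have := hm c ((NC.of p h j).symm n)
    rw [← tmul_eq] at this
    exact this

theorem hom_ext' {x y : RJ k p h j →+* B}
    (h1 : x.comp (algebraMap k (RJ k p h j)) = y.comp (algebraMap k (RJ k p h j)))
    (h2 : x.comp (incR k p h j) = y.comp (incR k p h j)) : x = y := by
  refine RingHom.ext fun t => ?_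
  refine ind (P := fun t => x t = y t) ?_ ?_ ?_ t
  · rw [map_zero, map_zero]
  · intro a b ha hb
    rw [map_add, map_add, ha, hb]
  · intro c n
    rw [map_mul, map_mul]
    exact congrArg₂ (· * ·) (RingHom.congr_fun h1 c) (RingHom.congr_fun h2 n)

theorem hom_ext {x y : RJ k p h j →+* B}
    (h1 : x.comp (algebraMap k (RJ k p h j)) = y.comp (algebraMap k (RJ k p h j)))
    (h2 : (law k p h j).map x = (law k p h j).map y) : x = y := by
  refine hom_ext' h1 (NN.hom_ext_law ?_)
  rw [← Law.map_map, ← Law.map_map]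
  exact h2

/-- a point is determined by its restriction to `k` and its law -/
theorem lift_eta (x : RJ k p h j →+* B) :
    lift (x.comp (algebraMap k (RJ k p h j))) ((law k p h j).map x) (isTy.map x) = x :=
  hom_ext (lift_comp_algebraMap _ _ _) (law_map_lift _ _ _)

section LawRing

variable [Fact p.Prime]

/-- `R_j` is a law ring: coordinate changes act on the law and fix `k`. -/
noncomputable instance instLawRing : LawRing (RJ k p h j) where
  law := law k p h j
  act f x := lift (x.comp (algebraMap k (RJ k p h j))) (f • (law k p h j).map x)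
    ((isTy.map x).smul f)
  act_one x := by
    apply hom_ext
    · rw [lift_comp_algebraMap]
    · rw [law_map_lift, one_smul]
  act_mul f g x := by
    apply hom_ext
    · rw [lift_comp_algebraMap, lift_comp_algebraMap, lift_comp_algebraMap]
    · rw [law_map_lift, law_map_lift, law_map_lift, mul_smul]
  comp_act φ f x := by
    apply hom_ext
    · rw [RingHom.comp_assoc, lift_comp_algebraMap, lift_comp_algebraMap, RingHom.comp_assoc]
    · rw [← Law.map_map, law_map_lift, law_map_lift, InvSeries.map_smul, Law.map_map]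
  law_act f x := law_map_lift _ _ _

theorem lawRing_law : LawRing.law (N := RJ k p h j) = law k p h j := rfl

theorem act_comp_algebraMap (f : InvSeries B) (x : RJ k p h j →+* B) :
    (LawRing.act f x).comp (algebraMap k (RJ k p h j)) = x.comp (algebraMap k (RJ k p h j)) :=
  lift_comp_algebraMap _ _ _

theorem isLawHom_incR : IsLawHom (incR k p h j) :=
  IsLawHom.of_epi (epi_NN p h j) rfl

/-- a ring homomorphism from `R_j` to a law ring is a morphism of law rings if it is compatible
with the laws and if `k` is fixed by the coordinate changes -/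
theorem isLawHom_of {M : Type} [CommRing M] [LawRing M] (φ : RJ k p h j →+* M)
    (hl : (law k p h j).map φ = LawRing.law (N := M))
    (hk : ∀ (B : Type) [CommRing B] (f : InvSeries B) (x : M →+* B),
      (LawRing.act f x).comp (φ.comp (algebraMap k (RJ k p h j))) =
        x.comp (φ.comp (algebraMap k (RJ k p h j)))) : IsLawHom φ where
  law := hl
  act B _ f x := by
    apply hom_ext
    · rw [RingHom.comp_assoc, hk, act_comp_algebraMap, RingHom.comp_assoc]
    · rw [← Law.map_map, hl, LawRing.law_act]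
      change _ = (LawRing.law (N := RJ k p h j)).map _
      rw [LawRing.law_act, lawRing_law, ← Law.map_map, hl]

end LawRing

section Red

variable {j' : ℕ}

/-- the transition maps -/
noncomputable def red (k : Type) [CommRing k] (p h : ℕ) {j j' : ℕ} (hj : j ≤ j') :
    RJ k p h j' →+* RJ k p h j :=
  lift (algebraMap k (RJ k p h j)) (law k p h j) (isTy.mono hj)

theorem red_comp_algebraMap (hj : j ≤ j') :
    (red k p h hj).comp (algebraMap k (RJ k p h j')) = algebraMap k (RJ k p h j) :=
  lift_comp_algebraMap _ _ _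

theorem law_map_red (hj : j ≤ j') : (law k p h j').map (red k p h hj) = law k p h j :=
  law_map_lift _ _ _

theorem red_self : red k p h (le_refl j) = RingHom.id (RJ k p h j) := by
  apply hom_ext
  · rw [red_comp_algebraMap]
    rfl
  · rw [law_map_red, Law.map_id]

theorem red_comp_red {j'' : ℕ} (hj : j ≤ j') (hj' : j' ≤ j'') :
    (red k p h hj).comp (red k p h hj') = red k p h (hj.trans hj') := by
  apply hom_ext
  · rw [RingHom.comp_assoc, red_comp_algebraMap, red_comp_algebraMap, red_comp_algebraMap]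
  · rw [← Law.map_map, law_map_red, law_map_red, law_map_red]

theorem red_comp_incR [Fact p.Prime] (hj : j ≤ j') :
    (red k p h hj).comp (incR k p h j') = (incR k p h j).comp (NN.red p h hj) := by
  apply NN.hom_ext_law
  rw [← Law.map_map, ← Law.map_map]
  have h1 : (NN.law p h j').map (NN.red p h hj) = NN.law p h j := (isLawHom_NN_red p h hj).law
  rw [h1]
  change (law k p h j').map _ = law k p h j
  rw [law_map_red]

theorem isLawHom_red [Fact p.Prime] (hj : j ≤ j') : IsLawHom (red k p h hj) :=
  isLawHom_of _ (law_map_red hj) (fun B _ f x => by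
    rw [red_comp_algebraMap, act_comp_algebraMap])

theorem map_Ih_pow_red (hj : j ≤ j') :
    (Ih p h (law k p h j') ^ j).map (red k p h hj) = ⊥ := by
  rw [Ideal.map_pow, ← Ih_map, law_map_red]
  exact isTy.pow

/-- the map backwards modulo `I_h^j` -/
theorem exists_back (hj : j ≤ j') : ∃ s : RJ k p h j →+* RJ k p h j' ⧸ Ih p h (law k p h j') ^ j,
    s.comp (red k p h hj) = Ideal.Quotient.mk _ := by
  have hT : IsTy p h j ((law k p h j').map (Ideal.Quotient.mk (Ih p h (law k p h j') ^ j))) := by
    have h0 := (isTy (k := k) (p := p) (h := h) (j := j')).map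
      (Ideal.Quotient.mk (Ih p h (law k p h j') ^ j))
    refine ⟨h0.p0, ?_, h0.unit⟩
    rw [Ih_map, ← Ideal.map_pow, Ideal.map_quotient_self]
  refine ⟨lift ((Ideal.Quotient.mk (Ih p h (law k p h j') ^ j)).comp
    (algebraMap k (RJ k p h j'))) _ hT, ?_⟩
  refine hom_ext (k := k) (p := p) (h := h) (j := j') ?_ ?_
  · rw [RingHom.comp_assoc, red_comp_algebraMap, lift_comp_algebraMap]
  · rw [← Law.map_map, law_map_red, law_map_lift]

theorem ker_red (hj : j ≤ j') :
    RingHom.ker (red k p h hj) = Ih p h (law k p h j') ^ j := by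
  refine le_antisymm ?_ ?_
  · intro x hx
    obtain ⟨s, hs⟩ := exists_back (k := k) (p := p) (h := h) hj
    rw [← Ideal.Quotient.eq_zero_iff_mem, ← hs, RingHom.comp_apply, RingHom.mem_ker.1 hx,
      map_zero]
  · rw [← Ideal.map_eq_bot_iff_le_ker]
    exact map_Ih_pow_red hj

theorem red_surjective (hj : j ≤ j') : Function.Surjective (red k p h hj) := by
  obtain ⟨s, hs⟩ := exists_back (k := k) (p := p) (h := h) hj
  have hle : Ih p h (law k p h j') ^ j ≤ RingHom.ker (red k p h hj) := (ker_red hj).ge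
  let q : RJ k p h j' ⧸ Ih p h (law k p h j') ^ j →+* RJ k p h j :=
    Ideal.Quotient.lift _ (red k p h hj) fun a ha => hle ha
  have hq : q.comp (Ideal.Quotient.mk _) = red k p h hj := Ideal.Quotient.lift_comp_mk _ _ _
  have e1 : q.comp (s.comp (red k p h hj)) = red k p h hj := by rw [hs, hq]
  have hqs : q.comp s = RingHom.id _ := by
    apply hom_ext
    · refine RingHom.ext fun c => ?_
      have h1 := RingHom.congr_fun (red_comp_algebraMap (k := k) (p := p) (h := h) hj) c
      rw [RingHom.comp_apply] at h1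
      rw [RingHom.comp_apply, RingHom.comp_apply, RingHom.comp_apply, RingHom.id_apply, ← h1]
      exact RingHom.congr_fun e1 (algebraMap k (RJ k p h j') c)
    · rw [← law_map_red hj, Law.map_map, Law.map_map, RingHom.comp_assoc, hs, hq,
        RingHom.id_comp]
  intro y
  obtain ⟨x, hx⟩ := Ideal.Quotient.mk_surjective (s y)
  refine ⟨x, ?_⟩
  rw [← hq, RingHom.comp_apply, hx]
  exact RingHom.congr_fun hqs y

end Red

section ToO

variable [Fact p.Prime] {E : Type} [CommRing E] [Algebra k E] {F : Law E}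

/-- `R_j → OInv E`, the classifying map of `f • F_E` -/
noncomputable def toO (hF : IsTy p h j F) : RJ k p h j →+* OInv E :=
  lift ((OInv.inc E).comp (algebraMap k E)) (OInv.f E • F.map (OInv.inc E))
    ((hF.map (OInv.inc E)).smul (OInv.f E))

theorem toO_comp_algebraMap (hF : IsTy p h j F) :
    (toO (k := k) hF).comp (algebraMap k (RJ k p h j)) = (OInv.inc E).comp (algebraMap k E) :=
  lift_comp_algebraMap _ _ _

theorem law_map_toO (hF : IsTy p h j F) :
    (law k p h j).map (toO (k := k) hF) = OInv.f E • F.map (OInv.inc E) :=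
  law_map_lift _ _ _

theorem isLawHom_toO (hF : IsTy p h j F) :
    @IsLawHom (RJ k p h j) (OInv E) _ _ _ (LawRing.oinv F) (toO (k := k) hF) := by
  letI := LawRing.oinv F
  refine isLawHom_of _ (law_map_toO hF) (fun B _ f x => ?_)
  rw [toO_comp_algebraMap, ← RingHom.comp_assoc, ← RingHom.comp_assoc]
  congr 1
  exact OInv.lift_comp_inc _ _

/-- naturality in `E` and `j` -/
theorem toO_red {E' : Type} [CommRing E'] [Algebra k E'] {F' : Law E'} {j' : ℕ} (hj : j ≤ j')
    (hF : IsTy p h j F) (hF' : IsTy p h j' F') (r : E' →+* E)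
    (hr : r.comp (algebraMap k E') = algebraMap k E) (hrF : F'.map r = F) :
    (OInv.mapE r).comp (toO (k := k) hF') = (toO (k := k) hF).comp (red k p h hj) := by
  apply hom_ext
  · rw [RingHom.comp_assoc, toO_comp_algebraMap, RingHom.comp_assoc, red_comp_algebraMap,
      toO_comp_algebraMap, ← RingHom.comp_assoc, OInv.mapE_comp_inc, RingHom.comp_assoc, hr]
  · rw [← Law.map_map, law_map_toO, ← Law.map_map, law_map_red, law_map_toO,
      InvSeries.map_smul, OInv.map_mapE_f, Law.map_map, OInv.mapE_comp_inc, ← hrF, Law.map_map]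

end ToO

end RJ

/-! ### the orbit theorem for `OInv k` over `R_1` -/

section One

variable {k : Type} [Field k] {p h : ℕ} {H : Law k}

/-- The hypotheses on `(k, H)`. -/
structure HData (p h : ℕ) (k : Type) [Field k] (H : Law k) : Prop where
  prime : p.Prime
  hh : h ≠ 0
  card : Nat.card k = p ^ h
  hH : multSeries H.toFG p = PowerSeries.X ^ (p ^ h)

theorem HData.isTy (D : HData p h k H) : IsTy p h 1 H := by
  rw [isTy_one_iff D.hh]
  constructor
  · intro i hi
    rw [vv, D.hH, PowerSeries.coeff_X_pow, if_neg]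
    intro h1
    exact absurd (Nat.pow_right_injective D.prime.two_le h1) hi.ne
  · rw [vv, D.hH, PowerSeries.coeff_X_pow, if_pos rfl]
    exact isUnit_one

theorem HData.orbitSetup [Fact p.Prime] (D : HData p h k H) :
    OrbitSetup p h k H.toFG (RJ k p h 1) (RJ.law k p h 1).toFG where
  prime := D.prime
  hh := D.hh
  card := D.card
  commH := H.comm
  hH := D.hH
  commF := (RJ.law k p h 1).comm
  height := RJ.isTy.hasHeight D.hh

/-- `OInv k` as an `R_1`-algebra -/
noncomputable abbrev HData.algebra [Fact p.Prime] (D : HData p h k H) :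
    Algebra (RJ k p h 1) (OInv k) := (RJ.toO (k := k) D.isTy).toAlgebra

/-- **T-d**: `OInv k` represents the isomorphisms from the law over `R_1` to `H`. -/
theorem HData.isIsoRep [Fact p.Prime] (D : HData p h k H) :
    letI := D.algebra
    IsIsoRep (RJ.law k p h 1).toFG (H.toFG.map (algebraMap k (RJ k p h 1))) (OInv k)
      ((OInv.f k)⁻¹).val := by
  letI := D.algebra
  refine isIsoRep_oinv (H := H) (F := RJ.law k p h 1) ?_ ?_ ?_
  · exact RJ.toO_comp_algebraMap D.isTy
  · exact RJ.law_map_toO D.isTy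
  · intro B _ x y h1 h2
    exact RJ.hom_ext h1 h2

end One

end Vale.Agent.P251.F
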