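/-
P251, part F (F5): the action of `AutF H` on `T_j`. Author: helper288.
-/
import Vale.Agent.P251.F.LTBase
import Vale.Agent.P251.F.RJ
import Vale.Agent.P251.F.FrobAct

set_option linter.unusedSectionVars false
set_option linter.style.haveILetI false

open TensorProduct

namespace Vale.Agent.P251.F

open Vale.Agent.P217 LawRing

universe u

/-- Factorization of the `p ^ N`-power map through a quotient by a nilpotent ideal. -/
theorem exists_frobFactor {A A₁ : Type*} [CommRing A] [CommRing A₁] [Nontrivial A] {p : ℕ}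
    [hp : Fact p.Prime] (hA : (p : A) = 0) (π : A →+* A₁) (hπ : Function.Surjective π) {n N : ℕ}
    (hker : RingHom.ker π ^ n = ⊥) (hN : n ≤ p ^ N) :
    ∃ s : A₁ →+* A, ∀ a, s (π a) = a ^ p ^ N := by
  have _ : CharP A p := (CharP.charP_iff_prime_eq_zero hp.out).2 hA
  have hle : RingHom.ker π ≤ RingHom.ker (iterateFrobenius A p N) := by
    intro x hx
    rw [RingHom.mem_ker, iterateFrobenius_def]
    have h1 := Ideal.pow_mem_pow hx (p ^ N)
    have h2 : RingHom.ker π ^ p ^ N = ⊥ := by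
      rw [eq_bot_iff, ← hker]
      exact Ideal.pow_le_pow_right hN
    rwa [h2, Ideal.mem_bot] at h1
  refine ⟨π.liftOfSurjective hπ ⟨iterateFrobenius A p N, hle⟩, fun a => ?_⟩
  exact (RingHom.liftOfSurjective_comp_apply π hπ ⟨iterateFrobenius A p N, hle⟩ a).trans
    (iterateFrobenius_def p N a)

/-- a copy of `EE k r j`, acting through `X_i ↦ v_{i+1}` -/
def Lam (k : Type u) [CommRing k] (r j : ℕ) : Type u := EE k r j

noncomputable instance (k : Type u) [CommRing k] (r j : ℕ) : CommRing (Lam k r j) :=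
  inferInstanceAs (CommRing (EE k r j))

noncomputable instance (k : Type u) [CommRing k] (r j : ℕ) : Algebra k (Lam k r j) :=
  inferInstanceAs (Algebra k (EE k r j))

/-- the identity -/
noncomputable def Lam.e (k : Type u) [CommRing k] (r j : ℕ) : Lam k r j ≃ₐ[k] EE k r j :=
  AlgEquiv.refl

/-- the maximal ideal -/
noncomputable def Lam.m (k : Type u) [CommRing k] (r j : ℕ) : Ideal (Lam k r j) := EE.m k r j

namespace LTD

variable {p h : ℕ} [hp : Fact p.Prime] {k : Type} [Field k] (D : LTD p h k) (j : ℕ)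

theorem isTy_FE : IsTy p h (j + 1) (D.FE j) where
  p0 := D.p_eq_zero' (algebraMap k (D.EJ j))
  pow := by rw [D.Ih_FE, EE.m_pow]
  unit := D.isUnit_vv_FE j

theorem hData : HData p h k D.H := ⟨hp.out, D.hh, D.card, D.honda.mult⟩

/-- `R_j → T_j` -/
noncomputable def ιR : RJ k p h (j + 1) →+* D.TT j := RJ.toO (k := k) (D.isTy_FE j)

noncomputable instance : Algebra (RJ k p h (j + 1)) (D.TT j) := (D.ιR j).toAlgebra

theorem algebraMap_RT : algebraMap (RJ k p h (j + 1)) (D.TT j) = D.ιR j := rfl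

/-- `R_1 → OInv k` -/
noncomputable def ι₁ : RJ k p h 1 →+* OInv k := RJ.toO (k := k) D.hData.isTy

theorem ιR_comp_algebraMap : (D.ιR j).comp (algebraMap k (RJ k p h (j + 1))) = D.kk j :=
  RJ.toO_comp_algebraMap (D.isTy_FE j)

theorem law_map_ιR : (RJ.law k p h (j + 1)).map (D.ιR j) = law (N := D.TT j) :=
  RJ.law_map_toO (D.isTy_FE j)

theorem isLawHom_ιR : IsLawHom (D.ιR j) := RJ.isLawHom_toO (D.isTy_FE j)

/-- `R_j → R_1` -/
noncomputable def πR (k : Type) [Field k] (p h j : ℕ) : RJ k p h (j + 1) →+* RJ k p h 1 :=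
  RJ.red k p h (Nat.succ_le_succ (Nat.zero_le j))

theorem πR_surjective : Function.Surjective (πR k p h j) := RJ.red_surjective _

theorem ker_πR : RingHom.ker (πR k p h j) = Ih p h (RJ.law k p h (j + 1)) := by
  have := RJ.ker_red (k := k) (p := p) (h := h) (Nat.succ_le_succ (Nat.zero_le j))
  rwa [pow_one] at this

theorem ker_πR_pow : RingHom.ker (πR k p h j) ^ (j + 1) = ⊥ := by
  rw [ker_πR]
  exact RJ.isTy.pow

theorem πT_comp_ιR : (D.πT j).comp (D.ιR j) = D.ι₁.comp (πR k p h j) :=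
  RJ.toO_red (k := k) (Nat.succ_le_succ (Nat.zero_le j)) D.hData.isTy (D.isTy_FE j)
    (EE.π k (h - 1) j) (EE.π_comp_algebraMap k (h - 1) j) (D.FE_map_π j)

theorem ker_πT_pow : RingHom.ker (D.πT j) ^ (j + 1) = ⊥ := by
  rw [D.ker_πT, ← Ideal.map_pow, EE.m_pow, Ideal.map_bot]

include D in
theorem nontrivial_RJ : Nontrivial (RJ k p h (j + 1)) := (D.ιR j).domain_nontrivial

/-- the coordinates `v_{i+1}` of `R_j` -/
noncomputable def vR (k : Type) [Field k] (p h j : ℕ) (i : Fin (h - 1)) : RJ k p h (j + 1) :=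
  vv p (i + 1) (RJ.law k p h (j + 1))

theorem span_vR : Ideal.span (Set.range (vR k p h j)) = Ih p h (RJ.law k p h (j + 1)) :=
  (Ih_eq_span RJ.isTy.p0 _).symm

theorem span_vR_pow : Ideal.span (Set.range (vR k p h j)) ^ (j + 1) = ⊥ := by
  rw [span_vR]
  exact RJ.isTy.pow

/-- `Λ_j → R_j`, `X_i ↦ v_{i+1}` -/
noncomputable def lamR (k : Type) [Field k] (p h j : ℕ) [Fact p.Prime] :
    Lam k (h - 1) j →ₐ[k] RJ k p h (j + 1) :=
  (EE.liftA k (h - 1) (vR k p h j) (span_vR_pow j)).comp (Lam.e k (h - 1) j : _ →ₐ[k] _)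

theorem map_lamR : (Lam.m k (h - 1) j).map (lamR k p h j) = Ih p h (RJ.law k p h (j + 1)) := by
  rw [← span_vR]
  exact EE.map_m_liftA k (h - 1) (vR k p h j) (span_vR_pow j)

/-- **The twisted flatness of `T_j`.** -/
theorem flat_lamT : @Module.Flat (Lam k (h - 1) j) (D.TT j) _ _
    (((D.ιR j).comp (lamR k p h j : Lam k (h - 1) j →+* RJ k p h (j + 1))).toAlgebra).toModule := by
  let _ : Algebra (Lam k (h - 1) j) (OInv (EE k (h - 1) j)) :=
    ((D.ιR j).comp (lamR k p h j : Lam k (h - 1) j →+* RJ k p h (j + 1))).toAlgebra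
  refine OInv.flat_of_twist (k := k) (Λ := Lam k (h - 1) j) (E := EE k (h - 1) j)
    (Lam.e k (h - 1) j) (Lam.m k (h - 1) j) (EE.isNilpotent_m k (h - 1) j) (EE.π k (h - 1) j)
    (EE.π_comp_algebraMap k (h - 1) j) ?_ ?_ ?_
  · rw [EE.ker_π]
    exact (Ideal.map_id _).symm
  · change (((D.ιR j).comp (lamR k p h j : Lam k (h - 1) j →+* RJ k p h (j + 1))).comp
      (algebraMap k (Lam k (h - 1) j))) = D.kk j
    rw [RingHom.comp_assoc, AlgHom.comp_algebraMap, ιR_comp_algebraMap]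
  · have e1 : (Lam.m k (h - 1) j).map (Lam.e k (h - 1) j : Lam k (h - 1) j →+* EE k (h - 1) j) =
        EE.m k (h - 1) j := Ideal.map_id _
    rw [e1]
    change (Lam.m k (h - 1) j).map ((D.ιR j).comp
      (lamR k p h j : Lam k (h - 1) j →+* RJ k p h (j + 1))) = (EE.m k (h - 1) j).map (D.inc j)
    rw [← Ideal.map_map, ← D.Ih_law, ← D.law_map_ιR, Ih_map]
    congr 1
    exact map_lamR j


/-! ### the action at level one -/

include D in
theorem nontrivial_R₁ : Nontrivial (RJ k p h 1) := (D.ι₁).domain_nontrivial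

include D in
theorem expChar_R₁ : ExpChar (RJ k p h 1) p := by
  have := D.nontrivial_R₁
  have : CharP (RJ k p h 1) p := (CharP.charP_iff_prime_eq_zero hp.out).2 RJ.isTy.p0
  exact ExpChar.prime hp.out

include D in
theorem expChar_T₁ : ExpChar (OInv k) p := by
  have : CharP (OInv k) p := (CharP.charP_iff_prime_eq_zero hp.out).2
    (D.p_eq_zero' (OInv.inc k))
  exact ExpChar.prime hp.out

/-- the action of `AutF H` on `OInv k` over `R_1` -/
noncomputable def α₁ :
    @GAct (AutF D.H.toFG) (RJ k p h 1) (OInv k) _ _ _ _ D.hData.algebra :=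
  letI := D.hData.algebra
  D.hData.isIsoRep.gact D.hData.orbitSetup

theorem map_α₁_f (γ : AutF D.H.toFG) :
    letI := D.hData.algebra
    InvSeries.map ((D.α₁.ρ γ : OInv k →ₐ[RJ k p h 1] OInv k) : OInv k →+* OInv k) (OInv.f k) =
      OInv.f k * InvSeries.map (OInv.inc k) γ.toInv := by
  letI := D.hData.algebra
  exact map_act_f D.hData.isIsoRep (RJ.toO_comp_algebraMap D.hData.isTy) γ

theorem α₁_inc (γ : AutF D.H.toFG) (c : k) :
    letI := D.hData.algebra
    D.α₁.ρ γ (OInv.inc k c) = OInv.inc k c := by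
  letI := D.hData.algebra
  have h1 : algebraMap (RJ k p h 1) (OInv k) (algebraMap k (RJ k p h 1) c) = OInv.inc k c :=
    RingHom.congr_fun (RJ.toO_comp_algebraMap D.hData.isTy) c
  rw [← h1, AlgHom.commutes]

/-- **Main theorem on `T_j`.** -/
theorem exists_gact (N : ℕ) (hN : j + 1 ≤ p ^ N) :
    letI := D.hData.algebra
    ∃ ρ : GAct (AutF D.H.toFG) (RJ k p h (j + 1)) (D.TT j), ρ.IsTorsor ∧
      Module.FaithfullyFlat (RJ k p h (j + 1)) (D.TT j) ∧
      (∀ γ x, D.πT j (ρ.ρ γ x) = D.α₁.ρ γ (D.πT j x)) ∧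
      ∀ (C : Type) [CommRing C] (φ ψ : D.TT j →+* C),
        (∀ r, φ (D.ιR j r) = ψ (D.ιR j r)) → (∀ t, φ t ^ p ^ N = ψ t ^ p ^ N) → φ = ψ := by
  letI := D.hData.algebra
  have _ := D.finite
  have _ := D.expChar_R₁
  have _ := D.expChar_T₁
  have _ := D.nontrivial_RJ j
  obtain ⟨s, hs⟩ := exists_frobFactor RJ.isTy.p0 (πR k p h j) (πR_surjective j) (ker_πR_pow j) hN
  obtain ⟨t, ht⟩ := exists_frobFactor (D.p_eq_zero' (D.kk j)) (D.πT j) D.πT_surjective
    (D.ker_πT_pow j) hN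
  have hst : ∀ r, D.ιR j (s r) = t (D.ι₁ r) := by
    intro r
    obtain ⟨r, rfl⟩ := πR_surjective (k := k) (p := p) (h := h) j r
    rw [hs, map_pow, ← RingHom.comp_apply D.ι₁, ← D.πT_comp_ιR, RingHom.comp_apply, ht]
  letI : Algebra (RJ k p h 1) (RJ k p h (j + 1)) := s.toAlgebra
  letI : Algebra (OInv k) (D.TT j) := t.toAlgebra
  letI : Algebra (RJ k p h 1) (D.TT j) := (t.comp D.ι₁).toAlgebra
  haveI : IsScalarTower (RJ k p h 1) (OInv k) (D.TT j) :=
    IsScalarTower.of_algebraMap_eq fun _ => rfl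
  haveI : IsScalarTower (RJ k p h 1) (RJ k p h (j + 1)) (D.TT j) :=
    IsScalarTower.of_algebraMap_eq fun r => (hst r).symm
  letI : Algebra (Lam k (h - 1) j) (RJ k p h (j + 1)) :=
    (lamR k p h j : Lam k (h - 1) j →+* RJ k p h (j + 1)).toAlgebra
  letI : Algebra (Lam k (h - 1) j) (D.TT j) :=
    ((D.ιR j).comp (lamR k p h j : Lam k (h - 1) j →+* RJ k p h (j + 1))).toAlgebra
  haveI : IsScalarTower (Lam k (h - 1) j) (RJ k p h (j + 1)) (D.TT j) :=
    IsScalarTower.of_algebraMap_eq fun _ => rfl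
  haveI : Module.Flat (Lam k (h - 1) j) (D.TT j) := D.flat_lamT j
  haveI : Module.FaithfullyFlat (RJ k p h 1) (OInv k) :=
    D.hData.isIsoRep.faithfullyFlat D.hData.orbitSetup
  have htors : D.α₁.IsTorsor := D.hData.isIsoRep.isTorsor_gact D.hData.orbitSetup
  have hb : Function.Bijective (GAct.push (RJ k p h 1) (OInv k) (RJ k p h (j + 1)) (D.TT j)) := by
    refine GAct.thick_bijective (Λ := Lam k (h - 1) j) htors p N (m := Lam.m k (h - 1) j)
      (EE.isNilpotent_m k (h - 1) j) (πR k p h j) (D.πT j) ?_ (πR_surjective j) D.πT_surjective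
      ?_ ?_ hs ht
    · intro r
      exact RingHom.congr_fun (D.πT_comp_ιR j) r
    · rw [ker_πR]
      exact (map_lamR j).ge
    · rw [D.ker_πT, ← D.Ih_law, ← D.law_map_ιR, Ih_map]
      change _ = (Lam.m k (h - 1) j).map ((D.ιR j).comp
        (lamR k p h j : Lam k (h - 1) j →+* RJ k p h (j + 1)))
      rw [← Ideal.map_map]
      congr 1
      exact (map_lamR j).symm
  refine ⟨GAct.lift hb D.α₁, GAct.isTorsor_lift hb htors, GAct.faithfullyFlat_lift hb,
    fun γ x => ?_, fun C _ φ ψ h1 h2 => ?_⟩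
  · exact GAct.lift_reduce hb D.α₁ p N (πR k p h j) (D.πT j)
      (fun r => RingHom.congr_fun (D.πT_comp_ιR j) r) D.πT_surjective ht γ x
  · exact GAct.hom_ext_of_pow hb p N (D.πT j) D.πT_surjective ht φ ψ h1 h2

end LTD

end Vale.Agent.P251.F
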