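/-
P251, part F (F5): the action of `AutF H` on `T_j`: instances, cohomology, invariants,
compatibility with coordinate changes and transition maps. Author: helper288.
-/
import Vale.Agent.P251.F.LTAct
import Vale.Agent.P251.F.GCob
import Vale.Agent.P251.F.Torsor

set_option linter.unusedSectionVars false
set_option linter.style.haveILetI false

open TensorProduct

namespace Vale.Agent.P251.F

open Vale.Agent.P217 LawRing Vale.Agent.P251.C

namespace GAct

section Inst

variable {G : Type*} [Group G] [TopologicalSpace G] {R T : Type*} [CommRing R] [CommRing T]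
  [Algebra R T]

/-- the action as an instance -/
@[reducible] def msa (α : GAct G R T) : MulSemiringAction G T where
  smul g t := α.ρ g t
  one_smul := α.one
  mul_smul := α.mul
  smul_zero g := map_zero (α.ρ g)
  smul_add g := map_add (α.ρ g)
  smul_one g := map_one (α.ρ g)
  smul_mul g := map_mul (α.ρ g)

theorem discMod (α : GAct G R T) : letI := α.msa; DiscMod G T :=
  letI := α.msa
  ⟨fun t => (α.lc t).isOpen_fiber t⟩

theorem smulComm (α : GAct G R T) : letI := α.msa; SMulCommClass G R T :=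
  letI := α.msa
  ⟨fun g r t => map_smul (α.ρ g) r t⟩

variable [IsTopologicalGroup G]

theorem phi_bijective (α : GAct G R T) (hα : α.IsTorsor) :
    letI := α.msa
    haveI := α.smulComm
    haveI := α.discMod
    Function.Bijective (Torsor.Phi R G T T) := by
  letI := α.msa
  haveI := α.smulComm
  haveI := α.discMod
  have e : ∀ u : T ⊗[R] T, Torsor.Phi R G T T u = α.gal T u := by
    intro u
    induction u using TensorProduct.induction_on with
    | zero => rw [map_zero, map_zero]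
    | add a b ha hb => rw [map_add, map_add, ha, hb]
    | tmul s t =>
      ext γ
      rfl
  have e' : (Torsor.Phi R G T T : T ⊗[R] T → LocallyConstant G T) = α.gal T := funext e
  show Function.Bijective (Torsor.Phi R G T T : T ⊗[R] T → LocallyConstant G T)
  rw [e']
  exact hα

theorem hzero [CompactSpace G] (α : GAct G R T) (hα : α.IsTorsor) [Module.FaithfullyFlat R T]
    {s : ℕ} (hs : 1 ≤ s) : letI := α.msa; HZero G T s := by
  letI := α.msa
  haveI := α.smulComm
  haveI := α.discMod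
  have : SMulCommClass R G T := SMulCommClass.symm _ _ _
  exact Torsor.hzero_self R G T (α.phi_bijective hα) hs

theorem invariants_eq [CompactSpace G] (α : GAct G R T) (hα : α.IsTorsor)
    [Module.FaithfullyFlat R T] : Function.Injective (algebraMap R T) ∧
      ∀ t : T, (∀ g : G, α.ρ g t = t) → ∃ r : R, algebraMap R T r = t := by
  letI := α.msa
  haveI := α.smulComm
  haveI := α.discMod
  have : SMulCommClass R G T := SMulCommClass.symm _ _ _
  exact Torsor.invariants_self R G T (α.phi_bijective hα)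

end Inst

end GAct

namespace LTD

variable {p h : ℕ} [hp : Fact p.Prime] {k : Type} [Field k] (D : LTD p h k) (j : ℕ)

/-- the group `AutF H` -/
abbrev GG (D : LTD p h k) : Type := AutF D.H.toFG

instance compactSpace_GG : CompactSpace D.GG :=
  have := D.finite
  inferInstance

theorem le_pow : j + 1 ≤ p ^ (j + 1) := (Nat.lt_pow_self hp.out.one_lt).le

/-- the action of `AutF H` on `T_j` -/
noncomputable def ρ : GAct D.GG (RJ k p h (j + 1)) (D.TT j) :=
  (D.exists_gact j (j + 1) (le_pow j)).choose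

theorem ρ_isTorsor : (D.ρ j).IsTorsor := (D.exists_gact j (j + 1) (le_pow j)).choose_spec.1

instance ff : Module.FaithfullyFlat (RJ k p h (j + 1)) (D.TT j) :=
  (D.exists_gact j (j + 1) (le_pow j)).choose_spec.2.1

theorem πT_ρ (γ : D.GG) (x : D.TT j) :
    letI := D.hData.algebra
    D.πT j ((D.ρ j).ρ γ x) = D.α₁.ρ γ (D.πT j x) :=
  (D.exists_gact j (j + 1) (le_pow j)).choose_spec.2.2.1 γ x

variable {j}

/-- **Uniqueness**: homomorphisms out of `T_j` are determined by their restrictions to `R_j` and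
by their reduction modulo a nilpotent ideal. -/
theorem hom_unique {C : Type} [CommRing C] (φ ψ : D.TT j →+* C)
    (h1 : φ.comp (D.ιR j) = ψ.comp (D.ιR j)) {J : Ideal C} (hJ : IsNilpotent J)
    (h2 : (Ideal.Quotient.mk J).comp φ = (Ideal.Quotient.mk J).comp ψ) : φ = ψ := by
  obtain ⟨n, hn⟩ := hJ
  let N := max (j + 1) n
  have hN1 : N ≤ p ^ N := (Nat.lt_pow_self hp.out.one_lt).le
  have hJN : J ^ p ^ N = ⊥ := by
    rw [eq_bot_iff, ← Ideal.zero_eq_bot, ← hn]
    exact Ideal.pow_le_pow_right ((le_max_right _ _).trans hN1)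
  refine (D.exists_gact j N ((le_max_left _ _).trans hN1)).choose_spec.2.2.2 C φ ψ
    (fun r => RingHom.congr_fun h1 r) fun t => ?_
  refine GAct.pow_eq_of_sub_mem hp.out (D.p_eq_zero' (φ.comp (D.kk j))) hJN ?_
  rw [← Ideal.Quotient.eq]
  exact RingHom.congr_fun h2 t

/-- A homomorphism which kills the maximal ideal factors through `OInv k`. -/
theorem exists_factor {C : Type} [CommRing C] (χ : D.TT j →+* C)
    (hχ : ∀ x ∈ EE.m k (h - 1) j, χ (D.inc j x) = 0) :
    ∃ χ₁ : OInv k →+* C, χ = χ₁.comp (D.πT j) := by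
  refine ⟨OInv.lift (χ.comp (D.kk j)) (InvSeries.map χ (D.ser j)), ?_⟩
  apply D.hom_ext
  · rw [RingHom.comp_assoc, πT_comp_inc, ← RingHom.comp_assoc, OInv.lift_comp_inc]
    refine RingHom.ext fun x => ?_
    have h1 : x - algebraMap k (D.EJ j) (EE.π k (h - 1) j x) ∈ EE.m k (h - 1) j := by
      rw [← EE.ker_π, RingHom.mem_ker, map_sub, EE.π_algebraMap, sub_self]
    have h2 := hχ _ h1
    rw [map_sub, map_sub, sub_eq_zero] at h2
    exact h2
  · rw [← InvSeries.map_map, map_πT_ser, OInv.map_lift_f]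

/-- coordinate changes on the points of `OInv k` -/
noncomputable def act₁ {B : Type} [CommRing B] (s : InvSeries B) (χ : OInv k →+* B) :
    OInv k →+* B := OInv.lift (χ.comp (OInv.inc k)) (s * InvSeries.map χ (OInv.f k))

theorem act_comp_πT {B : Type} [CommRing B] (s : InvSeries B) (χ : OInv k →+* B) :
    act s (χ.comp (D.πT j)) = (act₁ s χ).comp (D.πT j) := by
  apply D.hom_ext
  · rw [act_eq, pt_comp_inc, RingHom.comp_assoc, RingHom.comp_assoc, πT_comp_inc,
      ← RingHom.comp_assoc, ← RingHom.comp_assoc, act₁, OInv.lift_comp_inc]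
  · rw [act_eq, map_pt_ser, ← InvSeries.map_map, ← InvSeries.map_map, map_πT_ser, act₁,
      OInv.map_lift_f]

/-- the ring endomorphism of `OInv k` -/
noncomputable def α₁r (γ : D.GG) : OInv k →+* OInv k :=
  letI := D.hData.algebra
  (D.α₁.ρ γ : OInv k →ₐ[RJ k p h 1] OInv k)

theorem map_α₁r_f (γ : D.GG) : InvSeries.map (D.α₁r γ) (OInv.f k) =
    OInv.f k * InvSeries.map (OInv.inc k) γ.toInv := D.map_α₁_f γ

theorem α₁r_comp_inc (γ : D.GG) : (D.α₁r γ).comp (OInv.inc k) = OInv.inc k :=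
  RingHom.ext fun c => D.α₁_inc γ c

theorem act₁_comp_α₁ {B : Type} [CommRing B] (s : InvSeries B) (χ : OInv k →+* B) (γ : D.GG) :
    (act₁ s χ).comp (D.α₁r γ) = act₁ s (χ.comp (D.α₁r γ)) := by
  apply OInv.hom_ext
  · rw [RingHom.comp_assoc, α₁r_comp_inc, act₁, act₁, OInv.lift_comp_inc, OInv.lift_comp_inc,
      RingHom.comp_assoc, α₁r_comp_inc]
  · have e1 : InvSeries.map (act₁ s (χ.comp (D.α₁r γ))) (OInv.f k) =
        s * InvSeries.map (χ.comp (D.α₁r γ)) (OInv.f k) := OInv.map_lift_f _ _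
    have e2 : InvSeries.map (act₁ s χ) (OInv.f k) = s * InvSeries.map χ (OInv.f k) :=
      OInv.map_lift_f _ _
    have e3 : (act₁ s χ).comp (OInv.inc k) = χ.comp (OInv.inc k) := OInv.lift_comp_inc _ _
    rw [← InvSeries.map_map, map_α₁r_f, map_mul, e1, e2, InvSeries.map_map, e3,
      ← InvSeries.map_map (D.α₁r γ) χ, map_α₁r_f, map_mul, InvSeries.map_map, mul_assoc]

/-! ### instances -/

noncomputable instance instMSA (D : LTD p h k) (j : ℕ) : MulSemiringAction D.GG (D.TT j) :=
  (D.ρ j).msa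

theorem smul_def (γ : D.GG) (t : D.TT j) : γ • t = (D.ρ j).ρ γ t := rfl

instance instDisc (D : LTD p h k) (j : ℕ) : DiscMod D.GG (D.TT j) := (D.ρ j).discMod

theorem hzero (j a : ℕ) : HZero D.GG (D.TT j) (a + 1) :=
  (D.ρ j).hzero (D.ρ_isTorsor j) (Nat.succ_le_succ (Nat.zero_le a))

theorem ιR_injective : Function.Injective (D.ιR j) :=
  ((D.ρ j).invariants_eq (D.ρ_isTorsor j)).1

theorem exists_ιR {t : D.TT j} (ht : ∀ γ : D.GG, γ • t = t) : ∃ r, D.ιR j r = t :=
  ((D.ρ j).invariants_eq (D.ρ_isTorsor j)).2 t ht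

theorem smul_ιR (γ : D.GG) (r : RJ k p h (j + 1)) : γ • D.ιR j r = D.ιR j r :=
  ((D.ρ j).ρ γ).commutes r

/-- the ring endomorphism of an element of `AutF H` -/
noncomputable abbrev sm (D : LTD p h k) (j : ℕ) (γ : D.GG) : D.TT j →+* D.TT j :=
  MulSemiringAction.toRingHom D.GG (D.TT j) γ

theorem sm_apply (γ : D.GG) (t : D.TT j) : D.sm j γ t = γ • t := rfl

theorem sm_comp_ιR (γ : D.GG) : (D.sm j γ).comp (D.ιR j) = D.ιR j :=
  RingHom.ext fun r => D.smul_ιR γ r

theorem πT_comp_sm (γ : D.GG) : (D.πT j).comp (D.sm j γ) = (D.α₁r γ).comp (D.πT j) :=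
  RingHom.ext fun x => D.πT_ρ j γ x

theorem sm_comp_kk (γ : D.GG) : (D.sm j γ).comp (D.kk j) = D.kk j := by
  rw [← D.ιR_comp_algebraMap, ← RingHom.comp_assoc, sm_comp_ιR]

theorem smul_kk (γ : D.GG) (c : k) : γ • D.kk j c = D.kk j c :=
  RingHom.congr_fun (D.sm_comp_kk γ) c

theorem map_sm_law (γ : D.GG) : (law (N := D.TT j)).map (D.sm j γ) = law (N := D.TT j) := by
  rw [← D.law_map_ιR, Law.map_map, sm_comp_ιR]

theorem act_comp_sm {B : Type} [CommRing B] (s : InvSeries B) (x : D.TT j →+* B) (γ : D.GG) :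
    (act s x).comp (D.sm j γ) = act s (x.comp (D.sm j γ)) := by
  let J : Ideal B := (EE.m k (h - 1) j).map (x.comp (D.inc j))
  have hJ : IsNilpotent J := by
    refine ⟨j + 1, ?_⟩
    rw [← Ideal.map_pow, EE.m_pow, Ideal.map_bot]
    rfl
  refine D.hom_unique _ _ ?_ hJ ?_
  · rw [RingHom.comp_assoc, sm_comp_ιR, (D.isLawHom_ιR j).act, (D.isLawHom_ιR j).act,
      RingHom.comp_assoc, sm_comp_ιR]
  · obtain ⟨χ₁, hχ₁⟩ := D.exists_factor ((Ideal.Quotient.mk J).comp x) fun y hy => by
      rw [RingHom.comp_apply, Ideal.Quotient.eq_zero_iff_mem]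
      exact Ideal.mem_map_of_mem (x.comp (D.inc j)) hy
    rw [← RingHom.comp_assoc, comp_act, comp_act, ← RingHom.comp_assoc, hχ₁, act_comp_πT,
      RingHom.comp_assoc, πT_comp_sm, ← RingHom.comp_assoc, act₁_comp_α₁, RingHom.comp_assoc,
      πT_comp_sm, ← RingHom.comp_assoc, act_comp_πT]

instance instLawAction (D : LTD p h k) (j : ℕ) : LawAction D.GG (D.TT j) where
  isLawHom γ := ⟨D.map_sm_law γ, fun _ _ s x => D.act_comp_sm s x γ⟩

/-! ### transition maps -/

theorem redT_comp_ιR {j j' : ℕ} (hj : j ≤ j') :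
    (D.redT hj).comp (D.ιR j') = (D.ιR j).comp (RJ.red k p h (Nat.succ_le_succ hj)) :=
  RJ.toO_red (k := k) (Nat.succ_le_succ hj) (D.isTy_FE j) (D.isTy_FE j')
    (EE.red k (h - 1) hj : D.EJ j' →+* D.EJ j) ((EE.red k (h - 1) hj).comp_algebraMap)
    (D.FE_map_red j hj)

theorem isNilpotent_ker_πT (j : ℕ) : IsNilpotent (RingHom.ker (D.πT j)) :=
  ⟨j + 1, D.ker_πT_pow j⟩

theorem mk_ker_πT_comp {C : Type} [CommRing C] {φ ψ : C →+* D.TT j}
    (h1 : (D.πT j).comp φ = (D.πT j).comp ψ) :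
    (Ideal.Quotient.mk (RingHom.ker (D.πT j))).comp φ =
      (Ideal.Quotient.mk (RingHom.ker (D.πT j))).comp ψ := by
  ext x
  rw [RingHom.comp_apply, RingHom.comp_apply, Ideal.Quotient.eq, RingHom.mem_ker, map_sub,
    sub_eq_zero]
  exact RingHom.congr_fun h1 x

theorem redT_comp_sm {j j' : ℕ} (hj : j ≤ j') (γ : D.GG) :
    (D.redT hj).comp (D.sm j' γ) = (D.sm j γ).comp (D.redT hj) := by
  refine D.hom_unique _ _ ?_ (D.isNilpotent_ker_πT j) (D.mk_ker_πT_comp ?_)
  · rw [RingHom.comp_assoc, sm_comp_ιR, RingHom.comp_assoc, redT_comp_ιR, ← RingHom.comp_assoc,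
      sm_comp_ιR]
  · rw [← RingHom.comp_assoc, πT_redT, πT_comp_sm, ← RingHom.comp_assoc, πT_comp_sm,
      RingHom.comp_assoc, πT_redT]

theorem redT_smul {j j' : ℕ} (hj : j ≤ j') (γ : D.GG) (t : D.TT j') :
    D.redT hj (γ • t) = γ • D.redT hj t := RingHom.congr_fun (D.redT_comp_sm hj γ) t

theorem redT_self (j : ℕ) : D.redT (le_refl j) = RingHom.id _ := by
  apply D.hom_ext
  · rw [redT_comp_inc, RingHom.id_comp]
    refine RingHom.ext fun x => ?_
    obtain ⟨x, rfl⟩ := Ideal.Quotient.mk_surjective x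
    rfl
  · rw [map_redT_ser, InvSeries.map_id]

theorem redT_redT {j j' j'' : ℕ} (hj : j ≤ j') (hj' : j' ≤ j'') :
    (D.redT hj).comp (D.redT hj') = D.redT (hj.trans hj') := by
  apply D.hom_ext
  · rw [RingHom.comp_assoc, redT_comp_inc, ← RingHom.comp_assoc, redT_comp_inc, redT_comp_inc,
      RingHom.comp_assoc]
    congr 1
    refine RingHom.ext fun x => ?_
    obtain ⟨x, rfl⟩ := Ideal.Quotient.mk_surjective x
    rfl
  · rw [← InvSeries.map_map, map_redT_ser, map_redT_ser, map_redT_ser]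

end LTD

end Vale.Agent.P251.F
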