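import Vale.Agent.P251.F.InvBasis
import Mathlib.LinearAlgebra.TensorProduct.Basic
import Mathlib.RingTheory.TensorProduct.Basic
import Mathlib.LinearAlgebra.Basis.VectorSpace
import Mathlib.Algebra.Algebra.ZMod

/-!
# P251, part F (F10): `InvBasis` from an embedding of `k ⊗ N`
-/

namespace Vale.Agent.P251.F

open LawRing TensorProduct

section

variable {p : ℕ} [Fact p.Prime] {k N : Type} [Field k] [CommRing N] [Algebra (ZMod p) k]
  {I : Type} [Fintype I] (e : Module.Basis I (ZMod p) k)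

theorem tensor_basis_exist (x : k ⊗[ℤ] N) : ∃ n : I → N, x = ∑ i, e i ⊗ₜ[ℤ] n i := by
  induction x using TensorProduct.induction_on with
  | zero => exact ⟨0, by simp⟩
  | add x y hx hy =>
    obtain ⟨n, hn⟩ := hx
    obtain ⟨m, hm⟩ := hy
    refine ⟨n + m, ?_⟩
    rw [hn, hm, ← Finset.sum_add_distrib]
    exact Finset.sum_congr rfl fun i _ => by rw [Pi.add_apply, TensorProduct.tmul_add]
  | tmul a n =>
    refine ⟨fun i => (e.repr a i).val • n, ?_⟩
    conv_lhs => rw [← e.sum_repr a]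
    rw [TensorProduct.sum_tmul]
    refine Finset.sum_congr rfl fun i _ => ?_
    have h1 : e.repr a i • e i = ((e.repr a i).val : ℤ) • e i := by
      conv_lhs => rw [← ZMod.natCast_zmod_val (e.repr a i)]
      rw [Nat.cast_smul_eq_nsmul, natCast_zsmul]
    rw [h1, TensorProduct.smul_tmul, natCast_zsmul]

theorem tensor_basis_uniq (hN : (p : N) = 0) (n : I → N)
    (hn : ∑ i, e i ⊗ₜ[ℤ] n i = (0 : k ⊗[ℤ] N)) : n = 0 := by
  classical
  let _ : Algebra (ZMod p) N := ZMod.algebra' N (ringChar N) ((ringChar.spec N p).1 hN)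
  let f : k →ₗ[ℤ] N →ₗ[ℤ] (I → N) := LinearMap.mk₂ ℤ (fun a n i => e.repr a i • n)
    (fun a b n => by funext i; simp [add_smul])
    (fun c a n => by
      funext i
      simp only [Pi.smul_apply]
      rw [map_zsmul, Finsupp.smul_apply, smul_assoc])
    (fun a n m => by funext i; simp)
    (fun c a n => by
      funext i
      simp only [Pi.smul_apply]
      rw [smul_comm])
  have h1 := congrArg (TensorProduct.lift f) hn
  rw [map_sum, map_zero] at h1
  funext i
  have h2 := congrFun h1 i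
  simp only [TensorProduct.lift.tmul, f, LinearMap.mk₂_apply, Finset.sum_apply,
    Module.Basis.repr_self, Finsupp.single_apply, ite_smul, one_smul, zero_smul,
    Finset.sum_ite_eq', Finset.mem_univ, if_true, Pi.zero_apply] at h2
  exact h2

/-- A basis of `k` over `ZMod p` containing `1`. -/
theorem exists_basis_one (p : ℕ) [Fact p.Prime] (k : Type) [Field k] [Finite k]
    [Algebra (ZMod p) k] : ∃ (I : Type) (_ : Fintype I) (e : Module.Basis I (ZMod p) k) (i₀ : I),
      e i₀ = 1 := by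
  classical
  have h1 : LinearIndepOn (ZMod p) id ({(1 : k)} : Set k) :=
    (linearIndepOn_singleton_iff (ZMod p)).2 one_ne_zero
  let e := Module.Basis.extend h1
  have hfin : Finite ↥(h1.extend (Set.subset_univ ({(1 : k)} : Set k))) := Subtype.finite
  have hmem : (1 : k) ∈ h1.extend (Set.subset_univ ({(1 : k)} : Set k)) :=
    h1.subset_extend (Set.subset_univ _) rfl
  refine ⟨_, Fintype.ofFinite _, e, ⟨1, hmem⟩, ?_⟩
  rw [Module.Basis.extend_apply_self]

end

section

variable {G : Type*} {p : ℕ} [Fact p.Prime] {k N T I : Type} [Field k] [Algebra (ZMod p) k]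
  [Group G] [CommRing N] [CommRing T] [LawRing T] [MulSemiringAction G T] [Fintype I]

/-- `InvBasis` from an embedding `ψ` of `k ⊗ N` with image the invariants. -/
theorem invBasis_of_tensor (hN : (p : N) = 0) (ψ : k ⊗[ℤ] N →+* T)
    (hinj : Function.Injective ψ) (hfix : ∀ (γ : G) x, γ • ψ x = ψ x)
    (hinv : ∀ t : T, (∀ γ : G, γ • t = t) → ∃ x, ψ x = t)
    (hconst : ∀ (B : Type) [CommRing B] (g : InvSeries B) (x : T →+* B) (a : k),
      act g x (ψ (a ⊗ₜ 1)) = x (ψ (a ⊗ₜ 1)))
    (ι : N →+* T) (hι : ∀ n, ι n = ψ (1 ⊗ₜ n)) (e : Module.Basis I (ZMod p) k) (i₀ : I)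
    (he : e i₀ = 1) : InvBasis G ι (fun i => ψ (e i ⊗ₜ 1)) i₀ := by
  have hmul : ∀ i n, ψ (e i ⊗ₜ 1) * ι n = ψ (e i ⊗ₜ n) := fun i n => by
    rw [hι, ← map_mul, Algebra.TensorProduct.tmul_mul_tmul, mul_one, one_mul]
  have hsum : ∀ n : I → N, ∑ i, ψ (e i ⊗ₜ 1) * ι (n i) = ψ (∑ i, e i ⊗ₜ n i) := fun n => by
    rw [map_sum]
    exact Finset.sum_congr rfl fun i _ => hmul i _
  refine ⟨?_, ?_, ?_, ?_, ?_⟩
  · rw [he]
    exact map_one ψ
  · intro B _ g x i
    exact hconst B g x (e i)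
  · intro γ n
    rw [hι, hfix]
  · intro t ht
    obtain ⟨x, rfl⟩ := hinv t ht
    obtain ⟨n, rfl⟩ := tensor_basis_exist e x
    exact ⟨n, (hsum n).symm⟩
  · intro n hn
    rw [hsum] at hn
    exact tensor_basis_uniq e hN n (hinj (hn.trans (map_zero ψ).symm))

end

end Vale.Agent.P251.F
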