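import Vale.Agent.P251.F.RJ
import Vale.Agent.P251.F.TensorBasis

/-!
# P251, part F (F5): `R_j = k ⊗ NN p h j` is free over `NN p h j`

* `RJ.exist`, `RJ.uniq`: for a basis `b` of `k` over `𝔽_p` every element of `R_j` is uniquely
  `∑ b_i n_i` with `n_i ∈ NN p h j`;
* `exists_basis_one` (in `TensorBasis.lean`): there is a basis containing `1`;
* `RJ.invBasis`: if the invariants of `T` are `R_j`, then `InvBasis` holds.
-/

open TensorProduct Vale.Agent.P217 Vale.Agent.P251.C

namespace Vale.Agent.P251.F

theorem nsmul_NC {p h j : ℕ} (x : NC p h j) : p • x = 0 := by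
  have h1 : (p : NC p h j) = 0 := (NN.isTy (p := p) (h := h) (j := j)).p0
  rw [nsmul_eq_mul, h1, zero_mul]

/-- `NC p h j` is an `𝔽_p`-vector space -/
noncomputable abbrev zmodNC (p h j : ℕ) : Module (ZMod p) (NC p h j) :=
  AddCommGroup.zmodModule nsmul_NC

namespace RJ

variable {k : Type} [CommRing k] {p h j : ℕ} [Fact p.Prime] [Algebra (ZMod p) k] {I : Type}
  (b : Module.Basis I (ZMod p) k)

/-- the coordinates -/
noncomputable def coord (i : I) : RJ k p h j →+ NC p h j :=
  letI := zmodNC p h j
  TensorProduct.liftAddHom (R := ℤ) (M := k) (N := NC p h j)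
    ((smulAddHom (ZMod p) (NC p h j)).comp (b.coord i).toAddMonoidHom) (by
      intro r m n
      change (b.coord i) (r • m) • n = (b.coord i) m • (r • n)
      rw [map_zsmul, smul_assoc, smul_comm])

theorem coord_mul (i : I) (c : k) (n : NN p h j) :
    letI := zmodNC p h j
    coord b i (algebraMap k (RJ k p h j) c * incR k p h j n) =
      b.repr c i • NC.of p h j n := by
  rw [← tmul_eq]
  rfl

theorem coord_basis [DecidableEq I] (i i' : I) (n : NN p h j) :
    coord b i (algebraMap k (RJ k p h j) (b i') * incR k p h j n) =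
      if i' = i then NC.of p h j n else 0 := by
  letI := zmodNC p h j
  rw [coord_mul, Module.Basis.repr_self, Finsupp.single_apply]
  split_ifs
  · rw [one_smul]
  · rw [zero_smul]

theorem uniq [Fintype I] (n : I → NN p h j)
    (hn : ∑ i, algebraMap k (RJ k p h j) (b i) * incR k p h j (n i) = 0) : n = 0 := by
  classical
  funext i
  have h1 := congrArg (coord b i) hn
  rw [map_sum, map_zero] at h1
  simp only [coord_basis] at h1
  rw [Finset.sum_ite_eq' Finset.univ i (fun i' => NC.of p h j (n i')),
    if_pos (Finset.mem_univ _)] at h1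
  exact (NC.of p h j).injective (h1.trans (map_zero _).symm)

theorem exist [Fintype I] (t : RJ k p h j) : ∃ n : I → NN p h j,
    t = ∑ i, algebraMap k (RJ k p h j) (b i) * incR k p h j (n i) := by
  refine ind (P := fun t => ∃ n : I → NN p h j,
    t = ∑ i, algebraMap k (RJ k p h j) (b i) * incR k p h j (n i)) ?_ ?_ ?_ t
  · refine ⟨0, ?_⟩
    simp only [Pi.zero_apply, map_zero, mul_zero, Finset.sum_const_zero]
  · rintro x y ⟨n, rfl⟩ ⟨m, rfl⟩
    refine ⟨n + m, ?_⟩
    simp only [Pi.add_apply, map_add, mul_add, Finset.sum_add_distrib]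
  · intro c n
    refine ⟨fun i => ((b.repr c i).val : NN p h j) * n, ?_⟩
    have h1 : c = ∑ i, ((b.repr c i).val : k) * b i := by
      conv_lhs => rw [← b.sum_repr c]
      refine Finset.sum_congr rfl fun i _ => ?_
      rw [Algebra.smul_def]
      congr 1
      conv_lhs => rw [← ZMod.natCast_zmod_val (b.repr c i)]
      rw [map_natCast]
    conv_lhs => rw [h1]
    rw [map_sum, Finset.sum_mul]
    refine Finset.sum_congr rfl fun i _ => ?_
    rw [map_mul, map_mul, map_natCast, map_natCast]
    ring

/-- If `ψ : R_j → T` is an injective morphism of law rings with image the invariants of `G`, then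
`InvBasis` holds for `NN p h j → T` -/
theorem invBasis [Fintype I] {i₀ : I} (hb : b i₀ = 1) {G : Type*} [Group G] {T : Type} [CommRing T]
    [LawRing T] [MulSemiringAction G T] {ψ : RJ k p h j →+* T} (hψ : IsLawHom ψ)
    (hinj : Function.Injective ψ) (hfix : ∀ (γ : G) (r : RJ k p h j), γ • ψ r = ψ r)
    (hinv : ∀ t : T, (∀ γ : G, γ • t = t) → ∃ r : RJ k p h j, ψ r = t) :
    InvBasis G (ψ.comp (incR k p h j)) (fun i => ψ (algebraMap k (RJ k p h j) (b i))) i₀ where
  one := by
    change ψ (algebraMap k (RJ k p h j) (b i₀)) = 1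
    rw [hb, map_one, map_one]
  const B _ g x i := by
    have h1 := hψ.act B g x
    have h2 := RingHom.congr_fun (act_comp_algebraMap (p := p) (h := h) (j := j) g (x.comp ψ)) (b i)
    rw [← h1] at h2
    exact h2
  fix γ n := hfix γ _
  exist t ht := by
    obtain ⟨r, rfl⟩ := hinv t ht
    obtain ⟨n, hn⟩ := exist b r
    refine ⟨n, ?_⟩
    conv_lhs => rw [hn]
    rw [map_sum]
    refine Finset.sum_congr rfl fun i _ => ?_
    rw [map_mul, RingHom.comp_apply]
  uniq n hn := by
    refine uniq b n (hinj ?_)
    rw [map_zero, ← hn, map_sum]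
    refine Finset.sum_congr rfl fun i _ => ?_
    rw [map_mul, RingHom.comp_apply]

end RJ

end Vale.Agent.P251.F
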