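/-
P251, part F (F5): the final output of F5. Author: helper288.

* `LTD.tower : TTower p h (AutF H)`, with `T j = D.TT j` definitionally;
* `LTD.exists_galoisField`, `hasTTower`;
* `LTD.coPt`, `LTD.isCo`: the data of `F/ActE.lean`;
* `LTD.sm_eq_of_typ`: the automorphism `ζ x`, `ζ^(p-1) = 1`, acts by `(id, ζ x)`.
-/
import Vale.Agent.P251.F.LTTower
import Vale.Agent.P251.F.RJBasis
import Vale.Agent.P251.F.GDataOf
import Vale.Agent.P251.F.ActE

set_option linter.unusedSectionVars false
set_option linter.style.haveILetI false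

open TensorProduct

namespace Vale.Agent.P251.F

open Vale.Agent.P217 LawRing Vale.Agent.P251.C

namespace LTD

variable {p h : ℕ} [hp : Fact p.Prime] {k : Type} [Field k] (D : LTD p h k) {j : ℕ}

/-- `k` as an `𝔽_p`-algebra -/
@[reducible] noncomputable def zalg (D : LTD p h k) : Algebra (ZMod p) k :=
  haveI := D.charP
  ZMod.algebra k p

theorem exists_basis : letI := D.zalg
    ∃ (I : Type) (_ : Fintype I) (b : Module.Basis I (ZMod p) k) (i₀ : I), b i₀ = 1 := by
  letI := D.zalg
  have _ := D.finite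
  exact exists_basis_one p k

/-- the descent data -/
noncomputable def tower : TTower p h D.GG :=
  letI := D.zalg
  letI := D.exists_basis.choose_spec.choose
  { T := fun j => D.TT j
    ring := fun _ => inferInstance
    law := fun _ => inferInstance
    framed := fun _ => inferInstance
    act := fun j => D.instMSA j
    lact := fun j => D.instLawAction j
    disc := fun j => D.instDisc j
    hzero := fun j a => D.hzero j a
    red := fun hj => D.redT hj
    red_law := fun hj => D.isLawHom_redT hj
    red_smul := fun hj γ t => D.redT_smul hj γ t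
    red_self := fun j t => RingHom.congr_fun (D.redT_self j) t
    red_red := fun hj hj' t => RingHom.congr_fun (D.redT_redT hj hj') t
    ι := fun j => (D.ιR j).comp (RJ.incR k p h (j + 1))
    ι_law := fun j => IsLawHom.comp RJ.isLawHom_incR (D.isLawHom_ιR j)
    I := D.exists_basis.choose
    fin := D.exists_basis.choose_spec.choose
    b := fun j i => D.ιR j (algebraMap k (RJ k p h (j + 1))
      (D.exists_basis.choose_spec.choose_spec.choose i))
    i₀ := D.exists_basis.choose_spec.choose_spec.choose_spec.choose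
    inv := fun j => RJ.invBasis D.exists_basis.choose_spec.choose_spec.choose
      D.exists_basis.choose_spec.choose_spec.choose_spec.choose_spec
      (D.isLawHom_ιR j) D.ιR_injective (fun γ r => D.smul_ιR γ r)
      (fun _ ht => D.exists_ιR ht) }

theorem tower_T (j : ℕ) : D.tower.T j = D.TT j := rfl

theorem tower_red {j j' : ℕ} (hj : j ≤ j') : D.tower.red hj = D.redT hj := rfl

/-! ### the data of `ActE` -/

/-- the universal point of `T_j` -/
noncomputable def coPt (j : ℕ) : CoPt (D.EJ j) (D.TT j) := OInv.coPt (D.EJ j)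

theorem isCo (j : ℕ) : (D.coPt j).IsCo (D.FE j) := OInv.isCo (D.FE j)

theorem coPt_ι (j : ℕ) : (D.coPt j).ι = D.inc j := rfl

theorem coPt_f (j : ℕ) : (D.coPt j).f = D.ser j := rfl

/-- A pair `(x, g)` of `T_j` with the same law and the same constants as the universal one which
reduces to an automorphism `γ` of `H` is the action of `γ`. -/
theorem sm_eq (γ : D.GG) (φ : D.TT j →+* D.TT j)
    (h1 : (law (N := D.TT j)).map φ = law (N := D.TT j)) (h2 : φ.comp (D.kk j) = D.kk j)
    (h3 : (D.πT j).comp φ = (D.α₁r γ).comp (D.πT j)) : D.sm j γ = φ := by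
  refine D.hom_unique _ _ ?_ (D.isNilpotent_ker_πT j) (D.mk_ker_πT_comp ?_)
  · rw [sm_comp_ιR]
    symm
    apply RJ.hom_ext
    · rw [RingHom.comp_assoc, ιR_comp_algebraMap, h2]
    · rw [← Law.map_map, law_map_ιR, h1]
  · rw [h3, πT_comp_sm]

theorem lin_smul_FE (ζ : kˣ) (hζ : ζ ^ (p - 1) = 1) (j : ℕ) :
    InvSeries.map (algebraMap k (D.EJ j)) (InvSeries.lin ζ) • D.FE j = D.FE j := by
  have h1 := congrArg (Law.map (EE.mk k (h - 1) j)) (D.typ ζ hζ)
  rw [InvSeries.map_smul, InvSeries.map_lin] at h1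
  rw [InvSeries.map_lin]
  exact h1

/-- `ζ x`, `ζ^(p-1) = 1`, acts by the identity on `E_j` and by `f ↦ f(ζ x)`. -/
theorem sm_eq_of_typ (ζ : kˣ) (hζ : ζ ^ (p - 1) = 1) (γ : D.GG)
    (hγ : γ.toInv = InvSeries.lin ζ) :
    D.sm j γ = D.pt j (D.inc j)
      (D.ser j * InvSeries.map (D.kk j) (InvSeries.lin ζ)) := by
  apply D.sm_eq
  · rw [law_eq, InvSeries.map_smul, map_pt_ser, Law.map_map, pt_comp_inc, mul_smul]
    have h1 := congrArg (Law.map (D.inc j)) (D.lin_smul_FE ζ hζ j)
    rw [InvSeries.map_smul, InvSeries.map_map] at h1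
    rw [kk, h1]
  · rw [kk, ← RingHom.comp_assoc, pt_comp_inc]
  · apply D.hom_ext
    · rw [RingHom.comp_assoc, pt_comp_inc, RingHom.comp_assoc, πT_comp_inc, ← RingHom.comp_assoc,
        α₁r_comp_inc]
    · rw [← InvSeries.map_map, map_pt_ser, map_mul, map_πT_ser, ← InvSeries.map_map, map_πT_ser,
        map_α₁r_f, hγ, InvSeries.map_map, πT_comp_kk]

/-- Lubin–Tate data over the Galois field. -/
theorem exists_galoisField (p h : ℕ) [Fact p.Prime] (hh : h ≠ 0) :
    Nonempty (LTD p h (GaloisField p h)) := by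
  obtain ⟨Γ, hΓ, h1, h2, -⟩ := exists_honda_galoisField p h (Nat.pos_of_ne_zero hh)
  exact LTD.exists_of_honda hh h2
    ⟨Γ.map (algebraMap (ZMod p) (GaloisField p h)), inferInstance⟩ h1

end LTD

/-- **F5.** -/
theorem hasTTower (p h : ℕ) [hp : Fact p.Prime] (hh : h ≠ 0) : HasTTower p h := by
  obtain ⟨D⟩ := LTD.exists_galoisField p h hh
  exact ⟨GaloisField p h, inferInstance, D.finite, D.charP, D.H.toFG, D.H.comm, D.honda, D.card,
    ⟨D.tower⟩⟩

/-- `FV_statement` from C-V. -/
theorem FV_of_CV (hCV : I.CV_statement) : I.FV_statement :=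
  FV_of_hasTTower hCV fun p hp _ => hasTTower p p hp.out.ne_zero

end Vale.Agent.P251.F
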