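/-
P251, part F (F10a): the action of an element of order `p` on `E_j`, height `p - 1`.
Author: helper288.

* `EE.isLocalRing`, `EE.maximalIdeal_eq`;
* `HondaOver.om_natCast_comm`: `b x`, `b ∈ 𝔽_p`, is central in the endomorphism ring;
* `LTD.phiA`, `LTD.aA`, `LTD.val_smul`: the action on the weight parts of `T_j`;
* `LTD.map_π_ser`: the series of `γ` reduces to `γ`;
* `LTD.cpAct`: an element of order `p` acts as in `CpAct` (height `p - 1`).
-/
import Vale.Agent.P251.F.LTFinal
import Vale.Agent.P251.F.CycE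
import Vale.Agent.P251.F.GroupFinal

set_option linter.unusedSectionVars false
set_option linter.style.haveILetI false

namespace Vale.Agent.P251.F

open Vale.Agent.P217 LawRing Vale.Agent.P251.C IsLocalRing

/-! ### `E_j` is local -/

namespace EE

variable (k : Type*) [Field k] (r j : ℕ)

theorem isUnit_iff {x : EE k r j} : IsUnit x ↔ π k r j x ≠ 0 := by
  constructor
  · intro h h0
    have h1 := h.map (π k r j)
    rw [h0] at h1
    exact not_isUnit_zero h1
  · intro h
    have h1 : x - algebraMap k (EE k r j) (π k r j x) ∈ m k r j := by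
      rw [← ker_π, RingHom.mem_ker, map_sub, π_algebraMap, sub_self]
    have h2 : IsNilpotent (x - algebraMap k (EE k r j) (π k r j x)) := by
      refine ⟨j + 1, ?_⟩
      have := Ideal.pow_mem_pow h1 (j + 1)
      rwa [m_pow, Ideal.mem_bot] at this
    have h3 : IsUnit (algebraMap k (EE k r j) (π k r j x)) := (isUnit_iff_ne_zero.2 h).map _
    have h4 := h2.isUnit_add_left_of_commute h3 (Commute.all _ _)
    rwa [add_sub_cancel] at h4

instance isLocalRing : IsLocalRing (EE k r j) := by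
  have : Nontrivial (EE k r j) := (π k r j).domain_nontrivial
  refine IsLocalRing.of_nonunits_add fun a b ha hb => ?_
  rw [mem_nonunits_iff, isUnit_iff, not_not] at ha hb ⊢
  rw [map_add, ha, hb, add_zero]

theorem maximalIdeal_eq : maximalIdeal (EE k r j) = m k r j := by
  ext x
  rw [mem_maximalIdeal, mem_nonunits_iff, isUnit_iff, not_not, ← ker_π, RingHom.mem_ker]

end EE

/-! ### central endomorphisms -/

namespace HondaOver

variable {p h : ℕ} [hp : Fact p.Prime] {k : Type*} [Field k] [CharP k p] {H : FormalGroup k}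
  [H.IsComm] (hH : HondaOver p h H)

/-- `b x`, `b ∈ 𝔽_p`, is a limit of integers. -/
theorem om_natCast_sub_mem (b : ℕ) (n : ℕ) :
    hH.om (b : k) - (b : EndF H) ^ (p ^ n) ∈ hH.D.I (n + 1) := by
  have hb : (b : k) ^ p = b := by
    have := map_natCast (frobenius k p) b
    rwa [frobenius_def] at this
  have key : ∀ n : ℕ, hH.om (b : k) ^ (p ^ n) - (b : EndF H) ^ (p ^ n) ∈ hH.D.I (n + 1) := by
    intro n
    induction n with
    | zero =>
      rw [pow_zero, pow_one, pow_one, zero_add, hH.D.mem_I_one, map_sub, r_om, map_natCast,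
        sub_self]
    | succ n ih =>
      have hc : Commute (hH.om (b : k) ^ (p ^ n)) ((b : EndF H) ^ (p ^ n)) :=
        ((Nat.cast_commute b _).symm.pow_pow _ _)
      rw [pow_succ p n, pow_mul, pow_mul, ← hc.geom_sum₂_mul, add_comm (n + 1) 1]
      refine hH.D.mul_mem_I ?_ ih
      rw [hH.D.mem_I_one, map_sum]
      have h1 : ∀ i ∈ Finset.range p, hH.D.r ((hH.om (b : k) ^ (p ^ n)) ^ i *
          ((b : EndF H) ^ (p ^ n)) ^ (p - 1 - i)) = ((b : k) ^ (p ^ n)) ^ (p - 1) := by
        intro i hi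
        rw [map_mul, map_pow, map_pow, map_pow, map_pow, r_om, map_natCast, ← pow_add]
        congr 1
        have := Finset.mem_range.1 hi
        omega
      rw [Finset.sum_congr rfl h1, Finset.sum_const, Finset.card_range, nsmul_eq_mul,
        CharP.cast_eq_zero, zero_mul]
  have h2 : ∀ n : ℕ, (b : k) ^ (p ^ n) = b := by
    intro n
    induction n with
    | zero => rw [pow_zero, pow_one]
    | succ n ih => rw [pow_succ, pow_mul, ih, hb]
  have h3 := key n
  rwa [om_pow, h2] at h3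

/-- `b x`, `b ∈ 𝔽_p`, is central. -/
theorem om_natCast_comm (b : ℕ) (f : EndF H) : hH.om (b : k) * f = f * hH.om (b : k) := by
  rw [← sub_eq_zero]
  refine hH.D.eq_zero_of_forall_mem fun n => ?_
  have h1 := hH.om_natCast_sub_mem b n
  have h2 : hH.om (b : k) * f - f * hH.om (b : k) =
      (hH.om (b : k) - (b : EndF H) ^ (p ^ n)) * f -
        f * (hH.om (b : k) - (b : EndF H) ^ (p ^ n)) := by
    have h3 : (b : EndF H) ^ (p ^ n) * f = f * (b : EndF H) ^ (p ^ n) :=
      ((Nat.cast_commute b f).pow_left _).eq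
    rw [sub_mul, mul_sub, h3]
    abel
  rw [h2]
  exact hH.D.I_anti (Nat.le_succ n) ((hH.D.I _).sub_mem (hH.D.mul_mem_I_right h1 f)
    (hH.D.mul_mem_I_left f h1))

end HondaOver

namespace LTD

section general

variable {p h : ℕ} [hp : Fact p.Prime] {k : Type} [Field k] (D : LTD p h k) {j : ℕ}

theorem comm_sm (j : ℕ) (γ : D.GG) : (D.coPt j).Comm (D.sm j γ) :=
  (D.isCo j).comm (LawAction.isLawHom γ)

/-- the action of `γ` on `E_j` -/
noncomputable def phiA (j : ℕ) (γ : D.GG) : D.EJ j →ₐ[k] D.EJ j :=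
  { (D.coPt j).phi (D.sm j γ) with
    commutes' := fun c => by
      change (D.coPt j).e (D.sm j γ (D.kk j c)) = _
      rw [sm_apply, smul_kk]
      exact (D.coPt j).e_ι_apply _ }

theorem phiA_apply (γ : D.GG) (x : D.EJ j) : D.phiA j γ x = (D.coPt j).phi (D.sm j γ) x := rfl

theorem phiA_coe (γ : D.GG) : (D.phiA j γ : D.EJ j →+* D.EJ j) = (D.coPt j).phi (D.sm j γ) := rfl

/-- the inverse of the leading coefficient of the series of `γ` -/
noncomputable def aA (j : ℕ) (γ : D.GG) : (D.EJ j)ˣ := ((D.coPt j).ser (D.sm j γ)).lead⁻¹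

theorem twist_phi (γ : D.GG) (x : D.EJ j) :
    ((D.coPt j).twist D.GG (D.isCo j)).phi γ x = D.phiA j γ x := rfl

theorem twist_a (γ : D.GG) : ((D.coPt j).twist D.GG (D.isCo j)).a γ = (D.aA j γ)⁻¹ :=
  (inv_inv _).symm

/-- The action on the weight parts. -/
theorem val_smul (w : ℤ) (γ : D.GG) (y : ((D.coPt j).twist D.GG (D.isCo j)).Wt (-w)) :
    ((D.coPt j).twist D.GG (D.isCo j)).val (-w) (γ • y) =
      Sp.act k (D.phiA j γ) (D.aA j γ) w (((D.coPt j).twist D.GG (D.isCo j)).val (-w) y) := by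
  rw [TwAct.smul_def, twist_a, Sp.act_apply, inv_zpow, zpow_neg, inv_inv, twist_phi]

theorem sm_one : D.sm j 1 = RingHom.id _ := RingHom.ext fun t => one_smul _ t

theorem sm_mul (γ δ : D.GG) : D.sm j (γ * δ) = (D.sm j γ).comp (D.sm j δ) :=
  RingHom.ext fun t => mul_smul γ δ t

theorem phiA_pow (γ : D.GG) (n : ℕ) (x : D.EJ j) : (D.phiA j γ)^[n] x = D.phiA j (γ ^ n) x := by
  induction n generalizing x with
  | zero =>
    rw [Function.iterate_zero_apply, pow_zero, phiA_apply, sm_one, CoPt.phi_id]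
    rfl
  | succ n ih =>
    rw [Function.iterate_succ_apply, ih, pow_succ γ n, phiA_apply, phiA_apply, phiA_apply, sm_mul,
      (D.coPt j).phi_comp (D.comm_sm j γ)]
    rfl

/-- The iterates of the inverse of the series of `γ`. -/
theorem gIter_eq (γ : D.GG) (n : ℕ) :
    gIter (D.phiA j γ : D.EJ j →+* D.EJ j) (((D.coPt j).ser (D.sm j γ))⁻¹).val n =
      (((D.coPt j).ser (D.sm j (γ ^ n)))⁻¹).val := by
  induction n with
  | zero =>
    rw [pow_zero, sm_one, CoPt.ser_id, inv_one]
    rfl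
  | succ n ih =>
    have h1 : (D.coPt j).ser (D.sm j (γ ^ (n + 1))) = (D.coPt j).ser (D.sm j γ) *
        InvSeries.map ((D.coPt j).phi (D.sm j γ)) ((D.coPt j).ser (D.sm j (γ ^ n))) := by
      rw [pow_succ' γ n, sm_mul, (D.coPt j).ser_comp (D.comm_sm j (γ ^ n))]
    rw [h1, mul_inv_rev, ← map_inv, InvSeries.mul_val, InvSeries.map_val, ← ih, gIter, phiA_coe]

theorem π_comp_e : (EE.π k (h - 1) j).comp (D.coPt j).e =
    (OInv.lift (RingHom.id k) 1).comp (D.πT j) := by
  apply D.hom_ext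
  · have h1 : ((D.coPt j).e).comp (D.inc j) = RingHom.id _ := (D.coPt j).e_ι
    have h2 : (OInv.lift (RingHom.id k) 1).comp (OInv.inc k) = RingHom.id k :=
      OInv.lift_comp_inc _ _
    rw [RingHom.comp_assoc, RingHom.comp_assoc, h1, πT_comp_inc, RingHom.comp_id,
      ← RingHom.comp_assoc, h2, RingHom.id_comp]
  · rw [← InvSeries.map_map, ← InvSeries.map_map, map_πT_ser, OInv.map_lift_f]
    have h1 : InvSeries.map (D.coPt j).e (D.ser j) = 1 := (D.coPt j).e_f
    rw [h1, map_one]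

/-- The series of `γ` reduces to `γ`. -/
theorem map_π_ser (γ : D.GG) :
    InvSeries.map (EE.π k (h - 1) j) ((D.coPt j).ser (D.sm j γ)) = γ.toInv := by
  rw [CoPt.ser, InvSeries.map_map, ← RingHom.comp_assoc, π_comp_e, RingHom.comp_assoc,
    πT_comp_sm, ← RingHom.comp_assoc, coPt_f, ← InvSeries.map_map, map_πT_ser,
    ← InvSeries.map_map, map_α₁r_f, map_mul, OInv.map_lift_f, InvSeries.map_map,
    OInv.lift_comp_inc, InvSeries.map_id, one_mul]

theorem map_π_ser_inv (γ : D.GG) :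
    InvSeries.map (EE.π k (h - 1) j) (((D.coPt j).ser (D.sm j γ))⁻¹) = (γ⁻¹).toInv := by
  rw [map_inv, map_π_ser, AutF.toInv_inv]

theorem π_coeff_ser_inv (γ : D.GG) (n : ℕ) :
    EE.π k (h - 1) j (PowerSeries.coeff n (((D.coPt j).ser (D.sm j γ))⁻¹).val) = (γ⁻¹).cf n := by
  have h1 := congrArg (fun f : InvSeries k => PowerSeries.coeff n f.val) (D.map_π_ser_inv (j := j) γ)
  simp only [InvSeries.map_val, PowerSeries.coeff_map] at h1
  exact h1

/-- The series of `ζ x`, `ζ^(p-1) = 1`. -/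
theorem ser_of_typ (ζ : kˣ) (hζ : ζ ^ (p - 1) = 1) (γ : D.GG)
    (hγ : γ.toInv = InvSeries.lin ζ) :
    (D.coPt j).ser (D.sm j γ) = InvSeries.map (algebraMap k (D.EJ j)) (InvSeries.lin ζ) := by
  rw [CoPt.ser, D.sm_eq_of_typ ζ hζ γ hγ, coPt_f, ← InvSeries.map_map, map_pt_ser, map_mul,
    InvSeries.map_map]
  have h1 : InvSeries.map (D.coPt j).e (D.ser j) = 1 := (D.coPt j).e_f
  have h2 : ((D.coPt j).e).comp (D.kk j) = algebraMap k (D.EJ j) := by
    change ((D.coPt j).e).comp ((D.coPt j).ι.comp (algebraMap k (D.EJ j))) = _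
    rw [← RingHom.comp_assoc, CoPt.e_ι, RingHom.id_comp]
  rw [h1, h2, one_mul]

theorem phi_of_typ (ζ : kˣ) (hζ : ζ ^ (p - 1) = 1) (γ : D.GG)
    (hγ : γ.toInv = InvSeries.lin ζ) :
    (D.coPt j).phi (D.sm j γ) = RingHom.id _ := by
  have h1 : ((D.coPt j).e).comp (D.inc j) = RingHom.id _ := (D.coPt j).e_ι
  rw [CoPt.phi, D.sm_eq_of_typ ζ hζ γ hγ, coPt_ι, RingHom.comp_assoc, pt_comp_inc, h1]

/-- The series of `σ` commutes with `ζ x` if `σ` does. -/
theorem ser_comm (ζ : kˣ) (hζ : ζ ^ (p - 1) = 1) (γ : D.GG)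
    (hγ : γ.toInv = InvSeries.lin ζ) (σ : D.GG) (hσ : γ * σ = σ * γ) :
    InvSeries.map (algebraMap k (D.EJ j)) (InvSeries.lin ζ) * (D.coPt j).ser (D.sm j σ) =
      (D.coPt j).ser (D.sm j σ) * InvSeries.map (algebraMap k (D.EJ j)) (InvSeries.lin ζ) := by
  have h1 := (D.coPt j).ser_comp (s := D.sm j γ) (D.comm_sm j σ)
  have h2 := (D.coPt j).ser_comp (s := D.sm j σ) (D.comm_sm j γ)
  rw [← sm_mul] at h1 h2
  rw [← hσ, h1, D.ser_of_typ ζ hζ γ hγ, D.phi_of_typ ζ hζ γ hγ, InvSeries.map_id,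
    InvSeries.map_map, ← phiA_coe, (D.phiA j σ).comp_algebraMap] at h2
  exact h2

end general

section height

variable {p : ℕ} [hp : Fact p.Prime] {k : Type} [Field k] (D : LTD p (p - 1) k)

/-- An element of order `p` acts as in `CpAct`. -/
theorem cpAct (hp2 : p ≠ 2) (j : ℕ) (σ : D.GG) (hσ : orderOf σ = p) :
    CpAct p (D.FE j).toFG (D.phiA j σ) (((D.coPt j).ser (D.sm j σ))⁻¹).val (D.aA j σ) := by
  haveI := D.charP
  have hp3 : 3 ≤ p := by
    have := hp.out.two_le
    omega
  have hσ1 : orderOf σ⁻¹ = p := by rw [orderOf_inv, hσ]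
  have hpow : σ ^ p = 1 := by
    have := pow_orderOf_eq_one σ
    rwa [hσ] at this
  obtain ⟨hcf, hcfp⟩ := HondaOver.cf_of_orderOf D.honda hσ1
  -- a primitive root of unity in the prime field
  obtain ⟨b, hb⟩ := IsCyclic.exists_generator (α := (ZMod p)ˣ)
  have hordb : orderOf b = p - 1 := by
    rw [orderOf_eq_card_of_forall_mem_zpowers hb, Nat.card_eq_fintype_card, ZMod.card_units]
  letI : Algebra (ZMod p) k := ZMod.algebra k p
  let ζ : kˣ := Units.map (algebraMap (ZMod p) k : ZMod p →* k) b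
  have hordζ : orderOf ζ = p - 1 := by
    rw [← hordb]
    exact orderOf_injective _ (Units.map_injective (algebraMap (ZMod p) k).injective) b
  have hordζ' : orderOf (ζ : k) = p - 1 := by rw [orderOf_units, hordζ]
  have hζ1 : ζ ^ (p - 1) = 1 := by rw [← hordζ]; exact pow_orderOf_eq_one ζ
  have hζb : (ζ : k) = ((b : ZMod p).val : k) := by
    change algebraMap (ZMod p) k (b : ZMod p) = _
    conv_lhs => rw [← ZMod.natCast_zmod_val (b : ZMod p)]
    rw [map_natCast]
  have hF : Vale.Agent.P217.IsHom (D.FE j).toFG (D.FE j).toFG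
      (PowerSeries.C (algebraMap k (D.EJ j) (ζ : k)) * PowerSeries.X) := by
    have h1 := (InvSeries.smul_eq_iff_isHom _ _ _).1 (D.lin_smul_FE ζ hζ1 j)
    rwa [InvSeries.map_lin, InvSeries.lin_val] at h1
  -- the series of `σ` commutes with `ζ x`
  have hu : IsUnit ((D.honda.om (ζ : k)).cf 1) := by
    have h1 : (D.honda.om (ζ : k)).cf 1 = ζ := D.honda.r_om (ζ : k)
    rw [h1]
    exact ζ.isUnit
  have hz : ((D.honda.om (ζ : k)).toAut hu).toInv = InvSeries.lin ζ := InvSeries.ext rfl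
  have hzσ : (D.honda.om (ζ : k)).toAut hu * σ = σ * (D.honda.om (ζ : k)).toAut hu := by
    apply AutF.toEnd_injective
    rw [map_mul, map_mul, EndF.toAut_toEnd, hζb]
    exact D.honda.om_natCast_comm _ _
  have hcomm := D.ser_comm (j := j) ζ hζ1 _ hz σ hzσ
  have hcomm' : InvSeries.map (algebraMap k (D.EJ j)) (InvSeries.lin ζ) *
      ((D.coPt j).ser (D.sm j σ))⁻¹ =
      ((D.coPt j).ser (D.sm j σ))⁻¹ * InvSeries.map (algebraMap k (D.EJ j)) (InvSeries.lin ζ) :=
    Commute.inv_right hcomm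
  have hresc : ∀ n, algebraMap k (D.EJ j) (ζ : k) ^ n *
      PowerSeries.coeff n (((D.coPt j).ser (D.sm j σ))⁻¹).val =
      algebraMap k (D.EJ j) (ζ : k) *
        PowerSeries.coeff n (((D.coPt j).ser (D.sm j σ))⁻¹).val := by
    intro n
    have h1 := congrArg (fun f : InvSeries (D.EJ j) => PowerSeries.coeff n f.val) hcomm'
    simp only [InvSeries.mul_val, InvSeries.map_lin, InvSeries.lin_val] at h1
    have hs := (((D.coPt j).ser (D.sm j σ))⁻¹).hs
    rw [PowerSeries.subst_mul hs, PowerSeries.subst_X hs, PowerSeries.subst_C] at h1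
    have h2 : PowerSeries.coeff n ((PowerSeries.C (((Units.map
        (algebraMap k (D.EJ j) : k →* D.EJ j)) ζ : (D.EJ j)ˣ) : D.EJ j)) *
        (((D.coPt j).ser (D.sm j σ))⁻¹).val) = algebraMap k (D.EJ j) (ζ : k) *
        PowerSeries.coeff n (((D.coPt j).ser (D.sm j σ))⁻¹).val := by
      rw [PowerSeries.coeff_C_mul]
      rfl
    have h3 : (PowerSeries.subst (PowerSeries.C (((Units.map
        (algebraMap k (D.EJ j) : k →* D.EJ j)) ζ : (D.EJ j)ˣ) : D.EJ j) * PowerSeries.X)
        (((D.coPt j).ser (D.sm j σ))⁻¹).val : PowerSeries (D.EJ j)) =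
        PowerSeries.rescale (algebraMap k (D.EJ j) (ζ : k))
          (((D.coPt j).ser (D.sm j σ))⁻¹).val := by
      rw [PowerSeries.rescale_eq_subst, PowerSeries.smul_eq_C_mul]
      rfl
    rw [h3, PowerSeries.coeff_rescale] at h1
    rw [← h1]
    exact h2
  exact
    { char := D.p_eq_zero' (algebraMap k (D.EJ j))
      res := fun x => ⟨EE.π k (p - 1 - 1) j x, by
        rw [EE.maximalIdeal_eq, ← EE.ker_π, RingHom.mem_ker, map_sub, EE.π_algebraMap, sub_self]⟩
      hm := by
        rw [EE.maximalIdeal_eq, ← D.Ih_FE, Ih, JJ]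
        congr 1
        ext x
        constructor
        · rintro ⟨i, hi, rfl⟩
          exact ⟨i, hi, rfl⟩
        · rintro ⟨i, hi, rfl⟩
          exact ⟨i, hi, rfl⟩
      unit := D.isUnit_vv_FE j
      fgap := fgap_of_typ p hordζ' hp3 (D.FE j).toFG hF
      ggap := ggap_of_typ p hordζ' hp3 hresc
      hom := by
        have h1 : ((D.coPt j).ser (D.sm j σ))⁻¹ • D.FE j =
            (D.FE j).map ((D.coPt j).phi (D.sm j σ)) := by
          rw [inv_smul_eq_iff]
          exact ((D.isCo j).ser_smul (LawAction.isLawHom σ)).symm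
        exact (InvSeries.smul_eq_iff_isHom _ _ _).1 h1
      g1 := by
        change _ = ((((D.coPt j).ser (D.sm j σ)).lead⁻¹ : (D.EJ j)ˣ) : D.EJ j)
        rw [← InvSeries.lead_inv]
        rfl
      ha := by
        rw [EE.maximalIdeal_eq, ← EE.ker_π, RingHom.mem_ker, map_sub, map_one, sub_eq_zero]
        have h1 := D.π_coeff_ser_inv (j := j) σ 1
        rw [hcf 1 hp.out.one_lt, if_pos rfl] at h1
        rw [← h1]
        change EE.π k (p - 1 - 1) j ((((D.coPt j).ser (D.sm j σ)).lead⁻¹ : (D.EJ j)ˣ) : D.EJ j) = _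
        rw [← InvSeries.lead_inv]
        rfl
      gp := by
        rw [EE.isUnit_iff, π_coeff_ser_inv]
        exact hcfp
      ord := by
        rw [gIter_eq, hpow, sm_one, CoPt.ser_id, inv_one]
        rfl
      ordφ := fun x => by
        rw [phiA_pow, hpow, phiA_apply, sm_one, CoPt.phi_id]
        rfl }

end height

end LTD

end Vale.Agent.P251.F
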