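/-
P251, part F (F10a): `CycZero` for the Lubin-Tate tower at height `p - 1`, and `FS_statement`.
Author: helper288.
-/
import Vale.Agent.P251.F.LTCyc

set_option linter.unusedSectionVars false

namespace Vale.Agent.P251.F

open Vale.Agent.P217 LawRing Vale.Agent.P251.C IsLocalRing

namespace LTD

variable {p : ℕ} [hp : Fact p.Prime] {k : Type} [Field k] (D : LTD p (p - 1) k)

theorem qt_equiv (j : ℕ) : Nonempty (Sp.Qt k (Fin (p - 2)) (j + 1) ≃ₗ[k] D.EJ j) := by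
  have h1 : p - 2 = p - 1 - 1 := by omega
  exact ⟨(Sp.qtEquiv k (finCongr h1) (j + 1)).toLinearEquiv⟩

theorem ne_of_not_dvd {d : ℤ} {w : ℤ} (hd : w = ((p : ℤ) - 1) * d)
    (hw : ¬ ((p : ℤ) ∣ w ∨ (p : ℤ) ∣ w + 1)) : (d : ZMod p) ≠ 0 ∧ (d : ZMod p) ≠ 1 := by
  have h1 : (w : ZMod p) = -(d : ZMod p) := by
    rw [hd]
    push_cast
    rw [ZMod.natCast_self]
    ring
  constructor
  · intro h0
    apply hw
    left
    rw [← ZMod.intCast_zmod_eq_zero_iff_dvd, h1, h0, neg_zero]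
  · intro h0
    apply hw
    right
    rw [← ZMod.intCast_zmod_eq_zero_iff_dvd]
    push_cast
    rw [h1, h0]
    ring

/-- The composite of sufficiently many transition maps is `CycZero` in the weights `w`,
`p - 1 ∣ w`, `w ≢ 0, -1` modulo `p`. -/
theorem exists_cycZero (hp2 : p ≠ 2) (w : ℤ) (hdvd : ((p : ℤ) - 1) ∣ w)
    (hw : ¬ ((p : ℤ) ∣ w ∨ (p : ℤ) ∣ w + 1)) (j : ℕ) :
    ∃ j', ∃ hj : j ≤ j', I.CycZero p D.GG (D.tower.f w hj) := by
  have _ := D.charP
  have hp3 : 3 ≤ p := by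
    have := hp.out.two_le
    omega
  obtain ⟨d, hd⟩ := hdvd
  obtain ⟨hd0, hd1⟩ := ne_of_not_dvd (p := p) hd hw
  obtain ⟨C, hC⟩ := exists_cyc p hp3 k
  obtain ⟨hle, hcyc⟩ := hC (j + 1)
  obtain ⟨j', hj'⟩ : ∃ j', C (j + 1) = j' + 1 := ⟨C (j + 1) - 1, by omega⟩
  rw [hj'] at hcyc
  have hj : j ≤ j' := by omega
  refine ⟨j', hj, ?_⟩
  -- the map on the weight parts
  let φ := (D.coPt j).twHom (D.coPt j') (D.redT hj) (EE.red k (p - 1 - 1) hj : D.EJ j' →+* D.EJ j)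
    (D.redT_comp_inc hj) (D.map_redT_ser hj) (D.isCo j) (D.isCo j')
    (fun γ t => D.redT_smul hj γ t)
  refine cycZero_transport ((D.coPt j').primHom (D.isCo j') w D.GG)
    ((D.coPt j').primHom_bijective (D.isCo j') w) ((D.coPt j).primHom (D.isCo j) w D.GG)
    (φ.map (-w)) _ (fun x => ?_) ?_
  · exact (D.coPt j).primMap_primHom (D.coPt j') (D.redT hj) _ (D.redT_comp_inc hj)
      (D.map_redT_ser hj) (D.isCo j) (D.isCo j') (fun γ t => D.redT_smul hj γ t)
      (D.isLawHom_redT hj) w x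
  · refine hcyc D.GG (D.EJ j') _ _ (φ.map (-w)) (((D.coPt j').twist D.GG (D.isCo j')).val (-w))
      (fun σ => D.phiA j' σ) (fun σ => D.aA j' σ) d hd0 hd1 ?_ (D.qt_equiv j') ?_ ?_ ?_
    · rw [EE.maximalIdeal_eq, EE.m_pow]
    · intro σ m
      rw [D.val_smul, hd]
      push_cast [Nat.cast_sub hp.out.one_lt.le]
      rfl
    · intro m hm
      rw [EE.maximalIdeal_eq] at hm
      apply (((D.coPt j).twist D.GG (D.isCo j)).val (-w)).injective
      rw [TwAct.Hom.map_val, map_zero]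
      have h1 := Ideal.mem_map_of_mem (EE.red k (p - 1 - 1) hj : D.EJ j' →+* D.EJ j) hm
      have h2 : (EE.m k (p - 1 - 1) j' ^ (j + 1)).map
          (EE.red k (p - 1 - 1) hj : D.EJ j' →+* D.EJ j) = ⊥ := by
        rw [Ideal.map_pow, ← EE.m_pow k (p - 1 - 1) j, EE.m, Ideal.map_map]
        rfl
      rw [h2, Ideal.mem_bot] at h1
      exact h1
    · intro σ hσ
      exact ⟨(D.FE j').toFG, (D.FE j').comm, _, D.cpAct hp2 j' σ hσ⟩

end LTD

/-- `FS_statement` from C-P. -/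
theorem FS_of_CP (hCP : I.CP_statement) : I.FS_statement := by
  refine FS_of_hasTTower hCP fun p hp hp2 => ?_
  have h2 := hp.out.two_le
  obtain ⟨D⟩ := LTD.exists_galoisField p (p - 1) (by omega)
  exact ⟨GaloisField p (p - 1), inferInstance, D.finite, D.charP, D.H.toFG, D.H.comm, D.honda,
    D.card, D.tower, fun w hw1 hw2 j => D.exists_cycZero hp2 w hw1 hw2 j⟩

end Vale.Agent.P251.F
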