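import Vale.Agent.P251.F.Laz
import Vale.Agent.P251.F.Compare2

/-!
# P251, part F: polynomial generators of the Lazard ring (generation)

For a law `F` over `B`, `xC F n` (`n ≥ 0`) is a fixed integral linear combination of the
coefficients of `F` in total degree `n + 2` (so it has weight `n + 1`). Modulo the subring
generated by the `xC F k`, `k < n`, the degree `n + 2` part of `F` is `xC F n` times Lazard's
polynomial `C_{n+2}`.
-/

namespace Vale.Agent.P251.F

open MvPowerSeries Vale.Agent.P217 Finsupp

variable {A B : Type*} [CommRing A] [CommRing B]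

/-- Bezout coefficients: `∑ l_i (coefficient of X^i Y^{n+2-i} in C_{n+2}) = 1`. -/
noncomputable def lz (n : ℕ) : ℕ → ℤ := (exists_bezout (N := n + 2) (by omega)).choose

theorem lz_spec (n : ℕ) : ∑ i ∈ Finset.Ioo 0 (n + 2), lz n i * (cC (n + 2) i : ℤ) = 1 :=
  (exists_bezout (N := n + 2) (by omega)).choose_spec

/-- The polynomial generator of weight `n + 1`, as a function of the law. -/
noncomputable def xC (F : Law B) (n : ℕ) : B :=
  ∑ i ∈ Finset.Ioo 0 (n + 2), lz n i • coeff (e2 i (n + 2 - i)) F.ps

theorem map_xC (φ : A →+* B) (F : Law A) (n : ℕ) : φ (xC F n) = xC (F.map φ) n := by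
  rw [xC, xC, map_sum]
  refine Finset.sum_congr rfl fun i _ => ?_
  rw [map_zsmul, Law.map_ps, coeff_map]

/-- the subring generated by `xC F k`, `k < n`. -/
noncomputable def subx (F : Law B) (n : ℕ) : Subring B :=
  Subring.closure ((xC F) '' {k | k < n})

theorem subx_mono (F : Law B) {m n : ℕ} (h : m ≤ n) : subx F m ≤ subx F n :=
  Subring.closure_mono (Set.image_mono fun _ hi => lt_of_lt_of_le hi h)

theorem xC_mem_subx (F : Law B) {k n : ℕ} (h : k < n) : xC F k ∈ subx F n :=
  Subring.subset_closure ⟨k, h, rfl⟩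

theorem coeff_e2_zero_right (F : Law B) (i : ℕ) :
    coeff (e2 i 0) F.ps = if i = 1 then 1 else 0 := coeff_e2_zero F.toFG i

theorem coeff_e2_zero_left (F : Law B) (i : ℕ) :
    coeff (e2 0 i) F.ps = if i = 1 then 1 else 0 := by
  rw [Law.ps, coeff_comm F.toFG, coeff_e2_zero]

/-- truncation in total degrees `< N`. -/
noncomputable def truncPS (N : ℕ) (F : MvPowerSeries (Fin 2) B) : MvPowerSeries (Fin 2) B :=
  fun d => if d.degree < N then coeff d F else 0

theorem coeff_truncPS (N : ℕ) (F : MvPowerSeries (Fin 2) B) (d : Fin 2 →₀ ℕ) :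
    coeff d (truncPS N F) = if d.degree < N then coeff d F else 0 := rfl

theorem sub_truncPS_mem (N : ℕ) (F : MvPowerSeries (Fin 2) B) :
    F - truncPS N F ∈ ordI (Fin 2) B N := by
  intro d hd
  rw [map_sub, coeff_truncPS, if_pos hd, sub_self]

theorem map_asL (φ : A →+* B) {F : MvPowerSeries (Fin 2) A} (hF : IsLaw F) :
    MvPowerSeries.map φ (asL F) = asL (MvPowerSeries.map φ F) := by
  have hX : ∀ i, PowerSeries.HasSubst (X i : MvPowerSeries (Fin 3) A) :=
    fun i => hasSubst_of_mem (ordI_X i)
  have h1 : PowerSeries.HasSubst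
      (subst ![(X 0 : MvPowerSeries (Fin 3) A), X 1] F : MvPowerSeries (Fin 3) A) :=
    hasSubst_of_mem (hF.subst_mem le_rfl (ordI_X 0) (ordI_X 1))
  rw [asL, map_pair_subst φ h1 (hX 2), map_pair_subst φ (hX 0) (hX 1), map_X, map_X, map_X]
  rfl

theorem map_asR (φ : A →+* B) {F : MvPowerSeries (Fin 2) A} (hF : IsLaw F) :
    MvPowerSeries.map φ (asR F) = asR (MvPowerSeries.map φ F) := by
  have hX : ∀ i, PowerSeries.HasSubst (X i : MvPowerSeries (Fin 3) A) :=
    fun i => hasSubst_of_mem (ordI_X i)
  have h1 : PowerSeries.HasSubst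
      (subst ![(X 1 : MvPowerSeries (Fin 3) A), X 2] F : MvPowerSeries (Fin 3) A) :=
    hasSubst_of_mem (hF.subst_mem le_rfl (ordI_X 1) (ordI_X 2))
  rw [asR, map_pair_subst φ (hX 0) h1, map_pair_subst φ (hX 1) (hX 2), map_X, map_X, map_X]
  rfl

/-- a series with coefficients in a subring -/
theorem exists_lift_subring (S : Subring B) (F : MvPowerSeries (Fin 2) B)
    (h : ∀ d, coeff d F ∈ S) : ∃ F' : MvPowerSeries (Fin 2) S,
      MvPowerSeries.map S.subtype F' = F :=
  ⟨fun d => ⟨coeff d F, h d⟩, rfl⟩

theorem isLaw_of_map_injective {φ : A →+* B} (hφ : Function.Injective φ)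
    {F : MvPowerSeries (Fin 2) A} (hF : IsLaw (MvPowerSeries.map φ F)) : IsLaw F := by
  intro d hd
  apply hφ
  have h := hF d hd
  rw [map_zero, ← coeff_map, map_sub, map_add, map_X, map_X]
  exact h

theorem isLaw_of_sub_mem {F F' : MvPowerSeries (Fin 2) B} (hF : IsLaw F) {N : ℕ} (hN : 2 ≤ N)
    (h : F - F' ∈ ordI (Fin 2) B N) : IsLaw F' := by
  have h1 : F' - (X 0 + X 1) = (F - (X 0 + X 1)) - (F - F') := by ring
  unfold IsLaw
  rw [h1]
  exact Ideal.sub_mem _ hF (ordI_anti hN h)

theorem coeff_assoc_mem (S : Subring B) {F : MvPowerSeries (Fin 2) B} (hF : IsLaw F)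
    (h : ∀ d, coeff d F ∈ S) (e : Fin 3 →₀ ℕ) : coeff e (asL F - asR F) ∈ S := by
  obtain ⟨F', rfl⟩ := exists_lift_subring S F h
  have hF' := isLaw_of_map_injective Subtype.val_injective hF
  rw [← map_asL _ hF', ← map_asR _ hF', map_sub, coeff_map, coeff_map]
  exact S.sub_mem (Subtype.mem _) (Subtype.mem _)

/-- The degree `n + 2` part of a law, given that the lower coefficients lie in a subring `S`. -/
theorem coeff_sub_mem (F : Law B) (n : ℕ) (S : Subring B)
    (hS : ∀ d : Fin 2 →₀ ℕ, d.degree < n + 2 → coeff d F.ps ∈ S) (i j : ℕ) (hi : 1 ≤ i)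
    (hj : 1 ≤ j) (hij : i + j = n + 2) :
    coeff (e2 i j) F.ps - cC (n + 2) i • xC F n ∈ S := by
  classical
  set N := n + 2 with hN
  have hFl : IsLaw F.ps := isLaw_formalGroup F.toFG
  have hsub := sub_truncPS_mem N F.ps
  have hF'l : IsLaw (truncPS N F.ps) := isLaw_of_sub_mem hFl (by omega) hsub
  have hdeg : ∀ i, 1 ≤ i → i < N → coeff (e2 i (N - i)) (F.ps - truncPS N F.ps) =
      coeff (e2 i (N - i)) F.ps := fun i _ hiN => by
    rw [map_sub, coeff_truncPS, if_neg (by rw [degree_e2]; omega), sub_zero]
  have key := compare_mod hFl hF'l (by omega) hsub S.toAddSubgroup (fun i j k _ _ _ _ => by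
      rw [asL_eq_asR, sub_self, map_zero, zero_sub]
      refine AddSubgroup.neg_mem _ ?_
      refine coeff_assoc_mem S hF'l (fun d => ?_) _
      rw [coeff_truncPS]
      split_ifs with h
      · exact hS d h
      · exact S.zero_mem) (fun i hi hiN => by
      have h1 := hdeg (N - i) (by omega) (by omega)
      rw [show N - (N - i) = i by omega] at h1
      rw [hdeg i hi hiN, h1, coeff_comm F.toFG, sub_self]
      exact AddSubgroup.zero_mem _) (lz n) (lz_spec n) i hi (by omega)
  rw [hdeg i hi (by omega), show N - i = j by omega] at key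
  have h2 : ∑ j ∈ Finset.Ioo 0 N, lz n j • coeff (e2 j (N - j)) (F.ps - truncPS N F.ps) =
      xC F n := by
    rw [xC]
    refine Finset.sum_congr rfl fun j hj => ?_
    rw [Finset.mem_Ioo] at hj
    rw [hdeg j (by omega) hj.2]
  rw [h2] at key
  exact key

/-- The coefficients of degree `≤ n + 1` lie in the subring generated by the `xC F k`, `k < n`. -/
theorem coeff_mem_subx (F : Law B) (n : ℕ) :
    ∀ d : Fin 2 →₀ ℕ, d.degree < n + 2 → coeff d F.ps ∈ subx F n := by
  induction n with
  | zero =>
    intro d hd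
    rw [e2_degree_eta] at hd
    have h1 : coeff d F.ps = 0 ∨ coeff d F.ps = 1 := by
      rw [← e2_eta d]
      rcases Nat.eq_zero_or_pos (d 1) with h | h
      · rw [h, coeff_e2_zero_right]
        split_ifs
        · exact Or.inr rfl
        · exact Or.inl rfl
      · have h0 : d 0 = 0 := by omega
        rw [h0, coeff_e2_zero_left]
        split_ifs
        · exact Or.inr rfl
        · exact Or.inl rfl
    rcases h1 with h1 | h1
    · rw [h1]; exact Subring.zero_mem _
    · rw [h1]; exact Subring.one_mem _
  | succ n ih =>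
    intro d hd
    rcases Nat.lt_or_ge d.degree (n + 2) with h | h
    · exact subx_mono F (Nat.le_succ n) (ih d h)
    · have hd2 : d 0 + d 1 = n + 2 := by
        rw [e2_degree_eta] at h hd
        omega
      rcases Nat.eq_zero_or_pos (d 1) with h1 | h1
      · rw [← e2_eta d, h1, coeff_e2_zero_right, if_neg (by omega)]
        exact Subring.zero_mem _
      rcases Nat.eq_zero_or_pos (d 0) with h0 | h0
      · rw [← e2_eta d, h0, coeff_e2_zero_left, if_neg (by omega)]
        exact Subring.zero_mem _
      · have h2 := coeff_sub_mem F n (subx F n) ih (d 0) (d 1) h0 h1 hd2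
        have h3 := Subring.add_mem _ (subx_mono F (Nat.le_succ n) h2)
          (nsmul_mem (xC_mem_subx F (Nat.lt_succ_self n)) (cC (n + 2) (d 0)))
        rwa [sub_add_cancel, e2_eta] at h3

/-- **The leading term of the coefficients of a law** in terms of the generators. -/
theorem coeff_sub_mem_subx (F : Law B) (n i j : ℕ) (hi : 1 ≤ i) (hj : 1 ≤ j)
    (hij : i + j = n + 2) :
    coeff (e2 i j) F.ps - cC (n + 2) i • xC F n ∈ subx F n :=
  coeff_sub_mem F n (subx F n) (coeff_mem_subx F n) i j hi hj hij

/-- The coefficient of `x^{n+2}` in `[m]_F` is `((m^{n+2} - m)/d_{n+2}) xC F n` up to the subring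
generated by the lower generators. -/
theorem coeff_mulS_sub_mem (F : Law B) (n m : ℕ) :
    PowerSeries.coeff (n + 2) (mulS F.ps m) -
      (∑ j ∈ Finset.range m, ∑ i ∈ Finset.Ioo 0 (n + 2), cC (n + 2) i * j ^ i) • xC F n ∈
      subx F n := by
  set N := n + 2 with hN
  have hFl : IsLaw F.ps := isLaw_formalGroup F.toFG
  have hsub := sub_truncPS_mem N F.ps
  have hF'l : IsLaw (truncPS N F.ps) := isLaw_of_sub_mem hFl (by omega) hsub
  have key := coeff_mulS_compare hFl hF'l (by omega) hsub (subx F n).toAddSubgroup (xC F n)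
    (by
      rw [map_sub, coeff_truncPS, if_neg (by rw [degree_e2]; omega), sub_zero, coeff_e2_zero_left,
        if_neg (by omega)]
      exact AddSubgroup.zero_mem _)
    (by
      rw [map_sub, coeff_truncPS, if_neg (by rw [degree_e2]; omega), sub_zero, coeff_e2_zero_right,
        if_neg (by omega)]
      exact AddSubgroup.zero_mem _)
    (fun i hi hiN => by
      rw [map_sub, coeff_truncPS, if_neg (by rw [degree_e2]; omega), sub_zero]
      exact coeff_sub_mem_subx F n i (N - i) hi (by omega) (by omega)) m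
  -- the coefficients of `[m]` of the truncation
  have h2 : ∀ e, PowerSeries.coeff e (mulS (truncPS N F.ps) m) ∈ subx F n := by
    have hco : ∀ d, coeff d (truncPS N F.ps) ∈ subx F n := fun d => by
      rw [coeff_truncPS]
      split_ifs with h
      · exact coeff_mem_subx F n d h
      · exact (subx F n).zero_mem
    obtain ⟨F', hF'⟩ := exists_lift_subring (subx F n) _ hco
    have hF'2 : IsLaw F' := isLaw_of_map_injective Subtype.val_injective (by rw [hF']; exact hF'l)
    have h3 : ∀ m, mulS (truncPS N F.ps) m =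
        PowerSeries.map (subx F n).subtype (mulS F' m) := by
      intro m
      induction m with
      | zero => exact (map_zero _).symm
      | succ m ih =>
        rw [mulS_succ, mulS_succ, ih, ← hF']
        have h4 := map_pair_subst (P := F') (subx F n).subtype (hasSubst_of_mem (mulS_mem hF'2 m))
          (hasSubst_of_mem psX_mem)
        refine Eq.trans ?_ h4.symm
        congr 1
        ext1 i
        fin_cases i
        · rfl
        · exact (PowerSeries.map_X _).symm
    intro e
    rw [h3, PowerSeries.coeff_map]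
    exact Subtype.mem _
  have h5 := Subring.add_mem _ key (h2 N)
  convert h5 using 1
  ring

end Vale.Agent.P251.F
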