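import Vale.Agent.P251.F.VGen

/-!
# P251, part F: the ideals `I_h` of the Lazard ring

Modulo `p` the ring `Laz` is the polynomial ring on `Y_n` and `v_k = Y_{p^k - 2}`, so
`(p, v_1, v_2, …)` is a regular sequence, the ideals `I_h` are prime, and the ideals `(p) + I_h^j`
are preimages of powers of monomial ideals.
-/

namespace Vale.Agent.P251.F

open Vale.Agent.P217

/-! ### ideals generated by variables -/

section Mono

variable {σ R : Type*} [CommRing R] (S : Set σ)

open Classical in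
/-- The endomorphism of the polynomial ring killing the variables in `S`. -/
noncomputable def killX : MvPolynomial σ R →ₐ[R] MvPolynomial σ R :=
  MvPolynomial.aeval fun s => if s ∈ S then 0 else MvPolynomial.X s

theorem killX_X_of_mem {s : σ} (h : s ∈ S) : killX (R := R) S (MvPolynomial.X s) = 0 := by
  rw [killX, MvPolynomial.aeval_X, if_pos h]

theorem killX_X_of_notMem {s : σ} (h : s ∉ S) :
    killX (R := R) S (MvPolynomial.X s) = MvPolynomial.X s := by
  rw [killX, MvPolynomial.aeval_X, if_neg h]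

theorem sub_killX_mem (f : MvPolynomial σ R) :
    f - killX S f ∈ Ideal.span (MvPolynomial.X '' S : Set (MvPolynomial σ R)) := by
  set J := Ideal.span (MvPolynomial.X '' S : Set (MvPolynomial σ R))
  induction f using MvPolynomial.induction_on with
  | C r =>
    rw [← MvPolynomial.algebraMap_eq, AlgHom.commutes, sub_self]
    exact J.zero_mem
  | add f g hf hg =>
    rw [map_add, add_sub_add_comm]
    exact J.add_mem hf hg
  | mul_X f s hf =>
    rw [map_mul]
    by_cases hs : s ∈ S
    · rw [killX_X_of_mem S hs, mul_zero, sub_zero]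
      exact J.mul_mem_left _ (Ideal.subset_span ⟨s, hs, rfl⟩)
    · rw [killX_X_of_notMem S hs, ← sub_mul]
      exact J.mul_mem_right _ hf

theorem ker_killX : RingHom.ker (killX S : MvPolynomial σ R →ₐ[R] MvPolynomial σ R) =
    Ideal.span (MvPolynomial.X '' S : Set (MvPolynomial σ R)) := by
  apply le_antisymm
  · intro f hf
    rw [RingHom.mem_ker] at hf
    have := sub_killX_mem S f
    rwa [hf, sub_zero] at this
  · rw [Ideal.span_le]
    rintro _ ⟨s, hs, rfl⟩
    exact killX_X_of_mem S hs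

instance isPrime_span_X [IsDomain R] :
    (Ideal.span (MvPolynomial.X '' S : Set (MvPolynomial σ R))).IsPrime := by
  rw [← ker_killX]
  exact RingHom.ker_isPrime _

theorem X_mem_span_X_iff [Nontrivial R] {i : σ} :
    (MvPolynomial.X i : MvPolynomial σ R) ∈ Ideal.span (MvPolynomial.X '' S) ↔ i ∈ S := by
  constructor
  · intro h
    by_contra hi
    rw [← ker_killX, RingHom.mem_ker, killX_X_of_notMem S hi] at h
    exact MvPolynomial.X_ne_zero i h
  · intro h
    exact Ideal.subset_span ⟨i, h, rfl⟩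

open Classical in
/-- total degree of a monomial in the variables of `S`. -/
noncomputable def degS (m : σ →₀ ℕ) : ℕ := (m.filter (· ∈ S)).degree

theorem degS_add (m n : σ →₀ ℕ) : degS S (m + n) = degS S m + degS S n := by
  classical
  rw [degS, Finsupp.filter_add, map_add]
  rfl

open Classical in
theorem degS_single (i : σ) : degS S (Finsupp.single i 1) = if i ∈ S then 1 else 0 := by
  rw [degS]
  split_ifs with h
  · rw [Finsupp.filter_single_of_pos _ h, Finsupp.degree_single]
  · rw [Finsupp.filter_single_of_neg _ h, map_zero]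

/-- The ideal of polynomials all of whose monomials have degree `≥ j` in the variables of `S`. -/
def monoI (R : Type*) [CommRing R] (j : ℕ) : Ideal (MvPolynomial σ R) where
  carrier := {f | ∀ m, degS S m < j → MvPolynomial.coeff m f = 0}
  zero_mem' := fun m _ => MvPolynomial.coeff_zero m
  add_mem' := fun hf hg m hm => by rw [MvPolynomial.coeff_add, hf m hm, hg m hm, add_zero]
  smul_mem' := fun g f hf m hm => by
    classical
    rw [smul_eq_mul, MvPolynomial.coeff_mul]
    refine Finset.sum_eq_zero fun ab hab => ?_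
    rw [Finset.HasAntidiagonal.mem_antidiagonal] at hab
    rw [hf ab.2 (by
      rw [← hab, degS_add] at hm
      omega), mul_zero]

theorem mem_monoI {j : ℕ} {f : MvPolynomial σ R} :
    f ∈ monoI S R j ↔ ∀ m, degS S m < j → MvPolynomial.coeff m f = 0 := Iff.rfl

theorem mul_mem_monoI {i j : ℕ} {f g : MvPolynomial σ R} (hf : f ∈ monoI S R i)
    (hg : g ∈ monoI S R j) : f * g ∈ monoI S R (i + j) := by
  classical
  intro m hm
  rw [MvPolynomial.coeff_mul]
  refine Finset.sum_eq_zero fun ab hab => ?_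
  rw [Finset.HasAntidiagonal.mem_antidiagonal] at hab
  rw [← hab, degS_add] at hm
  rcases Nat.lt_or_ge (degS S ab.1) i with h | h
  · rw [hf _ h, zero_mul]
  · rw [hg _ (by omega), mul_zero]

theorem monomial_mem_span_X_pow (m : σ →₀ ℕ) (r : R) :
    MvPolynomial.monomial m r ∈
      Ideal.span (MvPolynomial.X '' S : Set (MvPolynomial σ R)) ^ degS S m := by
  classical
  induction m using Finsupp.induction_linear generalizing r with
  | zero =>
    rw [degS, Finsupp.filter_zero, map_zero, pow_zero, Ideal.one_eq_top]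
    exact Submodule.mem_top (R := MvPolynomial σ R)
  | add m n hm hn =>
    rw [degS_add, pow_add, ← mul_one r, ← MvPolynomial.monomial_mul]
    exact Ideal.mul_mem_mul (hm r) (hn 1)
  | single i k =>
    have h1 : degS S (Finsupp.single i k) = if i ∈ S then k else 0 := by
      rw [degS]
      split_ifs with h
      · rw [Finsupp.filter_single_of_pos _ h, Finsupp.degree_single]
      · rw [Finsupp.filter_single_of_neg _ h, map_zero]
    rw [h1]
    split_ifs with h
    · rw [← MvPolynomial.C_mul_X_pow_eq_monomial]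
      have h2 : (MvPolynomial.X i : MvPolynomial σ R) ∈ Ideal.span (MvPolynomial.X '' S) :=
        Ideal.subset_span ⟨i, h, rfl⟩
      exact Ideal.mul_mem_left _ _ (Ideal.pow_mem_pow h2 k)
    · rw [pow_zero, Ideal.one_eq_top]
      exact Submodule.mem_top (R := MvPolynomial σ R)

/-- Powers of the ideal generated by the variables in `S`. -/
theorem span_X_pow_eq (j : ℕ) :
    Ideal.span (MvPolynomial.X '' S : Set (MvPolynomial σ R)) ^ j = monoI S R j := by
  classical
  apply le_antisymm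
  · induction j with
    | zero => exact fun f _ m hm => absurd hm (Nat.not_lt_zero _)
    | succ j ih =>
      rw [pow_succ, Ideal.mul_le]
      intro f hf g hg
      refine mul_mem_monoI S (ih hf) ?_
      have h1 : Ideal.span (MvPolynomial.X '' S : Set (MvPolynomial σ R)) ≤ monoI S R 1 := by
        rw [Ideal.span_le]
        rintro _ ⟨i, hi, rfl⟩ m hm
        rw [MvPolynomial.coeff_X, if_neg]
        rintro rfl
        rw [degS_single, if_pos hi] at hm
        exact lt_irrefl 1 hm
      exact h1 hg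
  · intro f hf
    rw [MvPolynomial.as_sum f]
    refine Ideal.sum_mem _ fun m hm => ?_
    have h1 : j ≤ degS S m := by
      by_contra h
      exact (MvPolynomial.mem_support_iff.1 hm) (hf m (not_le.1 h))
    exact Ideal.pow_le_pow_right h1 (monomial_mem_span_X_pow S m _)

/-- A variable outside `S` is a nonzerodivisor modulo powers of the ideal `(X_s, s ∈ S)`. -/
theorem mem_span_X_pow_of_mul {i : σ} (hi : i ∉ S) {j : ℕ} {f : MvPolynomial σ R}
    (h : MvPolynomial.X i * f ∈
      Ideal.span (MvPolynomial.X '' S : Set (MvPolynomial σ R)) ^ j) :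
    f ∈ Ideal.span (MvPolynomial.X '' S : Set (MvPolynomial σ R)) ^ j := by
  classical
  rw [span_X_pow_eq] at h ⊢
  intro m hm
  have h1 := h (m + Finsupp.single i 1) (by rwa [degS_add, degS_single, if_neg hi, add_zero])
  rwa [mul_comm, MvPolynomial.coeff_mul_X] at h1

end Mono

/-! ### the ideals `I_h` -/

section Laz

variable (p : ℕ) [hp : Fact p.Prime]

/-- The indices of `v_1, …, v_{h-1}`. -/
def idx (h : ℕ) : Set ℕ := {n | ∃ k, k ≠ 0 ∧ k < h ∧ n + 2 = p ^ k}

theorem notMem_idx {h k : ℕ} (hk : k ≠ 0) (hkh : h ≤ k) : p ^ k - 2 ∉ idx p h := by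
  rintro ⟨l, -, hl2, hl3⟩
  rw [Nat.sub_add_cancel (two_le_pow hp.out hk)] at hl3
  have := Nat.pow_right_injective hp.out.two_le hl3
  omega

theorem mem_idx {h k : ℕ} (hk : k ≠ 0) (hkh : k < h) : p ^ k - 2 ∈ idx p h :=
  ⟨k, hk, hkh, Nat.sub_add_cancel (two_le_pow hp.out hk)⟩

/-- The ideal of `𝔽_p[Y_0, Y_1, …]` generated by the variables `v_1, …, v_{h-1}`. -/
noncomputable def YI (h : ℕ) : Ideal (MvPolynomial ℕ (ZMod p)) :=
  Ideal.span (MvPolynomial.X '' idx p h)

theorem map_I_toY (h : ℕ) : (Laz.I p h).map (toY p) = YI p h := by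
  have hp0 : toY p (Laz.v p 0) = 0 := by
    have h1 : Laz.v p 0 = (p : Laz) := vv_zero p _
    rw [h1, ← RingHom.mem_ker, ker_toY]
    exact Ideal.mem_span_singleton_self _
  apply le_antisymm
  · rw [Laz.I, Ih, Ideal.map_span, Ideal.span_le]
    rintro _ ⟨_, ⟨k, hk, rfl⟩, rfl⟩
    change toY p (Laz.v p k) ∈ YI p h
    rcases Nat.eq_zero_or_pos k with h0 | h0
    · rw [h0, hp0]
      exact Ideal.zero_mem _
    · rw [toY_v p h0.ne']
      exact Ideal.subset_span ⟨_, mem_idx p h0.ne' hk, rfl⟩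
  · rw [YI, Ideal.span_le]
    rintro _ ⟨n, ⟨k, hk0, hk, hn⟩, rfl⟩
    have h1 : n = p ^ k - 2 := by omega
    rw [h1, ← toY_v p hk0]
    exact Ideal.mem_map_of_mem _ (vv_mem_Ih hk _)

theorem map_IJ_toY (h j : ℕ) : (Laz.IJ p h j).map (toY p) = YI p h ^ j := by
  rw [Laz.IJ, Ideal.map_sup, Ideal.map_pow, map_I_toY]
  have h1 : (Ideal.span {(p : Laz)}).map (toY p) = ⊥ := by
    rw [Ideal.map_eq_bot_iff_le_ker, ker_toY]
  rw [h1, bot_sup_eq]

/-- The ideals `(p) + I_h^j`. -/
theorem IJ_eq_comap (h j : ℕ) : Laz.IJ p h j = (YI p h ^ j).comap (toY p) := by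
  rw [← map_IJ_toY, Ideal.comap_map_of_surjective _ (toY_surjective p), ← RingHom.ker_eq_comap_bot,
    ker_toY, left_eq_sup]
  exact le_sup_left

omit hp in
theorem IJ_one_eq {h : ℕ} (hh : h ≠ 0) : Laz.IJ p h 1 = Laz.I p h := by
  rw [Laz.IJ, pow_one, sup_eq_right, Ideal.span_singleton_le_iff_mem, ← vv_zero p Laz.univ]
  exact vv_mem_Ih (Nat.pos_of_ne_zero hh) _

theorem I_eq_comap {h : ℕ} (hh : h ≠ 0) : Laz.I p h = (YI p h).comap (toY p) := by
  rw [← IJ_one_eq p hh, IJ_eq_comap, pow_one]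

omit hp in
theorem I_zero : Laz.I p 0 = ⊥ := by
  rw [Laz.I, Ih, Ideal.span_eq_bot]
  rintro _ ⟨i, hi, _⟩
  exact absurd hi (Nat.not_lt_zero i)

instance isPrime_YI (h : ℕ) : (YI p h).IsPrime := isPrime_span_X _

instance isPrime_I (h : ℕ) : (Laz.I p h).IsPrime := by
  rcases Nat.eq_zero_or_pos h with rfl | hh
  · rw [I_zero]
    exact Ideal.isPrime_bot
  · rw [I_eq_comap p hh.ne']
    infer_instance

theorem v_notMem_I {h k : ℕ} (hk : h ≤ k) : Laz.v p k ∉ Laz.I p h := by
  rcases Nat.eq_zero_or_pos h with rfl | hh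
  · rw [I_zero, Ideal.mem_bot]
    intro h0
    rcases Nat.eq_zero_or_pos k with rfl | hk0
    · have h1 : Laz.v p 0 = (p : Laz) := vv_zero p _
      rw [h1] at h0
      exact hp.out.ne_zero (Nat.cast_eq_zero.1 h0)
    · have h1 := toY_v p hk0.ne'
      rw [h0, map_zero] at h1
      exact MvPolynomial.X_ne_zero _ h1.symm
  · rw [I_eq_comap p hh.ne', Ideal.mem_comap, toY_v p (by omega), YI, X_mem_span_X_iff]
    exact notMem_idx p (by omega) hk

/-- `v_k`, `k ≥ h`, is a nonzerodivisor modulo `I_h`. -/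
theorem mem_I_of_v_mul {h k : ℕ} (hk : h ≤ k) {a : Laz} (ha : Laz.v p k * a ∈ Laz.I p h) :
    a ∈ Laz.I p h :=
  ((isPrime_I p h).mem_or_mem ha).resolve_left (v_notMem_I p hk)

/-- `v_k`, `k ≥ h`, `k ≥ 1`, is a nonzerodivisor modulo `(p) + I_h^j`. -/
theorem mem_IJ_of_v_mul {h k : ℕ} (hk0 : k ≠ 0) (hk : h ≤ k) (j : ℕ) {a : Laz}
    (ha : Laz.v p k * a ∈ Laz.IJ p h j) : a ∈ Laz.IJ p h j := by
  rw [IJ_eq_comap, Ideal.mem_comap, YI] at ha ⊢
  rw [map_mul, toY_v p hk0] at ha
  exact mem_span_X_pow_of_mul _ (notMem_idx p hk0 hk) ha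

/-- the element form over polynomial rings, e.g. `Cob Laz n`. -/
theorem mem_map_C_I_of_v_mul {σ : Type*} {h k : ℕ} (hk : h ≤ k) {a : MvPolynomial σ Laz}
    (ha : MvPolynomial.C (Laz.v p k) * a ∈
      (Laz.I p h).map (MvPolynomial.C : Laz →+* MvPolynomial σ Laz)) :
    a ∈ (Laz.I p h).map (MvPolynomial.C : Laz →+* MvPolynomial σ Laz) := by
  rw [MvPolynomial.mem_map_C_iff] at ha ⊢
  intro m
  have := ha m
  rw [MvPolynomial.coeff_C_mul] at this
  exact mem_I_of_v_mul p hk this

theorem mem_map_C_IJ_of_v_mul {σ : Type*} {h k : ℕ} (hk0 : k ≠ 0) (hk : h ≤ k) (j : ℕ)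
    {a : MvPolynomial σ Laz} (ha : MvPolynomial.C (Laz.v p k) * a ∈
      (Laz.IJ p h j).map (MvPolynomial.C : Laz →+* MvPolynomial σ Laz)) :
    a ∈ (Laz.IJ p h j).map (MvPolynomial.C : Laz →+* MvPolynomial σ Laz) := by
  rw [MvPolynomial.mem_map_C_iff] at ha ⊢
  intro m
  have := ha m
  rw [MvPolynomial.coeff_C_mul] at this
  exact mem_IJ_of_v_mul p hk0 hk j this

/-- `Laz/(p, I_h^j)` as a quotient of `𝔽_p[Y_0, Y_1, …]` by a power of the ideal generated by the
variables `v_1, …, v_{h-1}`. -/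
noncomputable def QNequiv (h j : ℕ) : QN p h j ≃+* MvPolynomial ℕ (ZMod p) ⧸ (YI p h ^ j) :=
  (Ideal.quotEquivOfEq (IJ_eq_comap p h j)).trans
    (RingEquiv.ofBijective
      (Ideal.Quotient.lift ((YI p h ^ j).comap (toY p))
        ((Ideal.Quotient.mk (YI p h ^ j)).comp (toY p)) fun a ha =>
          Ideal.Quotient.eq_zero_iff_mem.2 ha)
      ⟨by
        rw [injective_iff_map_eq_zero]
        intro a
        obtain ⟨a, rfl⟩ := Ideal.Quotient.mk_surjective a
        intro ha
        rw [Ideal.Quotient.lift_mk, RingHom.comp_apply, Ideal.Quotient.eq_zero_iff_mem] at ha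
        exact Ideal.Quotient.eq_zero_iff_mem.2 ha, by
        intro b
        obtain ⟨b, rfl⟩ := Ideal.Quotient.mk_surjective b
        obtain ⟨a, rfl⟩ := toY_surjective p b
        exact ⟨Ideal.Quotient.mk _ a, rfl⟩⟩)

@[simp] theorem QNequiv_mk (h j : ℕ) (a : Laz) :
    QNequiv p h j (Ideal.Quotient.mk _ a) = Ideal.Quotient.mk _ (toY p a) := rfl

/-- `v_k`, `k ≥ h`, `k ≥ 1`, is a nonzerodivisor on `Laz/(p, I_h^j)`. -/
theorem QN_v_mul_eq_zero {h k : ℕ} (hk0 : k ≠ 0) (hk : h ≤ k) (j : ℕ) {a : QN p h j}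
    (ha : Ideal.Quotient.mk _ (Laz.v p k) * a = 0) : a = 0 := by
  obtain ⟨a, rfl⟩ := Ideal.Quotient.mk_surjective a
  rw [← map_mul, Ideal.Quotient.eq_zero_iff_mem] at ha
  exact Ideal.Quotient.eq_zero_iff_mem.2 (mem_IJ_of_v_mul p hk0 hk j ha)

/-- `Laz/(p, I_h^j) → v_h⁻¹ Laz/(p, I_h^j)` is injective (`h ≥ 1`). -/
theorem QN_to_NN_injective {h : ℕ} (hh : h ≠ 0) (j : ℕ) :
    Function.Injective (algebraMap (QN p h j) (NN p h j)) := by
  refine IsLocalization.injective (NN p h j) (M := Submonoid.powers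
    (Ideal.Quotient.mk (Laz.IJ p h j) (Laz.v p h))) ?_
  rw [Submonoid.powers_le, mem_nonZeroDivisors_iff_right]
  intro a ha
  rw [mul_comm] at ha
  exact QN_v_mul_eq_zero p hh le_rfl j ha

end Laz

end Vale.Agent.P251.F
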