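import Vale.Agent.P251.F.LazWt
import Vale.Agent.P251.F.LazReg
import Vale.Agent.P251.I.F

/-!
# P251, part F: the frozen statements about the Lazard ring
-/

namespace Vale.Agent.P251.F

theorem lazard_statement : I.Lazard_statement := by
  refine ⟨Laz.x, Laz.isWt_x, ?_⟩
  have h : MvPolynomial.eval₂Hom (Int.castRingHom Laz) Laz.x = Laz.polyHom := by
    apply MvPolynomial.ringHom_ext
    · intro r
      simp
    · intro n
      rw [MvPolynomial.eval₂Hom_X', Laz.polyHom_X]
  rw [h]
  exact ⟨Laz.polyHom_injective, Laz.polyHom_surjective⟩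

theorem lazInj_statement : I.LazInj_statement := Laz.toB_injective

theorem lazReg_statement : I.LazReg_statement := by
  intro p _ h
  exact ⟨(isPrime_I p h).ne_top, fun a ha => mem_I_of_v_mul p le_rfl ha⟩

end Vale.Agent.P251.F
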