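import Vale.Agent.P251.F.LTFS
import Vale.Agent.P251.C.Main

/-!
# P251, part F: `FS_statement`
-/

namespace Vale.Agent.P251.F

/-- Sparseness at height `p - 1`: pro-vanishing in the weights which are not divisible by
`p - 1`, or not congruent to `0`, `-1` modulo `p`. -/
theorem FS : I.FS_statement := FS_of_CP C.CP

end Vale.Agent.P251.F
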