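import Vale.Agent.P251.C.Main
import Vale.Agent.P251.F.LTFinal

/-!
# P251, part F: `FV_statement`
-/

namespace Vale.Agent.P251.F

/-- Height `n = p`: `H^s(v_n⁻¹ Laz/(p, I_n^j)) = 0` for `s > n²`, in every weight. -/
theorem FV : I.FV_statement := FV_of_CV C.CV

end Vale.Agent.P251.F
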