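import Vale.Agent.P251.F.SRing
import Mathlib.NumberTheory.Padics.RingHoms
import Mathlib.NumberTheory.Padics.ProperSpace
import Mathlib.LinearAlgebra.Dimension.Finite
import Mathlib.FieldTheory.Finite.GaloisField

/-!
# P251, part F: complete rings with a normal uniformizer as modules over the `p`-adic integers

`CSRing p h O k` : an `SRing` with `p = S^h`, complete. We construct the central homomorphism
`ι : ℤ_[p] → O` and a basis of `O` over `ℤ_[p]`.
-/

namespace Vale.Agent.P251.F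

/-- A complete ring with normal uniformizer `S` and `p = S^h`. -/
structure CSRing (p h : ℕ) (O k : Type*) [Ring O] [Field k] extends SRing p O k where
  h_pos : 1 ≤ h
  p_eq : ((p : ℕ) : O) = S ^ h
  complete : ∀ a : ℕ → O, (∀ n, a (n + 1) - a n ∈ toSRing.I n) →
    ∃ f, ∀ n, f - a n ∈ toSRing.I n

namespace CSRing

variable {p h : ℕ} {O k : Type*} [Ring O] [Field k] (D : CSRing p h O k)

theorem natCast_pow_mul_mem (n : ℕ) (f : O) : (p : O) ^ n * f ∈ D.I (h * n) := by
  rw [D.p_eq, ← pow_mul]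
  exact D.mul_mem_I_right (D.S_pow_mem _) f

include D in
theorem le_mul (n : ℕ) : n ≤ h * n := Nat.le_mul_of_pos_left n D.h_pos

theorem intCast_mem {n : ℕ} {z : ℤ} (hz : (p : ℤ) ^ n ∣ z) : (z : O) ∈ D.I n := by
  obtain ⟨w, rfl⟩ := hz
  push_cast
  exact D.I_anti (D.le_mul n) (D.natCast_pow_mul_mem n _)

section Iota

variable [hp : Fact p.Prime]

theorem appr_int_dvd (a : ℤ_[p]) (z : ℤ) (n : ℕ) (h1 : (p : ℤ_[p]) ^ n ∣ a - z) :
    (p : ℤ) ^ n ∣ (a.appr n : ℤ) - z := by
  have h2 : (p : ℤ_[p]) ^ n ∣ a - ((a.appr n : ℕ) : ℤ_[p]) :=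
    Ideal.mem_span_singleton.1 (PadicInt.appr_spec n a)
  have h3 := dvd_sub h1 h2
  have h4 : a - (z : ℤ_[p]) - (a - ((a.appr n : ℕ) : ℤ_[p])) =
      (((a.appr n : ℤ) - z : ℤ) : ℤ_[p]) := by
    push_cast
    ring
  rw [h4, PadicInt.pow_p_dvd_int_iff] at h3
  exact h3

theorem exists_iota (a : ℤ_[p]) : ∃ x : O, ∀ n, x - ((a.appr n : ℕ) : O) ∈ D.I n := by
  refine D.complete (fun n => ((a.appr n : ℕ) : O)) fun n => ?_
  have h1 := PadicInt.dvd_appr_sub_appr a n (n + 1) (Nat.le_succ n)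
  have h2 := PadicInt.appr_mono a (Nat.le_succ n)
  have h3 : ((a.appr (n + 1) : ℕ) : O) - ((a.appr n : ℕ) : O) =
      (((a.appr (n + 1) - a.appr n : ℕ) : ℤ) : O) := by
    rw [Int.cast_natCast, Nat.cast_sub h2]
  rw [h3]
  refine D.intCast_mem ?_
  exact_mod_cast h1

/-- the image of a `p`-adic integer. -/
noncomputable def iota (a : ℤ_[p]) : O := (D.exists_iota a).choose

theorem iota_spec (a : ℤ_[p]) (n : ℕ) : D.iota a - ((a.appr n : ℕ) : O) ∈ D.I n :=
  (D.exists_iota a).choose_spec n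

theorem iota_sub_intCast (a : ℤ_[p]) (z : ℤ) (n : ℕ) (h1 : (p : ℤ_[p]) ^ n ∣ a - z) :
    D.iota a - (z : O) ∈ D.I n := by
  have h2 := D.intCast_mem (appr_int_dvd a z n h1)
  have h3 := (D.I n).add_mem (D.iota_spec a n) h2
  have h4 : D.iota a - ((a.appr n : ℕ) : O) + (((a.appr n : ℤ) - z : ℤ) : O) =
      D.iota a - (z : O) := by
    push_cast
    abel
  rwa [h4] at h3

theorem exists_int (a : ℤ_[p]) (n : ℕ) : ∃ z : ℤ, (p : ℤ_[p]) ^ n ∣ a - z :=
  ⟨(a.appr n : ℤ), by
    have := Ideal.mem_span_singleton.1 (PadicInt.appr_spec n a)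
    exact_mod_cast this⟩

theorem eq_iota {x : O} {a : ℤ_[p]}
    (hx : ∀ n, ∃ z : ℤ, (p : ℤ_[p]) ^ n ∣ a - z ∧ x - (z : O) ∈ D.I n) : x = D.iota a := by
  rw [← sub_eq_zero]
  refine D.eq_zero_of_forall_mem fun n => ?_
  obtain ⟨z, h1, h2⟩ := hx n
  have h3 := (D.I n).sub_mem h2 (D.iota_sub_intCast a z n h1)
  rwa [sub_sub_sub_cancel_right] at h3

theorem iota_intCast (z : ℤ) : D.iota (z : ℤ_[p]) = (z : O) := by
  refine (D.eq_iota fun n => ⟨z, by rw [sub_self]; exact dvd_zero _, ?_⟩).symm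
  rw [sub_self]
  exact (D.I n).zero_mem

/-- the central homomorphism. -/
noncomputable def iotaHom : ℤ_[p] →+* O where
  toFun := D.iota
  map_zero' := by
    have := D.iota_intCast 0
    simpa using this
  map_one' := by
    have := D.iota_intCast 1
    simpa using this
  map_add' a b := by
    refine (D.eq_iota fun n => ?_).symm
    obtain ⟨y, hy⟩ := exists_int a n
    obtain ⟨z, hz⟩ := exists_int b n
    refine ⟨y + z, ?_, ?_⟩
    · have := dvd_add hy hz
      push_cast
      convert this using 1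
      ring
    · have := (D.I n).add_mem (D.iota_sub_intCast a y n hy) (D.iota_sub_intCast b z n hz)
      push_cast
      convert this using 1
      abel
  map_mul' a b := by
    refine (D.eq_iota fun n => ?_).symm
    obtain ⟨y, hy⟩ := exists_int a n
    obtain ⟨z, hz⟩ := exists_int b n
    refine ⟨y * z, ?_, ?_⟩
    · have := dvd_add (hy.mul_right b) (hz.mul_left (y : ℤ_[p]))
      push_cast
      convert this using 1
      ring
    · have h1 := D.mul_mem_I_right (D.iota_sub_intCast a y n hy) (D.iota b)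
      have h2 := D.mul_mem_I_left (y : O) (D.iota_sub_intCast b z n hz)
      have := (D.I n).add_mem h1 h2
      push_cast
      convert this using 1
      rw [sub_mul, mul_sub]
      abel

theorem iotaHom_apply (a : ℤ_[p]) : D.iotaHom a = D.iota a := rfl

theorem iota_comm (a : ℤ_[p]) (f : O) : D.iotaHom a * f = f * D.iotaHom a := by
  rw [← sub_eq_zero]
  refine D.eq_zero_of_forall_mem fun n => ?_
  obtain ⟨z, hz⟩ := exists_int a n
  have h1 := D.iota_sub_intCast a z n hz
  have h2 := (D.I n).sub_mem (D.mul_mem_I_right h1 f) (D.mul_mem_I_left f h1)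
  have h3 : (D.iota a - (z : O)) * f - f * (D.iota a - (z : O)) =
      D.iotaHom a * f - f * D.iotaHom a := by
    rw [iotaHom_apply, sub_mul, mul_sub, (Int.cast_commute z f).eq]
    abel
  rwa [h3] at h2

theorem iota_mem {n : ℕ} {a : ℤ_[p]} (ha : (p : ℤ_[p]) ^ n ∣ a) :
    D.iotaHom a ∈ D.I (h * n) := by
  obtain ⟨b, rfl⟩ := ha
  rw [map_mul, map_pow, map_natCast]
  exact D.natCast_pow_mul_mem n _

/-- the `ℤ_[p]`-algebra structure. -/
@[reducible] noncomputable def algebra : Algebra ℤ_[p] O :=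
  D.iotaHom.toAlgebra' fun a f => D.iota_comm a f

end Iota

section Basis

variable [hp : Fact p.Prime] [CharP k p]

theorem step {ι : Type*} [Fintype ι] [Algebra (ZMod p) k] (b : Module.Basis ι (ZMod p) k)
    (t : k → O) (ht : ∀ a, D.r (t a) = a) (f : O) :
    ∃ (c : ι → ℤ) (g : O), f = ∑ j, (c j : O) * t (b j) + g * D.S := by
  obtain ⟨cv, h1⟩ : ∃ cv : ι → ZMod p, D.r f = ∑ j, cv j • b j :=
    ⟨fun j => b.repr (D.r f) j, (b.sum_repr _).symm⟩
  refine ⟨fun j => ((cv j).val : ℤ), ?_⟩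
  have h2 : D.r (f - ∑ j, ((((cv j).val : ℕ) : ℤ) : O) * t (b j)) = 0 := by
    rw [map_sub, map_sum, h1, sub_eq_zero]
    refine Finset.sum_congr rfl fun j _ => ?_
    rw [map_mul, ht, map_intCast, Int.cast_natCast, Algebra.smul_def]
    congr 1
    conv_lhs => rw [← ZMod.natCast_zmod_val (cv j)]
    rw [map_natCast]
  obtain ⟨g, hg⟩ := D.exists_of_r _ h2
  exact ⟨g, by rw [← hg]; abel⟩

theorem exists_expansion {ι : Type*} [Fintype ι] [Algebra (ZMod p) k]
    (b : Module.Basis ι (ZMod p) k) (t : k → O) (ht : ∀ a, D.r (t a) = a) (n : ℕ) (f : O) :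
    ∃ (c : ℕ → ι → ℤ) (g : O),
      f = ∑ i ∈ Finset.range n, (∑ j, (c i j : O) * t (b j)) * D.S ^ i + g * D.S ^ n := by
  induction n with
  | zero => exact ⟨fun _ _ => 0, f, by simp⟩
  | succ n ih =>
    obtain ⟨c, g, hg⟩ := ih
    obtain ⟨c', g', hg'⟩ := D.step b t ht g
    refine ⟨Function.update c n c', g', ?_⟩
    rw [Finset.sum_range_succ, Function.update_self]
    have h1 : ∑ i ∈ Finset.range n, (∑ j, ((Function.update c n c') i j : O) * t (b j)) *
        D.S ^ i = ∑ i ∈ Finset.range n, (∑ j, (c i j : O) * t (b j)) * D.S ^ i := by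
      refine Finset.sum_congr rfl fun i hi => ?_
      rw [Finset.mem_range] at hi
      rw [Function.update_of_ne hi.ne]
    rw [h1]
    conv_lhs => rw [hg, hg']
    rw [add_mul, mul_assoc g', ← pow_succ', add_assoc]

theorem indep {ι : Type*} [Fintype ι] [Algebra (ZMod p) k] (b : Module.Basis ι (ZMod p) k)
    (t : k → O) (ht : ∀ a, D.r (t a) = a) (n : ℕ) (hn : n ≤ h) (c : ℕ → ι → ℤ)
    (hc : ∑ i ∈ Finset.range n, (∑ j, (c i j : O) * t (b j)) * D.S ^ i ∈ D.I n) :
    ∀ i < n, ∀ j, (p : ℤ) ∣ c i j := by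
  induction n with
  | zero => intro i hi; omega
  | succ n ih =>
    rw [Finset.sum_range_succ] at hc
    have h1 : ∑ i ∈ Finset.range n, (∑ j, (c i j : O) * t (b j)) * D.S ^ i ∈ D.I n := by
      have h2 := (D.I n).sub_mem (D.I_anti (Nat.le_succ n) hc)
        (D.mul_S_pow_mem (∑ j, (c n j : O) * t (b j)) n)
      rwa [add_sub_cancel_right] at h2
    have h2 := ih (by omega) h1
    have h3 : ∑ i ∈ Finset.range n, (∑ j, (c i j : O) * t (b j)) * D.S ^ i ∈ D.I (n + 1) := by
      refine (D.I _).sum_mem fun i hi => ?_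
      rw [Finset.mem_range] at hi
      refine D.mul_mem_I_right ((D.I _).sum_mem fun j _ => D.mul_mem_I_right ?_ _) _
      obtain ⟨w, hw⟩ := h2 i hi j
      rw [hw]
      push_cast
      have h4 := D.natCast_pow_mul_mem 1 (w : O)
      rw [pow_one, mul_one] at h4
      exact D.I_anti hn h4
    have h4 := (D.I (n + 1)).sub_mem hc h3
    rw [add_sub_cancel_left, D.mul_S_pow_mem_succ_iff, map_sum] at h4
    have h5 : ∑ j, ((c n j : ℤ) : ZMod p) • b j = 0 := by
      rw [← h4]
      refine Finset.sum_congr rfl fun j _ => ?_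
      rw [map_mul, ht, map_intCast, Algebra.smul_def, map_intCast]
    have h6 := Fintype.linearIndependent_iff.1 b.linearIndependent _ h5
    intro i hi j
    rcases Nat.lt_succ_iff_lt_or_eq.1 hi with h7 | rfl
    · exact h2 i h7 j
    · exact (ZMod.intCast_zmod_eq_zero_iff_dvd _ _).1 (h6 j)

/-- the coordinate map. -/
noncomputable def Phi {ι : Type*} [Fintype ι] (e : ι → O) : (ι → ℤ_[p]) →+ O where
  toFun a := ∑ x, D.iotaHom (a x) * e x
  map_zero' := by simp
  map_add' a b := by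
    simp only [Pi.add_apply, map_add, add_mul, Finset.sum_add_distrib]

omit [CharP k p] in
theorem Phi_apply {ι : Type*} [Fintype ι] (e : ι → O) (a : ι → ℤ_[p]) :
    D.Phi e a = ∑ x, D.iotaHom (a x) * e x := rfl

omit [CharP k p] in
theorem Phi_smul {ι : Type*} [Fintype ι] (e : ι → O) (c : ℤ_[p]) (a : ι → ℤ_[p]) :
    D.Phi e (c • a) = D.iotaHom c * D.Phi e a := by
  rw [Phi_apply, Phi_apply, Finset.mul_sum]
  refine Finset.sum_congr rfl fun x _ => ?_
  rw [Pi.smul_apply, smul_eq_mul, map_mul, mul_assoc]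

omit [CharP k p] in
theorem Phi_mem {ι : Type*} [Fintype ι] (e : ι → O) {n : ℕ} {a : ι → ℤ_[p]}
    (ha : ∀ x, (p : ℤ_[p]) ^ n ∣ a x) : D.Phi e a ∈ D.I (h * n) := by
  rw [Phi_apply]
  exact (D.I _).sum_mem fun x _ => D.mul_mem_I_right (D.iota_mem (ha x)) _

/-- the family `t(b_j) S^i`. -/
noncomputable def fam {ι : Type*} [Algebra (ZMod p) k] (b : Module.Basis ι (ZMod p) k) (t : k → O)
    (x : Fin h × ι) : O := t (b x.2) * D.S ^ (x.1 : ℕ)

section Fam

variable {ι : Type*} [Fintype ι] [Algebra (ZMod p) k] (b : Module.Basis ι (ZMod p) k)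
  (t : k → O) (ht : ∀ a, D.r (t a) = a)

omit [CharP k p] in
theorem Phi_fam_int (c : ℕ → ι → ℤ) :
    D.Phi (D.fam b t) (fun x => ((c x.1 x.2 : ℤ) : ℤ_[p])) =
      ∑ i ∈ Finset.range h, (∑ j, (c i j : O) * t (b j)) * D.S ^ i := by
  rw [Phi_apply, Fintype.sum_prod_type, Finset.sum_range]
  refine Finset.sum_congr rfl fun i _ => ?_
  rw [Finset.sum_mul]
  refine Finset.sum_congr rfl fun j _ => ?_
  rw [map_intCast, fam, mul_assoc]

include ht in
theorem dvd_of_Phi_eq_zero (n : ℕ) : ∀ a : Fin h × ι → ℤ_[p], D.Phi (D.fam b t) a = 0 →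
    ∀ x, (p : ℤ_[p]) ^ n ∣ a x := by
  induction n with
  | zero => intro a _ x; rw [pow_zero]; exact one_dvd _
  | succ n ih =>
    intro a ha
    -- divisibility by `p`
    have h1 : ∀ x, (p : ℤ_[p]) ∣ a x := by
      have h2 : ∀ x, ∃ z : ℤ, (p : ℤ_[p]) ∣ a x - z := fun x => by
        have := exists_int (a x) 1
        simpa only [pow_one] using this
      choose z hz using h2
      let c : ℕ → ι → ℤ := fun i j => if hi : i < h then z (⟨i, hi⟩, j) else 0
      have hc : ∀ x : Fin h × ι, c x.1 x.2 = z x := by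
        rintro ⟨i, j⟩
        simp only [c, dif_pos i.2, Fin.eta]
      have h3 : D.Phi (D.fam b t) (a - fun x => ((c x.1 x.2 : ℤ) : ℤ_[p])) ∈ D.I (h * 1) := by
        refine D.Phi_mem _ fun x => ?_
        rw [pow_one, Pi.sub_apply, hc]
        exact hz x
      rw [map_sub, ha, zero_sub, (D.I _).neg_mem_iff, D.Phi_fam_int, mul_one] at h3
      have h4 := D.indep b t ht h le_rfl c h3
      intro x
      have h5 := h4 x.1 x.1.2 x.2
      rw [hc] at h5
      have h6 : (p : ℤ_[p]) ∣ ((z x : ℤ) : ℤ_[p]) := by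
        have := (PadicInt.pow_p_dvd_int_iff 1 (z x)).2 (by rw [pow_one]; exact h5)
        rwa [pow_one] at this
      have := dvd_add (hz x) h6
      rwa [sub_add_cancel] at this
    choose a' ha' using h1
    have h2 : a = (p : ℤ_[p]) • a' := by
      funext x
      rw [ha' x, Pi.smul_apply, smul_eq_mul]
    rw [h2, D.Phi_smul, map_natCast] at ha
    have h3 := D.p_reg D.p_eq ha
    intro x
    rw [ha' x, pow_succ']
    exact mul_dvd_mul_left _ (ih a' h3 x)

omit [CharP k p] [Field k] in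
theorem _root_.Vale.Agent.P251.F.padicInt_eq_zero {x : ℤ_[p]}
    (hx : ∀ n : ℕ, (p : ℤ_[p]) ^ n ∣ x) : x = 0 := by
  rw [← norm_eq_zero]
  refine le_antisymm (le_of_forall_pos_le_add fun ε hε => ?_) (norm_nonneg _)
  obtain ⟨m, hm⟩ := PadicInt.exists_pow_neg_lt p hε
  rw [zero_add]
  exact ((PadicInt.norm_le_pow_iff_mem_span_pow x m).2
    (Ideal.mem_span_singleton.2 (hx m))).trans hm.le

include ht in
theorem Phi_injective : Function.Injective (D.Phi (D.fam b t)) := by
  rw [injective_iff_map_eq_zero]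
  intro a ha
  funext x
  exact padicInt_eq_zero fun n => D.dvd_of_Phi_eq_zero b t ht n a ha x

include ht in
theorem Phi_approx (n : ℕ) : ∀ f : O, ∃ a : Fin h × ι → ℤ_[p],
    f - D.Phi (D.fam b t) a ∈ D.I (h * n) := by
  induction n with
  | zero => intro f; exact ⟨0, by rw [mul_zero]; exact D.mem_I_zero _⟩
  | succ n ih =>
    intro f
    obtain ⟨c, g, hg⟩ := D.exists_expansion b t ht h f
    obtain ⟨a', ha'⟩ := ih g
    refine ⟨(fun x => ((c x.1 x.2 : ℤ) : ℤ_[p])) + (p : ℤ_[p]) • a', ?_⟩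
    rw [map_add, D.Phi_fam_int, D.Phi_smul, map_natCast]
    have h1 : f - (∑ i ∈ Finset.range h, (∑ j, (c i j : O) * t (b j)) * D.S ^ i +
        (p : O) * D.Phi (D.fam b t) a') = (p : O) * (g - D.Phi (D.fam b t) a') := by
      rw [mul_sub, D.p_mul_eq D.p_eq g]
      conv_lhs => rw [hg]
      abel
    rw [h1]
    have h2 := D.p_mul_mem D.p_eq ha'
    have h3 : h * (n + 1) = h + h * n := by ring
    rwa [h3]

section Topology

variable [TopologicalSpace O] [T2Space O]
  (hO : ∀ U : Set O, IsOpen U ↔ ∀ f ∈ U, ∃ n, ∀ g, g - f ∈ D.I n → g ∈ U)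

omit [CharP k p] [T2Space O] [Fintype ι] [Algebra (ZMod p) k] in
include hO in
theorem Phi_continuous {κ : Type*} [Fintype κ] (e : κ → O) :
    Continuous (D.Phi e : (κ → ℤ_[p]) → O) := by
  rw [continuous_def]
  intro U hU
  rw [Metric.isOpen_iff]
  intro a ha
  obtain ⟨n, hn⟩ := (hO U).1 hU _ ha
  refine ⟨(p : ℝ) ^ (-n : ℤ), zpow_pos (by exact_mod_cast hp.out.pos) _, fun a' ha' => ?_⟩
  apply hn
  rw [← map_sub]
  refine D.I_anti (D.le_mul n) (D.Phi_mem e fun x => ?_)
  rw [← Ideal.mem_span_singleton, ← PadicInt.norm_le_pow_iff_mem_span_pow, Pi.sub_apply,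
    ← dist_eq_norm]
  exact (dist_le_pi_dist a' a x).trans (Metric.mem_ball.1 ha').le

include ht hO in
theorem Phi_surjective : Function.Surjective (D.Phi (D.fam b t)) := by
  intro f
  have h1 : IsClosed (Set.range (D.Phi (D.fam b t))) :=
    (isCompact_range (D.Phi_continuous hO (D.fam b t))).isClosed
  change f ∈ Set.range (D.Phi (D.fam b t))
  by_contra hf
  obtain ⟨n, hn⟩ := (hO _).1 h1.isOpen_compl f hf
  obtain ⟨a, ha⟩ := D.Phi_approx b t ht n f
  refine hn (D.Phi (D.fam b t) a) ?_ ⟨a, rfl⟩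
  rw [← (D.I n).neg_mem_iff, neg_sub]
  exact D.I_anti (D.le_mul n) ha

include b ht hO in
/-- `O` is homeomorphic to `ℤ_[p]^d`, additively and `ℤ_[p]`-linearly. -/
theorem exists_homeo : ∃ e : (Fin h × ι → ℤ_[p]) ≃ₜ O,
    (∀ a a', e (a + a') = e a + e a') ∧ (∀ (c : ℤ_[p]) a, e (c • a) = D.iotaHom c * e a) := by
  let e0 : (Fin h × ι → ℤ_[p]) ≃ O := Equiv.ofBijective (D.Phi (D.fam b t))
    ⟨D.Phi_injective b t ht, D.Phi_surjective b t ht hO⟩
  have hc : Continuous e0 := D.Phi_continuous hO (D.fam b t)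
  refine ⟨hc.homeoOfEquivCompactToT2, ?_, ?_⟩
  · intro a b'
    exact map_add (D.Phi (D.fam b t)) a b'
  · intro c a
    exact D.Phi_smul _ c a

end Topology

end Fam

end Basis

end CSRing

end Vale.Agent.P251.F
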