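import Vale.Agent.P217.Defs

/-!
# P251, part F: points of formal groups with values in power series

Light copy of the material of P217 (bundles B1, B3): contraction principles, substitution
congruences, the group `ZPt F τ` of power series with zero constant coefficient, logarithms,
base change, homomorphisms on points.
-/

namespace Vale.Agent.P251.F

open MvPowerSeries Vale.Agent.P217

section Decomp


open Classical in
/-- Every power series in finitely many variables is `c + ∑ X_i g_i`. -/
theorem exists_decomp {σ S : Type*} [Fintype σ] [CommRing S] (f : MvPowerSeries σ S) :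
    ∃ g : σ → MvPowerSeries σ S, f = C (constantCoeff f) + ∑ i, X i * g i := by
  have hch : ∀ d : σ →₀ ℕ, d ≠ 0 → ∃ i, d i ≠ 0 := fun d hd => by
    by_contra h
    push Not at h
    exact hd (Finsupp.ext h)
  let c : (σ →₀ ℕ) → Option σ := fun d => if h : d ≠ 0 then some (hch d h).choose else none
  have hc : ∀ d i, c d = some i → d i ≠ 0 := by
    intro d i h
    by_cases hd : d ≠ 0
    · simp only [c, dif_pos hd, Option.some.injEq] at h
      rw [← h]
      exact (hch d hd).choose_spec
    · simp only [c, dif_neg hd] at h
      exact absurd h (by simp)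
  let h : σ → MvPowerSeries σ S := fun i d => if c d = some i then coeff d f else 0
  have hh : ∀ i d, coeff d (h i) = if c d = some i then coeff d f else 0 := fun i d => rfl
  have hdvd : ∀ i, X i ∣ h i := by
    intro i
    rw [X_dvd_iff]
    intro m hm
    rw [hh, if_neg]
    intro hcm
    exact hc m i hcm hm
  choose g hg using hdvd
  refine ⟨g, ?_⟩
  ext d
  rw [map_add, map_sum]
  simp_rw [← hg, hh]
  by_cases hd : d = 0
  · subst hd
    have : c 0 = none := by simp only [ne_eq, dite_not, ↓reduceDIte, c]
    simp only [coeff_zero_eq_constantCoeff, constantCoeff_C, this, reduceCtorEq, ↓reduceIte, Finset.sum_const_zero, add_zero]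
  · have h1 : coeff d (C (constantCoeff f) : MvPowerSeries σ S) = 0 := by
      rw [coeff_C, if_neg hd]
    have h2 : c d = some (hch d hd).choose := dif_pos hd
    rw [h1, zero_add, h2]
    simp only [Option.some.injEq]
    rw [Finset.sum_ite_eq]
    simp only [ne_eq, Finset.mem_univ, ↓reduceIte]

end Decomp

section DecompFG

variable {R : Type*} [CommRing R]

theorem coeff_single_zero_FG (F : FormalGroup R) (n : ℕ) :
    coeff (Finsupp.single 0 n) F.toPowerSeries = if n = 1 then 1 else 0 := by
  have h := congrArg (PowerSeries.coeff n) F.Xzero_eq_X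
  rw [PowerSeries.coeff_X] at h
  rw [← h, FormalGroup.Xzero, PowerSeries.coeff, coeff_subst,
    finsum_eq_single _ (Finsupp.single 0 n)]
  · simp [PowerSeries.coeff_X_pow, ← PowerSeries.coeff_def rfl]
  · intro d hd
    by_cases hd₁ : d 1 = 0
    · have : d 0 ≠ n := by
        intro h0
        apply hd
        ext i
        fin_cases i
        · simpa only [Nat.succ_eq_add_one, Nat.reduceAdd, Fin.zero_eta, Fin.isValue, Finsupp.single_eq_same] using h0
        · simpa only [Nat.succ_eq_add_one, Nat.reduceAdd, Fin.mk_one, Fin.isValue, ne_eq, one_ne_zero,     not_false_eq_true, Finsupp.single_eq_of_ne] using hd₁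
      simp only [Nat.succ_eq_add_one, Nat.reduceAdd, ← PowerSeries.coeff_def rfl, Finsupp.single_eq_same, Finsupp.prod_pow, Fin.prod_univ_two, Fin.isValue, Matrix.cons_val_zero, Matrix.cons_val_one, Matrix.cons_val_fin_one, hd₁, pow_zero, mul_one, PowerSeries.coeff_X_pow, Ne.symm this, ↓reduceIte, smul_eq_mul, mul_zero]
    · simp only [Nat.succ_eq_add_one, Nat.reduceAdd, Finsupp.prod_pow, Fin.prod_univ_two, Fin.isValue, Matrix.cons_val_zero, Matrix.cons_val_one, Matrix.cons_val_fin_one, ne_eq, hd₁, not_false_eq_true, zero_pow, mul_zero, coeff_zero, smul_eq_mul]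
  · exact HasSubst.X_zero

theorem coeff_single_one_FG (F : FormalGroup R) (n : ℕ) :
    coeff (Finsupp.single 1 n) F.toPowerSeries = if n = 1 then 1 else 0 := by
  have h := congrArg (PowerSeries.coeff n) F.zeroX_eq_X
  rw [PowerSeries.coeff_X] at h
  rw [← h, FormalGroup.zeroX, PowerSeries.coeff, coeff_subst,
    finsum_eq_single _ (Finsupp.single 1 n)]
  · simp [PowerSeries.coeff_X_pow, ← PowerSeries.coeff_def rfl]
  · intro d hd
    by_cases hd₁ : d 0 = 0
    · have : d 1 ≠ n := by
        intro h0
        apply hd
        ext i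
        fin_cases i
        · simpa only [Nat.succ_eq_add_one, Nat.reduceAdd, Fin.zero_eta, Fin.isValue, ne_eq, zero_ne_one,     not_false_eq_true, Finsupp.single_eq_of_ne] using hd₁
        · simpa only [Nat.succ_eq_add_one, Nat.reduceAdd, Fin.mk_one, Fin.isValue, Finsupp.single_eq_same] using h0
      simp only [Nat.succ_eq_add_one, Nat.reduceAdd, ← PowerSeries.coeff_def rfl, Finsupp.single_eq_same, Finsupp.prod_pow, Fin.prod_univ_two, Fin.isValue, Matrix.cons_val_zero, hd₁, pow_zero, Matrix.cons_val_one, Matrix.cons_val_fin_one, one_mul, PowerSeries.coeff_X_pow, Ne.symm this, ↓reduceIte, smul_eq_mul, mul_zero]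
    · simp only [Nat.succ_eq_add_one, Nat.reduceAdd, Finsupp.prod_pow, Fin.prod_univ_two, Fin.isValue, Matrix.cons_val_zero, ne_eq, hd₁, not_false_eq_true, zero_pow, Matrix.cons_val_one, Matrix.cons_val_fin_one, zero_mul, coeff_zero, smul_eq_mul, mul_zero]
  · exact HasSubst.zero_X

/-- `F(X,Y) = X + Y + X Y H(X,Y)`. -/
theorem exists_FG_decomp (F : FormalGroup R) : ∃ H : MvPowerSeries (Fin 2) R,
    F.toPowerSeries = X 0 + X 1 + X 0 * X 1 * H := by
  classical
  obtain ⟨H, hH⟩ : ∃ H : MvPowerSeries (Fin 2) R, ∀ d, coeff d H =
      coeff (d + Finsupp.single 0 1 + Finsupp.single 1 1) F.toPowerSeries :=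
    ⟨fun d => coeff (d + Finsupp.single 0 1 + Finsupp.single 1 1) F.toPowerSeries,
      fun d => rfl⟩
  refine ⟨H, ?_⟩
  ext d
  have hX : (X 0 * X 1 : MvPowerSeries (Fin 2) R) =
      monomial (Finsupp.single 0 1 + Finsupp.single 1 1) 1 := by
    simp only [X, Fin.isValue, monomial_mul_monomial, mul_one]
  rw [map_add, hX, coeff_monomial_mul, map_add, coeff_X, coeff_X]
  by_cases h0 : d 0 = 0
  · have hd : d = Finsupp.single 1 (d 1) := by
      ext i; fin_cases i
      · simpa only [Fin.zero_eta, Fin.isValue, ne_eq, zero_ne_one, not_false_eq_true, Finsupp.single_eq_of_ne] using     h0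
      · simp only [Fin.mk_one, Fin.isValue, Finsupp.single_eq_same]
    have : ¬ (Finsupp.single 0 1 + Finsupp.single 1 1 ≤ d) := by
      intro h
      have := h 0
      simp only [Fin.isValue, Finsupp.coe_add, Pi.add_apply, Finsupp.single_eq_same, ne_eq, zero_ne_one, not_false_eq_true, Finsupp.single_eq_of_ne, add_zero, h0, nonpos_iff_eq_zero, one_ne_zero] at this
    rw [if_neg this, hd, coeff_single_one_FG]
    by_cases h1 : d 1 = 1
    · simp [h1, Finsupp.single_left_inj (one_ne_zero : (1 : ℕ) ≠ 0)]
    · simp only [h1, if_false]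
      rw [if_neg, if_neg]
      · simp
      · intro h
        have := DFunLike.congr_fun h 1
        simp only [Fin.isValue, Finsupp.single_eq_same] at this
        exact h1 this
      · intro h
        have := DFunLike.congr_fun h 0
        simp at this
  · by_cases h1 : d 1 = 0
    · have hd : d = Finsupp.single 0 (d 0) := by
        ext i; fin_cases i
        · simp only [Fin.zero_eta, Fin.isValue, Finsupp.single_eq_same]
        · simpa only [Fin.mk_one, Fin.isValue, ne_eq, one_ne_zero, not_false_eq_true, Finsupp.single_eq_of_ne] using h1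
      have : ¬ (Finsupp.single 0 1 + Finsupp.single 1 1 ≤ d) := by
        intro h
        have := h 1
        simp only [Fin.isValue, Finsupp.coe_add, Pi.add_apply, ne_eq, one_ne_zero, not_false_eq_true, Finsupp.single_eq_of_ne, Finsupp.single_eq_same, zero_add, h1, nonpos_iff_eq_zero] at this
      rw [if_neg this, hd, coeff_single_zero_FG]
      by_cases h2 : d 0 = 1
      · simp [h2, Finsupp.single_left_inj (one_ne_zero : (1 : ℕ) ≠ 0)]
      · simp only [h2, if_false]
        rw [if_neg, if_neg]
        · simp
        · intro h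
          have := DFunLike.congr_fun h 1
          simp only [Fin.isValue, ne_eq, one_ne_zero, not_false_eq_true, Finsupp.single_eq_of_ne, Finsupp.single_eq_same, zero_ne_one] at this
        · intro h
          have := DFunLike.congr_fun h 0
          simp only [Fin.isValue, Finsupp.single_eq_same] at this
          exact h2 this
    · have hle : (Finsupp.single 0 1 + Finsupp.single 1 1 : Fin 2 →₀ ℕ) ≤ d := by
        intro i
        fin_cases i
        · simp only [Fin.isValue, Fin.zero_eta, Finsupp.coe_add, Pi.add_apply, Finsupp.single_eq_same, ne_eq, zero_ne_one, not_false_eq_true, Finsupp.single_eq_of_ne, add_zero]; omega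
        · simp only [Fin.isValue, Fin.mk_one, Finsupp.coe_add, Pi.add_apply, ne_eq, one_ne_zero, not_false_eq_true, Finsupp.single_eq_of_ne, Finsupp.single_eq_same, zero_add]; omega
      rw [if_pos hle, if_neg, if_neg]
      · rw [hH, add_assoc (d - _), tsub_add_cancel_of_le hle]
        simp
      · intro h
        apply h0
        rw [h]; simp
      · intro h
        apply h1
        rw [h]; simp

end DecompFG

section Mult

theorem multSeries_succ {R : Type*} [CommRing R] (F : FormalGroup R) (m : ℕ) :
    multSeries F (m + 1) =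
      MvPowerSeries.subst ![multSeries F m, PowerSeries.X] F.toPowerSeries := by
  rw [multSeries, Function.iterate_succ_apply']
  rfl

theorem constantCoeff_multSeries {R : Type*} [CommRing R] (F : FormalGroup R) (m : ℕ) :
    PowerSeries.constantCoeff (multSeries F m) = 0 := by
  induction m with
  | zero => simp [multSeries]
  | succ m ih =>
    rw [multSeries_succ, PowerSeries.constantCoeff, constantCoeff_subst_eq_zero]
    · refine hasSubst_of_constantCoeff_zero fun i => ?_
      fin_cases i
      · exact ih
      · exact PowerSeries.constantCoeff_X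
    · intro i
      fin_cases i
      · exact ih
      · exact PowerSeries.constantCoeff_X
    · exact F.zero_constantCoeff

end Mult

section HomExt

variable {σ τ R S : Type*} [CommRing R] [CommRing S]

/-- Two ring homomorphisms on a power series ring agree if they agree on constants and on the
variables, which are mapped to nilpotent elements. -/
theorem hom_ext_nilp [Finite σ] {φ ψ : MvPowerSeries σ R →+* S}
    (hC : ∀ c, φ (C c) = ψ (C c)) (hX : ∀ i, φ (X i) = ψ (X i))
    (hn : ∀ i, IsNilpotent (φ (X i))) : φ = ψ := by
  classical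
  have := Fintype.ofFinite σ
  set I : Ideal S := Ideal.span (Set.range fun i => φ (X i)) with hI
  have hfg : I.FG := Submodule.fg_span (Set.finite_range _)
  have hnil : IsNilpotent I := by
    rw [hfg.isNilpotent_iff_le_nilradical, hI, Ideal.span_le]
    rintro _ ⟨i, rfl⟩
    exact hn i
  obtain ⟨N, hN⟩ := hnil
  have key : ∀ k : ℕ, ∀ f, φ f - ψ f ∈ I ^ k := by
    intro k
    induction k with
    | zero => intro f; simp
    | succ k ih =>
      intro f
      obtain ⟨g, hg⟩ := exists_decomp f
      rw [hg, map_add, map_add, hC, map_sum, map_sum, add_sub_add_left_eq_sub,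
        ← Finset.sum_sub_distrib]
      refine Ideal.sum_mem _ fun i _ => ?_
      rw [map_mul, map_mul, ← hX, ← mul_sub, pow_succ']
      exact Ideal.mul_mem_mul (Ideal.subset_span ⟨i, rfl⟩) (ih _)
  ext f
  have := key N f
  rw [hN] at this
  exact sub_eq_zero.mp this

/-- substitution as a ring homomorphism. -/
noncomputable def sHom {a : σ → MvPowerSeries τ R} (ha : HasSubst a) :
    MvPowerSeries σ R →+* MvPowerSeries τ R := (substAlgHom (R := R) ha).toRingHom

theorem sHom_apply {a : σ → MvPowerSeries τ R} (ha : HasSubst a) (f : MvPowerSeries σ R) :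
    sHom ha f = f.subst a := by
  simp [sHom]

theorem sHom_X {a : σ → MvPowerSeries τ R} (ha : HasSubst a) (i : σ) : sHom ha (X i) = a i := by
  rw [sHom_apply, subst_X ha]

theorem sHom_C {a : σ → MvPowerSeries τ R} (ha : HasSubst a) (c : R) :
    sHom ha (C c) = C c := by
  rw [sHom_apply, subst_C]

/-- substitution is congruence preserving. -/
theorem subst_sub_subst_mem [Finite σ] (I : Ideal (MvPowerSeries τ R))
    {a b : σ → MvPowerSeries τ R} (ha : HasSubst a) (hb : HasSubst b)
    (h : ∀ i, a i - b i ∈ I) (hn : ∀ i, ∃ N, (a i) ^ N ∈ I) (f : MvPowerSeries σ R) :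
    f.subst a - f.subst b ∈ I := by
  have := hom_ext_nilp (φ := (Ideal.Quotient.mk I).comp (sHom ha))
    (ψ := (Ideal.Quotient.mk I).comp (sHom hb)) (by
      intro c
      rw [RingHom.comp_apply, RingHom.comp_apply, sHom_C, sHom_C]) (by
      intro i
      rw [RingHom.comp_apply, RingHom.comp_apply, sHom_X, sHom_X, Ideal.Quotient.eq]
      exact h i) (by
      intro i
      obtain ⟨N, hN⟩ := hn i
      refine ⟨N, ?_⟩
      rw [RingHom.comp_apply, sHom_X, ← map_pow, Ideal.Quotient.eq_zero_iff_mem]
      exact hN)
  have := congrArg (fun φ => φ f) this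
  simpa only [RingHom.comp_apply, Ideal.Quotient.eq, sHom_apply] using this

end HomExt

section FixPoint

variable {R : Type*} [CommRing R]

/-- A strictly contracting self-map of the power series with zero constant coefficient has a
fixed point. -/
theorem exists_fix (T : PowerSeries R → PowerSeries R)
    (hT0 : ∀ a, PowerSeries.constantCoeff a = 0 → PowerSeries.constantCoeff (T a) = 0)
    (hT : ∀ a b, PowerSeries.constantCoeff a = 0 → PowerSeries.constantCoeff b = 0 → ∀ k,
      PowerSeries.X ^ k ∣ a - b → PowerSeries.X ^ (k + 1) ∣ T a - T b) :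
    ∃ c, PowerSeries.constantCoeff c = 0 ∧ T c = c := by
  have h0 : ∀ k, PowerSeries.constantCoeff (T^[k] 0) = 0 := by
    intro k
    induction k with
    | zero => simp
    | succ k ih => rw [Function.iterate_succ_apply']; exact hT0 _ ih
  have hstep : ∀ k, PowerSeries.X ^ k ∣ T^[k + 1] 0 - T^[k] 0 := by
    intro k
    induction k with
    | zero => simp
    | succ k ih =>
      have := hT _ _ (h0 _) (h0 _) k ih
      rwa [← Function.iterate_succ_apply' T, ← Function.iterate_succ_apply' T] at this
  have hmono : ∀ j k, k ≤ j → PowerSeries.X ^ k ∣ T^[j] 0 - T^[k] 0 := by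
    intro j k hkj
    induction j, hkj using Nat.le_induction with
    | base => simp
    | succ j hj ih =>
      have := dvd_add ((pow_dvd_pow _ hj).trans (hstep j)) ih
      simpa using this
  let c : PowerSeries R := PowerSeries.mk fun m => PowerSeries.coeff m (T^[m + 1] 0)
  have hc : ∀ k, PowerSeries.X ^ k ∣ c - T^[k] 0 := by
    intro k
    rw [PowerSeries.X_pow_dvd_iff]
    intro m hm
    have := (PowerSeries.X_pow_dvd_iff.mp (hmono k (m + 1) hm)) m (Nat.lt_succ_self m)
    rw [map_sub, sub_eq_zero] at this
    rw [map_sub, this]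
    simp [c]
  have hc0 : PowerSeries.constantCoeff c = 0 := by
    have := (PowerSeries.X_pow_dvd_iff.mp (hc 1)) 0 one_pos
    rw [map_sub, sub_eq_zero] at this
    rw [PowerSeries.coeff_zero_eq_constantCoeff_apply,
      PowerSeries.coeff_zero_eq_constantCoeff_apply, h0 1] at this
    exact this
  refine ⟨c, hc0, ?_⟩
  rw [← sub_eq_zero]
  ext m
  have h1 := hT c (T^[m] 0) hc0 (h0 m) m (hc m)
  rw [← Function.iterate_succ_apply' T m] at h1
  have h2 := dvd_sub h1 (hc (m + 1))
  have h3 : T c - T^[m + 1] 0 - (c - T^[m + 1] 0) = T c - c := by ring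
  rw [h3] at h2
  exact (PowerSeries.X_pow_dvd_iff.mp h2) m (Nat.lt_succ_self m)

end FixPoint

section Group

variable {R : Type*} [CommRing R] {τ υ : Type*}

/-- Points of `F` in the power series with zero constant coefficient. -/
def ZPt (_F : FormalGroup R) (τ : Type*) : Type _ :=
  {f : MvPowerSeries τ R // constantCoeff f = 0}

theorem hasSubst_cons {a b : MvPowerSeries τ R} (ha : constantCoeff a = 0)
    (hb : constantCoeff b = 0) : HasSubst (![a, b] : Fin 2 → MvPowerSeries τ R) := by
  refine hasSubst_of_constantCoeff_zero fun i => ?_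
  fin_cases i
  · exact ha
  · exact hb

theorem constantCoeff_cons {a b : MvPowerSeries τ R} (ha : constantCoeff a = 0)
    (hb : constantCoeff b = 0) (i : Fin 2) :
    constantCoeff ((![a, b] : Fin 2 → MvPowerSeries τ R) i) = 0 := by
  fin_cases i
  · exact ha
  · exact hb

theorem hs {a : MvPowerSeries τ R} (ha : constantCoeff a = 0) : PowerSeries.HasSubst a :=
  PowerSeries.HasSubst.of_constantCoeff_zero ha

theorem constantCoeff_FG_subst (F : FormalGroup R) {a b : MvPowerSeries τ R}
    (ha : constantCoeff a = 0) (hb : constantCoeff b = 0) :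
    constantCoeff (F.toPowerSeries.subst ![a, b]) = 0 :=
  constantCoeff_subst_eq_zero (hasSubst_cons ha hb) (constantCoeff_cons ha hb)
    F.zero_constantCoeff

/-- the inverse series. -/
theorem exists_inv (F : FormalGroup R) : ∃ ι : PowerSeries R, PowerSeries.constantCoeff ι = 0 ∧
    F.toPowerSeries.subst ![ι, (PowerSeries.X : PowerSeries R)] = 0 := by
  obtain ⟨H, hH⟩ := exists_FG_decomp F
  have hX0 : MvPowerSeries.constantCoeff (PowerSeries.X : PowerSeries R) = 0 :=
    PowerSeries.constantCoeff_X
  have hval : ∀ c : PowerSeries R, PowerSeries.constantCoeff c = 0 →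
      F.toPowerSeries.subst ![c, (PowerSeries.X : PowerSeries R)] =
        c + PowerSeries.X + c * PowerSeries.X * H.subst ![c, (PowerSeries.X : PowerSeries R)] := by
    intro c hc
    have h := hasSubst_cons (τ := Unit) hc hX0
    rw [hH, ← sHom_apply h, map_add, map_add, map_mul, map_mul, sHom_X, sHom_X, sHom_apply]
    rfl
  obtain ⟨c, hc0, hc⟩ := exists_fix (fun c => -PowerSeries.X -
      PowerSeries.X * (c * H.subst ![c, (PowerSeries.X : PowerSeries R)])) (by
    intro a _
    simp) (by
    intro a b ha hb k hk
    have h1 : (PowerSeries.X : PowerSeries R) ^ k ∣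
        a * H.subst ![a, (PowerSeries.X : PowerSeries R)] -
        b * H.subst ![b, (PowerSeries.X : PowerSeries R)] := by
      have h2 : H.subst ![a, (PowerSeries.X : PowerSeries R)] -
          H.subst ![b, (PowerSeries.X : PowerSeries R)] ∈
          Ideal.span {(PowerSeries.X : PowerSeries R) ^ k} := by
        have hmem : ∀ f : PowerSeries R, PowerSeries.constantCoeff f = 0 →
            f ^ k ∈ Ideal.span {(PowerSeries.X : PowerSeries R) ^ k} := by
          intro f hf
          rw [Ideal.mem_span_singleton]
          exact pow_dvd_pow_of_dvd (PowerSeries.X_dvd_iff.mpr hf) k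
        refine subst_sub_subst_mem _ (hasSubst_cons (τ := Unit) ha hX0)
          (hasSubst_cons (τ := Unit) hb hX0) ?_ ?_ H
        · intro i
          fin_cases i
          · simpa [Ideal.mem_span_singleton] using hk
          · simp
        · intro i
          refine ⟨k, ?_⟩
          fin_cases i
          · exact hmem a ha
          · exact hmem _ hX0
      rw [Ideal.mem_span_singleton] at h2
      have : a * H.subst ![a, (PowerSeries.X : PowerSeries R)] -
        b * H.subst ![b, (PowerSeries.X : PowerSeries R)] =
          (a - b) * H.subst ![a, (PowerSeries.X : PowerSeries R)] +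
          b * (H.subst ![a, (PowerSeries.X : PowerSeries R)] -
            H.subst ![b, (PowerSeries.X : PowerSeries R)]) := by ring
      rw [this]
      exact dvd_add (hk.mul_right _) (h2.mul_left _)
    have h3 : (-PowerSeries.X - PowerSeries.X * (a * H.subst ![a, (PowerSeries.X :
        PowerSeries R)])) - (-PowerSeries.X - PowerSeries.X * (b * H.subst ![b,
        (PowerSeries.X : PowerSeries R)])) = -(PowerSeries.X *
        (a * H.subst ![a, (PowerSeries.X : PowerSeries R)] -
        b * H.subst ![b, (PowerSeries.X : PowerSeries R)])) := by ring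
    rw [h3, dvd_neg, pow_succ']
    exact mul_dvd_mul_left _ h1)
  refine ⟨c, hc0, ?_⟩
  rw [hval c hc0]
  nth_rewrite 1 [← hc]
  ring

namespace ZPt

variable {F : FormalGroup R}

/-- the underlying series. -/
def val (a : ZPt F τ) : MvPowerSeries τ R := (show {f : MvPowerSeries τ R // _} from a).1

theorem constantCoeff_val (a : ZPt F τ) : constantCoeff a.val = 0 :=
  (show {f : MvPowerSeries τ R // constantCoeff f = 0} from a).2

/-- make a point. -/
def mk (F : FormalGroup R) (a : MvPowerSeries τ R) (ha : constantCoeff a = 0) : ZPt F τ :=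
  (⟨a, ha⟩ : {f : MvPowerSeries τ R // constantCoeff f = 0})

@[simp] theorem val_mk (a : MvPowerSeries τ R) (ha : constantCoeff a = 0) :
    (mk F a ha).val = a := rfl

@[ext] theorem ext {a b : ZPt F τ} (h : a.val = b.val) : a = b := Subtype.ext h

noncomputable instance : Add (ZPt F τ) :=
  ⟨fun a b => mk F (F.toPowerSeries.subst ![a.val, b.val])
    (constantCoeff_FG_subst F a.constantCoeff_val b.constantCoeff_val)⟩

instance : Zero (ZPt F τ) := ⟨mk F 0 (by simp)⟩

theorem val_add (a b : ZPt F τ) : (a + b).val = F.toPowerSeries.subst ![a.val, b.val] := rfl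

@[simp] theorem val_zero : (0 : ZPt F τ).val = 0 := rfl

theorem add_assoc' (a b c : ZPt F τ) : a + b + c = a + (b + c) :=
  ext (F.assoc' (hs a.constantCoeff_val) (hs b.constantCoeff_val) (hs c.constantCoeff_val))

theorem zero_add' (a : ZPt F τ) : 0 + a = a := ext (F.zero_add (hs a.constantCoeff_val))

theorem add_zero' (a : ZPt F τ) : a + 0 = a := ext (F.add_zero (hs a.constantCoeff_val))

theorem add_comm' [F.IsComm] (a b : ZPt F τ) : a + b = b + a :=
  ext (F.comm' (hs a.constantCoeff_val) (hs b.constantCoeff_val))

/-- substitution of a power series with zero constant coefficient. -/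
theorem constantCoeff_psubst {a : MvPowerSeries τ R} (ha : constantCoeff a = 0)
    {f : PowerSeries R} (hf : PowerSeries.constantCoeff f = 0) :
    constantCoeff (f.subst a) = 0 := PowerSeries.constantCoeff_subst_eq_zero ha f hf

theorem exists_neg (a : ZPt F τ) : ∃ b : ZPt F τ, b + a = 0 := by
  obtain ⟨ι, hι0, hι⟩ := exists_inv F
  refine ⟨mk F (ι.subst a.val) (constantCoeff_psubst a.constantCoeff_val hι0), ?_⟩
  apply ext
  rw [val_add, val_mk, val_zero]
  have h1 := congrArg (PowerSeries.subst (R := R) a.val) hι
  rw [PowerSeries.subst_def, subst_comp_subst_apply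
    (hasSubst_cons hι0 PowerSeries.constantCoeff_X) (hs a.constantCoeff_val).const] at h1
  have h2 : (fun s : Fin 2 => MvPowerSeries.subst (fun _ : Unit => a.val)
      ((![ι, (PowerSeries.X : PowerSeries R)] : Fin 2 → MvPowerSeries Unit R) s)) =
      ![ι.subst a.val, a.val] := by
    funext s
    fin_cases s
    · rfl
    · exact PowerSeries.subst_X (hs a.constantCoeff_val)
  rw [h2] at h1
  rw [h1, ← PowerSeries.coe_substAlgHom (hs a.constantCoeff_val), map_zero]

noncomputable instance : Neg (ZPt F τ) := ⟨fun a => (exists_neg a).choose⟩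

noncomputable instance [F.IsComm] : AddCommGroup (ZPt F τ) where
  add_assoc := add_assoc'
  zero_add := zero_add'
  add_zero := add_zero'
  nsmul := nsmulRec
  zsmul := zsmulRec
  neg_add_cancel := fun a => (exists_neg a).choose_spec
  add_comm := add_comm'

theorem val_nsmul [F.IsComm] (m : ℕ) (a : ZPt F τ) :
    (m • a).val = (multSeries F m).subst a.val := by
  induction m with
  | zero =>
    rw [zero_nsmul, val_zero]
    simp only [multSeries, Function.iterate_zero, id]
    rw [← PowerSeries.coe_substAlgHom (hs a.constantCoeff_val), map_zero]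
  | succ m ih =>
    rw [succ_nsmul, multSeries_succ, val_add, ih, PowerSeries.subst_def a.val
      (MvPowerSeries.subst _ _), subst_comp_subst_apply
      (hasSubst_cons (constantCoeff_multSeries F m)
        PowerSeries.constantCoeff_X) (hs a.constantCoeff_val).const]
    congr 1
    funext s
    fin_cases s
    · rfl
    · exact (PowerSeries.subst_X (hs a.constantCoeff_val)).symm

end ZPt

end Group

section Log

variable {R : Type*} [CommRing R] {τ υ : Type*}

theorem psubst_comp {g : PowerSeries R} (hg : PowerSeries.constantCoeff g = 0)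
    {b : MvPowerSeries τ R} (hb : constantCoeff b = 0) (f : PowerSeries R) :
    PowerSeries.subst b (PowerSeries.subst g f : PowerSeries R) =
      PowerSeries.subst (PowerSeries.subst b g) f :=
  PowerSeries.subst_comp_subst_apply (hs hg) (hs hb) f

/-- `l` is a logarithm of `F` (up to a unit). -/
structure IsLog (F : FormalGroup R) (l : PowerSeries R) : Prop where
  zero : PowerSeries.constantCoeff l = 0
  unit : IsUnit (PowerSeries.coeff 1 l)
  add : (PowerSeries.subst F.toPowerSeries l : MvPowerSeries (Fin 2) R) =
    PowerSeries.subst (X 0 : MvPowerSeries (Fin 2) R) l +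
      PowerSeries.subst (X 1 : MvPowerSeries (Fin 2) R) l

theorem subst_injective {l : PowerSeries R} (h0 : PowerSeries.constantCoeff l = 0)
    (h1 : IsUnit (PowerSeries.coeff 1 l)) {a b : MvPowerSeries τ R}
    (ha : constantCoeff a = 0) (hb : constantCoeff b = 0)
    (h : PowerSeries.subst a l = PowerSeries.subst b l) : a = b := by
  have key : ∀ c : MvPowerSeries τ R, constantCoeff c = 0 →
      PowerSeries.subst (PowerSeries.subst c l) (l.substInvOfIsUnit h1) = c := by
    intro c hc
    rw [← psubst_comp h0 hc, PowerSeries.subst_substInvOfIsUnit_left l h0 h1,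
      PowerSeries.subst_X (hs hc)]
  rw [← key a ha, h, key b hb]

theorem IsLog.subst_add {F : FormalGroup R} {l : PowerSeries R} (h : IsLog F l)
    {a b : MvPowerSeries τ R} (ha : constantCoeff a = 0) (hb : constantCoeff b = 0) :
    PowerSeries.subst (F.toPowerSeries.subst ![a, b]) l =
      PowerSeries.subst a l + PowerSeries.subst b l := by
  have hab := hasSubst_cons ha hb
  have h1 := congrArg (MvPowerSeries.subst ![a, b]) h.add
  rw [MvPowerSeries.subst_add hab, PowerSeries.subst_def, PowerSeries.subst_def,
    PowerSeries.subst_def, subst_comp_subst_apply (hs F.zero_constantCoeff).const hab,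
    subst_comp_subst_apply (PowerSeries.HasSubst.X 0).const hab,
    subst_comp_subst_apply (PowerSeries.HasSubst.X 1).const hab] at h1
  rw [PowerSeries.subst_def, h1, subst_X hab, subst_X hab]
  rfl

theorem IsLog.isComm {F : FormalGroup R} {l : PowerSeries R} (h : IsLog F l) : F.IsComm where
  comm := by
    have h1 : F.toPowerSeries =
        F.toPowerSeries.subst ![(X 1 : MvPowerSeries (Fin 2) R), X 0] := by
      refine subst_injective h.zero h.unit F.zero_constantCoeff
        (constantCoeff_FG_subst F (by simp) (by simp)) ?_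
      rw [h.subst_add (by simp) (by simp), h.add, add_comm]
    exact h1

theorem IsLog.subst_nsmul {F : FormalGroup R} [F.IsComm] {l : PowerSeries R} (h : IsLog F l)
    (m : ℕ) (a : ZPt F τ) :
    PowerSeries.subst (m • a).val l = m • PowerSeries.subst a.val l := by
  induction m with
  | zero =>
    rw [zero_nsmul, zero_nsmul, ZPt.val_zero]
    exact PowerSeries.subst_zero_of_constantCoeff_zero h.zero
  | succ m ih =>
    rw [succ_nsmul, succ_nsmul, ZPt.val_add, h.subst_add (ZPt.constantCoeff_val _)
      (ZPt.constantCoeff_val _), ih]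

end Log

section Map

variable {R S : Type*} [CommRing R] [CommRing S] (f : R →+* S) {τ : Type*}

theorem map_toPowerSeries (F : FormalGroup R) :
    (F.map f).toPowerSeries = MvPowerSeries.map f F.toPowerSeries := rfl

theorem map_cons_subst (F : FormalGroup R) {a b : MvPowerSeries τ R}
    (ha : constantCoeff a = 0) (hb : constantCoeff b = 0) :
    MvPowerSeries.map f (F.toPowerSeries.subst ![a, b]) =
      (F.map f).toPowerSeries.subst ![MvPowerSeries.map f a, MvPowerSeries.map f b] := by
  rw [map_subst (hasSubst_cons ha hb), map_toPowerSeries]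
  congr 1
  funext i
  fin_cases i <;> rfl

theorem isComm_map (F : FormalGroup R) [F.IsComm] : (F.map f).IsComm where
  comm := by
    have h := congrArg (MvPowerSeries.map f) (FormalGroup.IsComm.comm (F := F))
    rw [map_cons_subst f F (by simp) (by simp), map_X, map_X] at h
    exact h

theorem map_multSeries (F : FormalGroup R) (m : ℕ) :
    PowerSeries.map f (multSeries F m) = multSeries (F.map f) m := by
  induction m with
  | zero => simp [multSeries]
  | succ m ih =>
    rw [multSeries_succ, multSeries_succ, ← ih]
    have := map_cons_subst f F (τ := Unit) (constantCoeff_multSeries F m)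
      PowerSeries.constantCoeff_X
    rw [PowerSeries.map, this]
    congr 2
    exact congrArg (fun y => ![y]) (PowerSeries.map_X f)

end Map

section Homog

variable {L : Type*} [CommRing L] {τ : Type*}

theorem psubst_rescale (ω : L) (l : PowerSeries L) {a : MvPowerSeries τ L}
    (ha : constantCoeff a = 0) :
    PowerSeries.subst a (PowerSeries.rescale ω l) = PowerSeries.subst (C ω * a) l := by
  have h0 : PowerSeries.constantCoeff (ω • PowerSeries.X : PowerSeries L) = 0 := by
    rw [PowerSeries.smul_eq_C_mul, map_mul, PowerSeries.constantCoeff_X, mul_zero]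
  rw [PowerSeries.rescale_eq_subst, psubst_comp h0 ha, PowerSeries.smul_eq_C_mul,
    PowerSeries.subst_mul (hs ha), PowerSeries.subst_X (hs ha), PowerSeries.subst_C]

theorem psubst_C_mul (ω : L) (l : PowerSeries L) {a : MvPowerSeries τ L}
    (ha : constantCoeff a = 0) :
    PowerSeries.subst a (PowerSeries.C ω * l) = C ω * PowerSeries.subst a l := by
  rw [PowerSeries.subst_mul (hs ha), PowerSeries.subst_C]

theorem subst_cons_C_mul (ω : L) (f : MvPowerSeries (Fin 2) L) :
    f.subst ![C ω * (X 0 : MvPowerSeries (Fin 2) L), C ω * X 1] =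
      MvPowerSeries.rescale (fun _ => ω) f := by
  rw [rescale_eq_subst]
  congr 1
  funext i
  fin_cases i
  · exact (MvPowerSeries.smul_eq_C_mul _ _).symm
  · exact (MvPowerSeries.smul_eq_C_mul _ _).symm

theorem IsLog.rescale_eq {F : FormalGroup L} {l : PowerSeries L} (h : IsLog F l) {ω : L}
    (hω : PowerSeries.rescale ω l = PowerSeries.C ω * l) :
    MvPowerSeries.rescale (fun _ => ω) F.toPowerSeries = C ω * F.toPowerSeries := by
  have h0 : constantCoeff (C ω * (X 0 : MvPowerSeries (Fin 2) L)) = 0 := by simp
  have h1 : constantCoeff (C ω * (X 1 : MvPowerSeries (Fin 2) L)) = 0 := by simp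
  have hF : constantCoeff (C ω * F.toPowerSeries) = 0 := by
    rw [map_mul, F.zero_constantCoeff, mul_zero]
  rw [← subst_cons_C_mul]
  refine subst_injective h.zero h.unit (constantCoeff_FG_subst F h0 h1) hF ?_
  rw [h.subst_add h0 h1, ← psubst_rescale ω l (by simp), ← psubst_rescale ω l (by simp),
    ← psubst_rescale ω l F.zero_constantCoeff, hω, psubst_C_mul _ _ (by simp),
    psubst_C_mul _ _ (by simp), psubst_C_mul _ _ F.zero_constantCoeff, h.add, mul_add]

theorem coeff_rescale_const (ω : L) (f : MvPowerSeries (Fin 2) L) (d : Fin 2 →₀ ℕ) :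
    coeff d (MvPowerSeries.rescale (fun _ => ω) f) = ω ^ (d 0 + d 1) * coeff d f := by
  rw [coeff_rescale, Finsupp.prod_fintype _ _ (by simp), Fin.prod_univ_two, pow_add]

end Homog

section Hom

variable {R S : Type*} [CommRing R] [CommRing S] {F G : FormalGroup R} {τ : Type*}

theorem IsHom_subst_add {f : PowerSeries R} (h : IsHom F G f)
    {a b : MvPowerSeries τ R} (ha : constantCoeff a = 0) (hb : constantCoeff b = 0) :
    PowerSeries.subst (F.toPowerSeries.subst ![a, b]) f =
      G.toPowerSeries.subst ![PowerSeries.subst a f, PowerSeries.subst b f] := by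
  have hab := hasSubst_cons ha hb
  have h1 := congrArg (MvPowerSeries.subst ![a, b]) h.2
  have c0 : constantCoeff (PowerSeries.subst (X 0 : MvPowerSeries (Fin 2) R) f) = 0 :=
    PowerSeries.constantCoeff_subst_eq_zero (by simp) f h.1
  have c1 : constantCoeff (PowerSeries.subst (X 1 : MvPowerSeries (Fin 2) R) f) = 0 :=
    PowerSeries.constantCoeff_subst_eq_zero (by simp) f h.1
  rw [subst_comp_subst_apply (hasSubst_cons c0 c1) hab, PowerSeries.subst_def,
    subst_comp_subst_apply (hs F.zero_constantCoeff).const hab] at h1
  rw [PowerSeries.subst_def, h1]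
  congr 1
  funext i
  fin_cases i
  · change MvPowerSeries.subst ![a, b] (PowerSeries.subst (X 0 : MvPowerSeries (Fin 2) R) f) = _
    rw [PowerSeries.subst_def, subst_comp_subst_apply (PowerSeries.HasSubst.X 0).const hab,
      subst_X hab]
    rfl
  · change MvPowerSeries.subst ![a, b] (PowerSeries.subst (X 1 : MvPowerSeries (Fin 2) R) f) = _
    rw [PowerSeries.subst_def, subst_comp_subst_apply (PowerSeries.HasSubst.X 1).const hab,
      subst_X hab]
    rfl

/-- a homomorphism of formal groups on points. -/
noncomputable def ZPt.hom [F.IsComm] [G.IsComm] {f : PowerSeries R} (h : IsHom F G f) :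
    ZPt F τ →+ ZPt G τ where
  toFun a := ZPt.mk G (PowerSeries.subst a.val f)
    (PowerSeries.constantCoeff_subst_eq_zero a.constantCoeff_val f h.1)
  map_zero' := by
    apply ZPt.ext
    exact PowerSeries.subst_zero_of_constantCoeff_zero h.1
  map_add' a b := by
    apply ZPt.ext
    exact IsHom_subst_add h a.constantCoeff_val b.constantCoeff_val

theorem ZPt.hom_val [F.IsComm] [G.IsComm] {f : PowerSeries R} (h : IsHom F G f) (a : ZPt F τ) :
    (ZPt.hom h a).val = PowerSeries.subst a.val f := rfl

end Hom

end Vale.Agent.P251.F
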