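import Mathlib.RingTheory.MvPolynomial.WeightedHomogeneous
import Mathlib.RingTheory.MvPolynomial.Homogeneous
import Mathlib.Algebra.Field.ZMod
import Mathlib.Tactic

/-!
# P251, part F, task F9 (1): permutation modules over the cyclic group of order p

`A p W = W[x_i, i in Z/p]`, `sh` = cyclic shift of the variables, `Hj j` = polynomials all of whose
monomials have degree congruent to `j` mod `p`.  Main results: `T0` (for `j` nonzero the shift acts
on `Hj j` without Tate cohomology) and `T1` (the same modulo `s_1 = sum x_i`, for `j` not 0, 1).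
-/

namespace Vale.Agent.P251.F.Sp

open MvPolynomial

section abstractnonsense

variable {V : Type*} [AddCommGroup V]

theorem it_succ (s : V →+ V) (n : ℕ) (y : V) : s (s^[n] y) = s^[n + 1] y :=
  (Function.iterate_succ_apply' s n y).symm

theorem it_succ2 (s : V →+ V) (n : ℕ) (y : V) : s^[n] (s y) = s^[n + 1] y :=
  (Function.iterate_succ_apply s n y).symm

/-- Norm (trace) of an endomorphism `s` of order `p`. -/
def nm (p : ℕ) (s : V →+ V) : V →+ V where
  toFun y := ∑ i ∈ Finset.range p, s^[i] y
  map_zero' := by simp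
  map_add' x y := by
    rw [← Finset.sum_add_distrib]
    exact Finset.sum_congr rfl fun i _ => by simp

theorem nm_apply (p : ℕ) (s : V →+ V) (y : V) : nm p s y = ∑ i ∈ Finset.range p, s^[i] y := rfl

theorem nm_comm (p : ℕ) (s : V →+ V) (y : V) : nm p s (s y) = s (nm p s y) := by
  simp only [nm_apply, map_sum]
  exact Finset.sum_congr rfl fun i _ => by rw [it_succ, it_succ2]

theorem s_nm (p : ℕ) (s : V →+ V) (hs : ∀ y, s^[p] y = y) (y : V) : s (nm p s y) = nm p s y := by
  simp only [nm_apply, map_sum]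
  have h1 : ∑ i ∈ Finset.range p, s (s^[i] y) = ∑ i ∈ Finset.range p, s^[i + 1] y :=
    Finset.sum_congr rfl fun i _ => it_succ s i y
  rw [h1]
  have h2 := Finset.sum_range_succ (fun i => s^[i] y) p
  have h3 := Finset.sum_range_succ' (fun i => s^[i] y) p
  rw [h2] at h3
  rw [hs] at h3
  simpa using h3.symm

theorem nm_sub (p : ℕ) (s : V →+ V) (hs : ∀ y, s^[p] y = y) (y : V) :
    nm p s (s y - y) = 0 := by
  rw [map_sub, nm_comm, s_nm p s hs, sub_self]

theorem eq_nm_of_fixed (p : ℕ) (s e : V →+ V) (y : V)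
    (he : y = ∑ i ∈ Finset.range p, s^[i] (e (s^[p - i] y))) (h : s y = y) :
    nm p s (e y) = y := by
  have h1 : ∀ n, s^[n] y = y := fun n => Function.iterate_fixed h n
  rw [nm_apply]
  conv_rhs => rw [he]
  simp only [h1]

theorem eq_sub_of_nm (p : ℕ) (hp : 0 < p) (s e : V →+ V) (hs : ∀ y, s^[p] y = y) (y : V)
    (he : s y = ∑ i ∈ Finset.range p, s^[i] (e (s^[p - i] (s y)))) (h : nm p s y = 0) :
    ∃ g : V, g = s^[p - 1] (∑ i ∈ Finset.range p,
      s^[i] (e (∑ l ∈ Finset.range i, s^[p - l] y))) ∧ y = g - s g := by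
  set U : ℕ → V := fun i => ∑ l ∈ Finset.range i, s^[p - l] y with hU
  have hU0 : U 0 = 0 := by simp [hU]
  have hUs : ∀ i, U (i + 1) = U i + s^[p - i] y := fun i => by
    simp [hU, Finset.sum_range_succ]
  have hUp : U p = 0 := by
    have h1 : U p = ∑ l ∈ Finset.range p, s^[l + 1] y := by
      simp only [hU]
      rw [← Finset.sum_range_reflect]
      refine Finset.sum_congr rfl fun i hi => ?_
      rw [Finset.mem_range] at hi
      congr 2
      omega
    rw [h1]
    have h2 : ∑ l ∈ Finset.range p, s^[l + 1] y = nm p s (s y) := by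
      rw [nm_apply]
      exact Finset.sum_congr rfl fun i _ => by rw [Function.iterate_succ_apply]
    rw [h2, nm_comm, h, map_zero]
  set g' : V := ∑ i ∈ Finset.range p, s^[i] (e (U i)) with hg'
  have hcalc : g' - s g' = s y := by
    obtain ⟨m, rfl⟩ : ∃ m, p = m + 1 := ⟨p - 1, by omega⟩
    have h1 : s g' = ∑ i ∈ Finset.range m, s^[i + 1] (e (U i)) + e (U m) := by
      rw [hg', map_sum]
      have : ∑ i ∈ Finset.range (m + 1), s (s^[i] (e (U i)))
          = ∑ i ∈ Finset.range (m + 1), s^[i + 1] (e (U i)) :=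
        Finset.sum_congr rfl fun i _ => it_succ s i _
      rw [this, Finset.sum_range_succ, hs]
    have h2 : g' = ∑ i ∈ Finset.range m, s^[i + 1] (e (U (i + 1))) := by
      rw [hg', Finset.sum_range_succ', hU0]
      simp
    have h3 : U m = - s y := by
      have := hUs m
      rw [hUp] at this
      have h4 : m + 1 - m = 1 := by omega
      rw [h4, Function.iterate_one] at this
      exact eq_neg_of_add_eq_zero_left this.symm
    have he' : s y = ∑ i ∈ Finset.range m, s^[i + 1] (e (s^[m + 1 - (i + 1)] (s y))) +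
        e (s y) := by
      conv_lhs => rw [he, Finset.sum_range_succ']
      simp only [Function.iterate_zero, id_eq, Nat.sub_zero, hs]
    rw [h1, h2, h3, map_neg]
    have h5 : ∀ i ∈ Finset.range m, s^[i + 1] (e (U (i + 1))) - s^[i + 1] (e (U i))
        = s^[i + 1] (e (s^[m + 1 - (i + 1)] (s y))) := by
      intro i hi
      rw [Finset.mem_range] at hi
      rw [hUs, ← iterate_map_sub, ← map_sub, add_sub_cancel_left, it_succ2]
      congr 4
      omega
    rw [← sub_sub, ← Finset.sum_sub_distrib, Finset.sum_congr rfl h5, sub_neg_eq_add, ← he']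
  refine ⟨s^[p - 1] g', rfl, ?_⟩
  rw [it_succ, ← it_succ2, ← iterate_map_sub, hcalc, it_succ2]
  have : p - 1 + 1 = p := by omega
  rw [this, hs]

end abstractnonsense

variable (p : ℕ) [hp : Fact p.Prime] (W : Type*) [CommRing W]

/-- The polynomial ring on variables indexed by `Z/p`. -/
abbrev A := MvPolynomial (ZMod p) W

/-- Cyclic shift `x_i ↦ x_(i+1)`. -/
noncomputable def sh : A p W →ₐ[W] A p W := rename (fun i => i + 1)

/-- The shift as an additive map. -/
noncomputable def shA : A p W →+ A p W := (sh p W : A p W →+* A p W)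

theorem shA_apply (f : A p W) : shA p W f = sh p W f := rfl

theorem sh_X (i : ZMod p) : sh p W (X i) = X (i + 1) := by simp [sh]

theorem sh_iterate (n : ℕ) (f : A p W) : (shA p W)^[n] f = rename (fun i => i + (n : ZMod p)) f := by
  induction n generalizing f with
  | zero =>
    have : (fun i : ZMod p => i + ((0 : ℕ) : ZMod p)) = id := by ext i; simp
    rw [this]; simp
  | succ n ih =>
    rw [Function.iterate_succ_apply', ih, shA_apply, sh, rename_rename]
    congr 1
    congr 1
    ext i
    simp [add_assoc]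

theorem shA_order (f : A p W) : (shA p W)^[p] f = f := by
  rw [sh_iterate]
  have : (fun i : ZMod p => i + ((p : ℕ) : ZMod p)) = id := by ext i; simp
  rw [this, rename_id, AlgHom.id_apply]

/-- polynomials whose monomials have degree `j` mod `p` -/
noncomputable abbrev Hj (j : ZMod p) : Submodule W (A p W) :=
  weightedHomogeneousSubmodule W (fun _ : ZMod p => (1 : ZMod p)) j

/-- projection to the monomials with `sum i a_i = c` -/
noncomputable def pr (c : ZMod p) : A p W →+ A p W :=
  (weightedHomogeneousComponent (fun i : ZMod p => i) c : A p W →ₗ[W] A p W)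

theorem weight_mapDomain (d : ZMod p →₀ ℕ) :
    Finsupp.weight (fun i : ZMod p => i) (d.mapDomain (fun i => i + 1)) =
      Finsupp.weight (fun i : ZMod p => i) d + Finsupp.weight (fun _ : ZMod p => (1 : ZMod p)) d := by
  induction d using Finsupp.induction_linear with
  | zero => simp
  | add f g hf hg =>
    rw [Finsupp.mapDomain_add, map_add, hf, hg, map_add, map_add]; ring
  | single a b =>
    rw [Finsupp.mapDomain_single]
    simp [Finsupp.weight_single]

theorem weight1_mapDomain (d : ZMod p →₀ ℕ) :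
    Finsupp.weight (fun _ : ZMod p => (1 : ZMod p)) (d.mapDomain (fun i => i + 1)) =
      Finsupp.weight (fun _ : ZMod p => (1 : ZMod p)) d := by
  induction d using Finsupp.induction_linear with
  | zero => simp
  | add f g hf hg =>
    rw [Finsupp.mapDomain_add, map_add, hf, hg, map_add]
  | single a b =>
    rw [Finsupp.mapDomain_single]
    simp [Finsupp.weight_single]

theorem pr_monomial (c : ZMod p) (d : ZMod p →₀ ℕ) (r : W) :
    pr p W c (monomial d r) = if Finsupp.weight (fun i : ZMod p => i) d = c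
      then monomial d r else 0 := by
  classical
  have h0 := weightedHomogeneousComponent_of_mem (w := fun i : ZMod p => i) (m := c)
    (p := monomial d r) (n := Finsupp.weight (fun i : ZMod p => i) d)
    (by rw [mem_weightedHomogeneousSubmodule]; exact isWeightedHomogeneous_monomial _ _ _ rfl)
  have h1 : pr p W c (monomial d r) =
    weightedHomogeneousComponent (fun i : ZMod p => i) c (monomial d r) := rfl
  rw [h1, h0]
  by_cases h : Finsupp.weight (fun i : ZMod p => i) d = c
  · rw [if_pos h, if_pos h.symm]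
  · rw [if_neg h, if_neg (fun h' => h h'.symm)]

theorem mem_Hj {j : ZMod p} {f : A p W} : f ∈ Hj p W j ↔
    ∀ d, coeff d f ≠ 0 → Finsupp.weight (fun _ : ZMod p => (1 : ZMod p)) d = j := Iff.rfl

theorem Hj_induction {j : ZMod p} {P : A p W → Prop} (h0 : P 0)
    (hm : ∀ d r, Finsupp.weight (fun _ : ZMod p => (1 : ZMod p)) d = j → P (monomial d r))
    (ha : ∀ f g, P f → P g → P (f + g)) {f : A p W} (hf : f ∈ Hj p W j) : P f := by
  classical
  rw [f.as_sum]
  have : ∀ s : Finset (ZMod p →₀ ℕ), s ⊆ f.support → P (∑ v ∈ s, monomial v (coeff v f)) := by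
    intro s
    induction s using Finset.induction_on with
    | empty => intro _; simpa using h0
    | insert a s has ih =>
      intro hs
      rw [Finset.sum_insert has]
      refine ha _ _ (hm _ _ ?_) (ih fun x hx => hs (Finset.mem_insert_of_mem hx))
      exact hf (mem_support_iff.mp (hs (Finset.mem_insert_self _ _)))
  exact this _ subset_rfl

theorem sh_mem {j : ZMod p} {f : A p W} (hf : f ∈ Hj p W j) : shA p W f ∈ Hj p W j := by
  refine Hj_induction p W (P := fun f => shA p W f ∈ Hj p W j) ?_ ?_ ?_ hf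
  · rw [map_zero]; exact Submodule.zero_mem _
  · intro d r hd
    rw [shA_apply, sh, rename_monomial, mem_weightedHomogeneousSubmodule]
    exact isWeightedHomogeneous_monomial _ _ _ (by rw [weight1_mapDomain, hd])
  · intro f g hf hg
    rw [map_add]; exact Submodule.add_mem _ hf hg

theorem sh_iter_mem {j : ZMod p} (n : ℕ) {f : A p W} (hf : f ∈ Hj p W j) :
    (shA p W)^[n] f ∈ Hj p W j := by
  induction n with
  | zero => simpa using hf
  | succ n ih => rw [Function.iterate_succ_apply']; exact sh_mem p W ih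

theorem pr_mem {j : ZMod p} (c : ZMod p) {f : A p W} (hf : f ∈ Hj p W j) :
    pr p W c f ∈ Hj p W j := by
  refine Hj_induction p W (P := fun f => pr p W c f ∈ Hj p W j) ?_ ?_ ?_ hf
  · rw [map_zero]; exact Submodule.zero_mem _
  · intro d r hd
    rw [pr_monomial]
    split_ifs
    · rw [mem_weightedHomogeneousSubmodule]
      exact isWeightedHomogeneous_monomial _ _ _ hd
    · exact Submodule.zero_mem _
  · intro f g hf hg
    rw [map_add]; exact Submodule.add_mem _ hf hg

theorem sh_pr {j : ZMod p} (c : ZMod p) {f : A p W} (hf : f ∈ Hj p W j) :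
    shA p W (pr p W c f) = pr p W (c + j) (shA p W f) := by
  refine Hj_induction p W
    (P := fun f => shA p W (pr p W c f) = pr p W (c + j) (shA p W f)) ?_ ?_ ?_ hf
  · simp
  · intro d r hd
    rw [pr_monomial, shA_apply, shA_apply, sh, rename_monomial, pr_monomial, weight_mapDomain, hd]
    by_cases h : Finsupp.weight (fun i : ZMod p => i) d = c
    · rw [if_pos h, if_pos (by rw [h]), rename_monomial]
    · rw [if_neg h, if_neg (fun h' => h (add_right_cancel h')), map_zero]
  · intro f g hf hg
    rw [map_add, map_add, hf, hg, map_add, map_add]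

theorem sh_iter_pr {j : ZMod p} (n : ℕ) (c : ZMod p) {f : A p W} (hf : f ∈ Hj p W j) :
    (shA p W)^[n] (pr p W c f) = pr p W (c + n * j) ((shA p W)^[n] f) := by
  induction n with
  | zero => simp
  | succ n ih =>
    rw [Function.iterate_succ_apply', ih, sh_pr p W _ (sh_iter_mem p W n hf),
      Function.iterate_succ_apply']
    congr 2
    push_cast
    ring

theorem sum_pr (f : A p W) : ∑ c : ZMod p, pr p W c f = f := by
  induction f using MvPolynomial.induction_on' with
  | monomial d r =>
    simp only [pr_monomial]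
    simp
  | add f g hf hg =>
    simp only [map_add, Finset.sum_add_distrib, hf, hg]

theorem sum_range_zmod {M : Type*} [AddCommMonoid M] (F : ZMod p → M) (j : ZMod p) (hj : j ≠ 0) :
    ∑ i ∈ Finset.range p, F ((i : ZMod p) * j) = ∑ c : ZMod p, F c := by
  rw [Finset.sum_range (fun i => F ((i : ZMod p) * j))]
  refine Fintype.sum_bijective (fun i : Fin p => ((i : ℕ) : ZMod p) * j) ?_ _ _ (fun i => rfl)
  rw [Fintype.bijective_iff_injective_and_card]
  constructor
  · intro a b hab
    have h1 : ((a : ℕ) : ZMod p) = ((b : ℕ) : ZMod p) := mul_right_cancel₀ hj hab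
    rw [ZMod.natCast_eq_natCast_iff'] at h1
    rw [Nat.mod_eq_of_lt a.2, Nat.mod_eq_of_lt b.2] at h1
    exact Fin.ext h1
  · rw [Fintype.card_fin, ZMod.card]

theorem split_id {j : ZMod p} (hj : j ≠ 0) {f : A p W} (hf : f ∈ Hj p W j) :
    f = ∑ i ∈ Finset.range p, (shA p W)^[i] (pr p W 0 ((shA p W)^[p - i] f)) := by
  have h1 : ∀ i ∈ Finset.range p, (shA p W)^[i] (pr p W 0 ((shA p W)^[p - i] f)) =
      pr p W ((i : ZMod p) * j) f := by
    intro i hi
    rw [Finset.mem_range] at hi
    rw [sh_iter_pr p W i 0 (sh_iter_mem p W _ hf), ← Function.iterate_add_apply, zero_add]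
    have : i + (p - i) = p := by omega
    rw [this, shA_order]
  rw [Finset.sum_congr rfl h1, sum_range_zmod p (fun c => pr p W c f) j hj, sum_pr]

theorem sum_mem_Hj {j : ZMod p} {ι : Type*} (s : Finset ι) (F : ι → A p W)
    (h : ∀ i ∈ s, F i ∈ Hj p W j) : ∑ i ∈ s, F i ∈ Hj p W j := Submodule.sum_mem _ h

/-- No Tate cohomology of the permutation module `Hj j`, `j ≠ 0`. -/
theorem T0 {j : ZMod p} (hj : j ≠ 0) {f : A p W} (hf : f ∈ Hj p W j) :
    (shA p W f = f → ∃ g ∈ Hj p W j, nm p (shA p W) g = f) ∧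
    (nm p (shA p W) f = 0 → ∃ g ∈ Hj p W j, shA p W g - g = f) := by
  constructor
  · intro h
    exact ⟨pr p W 0 f, pr_mem p W 0 hf, eq_nm_of_fixed p _ _ f (split_id p W hj hf) h⟩
  · intro h
    obtain ⟨g, hg, hg'⟩ := eq_sub_of_nm p hp.out.pos (shA p W) (pr p W 0) (shA_order p W) f
      (split_id p W hj (sh_mem p W hf)) h
    refine ⟨-g, Submodule.neg_mem _ ?_, ?_⟩
    · rw [hg]
      refine sh_iter_mem p W _ (sum_mem_Hj p W _ _ fun i _ => sh_iter_mem p W _ (pr_mem p W _ ?_))
      exact sum_mem_Hj p W _ _ fun l _ => sh_iter_mem p W _ hf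
    · rw [map_neg, sub_neg_eq_add, neg_add_eq_sub]
      exact hg'.symm

/-- the sum of the variables -/
noncomputable def s1 : A p W := ∑ i : ZMod p, X i

theorem sh_s1 : sh p W (s1 p W) = s1 p W := by
  simp only [s1, map_sum, sh_X]
  exact Fintype.sum_equiv (Equiv.addRight (1 : ZMod p)) _ _ (fun i => rfl)

theorem s1_mem : s1 p W ∈ Hj p W 1 :=
  Submodule.sum_mem _ fun i _ => isWeightedHomogeneous_X _ _ i

theorem mul_mem_Hj {i j : ZMod p} {f g : A p W} (hf : f ∈ Hj p W i) (hg : g ∈ Hj p W j) :
    f * g ∈ Hj p W (i + j) := IsWeightedHomogeneous.mul hf hg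

theorem sh_s1_mul (f : A p W) : shA p W (s1 p W * f) = s1 p W * shA p W f := by
  rw [shA_apply, map_mul, sh_s1]; rfl

theorem sh_iter_s1_mul (n : ℕ) (f : A p W) :
    (shA p W)^[n] (s1 p W * f) = s1 p W * (shA p W)^[n] f := by
  induction n with
  | zero => simp
  | succ n ih => rw [Function.iterate_succ_apply', ih, sh_s1_mul, Function.iterate_succ_apply']

theorem nm_s1_mul (f : A p W) :
    nm p (shA p W) (s1 p W * f) = s1 p W * nm p (shA p W) f := by
  simp only [nm_apply, sh_iter_s1_mul, Finset.mul_sum]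

theorem nm_mem {j : ZMod p} {f : A p W} (hf : f ∈ Hj p W j) : nm p (shA p W) f ∈ Hj p W j :=
  Submodule.sum_mem _ fun i _ => sh_iter_mem p W i hf

/-- multiples of a homogeneous element: the cofactor may be taken homogeneous -/
theorem cofactor {i j : ZMod p} {u F a : A p W} (hu : u ∈ Hj p W i) (hF : F ∈ Hj p W j)
    (h : F = u * a) : ∃ a' ∈ Hj p W (j - i), F = u * a' := by
  classical
  refine ⟨weightedHomogeneousComponent (fun _ : ZMod p => (1 : ZMod p)) (j - i) a,
    weightedHomogeneousComponent_mem _ _ _, ?_⟩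
  let := weightedGradedAlgebra W (fun _ : ZMod p => (1 : ZMod p))
  have h1 := DirectSum.coe_decompose_mul_add_of_left_mem
    (weightedHomogeneousSubmodule W (fun _ : ZMod p => (1 : ZMod p))) (i := i) (j := j - i)
    (b := a) hu
  have h2 : ∀ (x : A p W) (m : ZMod p), ((DirectSum.decompose
      (weightedHomogeneousSubmodule W (fun _ : ZMod p => (1 : ZMod p))) x) m : A p W) =
      weightedHomogeneousComponent (fun _ : ZMod p => (1 : ZMod p)) m x := fun x m =>
    weightedDecomposition.decompose'_apply _ _ x m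
  rw [h2, h2, ← h, add_sub_cancel, weightedHomogeneousComponent_of_mem hF, if_pos rfl] at h1
  exact h1

variable [IsDomain W]

theorem s1_ne_zero : s1 p W ≠ 0 := by
  intro h
  have h1 : coeff (Finsupp.single (0 : ZMod p) 1) (s1 p W) = 1 := by
    rw [s1, coeff_sum]
    simp only [coeff_X]
    have : ∀ i : ZMod p, (Finsupp.single i 1 = Finsupp.single (0 : ZMod p) 1) ↔ i = 0 := by
      intro i
      constructor
      · intro h'
        exact (Finsupp.single_left_inj one_ne_zero).mp h'
      · rintro rfl; rfl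
    simp only [this]
    simp
  rw [h, coeff_zero] at h1
  exact zero_ne_one h1

/-- No Tate cohomology of `(A / s_1)_j`, `j ≠ 0, 1`. -/
theorem T1 {j : ZMod p} (hj : j ≠ 0) (hj1 : j ≠ 1) {f : A p W} (hf : f ∈ Hj p W j) :
    (s1 p W ∣ shA p W f - f → ∃ g ∈ Hj p W j, s1 p W ∣ f - nm p (shA p W) g) ∧
    (s1 p W ∣ nm p (shA p W) f → ∃ g ∈ Hj p W j, s1 p W ∣ f - (shA p W g - g)) := by
  have hj' : j - 1 ≠ 0 := sub_ne_zero.mpr hj1
  have hs0 : s1 p W ≠ 0 := s1_ne_zero p W
  constructor
  · rintro ⟨a, ha⟩
    obtain ⟨a, ham, ha⟩ := cofactor p W (s1_mem p W)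
      (Submodule.sub_mem _ (sh_mem p W hf) hf) ha
    have h1 : nm p (shA p W) a = 0 := by
      have h2 := nm_sub p (shA p W) (shA_order p W) f
      rw [ha, nm_s1_mul] at h2
      exact (mul_eq_zero.mp h2).resolve_left hs0
    obtain ⟨b, hb, hba⟩ := (T0 p W hj' ham).2 h1
    have hb' : s1 p W * b ∈ Hj p W j := by
      have := mul_mem_Hj p W (s1_mem p W) hb
      rwa [add_sub_cancel] at this
    obtain ⟨g, hg, hgf⟩ := (T0 p W hj (Submodule.sub_mem _ hf hb')).1 (by
      rw [map_sub, sh_s1_mul]
      have : shA p W b = a + b := by rw [← hba]; ring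
      rw [this]
      linear_combination ha)
    exact ⟨g, hg, ⟨b, by rw [hgf]; ring⟩⟩
  · rintro ⟨a, ha⟩
    obtain ⟨a, ham, ha⟩ := cofactor p W (s1_mem p W) (nm_mem p W hf) ha
    have h1 : shA p W a = a := by
      have h2 := s_nm p (shA p W) (shA_order p W) f
      rw [ha, sh_s1_mul] at h2
      exact mul_left_cancel₀ hs0 h2
    obtain ⟨b, hb, hba⟩ := (T0 p W hj' ham).1 h1
    have hb' : s1 p W * b ∈ Hj p W j := by
      have := mul_mem_Hj p W (s1_mem p W) hb
      rwa [add_sub_cancel] at this
    obtain ⟨g, hg, hgf⟩ := (T0 p W hj (Submodule.sub_mem _ hf hb')).2 (by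
      rw [map_sub, nm_s1_mul, hba, ha, sub_self])
    exact ⟨g, hg, ⟨b, by rw [hgf]; ring⟩⟩

end Vale.Agent.P251.F.Sp
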