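import Vale.Agent.P251.F.Sparse1
import Mathlib.RingTheory.MvPolynomial.Symmetric.Defs
import Mathlib.RingTheory.Polynomial.Vieta
import Mathlib.RingTheory.Filtration
import Mathlib.RingTheory.IntegralClosure.IsIntegralClosure.Basic
import Mathlib.RingTheory.Adjoin.FG
import Mathlib.RingTheory.FiniteType
import Mathlib.RingTheory.Finiteness.Ideal
import Mathlib.Data.Nat.Choose.Dvd

/-!
# P251, part F, task F9 (2): Artin-Rees for the cyclic permutation action
-/

namespace Vale.Agent.P251.F.Sp

open MvPolynomial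

variable (p : ℕ) [hp : Fact p.Prime] (W : Type*) [CommRing W]

/-- elementary symmetric polynomials -/
noncomputable abbrev ee (k : ℕ) : A p W := esymm (ZMod p) W k

theorem ee_one : ee p W 1 = s1 p W := esymm_one _ _

theorem vieta (i : ZMod p) : ∑ k ∈ Finset.range (p + 1), ee p W k * (-X i) ^ (p - k) = 0 := by
  have h := MvPolynomial.prod_C_add_X_eq_sum_esymm W (ZMod p)
  have h2 := congrArg (Polynomial.eval (-X i : A p W)) h
  rw [Polynomial.eval_prod, Polynomial.eval_finsetSum, ZMod.card] at h2
  rw [Finset.prod_eq_zero (Finset.mem_univ i) (by simp)] at h2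
  rw [h2]
  exact Finset.sum_congr rfl fun k _ => by simp

theorem sh_ee (k : ℕ) : sh p W (ee p W k) = ee p W k := by
  have := rename_esymm (ZMod p) W k (Equiv.addRight (1 : ZMod p))
  exact this

theorem ee_mem (k : ℕ) : ee p W k ∈ Hj p W (k : ZMod p) := by
  classical
  rw [ee, esymm]
  refine Submodule.sum_mem _ fun t ht => ?_
  rw [Finset.mem_powersetCard] at ht
  have h := IsWeightedHomogeneous.prod (R := W) t (fun i => (X i : A p W))
    (fun _ => (1 : ZMod p)) (w := fun _ : ZMod p => (1 : ZMod p))
    (fun i _ => isWeightedHomogeneous_X W (fun _ : ZMod p => (1 : ZMod p)) i)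
  rw [Finset.sum_const, ht.2, nsmul_eq_mul, mul_one] at h
  exact h

/-- the invariant parameter ring -/
noncomputable def S : Subalgebra W (A p W) :=
  Algebra.adjoin W ((fun k => (ee p W k) ^ p) '' (Finset.range (p + 1) : Set ℕ))

theorem eep_mem_S {k : ℕ} (hk : k ≤ p) : (ee p W k) ^ p ∈ S p W := by
  apply Algebra.subset_adjoin
  exact ⟨k, by simpa using Nat.lt_succ_of_le hk, rfl⟩

theorem S_sh {s : A p W} (hs : s ∈ S p W) : shA p W s = s := by
  refine Algebra.adjoin_induction (p := fun x _ => shA p W x = x) ?_ ?_ ?_ ?_ hs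
  · rintro x ⟨k, _, rfl⟩
    change sh p W _ = _
    rw [map_pow, sh_ee]
  · intro r
    change sh p W _ = _
    exact AlgHom.commutes _ _
  · intro x y _ _ hx hy
    rw [map_add, hx, hy]
  · intro x y _ _ hx hy
    change sh p W _ = _
    rw [map_mul]
    change shA p W x * shA p W y = _
    rw [hx, hy]

theorem pow_mem_Hj {j : ZMod p} {f : A p W} (hf : f ∈ Hj p W j) (n : ℕ) :
    f ^ n ∈ Hj p W (n * j) := by
  have := IsWeightedHomogeneous.pow hf n
  rwa [nsmul_eq_mul] at this

theorem S_mem {s : A p W} (hs : s ∈ S p W) : s ∈ Hj p W 0 := by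
  refine Algebra.adjoin_induction (p := fun x _ => x ∈ Hj p W 0) ?_ ?_ ?_ ?_ hs
  · rintro x ⟨k, _, rfl⟩
    have := pow_mem_Hj p W (ee_mem p W k) p
    rwa [ZMod.natCast_self, zero_mul] at this
  · intro r
    exact isWeightedHomogeneous_C _ r
  · intro x y _ _ hx hy
    exact Submodule.add_mem _ hx hy
  · intro x y _ _ hx hy
    have := mul_mem_Hj p W hx hy
    rwa [add_zero] at this

instance [IsNoetherianRing W] : IsNoetherianRing (S p W) := by
  classical
  exact isNoetherianRing_of_fg (Subalgebra.fg_def.mpr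
    ⟨_, (Finset.finite_toSet _).image _, rfl⟩)

theorem ee_integral {k : ℕ} (hk : k ≤ p) : IsIntegral (S p W) (ee p W k) := by
  refine IsIntegral.of_pow hp.out.pos ?_
  have : (ee p W k) ^ p = algebraMap (S p W) (A p W) ⟨_, eep_mem_S p W hk⟩ := rfl
  rw [this]
  exact isIntegral_algebraMap

theorem X_integral (i : ZMod p) : IsIntegral (S p W) (X i : A p W) := by
  have h1 : IsIntegral (integralClosure (S p W) (A p W)) (-X i : A p W) := by
    classical
    let c : ℕ → integralClosure (S p W) (A p W) := fun k =>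
      if hk : k ≤ p then ⟨ee p W k, ee_integral p W hk⟩ else 0
    have hc : ∀ k ≤ p, algebraMap (integralClosure (S p W) (A p W)) (A p W) (c k) = ee p W k := by
      intro k hk
      simp only [c, dif_pos hk]; rfl
    refine ⟨Polynomial.X ^ p + ∑ k ∈ Finset.range p,
      Polynomial.C (c (k + 1)) * Polynomial.X ^ (p - (k + 1)), ?_, ?_⟩
    · refine Polynomial.monic_X_pow_add ?_
      refine (Polynomial.degree_sum_le _ _).trans_lt ?_
      rw [Finset.sup_lt_iff (by exact_mod_cast WithBot.bot_lt_coe p)]
      intro k hk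
      rw [Finset.mem_range] at hk
      refine (Polynomial.degree_C_mul_X_pow_le _ _).trans_lt ?_
      exact_mod_cast (by omega : p - (k + 1) < p)
    · rw [Polynomial.eval₂_add, Polynomial.eval₂_finsetSum, Polynomial.eval₂_X_pow]
      have h := vieta p W i
      rw [Finset.sum_range_succ'] at h
      have h3 : ∑ k ∈ Finset.range p, Polynomial.eval₂
          (algebraMap (integralClosure (S p W) (A p W)) (A p W)) (-X i)
          (Polynomial.C (c (k + 1)) * Polynomial.X ^ (p - (k + 1))) =
          ∑ k ∈ Finset.range p, ee p W (k + 1) * (-X i) ^ (p - (k + 1)) := by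
        refine Finset.sum_congr rfl fun k hk => ?_
        rw [Finset.mem_range] at hk
        rw [Polynomial.eval₂_mul, Polynomial.eval₂_C, Polynomial.eval₂_X_pow,
          hc (k + 1) (by omega)]
      rw [h3, add_comm, ← h]
      simp [ee, esymm_zero]
  have h2 : IsIntegral (S p W) (-X i : A p W) := isIntegral_trans _ h1
  have := h2.neg
  rwa [neg_neg] at this

instance A_integral : Algebra.IsIntegral (S p W) (A p W) := by
  constructor
  intro x
  induction x using MvPolynomial.induction_on with
  | C a =>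
    have : (C a : A p W) = algebraMap (S p W) (A p W) (algebraMap W (S p W) a) := rfl
    rw [this]; exact isIntegral_algebraMap
  | add f g hf hg => exact hf.add hg
  | mul_X f i hf => exact hf.mul (X_integral p W i)

instance A_finite : Module.Finite (S p W) (A p W) := by
  have : Algebra.FiniteType (S p W) (A p W) :=
    Algebra.FiniteType.of_restrictScalars_finiteType W (S p W) (A p W)
  exact Algebra.IsIntegral.finite

/-- the maximal-like ideal `(p, x_i - x_0)` -/
noncomputable def mm : Ideal (A p W) :=
  Ideal.span (insert (C (p : W)) (Set.range fun i : ZMod p => X i - X 0))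

theorem p_mem_mm : (C (p : W) : A p W) ∈ mm p W :=
  Ideal.subset_span (Set.mem_insert _ _)

theorem x_mem_mm (i : ZMod p) : (X i - X 0 : A p W) ∈ mm p W :=
  Ideal.subset_span (Set.mem_insert_of_mem _ ⟨i, rfl⟩)

theorem mm_fg : (mm p W).FG := by
  classical
  refine ⟨insert (C (p : W)) (Finset.univ.image fun i : ZMod p => (X i - X 0 : A p W)), ?_⟩
  rw [mm]
  congr 1
  simp

theorem ee_mem_mm {k : ℕ} (hk0 : k ≠ 0) (hk : k < p) : ee p W k ∈ mm p W := by
  classical
  rw [← Ideal.Quotient.eq_zero_iff_mem]
  have hx : ∀ i : ZMod p, Ideal.Quotient.mk (mm p W) (X i) = Ideal.Quotient.mk (mm p W) (X 0) := by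
    intro i
    rw [Ideal.Quotient.eq]; exact x_mem_mm p W i
  rw [ee, esymm, map_sum]
  have h1 : ∀ t ∈ Finset.powersetCard k (Finset.univ : Finset (ZMod p)),
      Ideal.Quotient.mk (mm p W) (∏ i ∈ t, X i) = Ideal.Quotient.mk (mm p W) (X 0) ^ k := by
    intro t ht
    rw [Finset.mem_powersetCard] at ht
    rw [map_prod, Finset.prod_congr rfl (fun i _ => hx i), Finset.prod_const, ht.2]
  rw [Finset.sum_congr rfl h1, Finset.sum_const, Finset.card_powersetCard, Finset.card_univ,
    ZMod.card]
  obtain ⟨c, hc⟩ := hp.out.dvd_choose_self hk0 hk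
  have hpz : ((p : ℕ) : A p W ⧸ mm p W) = 0 := by
    have := Ideal.Quotient.eq_zero_iff_mem.mpr (p_mem_mm p W)
    rw [map_natCast, map_natCast] at this
    exact this
  rw [nsmul_eq_mul, hc, Nat.cast_mul, hpz, zero_mul, zero_mul]

theorem s1_mem_mm : s1 p W ∈ mm p W := by
  rw [← ee_one]; exact ee_mem_mm p W one_ne_zero hp.out.one_lt

/-- the ideal generated by the parameters -/
noncomputable def qq : Ideal (A p W) :=
  Ideal.span (insert (C (p : W)) ((fun k => (ee p W k) ^ p) '' {k | k ≠ 0 ∧ k < p}))

theorem mm_pow_le : ∃ K, (mm p W) ^ K ≤ qq p W := by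
  refine Ideal.exists_pow_le_of_le_radical_of_fg ?_ (mm_fg p W)
  have hpq : (C (p : W) : A p W) ∈ qq p W := Ideal.subset_span (Set.mem_insert _ _)
  have heq : ∀ k, k ≠ 0 → k < p → ee p W k ∈ (qq p W).radical := by
    intro k h0 hk
    exact ⟨p, Ideal.subset_span (Set.mem_insert_of_mem _ ⟨k, ⟨h0, hk⟩, rfl⟩)⟩
  rw [mm, Ideal.span_le]
  rintro x (rfl | ⟨i, rfl⟩)
  · exact Ideal.le_radical hpq
  · change (X i - X 0 : A p W) ∈ (qq p W).radical
    have hrr : (qq p W).radical.IsRadical := Ideal.radical_isRadical _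
    refine hrr ⟨p, ?_⟩
    -- work in the quotient by the radical
    rw [← Ideal.Quotient.eq_zero_iff_mem]
    have hq : ∀ i : ZMod p, (-1) ^ p * Ideal.Quotient.mk (qq p W).radical (X i) ^ p =
        - Ideal.Quotient.mk (qq p W).radical (ee p W p) := by
      intro i
      have h := congrArg (Ideal.Quotient.mk (qq p W).radical) (vieta p W i)
      rw [map_sum, map_zero, Finset.sum_range_succ, Finset.sum_eq_single 0] at h
      · rw [Nat.sub_self, pow_zero, mul_one, ee, esymm_zero, one_mul, Nat.sub_zero, map_pow,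
          map_neg, neg_pow] at h
        exact eq_neg_of_add_eq_zero_left h
      · intro k hk hk0
        rw [Finset.mem_range] at hk
        rw [map_mul, Ideal.Quotient.eq_zero_iff_mem.mpr (heq k hk0 hk), zero_mul]
      · intro h0
        exact absurd (Finset.mem_range.mpr hp.out.pos) h0
    have hchar : CharP (A p W ⧸ (qq p W).radical) p ∨
        Subsingleton (A p W ⧸ (qq p W).radical) := by
      have hpz : ((p : ℕ) : A p W ⧸ (qq p W).radical) = 0 := by
        have := Ideal.Quotient.eq_zero_iff_mem.mpr (Ideal.le_radical hpq)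
        rw [map_natCast, map_natCast] at this
        exact this
      rcases subsingleton_or_nontrivial (A p W ⧸ (qq p W).radical) with h | h
      · exact Or.inr h
      · left
        exact (CharP.charP_iff_prime_eq_zero hp.out).mpr hpz
    rcases hchar with h | h
    · rw [map_pow, map_sub, sub_pow_char]
      have h1 := hq i
      have h2 := hq 0
      have h3 : (-1 : A p W ⧸ (qq p W).radical) ^ p * (Ideal.Quotient.mk (qq p W).radical (X i) ^ p
        - Ideal.Quotient.mk (qq p W).radical (X 0) ^ p) = 0 := by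
        rw [mul_sub, h1, h2, sub_self]
      have h4 : IsUnit ((-1 : A p W ⧸ (qq p W).radical) ^ p) := (isUnit_one.neg).pow p
      exact (IsUnit.mul_right_eq_zero h4).mp h3
    · exact Subsingleton.elim _ _

end Vale.Agent.P251.F.Sp
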