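import Vale.Agent.P251.F.Sparse2

/-!
# P251, part F, task F9 (3): pro-vanishing of the Tate cohomology of `A / s_1`
-/

namespace Vale.Agent.P251.F.Sp

open MvPolynomial

/-- Artin-Rees in the form needed here. -/
theorem artinRees {R M : Type*} [CommRing R] [IsNoetherianRing R] [AddCommGroup M] [Module R M]
    [Module.Finite R M] (L : M →ₗ[R] M) (H J : Submodule R M) (I : Ideal R) :
    ∃ k, ∀ k' ≥ k, ∀ n, ∀ f ∈ H, L f ∈ (I ^ (n + k') • ⊤ : Submodule R M) ⊔ J →
      ∃ h ∈ (I ^ n • H : Submodule R M), L f - L h ∈ J := by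
  obtain ⟨k, hk⟩ := Ideal.exists_pow_inf_eq_pow_smul I (H.map L ⊔ J)
  refine ⟨k, fun k' hk' n f hf hL => ?_⟩
  obtain ⟨a, ha, b, hb, hab⟩ := Submodule.mem_sup.mp hL
  have ha' : a ∈ H.map L ⊔ J := by
    have : a = L f - b := by rw [← hab]; abel
    rw [this]
    exact Submodule.sub_mem _ (Submodule.mem_sup_left (Submodule.mem_map_of_mem hf))
      (Submodule.mem_sup_right hb)
  have h1 : a ∈ (I ^ (n + k') • ⊤ ⊓ (H.map L ⊔ J) : Submodule R M) := ⟨ha, ha'⟩
  rw [hk (n + k') (by omega)] at h1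
  have h2 : a ∈ (I ^ (n + k' - k) • (H.map L ⊔ J) : Submodule R M) :=
    (Submodule.smul_mono le_rfl inf_le_right) h1
  have h3 : a ∈ (I ^ n • (H.map L ⊔ J) : Submodule R M) :=
    (Submodule.smul_mono (Ideal.pow_le_pow_right (by omega)) le_rfl) h2
  rw [Submodule.smul_sup, ← Submodule.map_smul''] at h3
  obtain ⟨c, hc, d, hd, hcd⟩ := Submodule.mem_sup.mp h3
  obtain ⟨h, hh, rfl⟩ := hc
  refine ⟨h, hh, ?_⟩
  have : L f - L h = d + b := by rw [← hab, ← hcd]; abel
  rw [this]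
  exact Submodule.add_mem _ (Submodule.smul_le_right hd) hb

variable (p : ℕ) [hp : Fact p.Prime] (W : Type*) [CommRing W]

/-- `Hj` as `S`-submodule -/
noncomputable def HS (j : ZMod p) : Submodule (S p W) (A p W) where
  carrier := Hj p W j
  add_mem' := fun ha hb => Submodule.add_mem _ ha hb
  zero_mem' := Submodule.zero_mem _
  smul_mem' := fun c x hx => by
    have h := mul_mem_Hj p W (S_mem p W c.2) hx
    rw [zero_add] at h
    exact h

theorem mem_HS {j : ZMod p} {f : A p W} : f ∈ HS p W j ↔ f ∈ Hj p W j := Iff.rfl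

theorem shA_smul (c : S p W) (f : A p W) : shA p W (c • f) = c • shA p W f := by
  change shA p W ((c : A p W) * f) = (c : A p W) * shA p W f
  rw [shA_apply, map_mul, ← shA_apply, ← shA_apply, S_sh p W c.2]

/-- `sh - 1` as linear map over the invariants -/
noncomputable def dif : A p W →ₗ[S p W] A p W where
  toFun f := shA p W f - f
  map_add' x y := by rw [map_add]; abel
  map_smul' c x := by rw [shA_smul, RingHom.id_apply, smul_sub]

theorem shA_iter_smul (n : ℕ) (c : S p W) (f : A p W) :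
    (shA p W)^[n] (c • f) = c • (shA p W)^[n] f := by
  induction n with
  | zero => rfl
  | succ n ih => rw [← it_succ, ih, shA_smul, it_succ]

/-- the norm as linear map over the invariants -/
noncomputable def nmL : A p W →ₗ[S p W] A p W where
  toFun f := nm p (shA p W) f
  map_add' x y := by rw [map_add]
  map_smul' c x := by
    rw [RingHom.id_apply, nm_apply, nm_apply, Finset.smul_sum]
    exact Finset.sum_congr rfl fun i _ => shA_iter_smul p W i c x

/-- parameters as ideal of the invariant ring -/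
noncomputable def I0 : Ideal (S p W) :=
  Ideal.span {s : S p W | (s : A p W) = C (p : W) ∨ ∃ k, k ≠ 0 ∧ k < p ∧ (s : A p W) = (ee p W k) ^ p}

theorem map_I0 : (I0 p W).map (algebraMap (S p W) (A p W)) = qq p W := by
  apply le_antisymm
  · rw [I0, Ideal.map_span, Ideal.span_le]
    rintro _ ⟨s, (hs | ⟨k, h0, hk, hs⟩), rfl⟩
    · change (s : A p W) ∈ qq p W
      rw [hs]
      exact Ideal.subset_span (Set.mem_insert _ _)
    · change (s : A p W) ∈ qq p W
      rw [hs]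
      exact Ideal.subset_span (Set.mem_insert_of_mem _ ⟨k, ⟨h0, hk⟩, rfl⟩)
  · rw [qq, Ideal.span_le]
    rintro _ (rfl | ⟨k, ⟨h0, hk⟩, rfl⟩)
    · have : (C (p : W) : A p W) = algebraMap (S p W) (A p W) (algebraMap W (S p W) (p : W)) := rfl
      rw [this]
      exact Ideal.mem_map_of_mem _ (Ideal.subset_span (Or.inl rfl))
    · have : (ee p W k) ^ p = algebraMap (S p W) (A p W) ⟨_, eep_mem_S p W hk.le⟩ := rfl
      change (ee p W k) ^ p ∈ _
      rw [this]
      exact Ideal.mem_map_of_mem _ (Ideal.subset_span (Or.inr ⟨k, h0, hk, rfl⟩))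

theorem qq_le_mm : qq p W ≤ mm p W := by
  rw [qq, Ideal.span_le]
  rintro _ (rfl | ⟨k, ⟨h0, hk⟩, rfl⟩)
  · exact p_mem_mm p W
  · exact Ideal.pow_mem_of_mem _ (ee_mem_mm p W h0 hk) p hp.out.pos

theorem mem_smul_top {n : ℕ} {x : A p W} :
    x ∈ ((I0 p W) ^ n • ⊤ : Submodule (S p W) (A p W)) ↔ x ∈ (qq p W) ^ n := by
  rw [Ideal.smul_top_eq_map, Submodule.restrictScalars_mem, Ideal.map_pow, map_I0]

theorem smul_HS_le {n : ℕ} {j : ZMod p} {x : A p W}
    (hx : x ∈ ((I0 p W) ^ n • HS p W j : Submodule (S p W) (A p W))) :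
    x ∈ Hj p W j ∧ x ∈ (mm p W) ^ n := by
  refine ⟨Submodule.smul_le_right (I := (I0 p W) ^ n) hx, ?_⟩
  have h1 : x ∈ ((I0 p W) ^ n • ⊤ : Submodule (S p W) (A p W)) :=
    (Submodule.smul_mono le_rfl le_top) hx
  rw [mem_smul_top] at h1
  exact Ideal.pow_right_mono (qq_le_mm p W) n h1

/-- Pro-vanishing of Tate cohomology of `(A/s_1)_j / (p, x_i - x_0)^n`. -/
theorem proT [IsDomain W] [IsNoetherianRing W] : ∃ K k0 : ℕ, ∀ n : ℕ, ∀ j : ZMod p, j ≠ 0 → j ≠ 1 →
    ∀ f ∈ Hj p W j,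
    ((shA p W f - f ∈ (mm p W) ^ (K * (n + k0)) ⊔ Ideal.span {s1 p W}) →
      ∃ h ∈ Hj p W j, h ∈ (mm p W) ^ n ∧ ∃ g ∈ Hj p W j,
        f - h - nm p (shA p W) g ∈ Ideal.span {s1 p W}) ∧
    ((nm p (shA p W) f ∈ (mm p W) ^ (K * (n + k0)) ⊔ Ideal.span {s1 p W}) →
      ∃ h ∈ Hj p W j, h ∈ (mm p W) ^ n ∧ ∃ g ∈ Hj p W j,
        f - h - (shA p W g - g) ∈ Ideal.span {s1 p W}) := by
  classical
  obtain ⟨K, hK⟩ := mm_pow_le p W
  set J : Submodule (S p W) (A p W) := (Ideal.span {s1 p W}).restrictScalars (S p W) with hJ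
  choose k1 hk1 using fun j : ZMod p => artinRees (dif p W) (HS p W j) J (I0 p W)
  choose k2 hk2 using fun j : ZMod p => artinRees (nmL p W) (HS p W j) J (I0 p W)
  set k0 : ℕ := (Finset.univ.sup k1) ⊔ (Finset.univ.sup k2) with hk0
  have h1 : ∀ j, k1 j ≤ k0 := fun j => le_trans (Finset.le_sup (Finset.mem_univ j)) le_sup_left
  have h2 : ∀ j, k2 j ≤ k0 := fun j => le_trans (Finset.le_sup (Finset.mem_univ j)) le_sup_right
  have key : ∀ n x, x ∈ (mm p W) ^ (K * (n + k0)) ⊔ Ideal.span {s1 p W} →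
      x ∈ ((I0 p W) ^ (n + k0) • ⊤ : Submodule (S p W) (A p W)) ⊔ J := by
    intro n x hx
    obtain ⟨a, ha, b, hb, rfl⟩ := Submodule.mem_sup.mp hx
    refine Submodule.add_mem _ (Submodule.mem_sup_left ?_) (Submodule.mem_sup_right hb)
    rw [mem_smul_top]
    rw [pow_mul] at ha
    exact Ideal.pow_right_mono hK _ ha
  refine ⟨K, k0, fun n j hj hj1 f hf => ⟨fun h => ?_, fun h => ?_⟩⟩
  · obtain ⟨h, hh, hfh⟩ := hk1 j k0 (h1 j) n f hf (key n _ h)
    obtain ⟨hh1, hh2⟩ := smul_HS_le p W hh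
    refine ⟨h, hh1, hh2, ?_⟩
    have h3 : s1 p W ∣ shA p W (f - h) - (f - h) := by
      rw [← Ideal.mem_span_singleton]
      have : shA p W (f - h) - (f - h) = dif p W f - dif p W h := by
        rw [map_sub]; change _ = (shA p W f - f) - (shA p W h - h); abel
      rw [this]
      exact hfh
    obtain ⟨g, hg, hg2⟩ := (T1 p W hj hj1 (Submodule.sub_mem _ hf hh1)).1 h3
    exact ⟨g, hg, Ideal.mem_span_singleton.mpr hg2⟩
  · obtain ⟨h, hh, hfh⟩ := hk2 j k0 (h2 j) n f hf (key n _ h)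
    obtain ⟨hh1, hh2⟩ := smul_HS_le p W hh
    refine ⟨h, hh1, hh2, ?_⟩
    have h3 : s1 p W ∣ nm p (shA p W) (f - h) := by
      rw [← Ideal.mem_span_singleton, map_sub]
      exact hfh
    obtain ⟨g, hg, hg2⟩ := (T1 p W hj hj1 (Submodule.sub_mem _ hf hh1)).2 h3
    exact ⟨g, hg, Ideal.mem_span_singleton.mpr hg2⟩

end Vale.Agent.P251.F.Sp
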