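import Vale.Agent.P251.F.Sparse3
import Mathlib.RingTheory.Localization.Away.Basic
import Mathlib.RingTheory.Localization.Ideal
import Mathlib.LinearAlgebra.FiniteDimensional.Basic
import Mathlib.RingTheory.Ideal.Quotient.Operations

/-!
# P251, part F, task F9 (4): comparison of the universal ring with `E`
-/

namespace Vale.Agent.P251.F.Sp

open MvPolynomial

/-- indices of the free parameters -/
abbrev Io (p : ℕ) := {i : ZMod p // ¬ (i = 0 ∨ i = -1)}

theorem sum_split (p : ℕ) [hp : Fact p.Prime] {M : Type*} [AddCommMonoid M] (F : ZMod p → M) :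
    ∑ i, F i = F 0 + F (-1) + ∑ j : Io p, F j := by
  classical
  have h1 : (0 : ZMod p) ≠ -1 := by
    intro h
    have : (1 : ZMod p) = 0 := by linear_combination h
    exact one_ne_zero this
  rw [← Finset.sum_add_sum_compl ({0, -1} : Finset (ZMod p)), Finset.sum_pair h1]
  congr 1
  rw [Finset.sum_subtype (({0, -1} : Finset (ZMod p))ᶜ) (p := fun i => ¬ (i = 0 ∨ i = -1))]
  intro x
  simp

variable (p : ℕ) [hp : Fact p.Prime] (k : Type*) [Field k]

/-- the polynomial ring on the free parameters `t_i` -/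
abbrev D := MvPolynomial (Io p) k

/-- the ideal of the parameters -/
noncomputable def tt : Ideal (D p k) := Ideal.span (Set.range X)

/-- dehomogenization `x_0 = 1`, `x_i = 1 + t_i`, `x_(-1) = -(1 + sum (1 + t_i))` -/
noncomputable def psi : A p k →ₐ[k] D p k :=
  aeval (fun i : ZMod p => if h : i = 0 ∨ i = -1 then
    (if i = 0 then 1 else -(1 + ∑ j : Io p, (1 + X j))) else 1 + X ⟨i, h⟩)

theorem psi_zero : psi p k (X 0) = 1 := by
  rw [psi, aeval_X, dif_pos (Or.inl rfl), if_pos rfl]

theorem psi_neg_one : psi p k (X (-1)) = -(1 + ∑ j : Io p, (1 + X j)) := by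
  have h1 : (-1 : ZMod p) ≠ 0 := neg_ne_zero.mpr one_ne_zero
  rw [psi, aeval_X, dif_pos (Or.inr rfl), if_neg h1]

theorem psi_Io (j : Io p) : psi p k (X j) = 1 + X j := by
  rw [psi, aeval_X, dif_neg j.2]

/-- agreement with substitution: for `y : Z/p → R` with `sum y = 0`, `y 0` invertible with
inverse `z`, we have `f(y z) = psi(f)(y z - 1)` -/
theorem psi_aeval {R : Type*} [CommRing R] [Algebra k R] (y : ZMod p → R) (hy0 : y 0 = 1)
    (hy : ∑ i, y i = 0) (f : A p k) :
    aeval (fun j : Io p => y j - 1) (psi p k f) = aeval y f := by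
  have h1 : (aeval (fun j : Io p => y j - 1)).comp (psi p k) = (aeval y : A p k →ₐ[k] R) := by
    apply MvPolynomial.algHom_ext
    intro i
    rw [AlgHom.comp_apply, aeval_X]
    by_cases h : i = 0 ∨ i = -1
    · rcases h with rfl | rfl
      · rw [psi_zero, map_one, hy0]
      · rw [psi_neg_one, map_neg, map_add, map_one, map_sum]
        simp only [map_add, map_one, aeval_X]
        have h2 := sum_split p y
        rw [hy, hy0] at h2
        have h3 : ∑ j : Io p, (1 + (y j - 1)) = ∑ j : Io p, y j :=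
          Finset.sum_congr rfl fun j _ => by ring
        rw [h3]
        linear_combination h2
    · have := psi_Io p k ⟨i, h⟩
      rw [this, map_add, map_one, aeval_X]
      ring
  rw [← h1]; rfl

omit hp in
theorem map_tt_pow {R : Type*} [CommRing R] [Algebra k R] (I : Ideal R) (φ : D p k →ₐ[k] R)
    (h : ∀ j, φ (X j) ∈ I) (n : ℕ) {f : D p k} (hf : f ∈ (tt p k) ^ n) : φ f ∈ I ^ n := by
  have h1 : (tt p k).map (φ : D p k →+* R) ≤ I := by
    rw [tt, Ideal.map_span, Ideal.span_le]
    rintro _ ⟨_, ⟨j, rfl⟩, rfl⟩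
    exact h j
  have h2 : (φ : D p k →+* R) f ∈ ((tt p k) ^ n).map (φ : D p k →+* R) :=
    Ideal.mem_map_of_mem _ hf
  rw [Ideal.map_pow] at h2
  exact Ideal.pow_right_mono h1 n h2

omit hp in
theorem homog_scale [NeZero p] {R : Type*} [CommRing R] [Algebra k R] (y : ZMod p → R) (z : R)
    {g : A p k} {d : ℕ} (hg : g.IsHomogeneous d) :
    aeval (fun i => y i * z) g = aeval y g * z ^ d := by
  rw [aeval_def, aeval_def, eval₂_eq', eval₂_eq', Finset.sum_mul]
  refine Finset.sum_congr rfl fun v hv => ?_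
  have h1 : ∑ i, v i = d := by
    have h2 := hg (mem_support_iff.mp hv)
    have h3 : (Finsupp.weight (1 : ZMod p → ℕ)) v = v.degree := by
      rw [Finsupp.degree_eq_weight_one]; rfl
    rw [h3, Finsupp.degree_eq_sum] at h2
    exact h2
  simp only [mul_pow]
  rw [Finset.prod_mul_distrib, Finset.prod_pow_eq_pow_sum, h1, mul_assoc]

/-- comparison: a homogeneous polynomial whose dehomogenization lies in `tt^c` lies in `mm^c`
after multiplication by a power of `x_0` -/
theorem compare {g : A p k} {d c : ℕ} (hg : g.IsHomogeneous d) (hc : psi p k g ∈ (tt p k) ^ c) :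
    ∃ l : ℕ, (X 0) ^ l * g ∈ (mm p k) ^ c ⊔ Ideal.span {s1 p k} := by
  set J : Ideal (A p k) := Ideal.span {s1 p k} with hJ
  set B := A p k ⧸ J with hB
  set x0 : B := Ideal.Quotient.mk J (X 0) with hx0
  set L := Localization.Away x0 with hL
  set ι : A p k →ₐ[k] L := (Algebra.ofId B L |>.restrictScalars k).comp (Ideal.Quotient.mkₐ k J)
    with hι
  set z : L := IsLocalization.Away.invSelf x0 with hz
  have hxz : ι (X 0) * z = 1 := IsLocalization.Away.mul_invSelf x0
  have hs1 : ∑ i, ι (X i) = 0 := by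
    rw [← map_sum]
    have : Ideal.Quotient.mk J (s1 p k) = 0 :=
      Ideal.Quotient.eq_zero_iff_mem.mpr (Ideal.mem_span_singleton_self _)
    change algebraMap B L (Ideal.Quotient.mk J (s1 p k)) = 0
    rw [this, map_zero]
  -- evaluation at `x_i / x_0`
  have h1 := psi_aeval p k (fun i => ι (X i) * z) hxz (by rw [← Finset.sum_mul, hs1, zero_mul]) g
  have h2 : aeval (fun i => ι (X i) * z) g = ι g * z ^ d := by
    have h4 : aeval (fun i => ι (X i)) g = ι g := by
      have : (aeval (fun i => ι (X i)) : A p k →ₐ[k] L) = ι := by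
        apply MvPolynomial.algHom_ext; intro i; simp
      rw [this]
    rw [homog_scale p k _ z hg, h4]
  have h5 : ι g * z ^ d ∈ ((mm p k).map (ι : A p k →+* L)) ^ c := by
    rw [← h2, ← h1]
    refine map_tt_pow p k _ _ (fun j => ?_) c hc
    rw [aeval_X]
    have : ι (X (j : ZMod p)) * z - 1 = ι (X (j : ZMod p) - X 0) * z := by
      rw [map_sub, sub_mul, hxz]
    rw [this]
    exact Ideal.mul_mem_right _ _ (Ideal.mem_map_of_mem (ι : A p k →+* L) (x_mem_mm p k j))
  have h6 : ι g ∈ ((mm p k).map (ι : A p k →+* L)) ^ c := by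
    have : ι g = ι g * z ^ d * (ι (X 0)) ^ d := by
      rw [mul_assoc, ← mul_pow, mul_comm z, hxz, one_pow, mul_one]
    rw [this]
    exact Ideal.mul_mem_right _ _ h5
  have h7 : (mm p k).map (ι : A p k →+* L) =
      ((mm p k).map (Ideal.Quotient.mk J)).map (algebraMap B L) := by
    rw [Ideal.map_map]; rfl
  have h8 : algebraMap B L (Ideal.Quotient.mk J g) ∈
      ((((mm p k).map (Ideal.Quotient.mk J)) ^ c).map (algebraMap B L)) := by
    rw [Ideal.map_pow, ← h7]
    exact h6
  rw [IsLocalization.algebraMap_mem_map_algebraMap_iff (Submonoid.powers x0)] at h8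
  obtain ⟨_, ⟨l, rfl⟩, hl⟩ := h8
  refine ⟨l, ?_⟩
  rw [← Ideal.map_pow] at hl
  have h9 : Ideal.Quotient.mk J ((X 0) ^ l * g) ∈ ((mm p k) ^ c).map (Ideal.Quotient.mk J) := by
    rw [map_mul, map_pow]; exact hl
  rw [Ideal.mem_map_iff_of_surjective _ Ideal.Quotient.mk_surjective] at h9
  obtain ⟨a, ha, hag⟩ := h9
  rw [Ideal.Quotient.eq] at hag
  have : (X 0) ^ l * g = a + -(a - (X 0) ^ l * g) := by ring
  rw [this]
  exact Submodule.add_mem_sup ha (Submodule.neg_mem _ hag)

/-- homogenization -/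
theorem homogenize (Q : D p k) : ∃ N0 : ℕ, ∀ N ≥ N0, ∃ f : A p k, f.IsHomogeneous N ∧
    ∀ (R : Type*) [CommRing R] [Algebra k R] (y : ZMod p → R), y 0 = 1 →
      aeval y f = aeval (fun j : Io p => y j - 1) Q := by
  induction Q using MvPolynomial.induction_on with
  | C a =>
    refine ⟨0, fun N _ => ⟨C a * X 0 ^ N, ?_, ?_⟩⟩
    · have := (isHomogeneous_C (ZMod p) a).mul ((isHomogeneous_X k (0 : ZMod p)).pow N)
      simpa using this
    · intro R _ _ y hy
      rw [map_mul, map_pow, aeval_X, hy, one_pow, mul_one, aeval_C, aeval_C]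
  | add f g hf hg =>
    obtain ⟨N1, h1⟩ := hf
    obtain ⟨N2, h2⟩ := hg
    refine ⟨max N1 N2, fun N hN => ?_⟩
    obtain ⟨f1, hf1, hf2⟩ := h1 N (le_trans (le_max_left _ _) hN)
    obtain ⟨g1, hg1, hg2⟩ := h2 N (le_trans (le_max_right _ _) hN)
    refine ⟨f1 + g1, hf1.add hg1, ?_⟩
    intro R _ _ y hy
    rw [map_add, map_add, hf2 R y hy, hg2 R y hy]
  | mul_X f i hf =>
    obtain ⟨N1, h1⟩ := hf
    refine ⟨N1 + 1, fun N hN => ?_⟩
    obtain ⟨f1, hf1, hf2⟩ := h1 (N - 1) (by omega)
    refine ⟨f1 * (X (i : ZMod p) - X 0), ?_, ?_⟩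
    · have := hf1.mul ((isHomogeneous_X k (i : ZMod p)).sub (isHomogeneous_X k (0 : ZMod p)))
      have h3 : N - 1 + 1 = N := by omega
      rwa [h3] at this
    · intro R _ _ y hy
      rw [map_mul, map_mul, hf2 R y hy, map_sub, aeval_X, aeval_X, aeval_X, hy]

end Vale.Agent.P251.F.Sp
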