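import Vale.Agent.P251.F.Sparse4
import Mathlib.RingTheory.Polynomial.Basic
import Mathlib.Algebra.CharP.Lemmas
import Mathlib.Algebra.CharP.Algebra

/-!
# P251, part F, task F9 (5): sparseness of the cohomology of C_p for quotients of `E`
-/

namespace Vale.Agent.P251.F.Sp

open MvPolynomial

variable (p : ℕ) [hp : Fact p.Prime] (k : Type*) [Field k]

/-- An automorphism `σ` of order `p` of a `k`-algebra `E` with ideal `M`, with a unit `tau` of
degree one, `θ i = σ^i tau / tau`. -/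
structure Dat (E : Type*) [CommRing E] [Algebra k E] where
  M : Ideal E
  σ : E →ₐ[k] E
  θ : ZMod p → E
  const : ∀ y : E, ∃ a : k, y - algebraMap k E a ∈ M
  θ0 : θ 0 = 1
  θs : ∀ i, θ (i + 1) = θ 1 * σ (θ i)
  sum : ∑ i, θ i = 0
  mem : ∀ i, θ i - 1 ∈ M
  gen : M ≤ Ideal.span (Set.range fun i => θ i - 1) ⊔ M ^ 2

namespace Dat

variable {p k} {E : Type*} [CommRing E] [Algebra k E] (Z : Dat p k E)

/-- evaluation at the parameters -/
noncomputable def ev : D p k →ₐ[k] E := aeval (fun j : Io p => Z.θ j - 1)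

theorem ev_psi (f : A p k) : Z.ev (psi p k f) = aeval Z.θ f :=
  psi_aeval p k Z.θ Z.θ0 Z.sum f

theorem claim1 {y : E} (hy : y ∈ Z.M) : ∃ Q : D p k, y - Z.ev Q ∈ Z.M ^ 2 := by
  obtain ⟨s, hs, m, hm, rfl⟩ := Submodule.mem_sup.mp (Z.gen hy)
  have h1 : s ∈ Z.M ∧ ∃ Q : D p k, s - Z.ev Q ∈ Z.M ^ 2 := by
    refine Submodule.span_induction (p := fun s _ => s ∈ Z.M ∧ ∃ Q : D p k, s - Z.ev Q ∈ Z.M ^ 2)
      ?_ ?_ ?_ ?_ hs
    · rintro _ ⟨i, rfl⟩
      refine ⟨Z.mem i, psi p k (X i) - 1, ?_⟩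
      rw [map_sub, Z.ev_psi, map_one, aeval_X, sub_self]
      exact Submodule.zero_mem _
    · exact ⟨Submodule.zero_mem _, 0, by rw [map_zero, sub_zero]; exact Submodule.zero_mem _⟩
    · rintro x y _ _ ⟨hx, Qx, hQx⟩ ⟨hy, Qy, hQy⟩
      refine ⟨Submodule.add_mem _ hx hy, Qx + Qy, ?_⟩
      rw [map_add]
      have : x + y - (Z.ev Qx + Z.ev Qy) = (x - Z.ev Qx) + (y - Z.ev Qy) := by ring
      rw [this]
      exact Submodule.add_mem _ hQx hQy
    · rintro a x _ ⟨hx, Qx, hQx⟩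
      obtain ⟨b, hb⟩ := Z.const a
      refine ⟨Ideal.mul_mem_left _ _ hx, C b * Qx, ?_⟩
      have h2 : Z.ev (C b * Qx) = algebraMap k E b * Z.ev Qx := by
        rw [map_mul]; congr 1; exact Z.ev.commutes b
      rw [h2, smul_eq_mul]
      have : a * x - algebraMap k E b * Z.ev Qx =
        (a - algebraMap k E b) * x + algebraMap k E b * (x - Z.ev Qx) := by ring
      rw [this]
      refine Submodule.add_mem _ ?_ (Ideal.mul_mem_left _ _ hQx)
      rw [pow_two]
      exact Ideal.mul_mem_mul hb hx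
  obtain ⟨_, Q, hQ⟩ := h1
  refine ⟨Q, ?_⟩
  have : s + m - Z.ev Q = (s - Z.ev Q) + m := by ring
  rw [this]
  exact Submodule.add_mem _ hQ hm

theorem claim (a : ℕ) : ∀ y ∈ Z.M ^ a, ∃ Q : D p k, y - Z.ev Q ∈ Z.M ^ (a + 1) := by
  induction a with
  | zero =>
    intro y _
    obtain ⟨b, hb⟩ := Z.const y
    refine ⟨C b, ?_⟩
    have : Z.ev (C b) = algebraMap k E b := Z.ev.commutes b
    rw [this, zero_add, pow_one]; exact hb
  | succ a ih =>
    intro y hy
    rw [pow_succ] at hy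
    refine Submodule.mul_induction_on hy ?_ ?_
    · intro x hx y hy
      obtain ⟨Qx, hQx⟩ := ih x hx
      obtain ⟨Qy, hQy⟩ := Z.claim1 hy
      refine ⟨Qx * Qy, ?_⟩
      have h1 : x * y - Z.ev (Qx * Qy) = x * (y - Z.ev Qy) + (x - Z.ev Qx) * Z.ev Qy := by
        rw [map_mul]; ring
      rw [h1]
      refine Submodule.add_mem _ ?_ ?_
      · have : a + 1 + 1 = a + 2 := by omega
        rw [this, pow_add]
        exact Ideal.mul_mem_mul hx hQy
      · rw [pow_succ]
        refine Ideal.mul_mem_mul hQx ?_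
        have : Z.ev Qy = y - (y - Z.ev Qy) := by ring
        rw [this]
        exact Submodule.sub_mem _ hy (Ideal.pow_le_self two_ne_zero hQy)
    · rintro x y ⟨Qx, hQx⟩ ⟨Qy, hQy⟩
      refine ⟨Qx + Qy, ?_⟩
      rw [map_add]
      have : x + y - (Z.ev Qx + Z.ev Qy) = (x - Z.ev Qx) + (y - Z.ev Qy) := by ring
      rw [this]
      exact Submodule.add_mem _ hQx hQy

theorem dense (a : ℕ) (y : E) : ∃ Q : D p k, y - Z.ev Q ∈ Z.M ^ a := by
  induction a with
  | zero => exact ⟨0, by rw [pow_zero, Ideal.one_eq_top]; trivial⟩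
  | succ a ih =>
    obtain ⟨Q, hQ⟩ := ih
    obtain ⟨Q', hQ'⟩ := Z.claim a _ hQ
    refine ⟨Q + Q', ?_⟩
    rw [map_add, ← sub_sub]; exact hQ'

theorem ev_surj {c : ℕ} (hc : Z.M ^ c = ⊥) : Function.Surjective Z.ev := by
  intro y
  obtain ⟨Q, hQ⟩ := Z.dense c y
  rw [hc, Submodule.mem_bot, sub_eq_zero] at hQ
  exact ⟨Q, hQ.symm⟩

theorem tt_le_ker {c : ℕ} (hc : Z.M ^ c = ⊥) {Q : D p k} (hQ : Q ∈ (tt p k) ^ c) : Z.ev Q = 0 := by
  have := map_tt_pow p k Z.M Z.ev (fun j => by rw [ev, aeval_X]; exact Z.mem j) c hQ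
  rwa [hc, Submodule.mem_bot] at this

/-- injectivity from the dimension count -/
theorem ev_inj {c : ℕ} (hc : Z.M ^ c = ⊥) [FiniteDimensional k E]
    (hdim : Nonempty ((D p k ⧸ (tt p k) ^ c) ≃ₗ[k] E)) {Q : D p k} (hQ : Z.ev Q = 0) :
    Q ∈ (tt p k) ^ c := by
  obtain ⟨e⟩ := hdim
  have : FiniteDimensional k (D p k ⧸ (tt p k) ^ c) := Module.Finite.equiv e.symm
  let φ : (D p k ⧸ (tt p k) ^ c) →ₐ[k] E :=
    Ideal.Quotient.liftₐ _ Z.ev (fun a ha => Z.tt_le_ker hc ha)
  have hφ : Function.Surjective φ := by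
    intro y
    obtain ⟨Q, rfl⟩ := Z.ev_surj hc y
    exact ⟨Ideal.Quotient.mk _ Q, rfl⟩
  have h1 : Function.Surjective (e.symm.toLinearMap.comp φ.toLinearMap) := by
    rw [LinearMap.coe_comp]
    exact e.symm.surjective.comp hφ
  have h2 : Function.Injective (e.symm.toLinearMap.comp φ.toLinearMap) :=
    LinearMap.injective_iff_surjective.mpr h1
  have h3 : φ (Ideal.Quotient.mk _ Q) = 0 := hQ
  have h4 : (e.symm.toLinearMap.comp φ.toLinearMap) (Ideal.Quotient.mk _ Q) =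
      (e.symm.toLinearMap.comp φ.toLinearMap) 0 := by
    rw [map_zero, LinearMap.comp_apply]
    change e.symm (φ (Ideal.Quotient.mk _ Q)) = 0
    rw [h3, map_zero]
  exact Ideal.Quotient.eq_zero_iff_mem.mp (h2 h4)

/-- graded evaluation `x_i ↦ θ_i T` -/
noncomputable def Phi : A p k →ₐ[k] Polynomial E :=
  aeval (fun i => Polynomial.C (Z.θ i) * Polynomial.X)

/-- action of `σ` on `E[T]`, `T ↦ θ_1 T` -/
noncomputable def sig : Polynomial E →+* Polynomial E :=
  Polynomial.eval₂RingHom (Polynomial.C.comp (Z.σ : E →+* E)) (Polynomial.C (Z.θ 1) * Polynomial.X)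

theorem sig_coeff (F : Polynomial E) (n : ℕ) : (Z.sig F).coeff n = Z.θ 1 ^ n * Z.σ (F.coeff n) := by
  induction F using Polynomial.induction_on' with
  | add f g hf hg => rw [map_add, Polynomial.coeff_add, hf, hg, Polynomial.coeff_add, map_add]; ring
  | monomial m a =>
    rw [sig, Polynomial.coe_eval₂RingHom, Polynomial.eval₂_monomial, mul_pow, ← Polynomial.C_pow,
      RingHom.comp_apply, ← mul_assoc, ← Polynomial.C_mul, Polynomial.coeff_C_mul_X_pow,
      Polynomial.coeff_monomial]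
    by_cases h : n = m
    · subst h
      rw [if_pos rfl, if_pos rfl, mul_comm]; rfl
    · rw [if_neg h, if_neg (fun h' => h h'.symm), map_zero, mul_zero]

theorem Phi_sh (f : A p k) : Z.Phi (shA p k f) = Z.sig (Z.Phi f) := by
  rw [shA_apply]
  induction f using MvPolynomial.induction_on with
  | C a =>
    have h1 : sh p k (C a) = C a := (sh p k).commutes a
    have h2 : Z.Phi (C a) = algebraMap k (Polynomial E) a := Z.Phi.commutes a
    rw [h1, h2, IsScalarTower.algebraMap_apply k E (Polynomial E), Polynomial.algebraMap_eq,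
      sig, Polynomial.coe_eval₂RingHom, Polynomial.eval₂_C, RingHom.comp_apply]
    congr 1
    exact (Z.σ.commutes a).symm
  | add f g hf hg => simp only [map_add, hf, hg]
  | mul_X f i hf =>
    rw [map_mul, map_mul, map_mul, map_mul, hf, sh_X, Phi, aeval_X, aeval_X]
    congr 1
    rw [sig, Polynomial.coe_eval₂RingHom, Polynomial.eval₂_mul, Polynomial.eval₂_C,
      Polynomial.eval₂_X, RingHom.comp_apply, ← mul_assoc, ← Polynomial.C_mul, Z.θs, mul_comm (Z.θ 1)]
    rfl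

theorem Phi_s1 : Z.Phi (s1 p k) = 0 := by
  have h1 : ∀ i : ZMod p, Z.Phi (X i) = Polynomial.C (Z.θ i) * Polynomial.X := fun i => by
    rw [Phi, aeval_X]
  rw [s1, map_sum]
  simp only [h1]
  rw [← Finset.sum_mul, ← map_sum, Z.sum, map_zero, zero_mul]

theorem Phi_homog {f : A p k} {n : ℕ} (hf : f.IsHomogeneous n) :
    Z.Phi f = Polynomial.C (aeval Z.θ f) * Polynomial.X ^ n := by
  rw [Phi, homog_scale p k _ _ hf]
  congr 1
  have : (aeval (fun i => Polynomial.C (Z.θ i)) : A p k →ₐ[k] Polynomial E) =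
      (IsScalarTower.toAlgHom k E (Polynomial E)).comp (aeval Z.θ) := by
    apply MvPolynomial.algHom_ext
    intro i
    rw [aeval_X, AlgHom.comp_apply, aeval_X]
    rfl
  rw [this]; rfl

theorem Phi_mm [CharP k p] {n : ℕ} {f : A p k} (hf : f ∈ (mm p k) ^ n) (d : ℕ) :
    (Z.Phi f).coeff d ∈ Z.M ^ n := by
  have h1 : (mm p k).map (Z.Phi : A p k →+* Polynomial E) ≤ Z.M.map Polynomial.C := by
    rw [mm, Ideal.map_span, Ideal.span_le]
    rintro _ ⟨_, (rfl | ⟨i, rfl⟩), rfl⟩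
    · change Z.Phi (C (p : k)) ∈ _
      rw [CharP.cast_eq_zero, map_zero, map_zero]; exact Submodule.zero_mem _
    · change Z.Phi (X i - X 0) ∈ _
      rw [map_sub, Phi, aeval_X, aeval_X, ← sub_mul, ← Polynomial.C_sub, Z.θ0]
      exact Ideal.mul_mem_right _ _ (Ideal.mem_map_of_mem _ (Z.mem i))
  have h2 : (Z.Phi : A p k →+* Polynomial E) f ∈
      ((mm p k) ^ n).map (Z.Phi : A p k →+* Polynomial E) := Ideal.mem_map_of_mem _ hf
  rw [Ideal.map_pow] at h2
  have h3 := Ideal.pow_right_mono h1 n h2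
  rw [← Ideal.map_pow] at h3
  exact Ideal.mem_map_C_iff.mp h3 d

/-- twisted action on the degree `d` part -/
noncomputable def rho (d : ℕ) : E →+ E where
  toFun y := Z.θ 1 ^ d * Z.σ y
  map_zero' := by rw [map_zero, mul_zero]
  map_add' x y := by rw [map_add, mul_add]

theorem rho_apply (d : ℕ) (y : E) : Z.rho d y = Z.θ 1 ^ d * Z.σ y := rfl

theorem sig_iter_coeff (i : ℕ) (F : Polynomial E) (n : ℕ) :
    ((Z.sig)^[i] F).coeff n = (Z.rho n)^[i] (F.coeff n) := by
  induction i with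
  | zero => rfl
  | succ i ih =>
    rw [Function.iterate_succ_apply', Function.iterate_succ_apply', sig_coeff, ih]; rfl

theorem Phi_sh_iter (i : ℕ) (f : A p k) : Z.Phi ((shA p k)^[i] f) = (Z.sig)^[i] (Z.Phi f) := by
  induction i with
  | zero => rfl
  | succ i ih => rw [Function.iterate_succ_apply', Function.iterate_succ_apply', Phi_sh, ih]

theorem Phi_nm (f : A p k) (n : ℕ) :
    (Z.Phi (nm p (shA p k) f)).coeff n = nm p (Z.rho n) ((Z.Phi f).coeff n) := by
  rw [nm_apply, map_sum, Polynomial.finsetSum_coeff, nm_apply]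
  exact Finset.sum_congr rfl fun i _ => by rw [Phi_sh_iter, sig_iter_coeff]

end Dat

end Vale.Agent.P251.F.Sp
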