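import Vale.Agent.P251.F.Sparse5

/-!
# P251, part F, task F9 (6): sparseness, main theorem
-/

namespace Vale.Agent.P251.F.Sp

open MvPolynomial

variable (p : ℕ) [hp : Fact p.Prime] (k : Type*) [Field k]

/-- the product of the variables -/
noncomputable def PP : A p k := ∏ i : ZMod p, X i

theorem sh_PP : sh p k (PP p k) = PP p k := by
  simp only [PP, map_prod, sh_X]
  exact Fintype.prod_equiv (Equiv.addRight (1 : ZMod p)) _ _ (fun i => rfl)

theorem PP_homog : (PP p k).IsHomogeneous p := by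
  have h := IsHomogeneous.prod (Finset.univ : Finset (ZMod p)) (fun i => (X i : A p k))
    (fun _ => 1) (fun i _ => isHomogeneous_X k i)
  rwa [Finset.sum_const, Finset.card_univ, ZMod.card, smul_eq_mul, mul_one] at h

theorem homog_mem_Hj {f : A p k} {n : ℕ} (hf : f.IsHomogeneous n) : f ∈ Hj p k (n : ZMod p) := by
  intro v hv
  have h2 := hf hv
  have h3 : (Finsupp.weight (1 : ZMod p → ℕ)) v = v.degree := by
    rw [Finsupp.degree_eq_weight_one]; rfl
  rw [h3, Finsupp.degree_eq_sum] at h2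
  rw [Finsupp.weight_apply, Finsupp.sum_fintype _ _ (by simp), ← h2]
  simp

theorem sh_homog {f : A p k} {n : ℕ} (hf : f.IsHomogeneous n) : (shA p k f).IsHomogeneous n :=
  IsHomogeneous.rename_isHomogeneous hf

theorem sh_iter_homog {f : A p k} {n : ℕ} (hf : f.IsHomogeneous n) (i : ℕ) :
    ((shA p k)^[i] f).IsHomogeneous n := by
  induction i with
  | zero => exact hf
  | succ i ih => rw [← it_succ]; exact sh_homog p k ih

theorem nm_homog {f : A p k} {n : ℕ} (hf : f.IsHomogeneous n) :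
    (nm p (shA p k) f).IsHomogeneous n :=
  IsHomogeneous.sum _ _ _ fun i _ => sh_iter_homog p k hf i

theorem sh_PP_mul (l : ℕ) (f : A p k) : shA p k (PP p k ^ l * f) = PP p k ^ l * shA p k f := by
  rw [shA_apply, map_mul, map_pow, sh_PP]; rfl

theorem sh_iter_PP_mul (l : ℕ) (f : A p k) (i : ℕ) :
    (shA p k)^[i] (PP p k ^ l * f) = PP p k ^ l * (shA p k)^[i] f := by
  induction i with
  | zero => rfl
  | succ i ih => rw [← it_succ, ih, sh_PP_mul, it_succ]

theorem nm_PP_mul (l : ℕ) (f : A p k) :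
    nm p (shA p k) (PP p k ^ l * f) = PP p k ^ l * nm p (shA p k) f := by
  simp only [nm_apply, sh_iter_PP_mul, Finset.mul_sum]

theorem X0_dvd_PP : (X 0 : A p k) ∣ PP p k := Finset.dvd_prod_of_mem _ (Finset.mem_univ _)

/-- vanishing of a homogeneous polynomial at `θ` -/
theorem vanish {E : Type*} [CommRing E] [Algebra k E] (Z : Dat p k E) {c : ℕ}
    (hc : Z.M ^ c = ⊥) [FiniteDimensional k E]
    (hdim : Nonempty ((D p k ⧸ (tt p k) ^ c) ≃ₗ[k] E)) {g : A p k} {n : ℕ}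
    (hg : g.IsHomogeneous n) (h0 : aeval Z.θ g = 0) :
    ∃ l : ℕ, ∀ l' ≥ l, PP p k ^ l' * g ∈ (mm p k) ^ c ⊔ Ideal.span {s1 p k} := by
  obtain ⟨l, hl⟩ := compare p k hg (Z.ev_inj hc hdim (by rw [Z.ev_psi, h0]))
  refine ⟨l, fun l' hl' => ?_⟩
  obtain ⟨q, hq⟩ := (pow_dvd_pow_of_dvd (X0_dvd_PP p k) l).trans (pow_dvd_pow (PP p k) hl')
  rw [hq]
  have : X 0 ^ l * q * g = q * (X 0 ^ l * g) := by ring
  rw [this]
  exact Ideal.mul_mem_left _ _ hl

theorem Phi_J {E : Type*} [CommRing E] [Algebra k E] (Z : Dat p k E) {f : A p k}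
    (hf : f ∈ Ideal.span {s1 p k}) : Z.Phi f = 0 := by
  obtain ⟨q, rfl⟩ := Ideal.mem_span_singleton.mp hf
  rw [map_mul, Z.Phi_s1, zero_mul]

theorem theta_pow {E : Type*} [CommRing E] [Algebra k E] [CharP k p] (Z : Dat p k E) {c e : ℕ}
    (hc : Z.M ^ c = ⊥) (he : c ≤ p ^ e) (x : E) (hx : x - 1 ∈ Z.M) : x ^ (p ^ e) = 1 := by
  rcases subsingleton_or_nontrivial E with h | h
  · exact Subsingleton.elim _ _
  · have : CharP E p := charP_of_injective_algebraMap (algebraMap k E).injective p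
    have h1 : (x - 1) ^ (p ^ e) = 0 := by
      have h2 : (x - 1) ^ (p ^ e) ∈ Z.M ^ c :=
        Ideal.pow_le_pow_right he (Ideal.pow_mem_pow hx _)
      rwa [hc, Submodule.mem_bot] at h2
    rw [sub_pow_char_pow, one_pow, sub_eq_zero] at h1
    exact h1

theorem aeval_sh {E : Type*} [CommRing E] [Algebra k E] (Z : Dat p k E) {f : A p k} {n : ℕ}
    (hf : f.IsHomogeneous n) : aeval Z.θ (shA p k f) = Z.rho n (aeval Z.θ f) := by
  have h1 := congrArg (fun F => F.coeff n) (Z.Phi_sh f)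
  rw [Z.sig_coeff, Z.Phi_homog hf, Z.Phi_homog (sh_homog p k hf), Polynomial.coeff_C_mul_X_pow,
    if_pos rfl, Polynomial.coeff_C_mul_X_pow, if_pos rfl] at h1
  exact h1

theorem aeval_nm {E : Type*} [CommRing E] [Algebra k E] (Z : Dat p k E) {f : A p k} {n : ℕ}
    (hf : f.IsHomogeneous n) : aeval Z.θ (nm p (shA p k) f) = nm p (Z.rho n) (aeval Z.θ f) := by
  have h1 := Z.Phi_nm f n
  rw [Z.Phi_homog hf, Z.Phi_homog (nm_homog p k hf), Polynomial.coeff_C_mul_X_pow,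
    if_pos rfl, Polynomial.coeff_C_mul_X_pow, if_pos rfl] at h1
  exact h1

/-- Sparseness: natural exponents. -/
theorem sparse_nat [CharP k p] : ∃ C : ℕ → ℕ, ∀ n, n ≤ C n ∧
    ∀ (E : Type*) [CommRing E] [Algebra k E] [FiniteDimensional k E] (Z : Dat p k E),
      Z.M ^ (C n) = ⊥ → Nonempty ((D p k ⧸ (tt p k) ^ (C n)) ≃ₗ[k] E) →
      ∀ d : ℕ, (d : ZMod p) ≠ 0 → (d : ZMod p) ≠ 1 → ∀ y : E,
        (Z.rho d y = y → ∃ z, y - nm p (Z.rho d) z ∈ Z.M ^ n) ∧
        (nm p (Z.rho d) y = 0 → ∃ z, y - (Z.rho d z - z) ∈ Z.M ^ n) := by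
  obtain ⟨K, k0, hT⟩ := proT p k
  refine ⟨fun n => max n (K * (n + k0)), fun n => ⟨le_max_left _ _, ?_⟩⟩
  intro E _ _ _ Z hc hdim d hd0 hd1 y
  set c := max n (K * (n + k0)) with hcdef
  have hle : (mm p k) ^ c ⊔ Ideal.span {s1 p k} ≤
      (mm p k) ^ (K * (n + k0)) ⊔ Ideal.span {s1 p k} :=
    sup_le_sup_right (Ideal.pow_le_pow_right (le_max_right _ _)) _
  -- period
  obtain ⟨e, he⟩ : ∃ e, c ≤ p ^ e := ⟨c, (Nat.lt_pow_self hp.out.one_lt).le⟩
  have hθ : ∀ i, Z.θ i ^ (p ^ e) = 1 := fun i => theta_pow p k Z hc he _ (Z.mem i)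
  obtain ⟨Q, hQ⟩ := Z.ev_surj hc y
  obtain ⟨N0, hN0⟩ := homogenize p k Q
  set N := d + p * p ^ e * N0 with hN
  have hN0N : N0 ≤ N := by
    have : 1 * N0 ≤ p * p ^ e * N0 :=
      Nat.mul_le_mul_right _ (Nat.mul_pos hp.out.pos (pow_pos hp.out.pos e))
    omega
  obtain ⟨f, hf, hfe⟩ := hN0 N hN0N
  have hfy : aeval Z.θ f = y := by
    rw [hfe E Z.θ Z.θ0]; exact hQ
  have hrho : ∀ m, Z.rho (d + p * p ^ e * m) = Z.rho d := by
    intro m
    ext x
    rw [Z.rho_apply, Z.rho_apply, pow_add]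
    have : Z.θ 1 ^ (p * p ^ e * m) = 1 := by
      have h1 : p * p ^ e * m = p ^ e * (p * m) := by ring
      rw [h1, pow_mul, hθ, one_pow]
    rw [this, mul_one]
  have hNj : (N : ZMod p) = d := by
    rw [hN]; push_cast; rw [ZMod.natCast_self]; ring
  -- the common final argument
  have hfin : ∀ l', ∀ h ∈ (mm p k) ^ n, ∀ r : A p k,
      PP p k ^ (p ^ e * l') * f - h - r ∈ Ideal.span {s1 p k} →
      ∃ m, y - (Z.Phi r).coeff (d + p * p ^ e * m) ∈ Z.M ^ n := by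
    intro l' h hh r hr
    refine ⟨N0 + l', ?_⟩
    have h1 : (PP p k ^ (p ^ e * l') * f).IsHomogeneous (p * (p ^ e * l') + N) :=
      ((PP_homog p k).pow _).mul hf
    have h2 := Phi_J p k Z hr
    rw [map_sub, map_sub, Z.Phi_homog h1] at h2
    have h3 := congrArg (fun F => F.coeff (p * (p ^ e * l') + N)) h2
    simp only [Polynomial.coeff_sub, Polynomial.coeff_zero] at h3
    rw [Polynomial.coeff_C_mul_X_pow, if_pos rfl, map_mul, map_pow, hfy] at h3
    have h4 : (aeval Z.θ (PP p k)) ^ (p ^ e * l') = 1 := by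
      rw [PP, map_prod, pow_mul, ← Finset.prod_pow]
      have : ∀ i ∈ (Finset.univ : Finset (ZMod p)), (aeval Z.θ (X i : A p k)) ^ p ^ e = 1 := by
        intro i _
        rw [aeval_X, hθ]
      rw [Finset.prod_congr rfl this, Finset.prod_const_one, one_pow]
    rw [h4, one_mul] at h3
    have h5 : p * (p ^ e * l') + N = d + p * p ^ e * (N0 + l') := by rw [hN]; ring
    rw [h5] at h3
    have h6 := Z.Phi_mm hh (d + p * p ^ e * (N0 + l'))
    have h7 : y - (Z.Phi r).coeff (d + p * p ^ e * (N0 + l')) =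
        (Z.Phi h).coeff (d + p * p ^ e * (N0 + l')) := by linear_combination h3
    rw [h7]; exact h6
  have hmemF : ∀ l', PP p k ^ (p ^ e * l') * f ∈ Hj p k (d : ZMod p) := by
    intro l'
    have h1 : (PP p k ^ (p ^ e * l') * f).IsHomogeneous (p * (p ^ e * l') + N) :=
      ((PP_homog p k).pow _).mul hf
    have h2 := homog_mem_Hj p k h1
    have h3 : ((p * (p ^ e * l') + N : ℕ) : ZMod p) = d := by
      rw [Nat.cast_add, hNj, Nat.cast_mul, ZMod.natCast_self, zero_mul, zero_add]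
    rwa [h3] at h2
  constructor
  · intro hy
    have hg : (shA p k f - f).IsHomogeneous N := (sh_homog p k hf).sub hf
    have h0 : aeval Z.θ (shA p k f - f) = 0 := by
      rw [map_sub, aeval_sh p k Z hf, hfy, hN, hrho, hy, sub_self]
    obtain ⟨l, hl⟩ := vanish p k Z hc hdim hg h0
    have h1 := hle (hl (p ^ e * l) (Nat.le_mul_of_pos_left _ (pow_pos hp.out.pos e)))
    rw [mul_sub, ← sh_PP_mul] at h1
    obtain ⟨h, _, hh2, g, _, hg2⟩ := (hT n d hd0 hd1 _ (hmemF l)).1 h1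
    obtain ⟨m, hm⟩ := hfin l h hh2 _ hg2
    rw [Z.Phi_nm, hrho] at hm
    exact ⟨_, hm⟩
  · intro hy
    have hg : (nm p (shA p k) f).IsHomogeneous N := nm_homog p k hf
    have h0 : aeval Z.θ (nm p (shA p k) f) = 0 := by
      rw [aeval_nm p k Z hf, hfy, hN, hrho, hy]
    obtain ⟨l, hl⟩ := vanish p k Z hc hdim hg h0
    have h1 := hle (hl (p ^ e * l) (Nat.le_mul_of_pos_left _ (pow_pos hp.out.pos e)))
    rw [← nm_PP_mul] at h1
    obtain ⟨h, _, hh2, g, _, hg2⟩ := (hT n d hd0 hd1 _ (hmemF l)).2 h1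
    obtain ⟨m, hm⟩ := hfin l h hh2 _ hg2
    rw [map_sub, Polynomial.coeff_sub, Z.Phi_sh, Z.sig_coeff, ← Z.rho_apply, hrho] at hm
    exact ⟨_, hm⟩

end Vale.Agent.P251.F.Sp
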