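import Mathlib.Topology.LocallyConstant.Algebra
import Mathlib.Topology.Algebra.Algebra
import Mathlib.FieldTheory.Finite.Basic
import Mathlib.RingTheory.TensorProduct.Basic
import Mathlib.LinearAlgebra.TensorProduct.Basic
import Mathlib.LinearAlgebra.TensorProduct.Finiteness

/-!
# P251, part F: Stone duality for algebras over a finite field

* `subalgebra_eq_top_of_separates`: `X` compact, `k` a finite field: a `k`-subalgebra of
  `LocallyConstant X k` which separates the points is everything.
* `stone_bijective`: a `k`-algebra `D` with `x ^ q = x` is `LocallyConstant (Pts k D) k`,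
  `Pts k D` the profinite space of `k`-algebra maps `D → k`.
* `tensorLC_injective`, `tensorLC_surjective`: `M ⊗[k] LocallyConstant X k =
  LocallyConstant X M`, `X` compact.
-/

open TensorProduct Topology

namespace Vale.Agent.P251.F

theorem lc_sum_apply {X Y ι : Type*} [TopologicalSpace X] [AddCommMonoid Y] (s : Finset ι)
    (f : ι → LocallyConstant X Y) (x : X) : (∑ i ∈ s, f i) x = ∑ i ∈ s, f i x :=
  map_sum (LocallyConstant.evalAddMonoidHom x) f s

section SW

variable {X : Type*} [TopologicalSpace X] [CompactSpace X] {k : Type*} [Field k] [Finite k]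

omit [CompactSpace X] in
theorem exists_idem_point (A : Subalgebra k (LocallyConstant X k)) {x y : X}
    (h : ∃ a ∈ A, (a : LocallyConstant X k) x ≠ a y) :
    ∃ e ∈ A, (∀ z, (e : LocallyConstant X k) z = 0 ∨ e z = 1) ∧ e x = 1 ∧ e y = 0 := by
  classical
  have := Fintype.ofFinite k
  obtain ⟨a, ha, hxy⟩ := h
  have hq : 0 < Fintype.card k - 1 := by
    have := Fintype.one_lt_card (α := k); omega
  have hv : ∀ z, (1 - (a - algebraMap k (LocallyConstant X k) (a x)) ^ (Fintype.card k - 1) :
      LocallyConstant X k) z = if a z = a x then 1 else 0 := by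
    intro z
    have e1 : (1 - (a - algebraMap k (LocallyConstant X k) (a x)) ^ (Fintype.card k - 1) :
      LocallyConstant X k) z = 1 - (a z - a x) ^ (Fintype.card k - 1) := rfl
    rw [e1]
    split_ifs with hz
    · rw [hz, sub_self, zero_pow hq.ne', sub_zero]
    · rw [FiniteField.pow_card_sub_one_eq_one _ (sub_ne_zero.2 hz), sub_self]
  refine ⟨1 - (a - algebraMap k (LocallyConstant X k) (a x)) ^ (Fintype.card k - 1), ?_, ?_, ?_, ?_⟩
  · exact A.sub_mem A.one_mem (A.pow_mem (A.sub_mem ha (A.algebraMap_mem _)) _)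
  · intro z
    rw [hv]
    split_ifs
    · exact Or.inr rfl
    · exact Or.inl rfl
  · rw [hv, if_pos rfl]
  · rw [hv, if_neg (Ne.symm hxy)]

theorem exists_idem_closed (A : Subalgebra k (LocallyConstant X k))
    (hA : ∀ x y : X, x ≠ y → ∃ a ∈ A, (a : LocallyConstant X k) x ≠ a y) (x : X) (S : Set X)
    (hS : IsClosed S) (hx : x ∉ S) :
    ∃ e ∈ A, (∀ z, (e : LocallyConstant X k) z = 0 ∨ e z = 1) ∧ e x = 1 ∧ ∀ z ∈ S, e z = 0 := by
  refine hS.isCompact.induction_on (p := fun S => ∃ e ∈ A,
    (∀ z, (e : LocallyConstant X k) z = 0 ∨ e z = 1) ∧ e x = 1 ∧ ∀ z ∈ S, e z = 0) ?_ ?_ ?_ ?_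
  · exact ⟨1, A.one_mem, fun z => Or.inr rfl, rfl, by simp⟩
  · rintro s t hst ⟨e, he, h1, h2, h3⟩
    exact ⟨e, he, h1, h2, fun z hz => h3 z (hst hz)⟩
  · rintro s t ⟨e, he, h1, h2, h3⟩ ⟨e', he', h1', h2', h3'⟩
    refine ⟨e * e', A.mul_mem he he', fun z => ?_, ?_, fun z hz => ?_⟩
    · rw [LocallyConstant.mul_apply]
      rcases h1 z with h | h <;> rcases h1' z with h' | h' <;> simp [h, h']
    · rw [LocallyConstant.mul_apply, h2, h2', one_mul]
    · rw [LocallyConstant.mul_apply]
      rcases hz with hz | hz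
      · rw [h3 z hz, zero_mul]
      · rw [h3' z hz, mul_zero]
  · intro y hy
    have hne : x ≠ y := fun h => hx (h ▸ hy)
    obtain ⟨e, he, h1, h2, h3⟩ := exists_idem_point A (hA x y hne)
    refine ⟨{z | e z = 0}, mem_nhdsWithin_of_mem_nhds ((e.isLocallyConstant.isOpen_fiber 0).mem_nhds h3),
      e, he, h1, h2, fun z hz => hz⟩

theorem charFn_mem_of_separates (A : Subalgebra k (LocallyConstant X k))
    (hA : ∀ x y : X, x ≠ y → ∃ a ∈ A, (a : LocallyConstant X k) x ≠ a y) (U : Set X)
    (hU : IsClopen U) : LocallyConstant.charFn k hU ∈ A := by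
  obtain ⟨e, he, h1, h2, h3⟩ : ∃ e ∈ A, (∀ z, (e : LocallyConstant X k) z = 0 ∨ e z = 1) ∧
      (∀ z ∈ U, e z = 1) ∧ ∀ z ∈ Uᶜ, e z = 0 := by
    refine hU.1.isCompact.induction_on (p := fun S => ∃ e ∈ A,
      (∀ z, (e : LocallyConstant X k) z = 0 ∨ e z = 1) ∧
      (∀ z ∈ S, e z = 1) ∧ ∀ z ∈ Uᶜ, e z = 0) ?_ ?_ ?_ ?_
    · exact ⟨0, A.zero_mem, fun z => Or.inl rfl, by simp, fun z _ => rfl⟩
    · rintro s t hst ⟨e, he, h1, h2, h3⟩
      exact ⟨e, he, h1, fun z hz => h2 z (hst hz), h3⟩
    · rintro s t ⟨e, he, h1, h2, h3⟩ ⟨e', he', h1', h2', h3'⟩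
      have hv : ∀ z, (e + e' - e * e' : LocallyConstant X k) z = e z + e' z - e z * e' z :=
        fun z => rfl
      refine ⟨e + e' - e * e', A.sub_mem (A.add_mem he he') (A.mul_mem he he'),
        fun z => ?_, fun z hz => ?_, fun z hz => ?_⟩
      · rw [hv]
        rcases h1 z with h | h <;> rcases h1' z with h' | h' <;> simp [h, h']
      · rw [hv]
        rcases hz with hz | hz
        · rw [h2 z hz]; ring
        · rw [h2' z hz]; ring
      · rw [hv, h3 z hz, h3' z hz]; ring
    · intro y hy
      obtain ⟨e, he, h1, h2, h3⟩ := exists_idem_closed A hA y Uᶜ hU.compl.1 (by simpa using hy)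
      exact ⟨{z | e z = 1}, mem_nhdsWithin_of_mem_nhds
        ((e.isLocallyConstant.isOpen_fiber 1).mem_nhds h2), e, he, h1, fun z hz => hz, h3⟩
  have : LocallyConstant.charFn k hU = e := by
    classical
    ext z
    rw [LocallyConstant.coe_charFn, Set.indicator_apply]
    split_ifs with hz
    · rw [h2 z hz]; rfl
    · exact (h3 z hz).symm
  rwa [this]

theorem subalgebra_eq_top_of_separates (A : Subalgebra k (LocallyConstant X k))
    (hA : ∀ x y : X, x ≠ y → ∃ a ∈ A, (a : LocallyConstant X k) x ≠ a y) : A = ⊤ := by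
  classical
  have := Fintype.ofFinite k
  rw [eq_top_iff]
  rintro f -
  have : f = ∑ c : k, c • LocallyConstant.charFn k (f.isLocallyConstant.isClopen_fiber c) := by
    ext z
    have e1 : (∑ c : k, c • LocallyConstant.charFn k (f.isLocallyConstant.isClopen_fiber c)) z =
        ∑ c : k, c * (LocallyConstant.charFn k (f.isLocallyConstant.isClopen_fiber c)) z :=
      lc_sum_apply _ _ _
    rw [e1, Finset.sum_eq_single (f z)]
    · rw [LocallyConstant.coe_charFn, Set.indicator_of_mem (by simp)]
      simp
    · intro c _ hc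
      rw [LocallyConstant.coe_charFn, Set.indicator_of_notMem (by simpa using hc.symm), mul_zero]
    · simp
  rw [this]
  exact A.sum_mem fun c _ => A.smul_mem (charFn_mem_of_separates A hA _ _) c

end SW

section Tensor

variable {X : Type*} [TopologicalSpace X] (k : Type*) [CommRing k] (M : Type*) [AddCommGroup M]
  [Module k M]

/-- The natural map `M ⊗ LocallyConstant X k → LocallyConstant X M`. -/
noncomputable def tensorLC : M ⊗[k] LocallyConstant X k →ₗ[k] LocallyConstant X M :=
  TensorProduct.lift
    { toFun := fun m => LocallyConstant.mapₗ k (LinearMap.toSpanSingleton k M m)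
      map_add' := fun a b => by
        ext f x
        exact smul_add (f x) a b
      map_smul' := fun a b => by
        ext f x
        exact smul_comm (f x) a b }

theorem tensorLC_tmul_apply (m : M) (f : LocallyConstant X k) (x : X) :
    tensorLC k M (m ⊗ₜ[k] f) x = f x • m := rfl

variable {k M}

theorem tensorLC_surjective [CompactSpace X] :
    Function.Surjective (tensorLC k M : M ⊗[k] LocallyConstant X k → _) := by
  classical
  intro f
  refine ⟨∑ m ∈ f.range_finite.toFinset,
    m ⊗ₜ[k] LocallyConstant.charFn k (f.isLocallyConstant.isClopen_fiber m), ?_⟩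
  ext z
  rw [map_sum, lc_sum_apply, Finset.sum_eq_single (f z)]
  · rw [tensorLC_tmul_apply, LocallyConstant.coe_charFn, Set.indicator_of_mem (by simp)]
    simp
  · intro c _ hc
    rw [tensorLC_tmul_apply, LocallyConstant.coe_charFn,
      Set.indicator_of_notMem (by simpa using hc.symm), zero_smul]
  · intro h
    exact absurd (by simp) h

/-- A finite family of locally constant functions on a compact space: a tensor over them is zero
if it vanishes at each point. -/
theorem tensorLC_injective [CompactSpace X] :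
    Function.Injective (tensorLC k M : M ⊗[k] LocallyConstant X k → _) := by
  classical
  rw [injective_iff_map_eq_zero]
  intro t ht
  obtain ⟨ι, _, m, f, rfl⟩ : ∃ (ι : Type) (_ : Fintype ι) (m : ι → M)
      (f : ι → LocallyConstant X k), t = ∑ i, m i ⊗ₜ[k] f i := by
    obtain ⟨s, rfl⟩ := TensorProduct.exists_finset t
    refine ⟨Fin s.card, inferInstance, fun i => (s.equivFin.symm i).1.1,
      fun i => (s.equivFin.symm i).1.2, ?_⟩
    rw [← Finset.sum_coe_sort s (fun a => a.1 ⊗ₜ[k] a.2)]
    exact (Equiv.sum_comp s.equivFin.symm (fun a : s => a.1.1 ⊗ₜ[k] a.1.2)).symm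
  -- the common refinement
  have hg : IsLocallyConstant (fun x i => f i x) := by
    rw [IsLocallyConstant.iff_isOpen_fiber]
    intro y
    have : (fun x i => f i x) ⁻¹' {y} = ⋂ i, (f i) ⁻¹' {y i} := by
      ext x
      simp [funext_iff]
    rw [this]
    exact isOpen_iInter_of_finite fun i => (f i).isLocallyConstant.isOpen_fiber _
  let g : LocallyConstant X (ι → k) := ⟨fun x i => f i x, hg⟩
  have hf : ∀ i, f i = ∑ c ∈ g.range_finite.toFinset,
      (c i) • LocallyConstant.charFn k (g.isLocallyConstant.isClopen_fiber c) := by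
    intro i
    ext z
    rw [lc_sum_apply, Finset.sum_eq_single (g z)]
    · rw [LocallyConstant.smul_apply, LocallyConstant.coe_charFn, Set.indicator_of_mem (by simp)]
      simp [g]
    · intro c _ hc
      rw [LocallyConstant.smul_apply, LocallyConstant.coe_charFn,
        Set.indicator_of_notMem (by simpa using hc.symm), smul_zero]
    · intro h
      exact absurd (by simp) h
  have h2 : ∑ i, m i ⊗ₜ[k] f i = ∑ c ∈ g.range_finite.toFinset,
      (∑ i, c i • m i) ⊗ₜ[k]
        LocallyConstant.charFn k (g.isLocallyConstant.isClopen_fiber c) := by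
    calc ∑ i, m i ⊗ₜ[k] f i = ∑ i, ∑ c ∈ g.range_finite.toFinset,
        (c i • m i) ⊗ₜ[k] LocallyConstant.charFn k (g.isLocallyConstant.isClopen_fiber c) := by
          refine Finset.sum_congr rfl fun i _ => ?_
          conv_lhs => rw [hf i]
          rw [TensorProduct.tmul_sum]
          refine Finset.sum_congr rfl fun c _ => ?_
          rw [TensorProduct.tmul_smul, TensorProduct.smul_tmul']
      _ = _ := by
          rw [Finset.sum_comm]
          refine Finset.sum_congr rfl fun c _ => ?_
          rw [TensorProduct.sum_tmul]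
  rw [h2]
  refine Finset.sum_eq_zero fun c hc => ?_
  rw [Set.Finite.mem_toFinset] at hc
  obtain ⟨x, rfl⟩ := hc
  have h3 : ∑ i, g x i • m i = 0 := by
    have h4 := LocallyConstant.congr_fun ht x
    rw [map_sum, lc_sum_apply] at h4
    exact h4
  rw [h3, TensorProduct.zero_tmul]

end Tensor

section Stone

variable (k : Type*) [Field k] [Finite k] (D : Type*) [CommRing D] [Algebra k D]

/-- The space of `k`-points of a `k`-algebra, with the topology of pointwise convergence. -/
def Pts : Type _ := D →ₐ[k] k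

namespace Pts

variable {k D}

instance : FunLike (Pts k D) D k := inferInstanceAs (FunLike (D →ₐ[k] k) D k)

instance : AlgHomClass (Pts k D) k D k := inferInstanceAs (AlgHomClass (D →ₐ[k] k) k D k)

instance : TopologicalSpace (Pts k D) :=
  TopologicalSpace.induced (fun φ : Pts k D => (φ : D → k))
    (@Pi.topologicalSpace D (fun _ => k) fun _ => ⊥)

omit [Finite k] in
theorem isLocallyConstant_eval (d : D) : IsLocallyConstant (fun φ : Pts k D => φ d) := by
  let _ : TopologicalSpace k := ⊥
  have _ : DiscreteTopology k := ⟨rfl⟩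
  rw [IsLocallyConstant.iff_continuous]
  exact (continuous_apply d).comp continuous_induced_dom

instance : CompactSpace (Pts k D) := by
  let _ : TopologicalSpace k := ⊥
  have _ : DiscreteTopology k := ⟨rfl⟩
  have hemb : IsClosedEmbedding (fun φ : Pts k D => (φ : D → k)) := by
    refine ⟨⟨⟨rfl⟩, DFunLike.coe_injective⟩, ?_⟩
    have : Set.range (fun φ : Pts k D => (φ : D → k)) =
        {g | g 1 = 1} ∩ (⋂ (a : D) (b : D), {g | g (a * b) = g a * g b}) ∩
          (⋂ (a : D) (b : D), {g | g (a + b) = g a + g b}) ∩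
          ⋂ c : k, {g | g (algebraMap k D c) = c} := by
      ext g
      simp only [Set.mem_range, Set.mem_inter_iff, Set.mem_ofPred_eq, Set.mem_iInter]
      constructor
      · rintro ⟨φ, rfl⟩
        refine ⟨⟨⟨map_one φ, map_mul φ⟩, map_add φ⟩, fun c => ?_⟩
        exact AlgHomClass.commutes φ c
      · rintro ⟨⟨⟨h1, h2⟩, h3⟩, h4⟩
        have h0 : g 0 = 0 := by simpa using h3 0 0
        exact ⟨({ toFun := g, map_one' := h1, map_mul' := h2, map_zero' := h0, map_add' := h3,
                  commutes' := h4 } : D →ₐ[k] k), rfl⟩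
    rw [this]
    refine ((IsClosed.inter ?_ ?_).inter ?_).inter ?_
    · exact isClosed_eq (continuous_apply 1) continuous_const
    · exact isClosed_iInter fun a => isClosed_iInter fun b =>
        isClosed_eq (continuous_apply _) ((continuous_apply a).mul (continuous_apply b))
    · exact isClosed_iInter fun a => isClosed_iInter fun b =>
        isClosed_eq (continuous_apply _) ((continuous_apply a).add (continuous_apply b))
    · exact isClosed_iInter fun c => isClosed_eq (continuous_apply _) continuous_const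
  exact hemb.compactSpace

end Pts

/-- Evaluation `D → LocallyConstant (Pts k D) k`. -/
def stone : D →ₐ[k] LocallyConstant (Pts k D) k where
  toFun d := ⟨fun φ => φ d, Pts.isLocallyConstant_eval d⟩
  map_one' := by ext φ; exact map_one φ
  map_mul' a b := by ext φ; exact map_mul φ a b
  map_zero' := by ext φ; exact map_zero φ
  map_add' a b := by ext φ; exact map_add φ a b
  commutes' c := by ext φ; exact AlgHomClass.commutes φ c

omit [Finite k] in
@[simp] theorem stone_apply (d : D) (φ : Pts k D) : stone k D d φ = φ d := rfl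

variable {k D}

theorem stone_surjective : Function.Surjective (stone k D) := by
  have h := subalgebra_eq_top_of_separates (stone k D).range (fun φ ψ hne => by
    obtain ⟨d, hd⟩ := DFunLike.ne_iff.1 hne
    exact ⟨stone k D d, ⟨d, rfl⟩, hd⟩)
  rw [← AlgHom.range_eq_top]
  exact h

omit [Finite k] in
theorem prod_X_sub_C_eq [Fintype k] : (∏ c : k, (Polynomial.X - Polynomial.C c)) =
    (Polynomial.X ^ Fintype.card k - Polynomial.X : Polynomial k) := by
  have hdeg : (Polynomial.X : Polynomial k).degree <
      (Polynomial.X ^ Fintype.card k : Polynomial k).degree := by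
    rw [Polynomial.degree_X_pow, Polynomial.degree_X]
    exact_mod_cast Fintype.one_lt_card (α := k)
  have hmonic : (Polynomial.X ^ Fintype.card k - Polynomial.X : Polynomial k).Monic :=
    (Polynomial.monic_X_pow _).sub_of_left hdeg
  have h := Polynomial.prod_multiset_X_sub_C_of_monic_of_roots_card_eq hmonic (by
    rw [FiniteField.roots_X_pow_card_sub_X,
      FiniteField.X_pow_card_sub_X_natDegree_eq _ Fintype.one_lt_card, Finset.card_val,
      Finset.card_univ])
  rwa [FiniteField.roots_X_pow_card_sub_X] at h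

theorem algebraMap_surjective_of_pow_eq (E : Type*) [CommRing E] [IsDomain E] [Algebra k E]
    (hE : ∀ x : E, x ^ Nat.card k = x) : Function.Surjective (algebraMap k E) := by
  have := Fintype.ofFinite k
  intro y
  have h := congrArg (Polynomial.aeval y) (prod_X_sub_C_eq (k := k))
  rw [map_prod, map_sub, map_pow, Polynomial.aeval_X, ← Nat.card_eq_fintype_card, hE, sub_self,
    Finset.prod_eq_zero_iff] at h
  obtain ⟨c, -, hc⟩ := h
  rw [map_sub, Polynomial.aeval_X, Polynomial.aeval_C, sub_eq_zero] at hc
  exact ⟨c, hc.symm⟩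

omit [Algebra k D] in
theorem exists_prime_notMem (hD : ∀ x : D, x ^ Nat.card k = x) {x : D} (hx : x ≠ 0) :
    ∃ P : Ideal D, P.IsPrime ∧ x ∉ P := by
  have := Fintype.ofFinite k
  have hq : 2 ≤ Nat.card k := by
    rw [Nat.card_eq_fintype_card]; exact Fintype.one_lt_card
  have hnil : ¬ IsNilpotent x := by
    rintro ⟨n, hn⟩
    have h1 : ∀ m : ℕ, x ^ ((Nat.card k) ^ m) = x := by
      intro m
      induction m with
      | zero => simp
      | succ m ih => rw [pow_succ, pow_mul, ih, hD]
    have h2 : n ≤ (Nat.card k) ^ n := (Nat.lt_pow_self (by omega)).le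
    apply hx
    rw [← h1 n, ← Nat.sub_add_cancel h2, pow_add, hn, mul_zero]
  by_contra hcon
  push Not at hcon
  apply hnil
  rw [← mem_nilradical, nilradical_eq_sInf, Submodule.mem_sInf]
  exact fun P hP => hcon P hP

/-- The point attached to a prime. -/
theorem exists_algHom_of_prime (hD : ∀ x : D, x ^ Nat.card k = x) (P : Ideal D) [P.IsPrime] :
    ∃ φ : D →ₐ[k] k, ∀ x, φ x = 0 → x ∈ P := by
  have hsurj : Function.Surjective (algebraMap k (D ⧸ P)) := by
    refine algebraMap_surjective_of_pow_eq (D ⧸ P) fun y => ?_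
    obtain ⟨d, rfl⟩ := Ideal.Quotient.mk_surjective y
    rw [← map_pow, hD]
  have hbij : Function.Bijective (algebraMap k (D ⧸ P)) :=
    ⟨(algebraMap k (D ⧸ P)).injective, hsurj⟩
  obtain ⟨ε, hε⟩ : ∃ ε : (D ⧸ P) →ₐ[k] k, Function.Injective ε := by
    refine ⟨((AlgEquiv.ofBijective (Algebra.ofId k (D ⧸ P)) hbij).symm : (D ⧸ P) →ₐ[k] k), ?_⟩
    exact (AlgEquiv.ofBijective (Algebra.ofId k (D ⧸ P)) hbij).symm.injective
  refine ⟨ε.comp (Ideal.Quotient.mkₐ k P), fun x h => ?_⟩
  have h' : ε (Ideal.Quotient.mkₐ k P x) = ε 0 := by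
    rw [map_zero]; exact h
  exact Ideal.Quotient.eq_zero_iff_mem.1 (hε h')

theorem exists_point_ne (hD : ∀ x : D, x ^ Nat.card k = x) {x : D} (hx : x ≠ 0) :
    ∃ φ : Pts k D, φ x ≠ 0 := by
  obtain ⟨P, hP, hxP⟩ := exists_prime_notMem hD hx
  obtain ⟨φ, hφ⟩ := exists_algHom_of_prime hD P
  exact ⟨φ, fun h => hxP (hφ x h)⟩

theorem stone_bijective (hD : ∀ x : D, x ^ Nat.card k = x) : Function.Bijective (stone k D) := by
  refine ⟨?_, stone_surjective⟩
  rw [injective_iff_map_eq_zero]
  intro x hx
  by_contra hne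
  obtain ⟨φ, hφ⟩ := exists_point_ne hD hne
  exact hφ (LocallyConstant.congr_fun hx φ)

end Stone

end Vale.Agent.P251.F
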