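/-
P251, part F (F5): maps of torsors. Author: helper288.

`GAct G A B`: a discrete action of the group `G` on the `A`-algebra `B` by algebra maps.
`GAct.IsTorsor`: `B ⊗[A] B → LocallyConstant G B`, `b ⊗ b' ↦ (g ↦ b * ρ g b')` is bijective.
`GAct.gal_bijective`: then `C ⊗[A] B → LocallyConstant G C` is bijective for every `B`-algebra `C`.
`GAct.push_bijective`: a map of torsors `(B/A) → (B'/A')` with `B'/A'` faithfully flat induces an
isomorphism `A' ⊗[A] B → B'`.
-/
import Vale.Agent.P251.F.LCTensor
import Mathlib.Topology.LocallyConstant.Algebra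
import Mathlib.RingTheory.TensorProduct.Maps
import Mathlib.RingTheory.Flat.FaithfullyFlat.Basic
import Mathlib.LinearAlgebra.TensorProduct.Tower

open TensorProduct

namespace Vale.Agent.P251.F

/-- A discrete action of `G` on the `A`-algebra `B` by `A`-algebra maps. -/
structure GAct (G A B : Type*) [Group G] [TopologicalSpace G] [CommRing A] [CommRing B]
    [Algebra A B] where
  /-- the action -/
  ρ : G → B →ₐ[A] B
  one : ∀ b, ρ 1 b = b
  mul : ∀ g h b, ρ (g * h) b = ρ g (ρ h b)
  lc : ∀ b, IsLocallyConstant fun g => ρ g b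

namespace GAct

variable {G : Type*} [Group G] [TopologicalSpace G]

section

variable {A B : Type*} [CommRing A] [CommRing B] [Algebra A B] (α : GAct G A B)
  (C : Type*) [CommRing C] [Algebra A C] [Algebra B C] [IsScalarTower A B C]

/-- The orbit map `b ↦ (g ↦ ρ g b)` with values in a `B`-algebra `C`. -/
noncomputable def orb : B →ₐ[A] LocallyConstant G C where
  toFun b := ⟨fun g => algebraMap B C (α.ρ g b), (α.lc b).comp _⟩
  map_one' := by
    ext g
    change algebraMap B C (α.ρ g 1) = 1
    rw [map_one, map_one]
  map_mul' a b := by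
    ext g
    change algebraMap B C (α.ρ g (a * b)) = algebraMap B C (α.ρ g a) * algebraMap B C (α.ρ g b)
    rw [map_mul, map_mul]
  map_zero' := by
    ext g
    change algebraMap B C (α.ρ g 0) = 0
    rw [map_zero, map_zero]
  map_add' a b := by
    ext g
    change algebraMap B C (α.ρ g (a + b)) = algebraMap B C (α.ρ g a) + algebraMap B C (α.ρ g b)
    rw [map_add, map_add]
  commutes' a := by
    ext g
    change algebraMap B C (α.ρ g (algebraMap A B a)) = algebraMap A C a
    rw [AlgHom.commutes, ← IsScalarTower.algebraMap_apply]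

@[simp] theorem orb_apply (b : B) (g : G) : α.orb C b g = algebraMap B C (α.ρ g b) := rfl

instance : IsScalarTower A C (LocallyConstant G C) :=
  IsScalarTower.of_algebraMap_eq fun _ => rfl

/-- The Galois map `C ⊗[A] B → LocallyConstant G C`, `c ⊗ b ↦ (g ↦ c * ρ g b)`. -/
noncomputable def gal : C ⊗[A] B →ₐ[C] LocallyConstant G C :=
  Algebra.TensorProduct.lift (Algebra.ofId C _) (α.orb C) fun _ _ => Commute.all _ _

@[simp] theorem gal_tmul_apply (c : C) (b : B) (g : G) :
    α.gal C (c ⊗ₜ b) g = c * algebraMap B C (α.ρ g b) := rfl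

/-- `B` is a `G`-torsor over `A`. -/
def IsTorsor : Prop := Function.Bijective (α.gal B)

variable {α}

theorem gal_bijective [CompactSpace G] (h : α.IsTorsor) : Function.Bijective (α.gal C) := by
  -- `C ⊗[A] B ≃ C ⊗[B] (B ⊗[A] B) ≃ C ⊗[B] LC(G,B) ≃ LC(G, C ⊗[B] B) ≃ LC(G, C)`
  let e1 : C ⊗[B] (B ⊗[A] B) ≃ₗ[C] C ⊗[A] B :=
    TensorProduct.AlgebraTensorModule.cancelBaseChange A B C C B
  let g : (B ⊗[A] B) ≃ₗ[B] LocallyConstant G B :=
    LinearEquiv.ofBijective (α.gal B).toLinearMap h
  let e2 : C ⊗[B] (B ⊗[A] B) ≃ₗ[B] C ⊗[B] LocallyConstant G B :=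
    TensorProduct.congr (LinearEquiv.refl B C) g
  let e3 : C ⊗[B] LocallyConstant G B ≃ₗ[B] LocallyConstant G (C ⊗[B] B) :=
    LCT.thetaEquiv B C B G
  let e4 : LocallyConstant G (C ⊗[B] B) → LocallyConstant G C :=
    LocallyConstant.map (TensorProduct.rid B C)
  have he4 : Function.Bijective e4 := by
    constructor
    · intro f f' hf
      ext z
      have := LocallyConstant.congr_fun hf z
      exact (TensorProduct.rid B C).injective this
    · intro f
      refine ⟨LocallyConstant.map (TensorProduct.rid B C).symm f, ?_⟩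
      ext z
      exact (TensorProduct.rid B C).apply_symm_apply (f z)
  have e4z : e4 0 = 0 := by
    ext z
    change (TensorProduct.rid B C) 0 = 0
    rw [map_zero]
  have e4a : ∀ f f', e4 (f + f') = e4 f + e4 f' := by
    intro f f'
    ext z
    change (TensorProduct.rid B C) (f z + f' z) = _
    rw [map_add]
    rfl
  have key : ∀ x : C ⊗[B] (B ⊗[A] B), α.gal C (e1 x) = e4 (e3 (e2 x)) := by
    intro x
    induction x using TensorProduct.induction_on with
    | zero =>
      rw [map_zero, map_zero, map_zero, map_zero, e4z]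
    | tmul c y =>
      induction y using TensorProduct.induction_on with
      | zero =>
        rw [TensorProduct.tmul_zero, map_zero, map_zero, map_zero, map_zero, e4z]
      | tmul b b' =>
        ext z
        have h1 : e1 (c ⊗ₜ (b ⊗ₜ b')) = (b • c) ⊗ₜ b' :=
          TensorProduct.AlgebraTensorModule.cancelBaseChange_tmul _ _ _ _ _ _
        rw [h1, gal_tmul_apply]
        change _ = (TensorProduct.rid B C) (c ⊗ₜ (b * (algebraMap B B (α.ρ z b'))))
        rw [TensorProduct.rid_tmul, Algebra.smul_def, Algebra.smul_def, map_mul]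
        change _ = algebraMap B C b * algebraMap B C (α.ρ z b') * c
        ring
      | add y y' hy hy' =>
        rw [TensorProduct.tmul_add, map_add, map_add, map_add, map_add, hy, hy', e4a]
    | add x x' hx hx' =>
      rw [map_add, map_add, map_add, map_add, hx, hx', e4a]
  have hcomp : (α.gal C : C ⊗[A] B → LocallyConstant G C) ∘ e1 = e4 ∘ (e3 ∘ e2) := funext key
  have : Function.Bijective ((α.gal C : C ⊗[A] B → LocallyConstant G C) ∘ e1) := by
    rw [hcomp]
    exact he4.comp (e3.bijective.comp e2.bijective)
  exact (Function.Bijective.of_comp_iff _ e1.bijective).1 this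

end

section Push

variable {A B A' B' : Type*} [CommRing A] [CommRing B] [CommRing A'] [CommRing B']
  [Algebra A B] [Algebra A' B'] [Algebra A A'] [Algebra B B'] [Algebra A B']
  [IsScalarTower A A' B'] [IsScalarTower A B B']

variable (A B A' B') in
/-- The map `A' ⊗[A] B → B'`. -/
noncomputable def push : A' ⊗[A] B →ₐ[A'] B' :=
  Algebra.TensorProduct.lift (Algebra.ofId A' B') (IsScalarTower.toAlgHom A B B')
    fun _ _ => Commute.all _ _

@[simp] theorem push_tmul (a : A') (b : B) :
    push A B A' B' (a ⊗ₜ b) = algebraMap A' B' a * algebraMap B B' b := rfl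

/-- A map of torsors is an isomorphism. -/
theorem push_bijective [CompactSpace G] {α : GAct G A B} {α' : GAct G A' B'} (h : α.IsTorsor)
    (h' : α'.IsTorsor) [Module.FaithfullyFlat A' B']
    (hc : ∀ g b, algebraMap B B' (α.ρ g b) = α'.ρ g (algebraMap B B' b)) :
    Function.Bijective (push A B A' B') := by
  have hb : Function.Bijective ((push A B A' B').toLinearMap.lTensor B') := by
    let e1 : B' ⊗[A'] (A' ⊗[A] B) ≃ₗ[B'] B' ⊗[A] B :=
      TensorProduct.AlgebraTensorModule.cancelBaseChange A A' B' B' B
    have key : ∀ x : B' ⊗[A'] (A' ⊗[A] B),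
        α'.gal B' ((push A B A' B').toLinearMap.lTensor B' x) = α.gal B' (e1 x) := by
      intro x
      induction x using TensorProduct.induction_on with
      | zero => simp
      | tmul c y =>
        induction y using TensorProduct.induction_on with
        | zero => simp
        | tmul a b =>
          ext z
          have h1 : e1 (c ⊗ₜ (a ⊗ₜ b)) = (a • c) ⊗ₜ b :=
            TensorProduct.AlgebraTensorModule.cancelBaseChange_tmul _ _ _ _ _ _
          rw [h1, gal_tmul_apply, LinearMap.lTensor_tmul, AlgHom.toLinearMap_apply, push_tmul,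
            gal_tmul_apply, map_mul, AlgHom.commutes, hc, Algebra.smul_def]
          change c * (algebraMap A' B' a * _) = _
          ring
        | add y y' hy hy' =>
          rw [TensorProduct.tmul_add, map_add, map_add, map_add, map_add, hy, hy']
      | add x x' hx hx' =>
        rw [map_add, map_add, map_add, map_add, hx, hx']
    have hcomp : (α'.gal B' : B' ⊗[A'] B' → _) ∘ ((push A B A' B').toLinearMap.lTensor B') =
        (α.gal B' : B' ⊗[A] B → _) ∘ e1 := funext key
    have h2 : Function.Bijective ((α'.gal B' : B' ⊗[A'] B' → _) ∘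
        ((push A B A' B').toLinearMap.lTensor B')) := by
      rw [hcomp]
      exact (gal_bijective B' h).comp e1.bijective
    exact (Function.Bijective.of_comp_iff' h' _).1 h2
  exact (Module.FaithfullyFlat.lTensor_bijective_iff_bijective A' B'
    (push A B A' B').toLinearMap).1 hb

end Push

end GAct

end Vale.Agent.P251.F
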