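import Vale.Agent.P251.F.F4Flat
import Vale.Agent.P251.F.OInv
import Vale.Agent.P251.F.Height
import Vale.Agent.P251.F.TorsorMap

/-!
# P251, part F (F5.4, T-d): the concrete orbit ring `OInv k`

`k` a field, `H` a law over `k`, `R` a `k`-algebra with a law `F` such that ring homomorphisms
from `R` are determined by their restriction to `k` and by the law, and `R → OInv k` the map with
law `f • H`. Then `OInv k` with `f⁻¹ : f • H → H` represents the isomorphisms `F → H`.
-/

open TensorProduct Vale.Agent.P217 Vale.Agent.P251.C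

namespace Vale.Agent.P251.F

universe u

section Height

variable {B : Type*} [CommRing B]

theorem hasHeight_of_vF (p : ℕ) [Fact p.Prime] (h : ℕ) (F : FormalGroup B) [F.IsComm]
    (hv : ∀ i < h, vF p F i = 0) (hu : IsUnit (vF p F h)) : HasHeight p h F := by
  have hq : p ^ h ≠ 0 := pow_ne_zero_p p h
  refine ⟨PowerSeries.mk fun n => PowerSeries.coeff (p ^ h * n) (multSeries F p), ?_, ?_, ?_⟩
  · rw [← PowerSeries.coeff_zero_eq_constantCoeff_apply, PowerSeries.coeff_mk, mul_zero,
      PowerSeries.coeff_zero_eq_constantCoeff_apply, constantCoeff_multSeries]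
  · rw [PowerSeries.coeff_mk, mul_one]
    exact hu
  · ext n
    rw [PowerSeries.coeff_subst_X_pow hq]
    split_ifs with hd
    · obtain ⟨m, rfl⟩ := hd
      rw [Nat.mul_div_cancel_left _ (Nat.pos_of_ne_zero hq), PowerSeries.coeff_mk]
      rfl
    · exact coeff_multSeries_eq_zero p F h hv n hd

theorem hasHeight_of_vv (p : ℕ) [Fact p.Prime] (h : ℕ) (F : Law B)
    (hv : ∀ i < h, vv p i F = 0) (hu : IsUnit (vv p h F)) : HasHeight p h F.toFG :=
  hasHeight_of_vF p h F.toFG hv hu

end Height

/-- an automorphism of a law as an invertible series -/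
def AutF.toInv {R : Type*} [CommRing R] {H : FormalGroup R} (γ : AutF H) : InvSeries R :=
  ⟨γ.val, γ.constantCoeff_val, γ.isIso.2⟩

theorem AutF.toInv_mul {R : Type*} [CommRing R] {H : FormalGroup R} (γ δ : AutF H) :
    (γ * δ).toInv = γ.toInv * δ.toInv := rfl

theorem AutF.toInv_one {R : Type*} [CommRing R] {H : FormalGroup R} :
    (1 : AutF H).toInv = 1 := rfl

theorem AutF.toInv_inv {R : Type*} [CommRing R] {H : FormalGroup R} (γ : AutF H) :
    (γ⁻¹).toInv = γ.toInv⁻¹ := by
  rw [eq_inv_iff_mul_eq_one, ← AutF.toInv_mul, inv_mul_cancel, AutF.toInv_one]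

section GAct

variable {p h : ℕ} {k R : Type u} [Field k] {H : FormalGroup k} [CommRing R] [Algebra k R]
  {F : FormalGroup R} {T : Type u} [CommRing T] [Algebra R T] {f : PowerSeries T}

/-- the action in the form of helper288 -/
noncomputable def IsIsoRep.gact (S : OrbitSetup p h k H R F)
    (hT : IsIsoRep F (H.map (algebraMap k R)) T f) : GAct (AutF H) R T where
  ρ γ := (hT.act γ : T →ₐ[R] T)
  one b := by rw [map_one]; rfl
  mul g h b := by rw [map_mul]; rfl
  lc b := by
    have := S.finite
    have := S.commH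
    exact hT.isLocallyConstant_act S.hH' b

theorem IsIsoRep.isTorsor_gact (S : OrbitSetup p h k H R F)
    (hT : IsIsoRep F (H.map (algebraMap k R)) T f) : (hT.gact S).IsTorsor := by
  have := S.finite
  have := S.commH
  have e : ∀ u : T ⊗[R] T, (hT.gact S).gal T u = hT.torsor S.hH' u := by
    intro u
    induction u using TensorProduct.induction_on with
    | zero => rw [map_zero, map_zero]
    | add a b ha hb => rw [map_add, map_add, ha, hb]
    | tmul s t =>
      ext γ
      exact (hT.torsor_tmul_apply S.hH' s t γ).symm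
  have e' : ((hT.gact S).gal T : T ⊗[R] T → LocallyConstant (AutF H) T) = hT.torsor S.hH' :=
    funext e
  show Function.Bijective ((hT.gact S).gal T : T ⊗[R] T → LocallyConstant (AutF H) T)
  rw [e']
  exact (hT.torsor S.hH').bijective

end GAct

section OInvRep

variable {k R : Type u} [Field k] [CommRing R] [Algebra k R] {H : Law k} {F : Law R}
  [Algebra R (OInv k)]

/-- **T-d.** `OInv k` represents the isomorphisms `F → H`. -/
theorem isIsoRep_oinv
    (hι : (algebraMap R (OInv k)).comp (algebraMap k R) = OInv.inc k)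
    (hF : F.map (algebraMap R (OInv k)) = OInv.f k • H.map (OInv.inc k))
    (epi : ∀ (B : Type u) [CommRing B] (x y : R →+* B),
      x.comp (algebraMap k R) = y.comp (algebraMap k R) → F.map x = F.map y → x = y) :
    IsIsoRep F.toFG (H.toFG.map (algebraMap k R)) (OInv k) ((OInv.f k)⁻¹).val := by
  have hH : (H.map (algebraMap k R)).map (algebraMap R (OInv k)) = H.map (OInv.inc k) := by
    rw [Law.map_map, hι]
  refine ⟨?_, ?_, ?_⟩
  · refine (InvSeries.smul_eq_iff (OInv.f k)⁻¹ (F.map (algebraMap R (OInv k)))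
      ((H.map (algebraMap k R)).map (algebraMap R (OInv k)))).1 ?_
    rw [hF, inv_smul_smul, hH]
  · intro B _ _ g hg
    let γ : InvSeries B := InvSeries.ofIso (F := F.map (algebraMap R B))
      (G := (H.map (algebraMap k R)).map (algebraMap R B)) hg
    have hγ : γ • F.map (algebraMap R B) = (H.map (algebraMap k R)).map (algebraMap R B) :=
      InvSeries.ofIso_smul (F := F.map (algebraMap R B))
        (G := (H.map (algebraMap k R)).map (algebraMap R B)) hg
    let φ : OInv k →+* B := OInv.lift ((algebraMap R B).comp (algebraMap k R)) γ⁻¹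
    have hφ1 : φ.comp (OInv.inc k) = (algebraMap R B).comp (algebraMap k R) :=
      OInv.lift_comp_inc _ _
    have hφ2 : InvSeries.map φ (OInv.f k) = γ⁻¹ := OInv.map_lift_f _ _
    have hφ : φ.comp (algebraMap R (OInv k)) = algebraMap R B := by
      apply epi
      · rw [RingHom.comp_assoc, hι, hφ1]
      · rw [← Law.map_map, hF, InvSeries.map_smul, hφ2, Law.map_map, hφ1, ← Law.map_map, ← hγ,
          inv_smul_smul]
    refine ⟨{ φ with commutes' := fun r => RingHom.congr_fun hφ r }, ?_⟩
    have h3 : InvSeries.map φ (OInv.f k)⁻¹ = γ := by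
      rw [map_inv, hφ2, inv_inv]
    exact congrArg InvSeries.val h3
  · intro B _ _ φ ψ h
    have h1 : InvSeries.map (φ : OInv k →+* B) (OInv.f k)⁻¹ =
        InvSeries.map (ψ : OInv k →+* B) (OInv.f k)⁻¹ := InvSeries.ext h
    rw [map_inv, map_inv, inv_inj] at h1
    have h2 : ((φ : OInv k →+* B)).comp (OInv.inc k) = (ψ : OInv k →+* B).comp (OInv.inc k) := by
      rw [← hι, ← RingHom.comp_assoc, ← RingHom.comp_assoc, φ.comp_algebraMap,
        ψ.comp_algebraMap]
    have h3 := OInv.hom_ext h2 h1
    exact AlgHom.ext fun t => RingHom.congr_fun h3 t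

/-- the left action in coordinates: `γ` sends `f` to `f * γ` -/
theorem map_act_f (hT : IsIsoRep F.toFG (H.toFG.map (algebraMap k R)) (OInv k)
      ((OInv.f k)⁻¹).val)
    (hι : (algebraMap R (OInv k)).comp (algebraMap k R) = OInv.inc k) (γ : AutF H.toFG) :
    InvSeries.map ((hT.act γ : OInv k ≃ₐ[R] OInv k) : OInv k →+* OInv k) (OInv.f k) =
      OInv.f k * InvSeries.map (OInv.inc k) γ.toInv := by
  have h1 : InvSeries.map ((hT.ract γ⁻¹ : OInv k →ₐ[R] OInv k) : OInv k →+* OInv k)
      (OInv.f k)⁻¹ = InvSeries.map (OInv.inc k) (γ⁻¹).toInv * (OInv.f k)⁻¹ := by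
    apply InvSeries.ext
    have h2 := hT.map_ract γ⁻¹
    refine h2.trans ?_
    rw [InvSeries.mul_val, autR, pmap_pmap, hι]
    rfl
  rw [map_inv, AutF.toInv_inv, map_inv, ← mul_inv_rev, inv_inj] at h1
  exact h1

end OInvRep

end Vale.Agent.P251.F
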