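import Vale.Agent.P251.F.InvBasis
import Vale.Agent.P251.I.F

/-!
# P251, part F (F10): from the descent data `T j` to the towers `C^s(NN p h (j+1))_w`

`TTower p h G` bundles the output of F4/F5 (the rings `T j = OInv E_{j+1}` with the action of
`G = Aut H`). Consequences:
* `TTower.vanish`: `H^{s+1}(G; Prim (T j) w) = 0` implies `H^{s+1}(NN p h (j+1))_w = 0`;
* `TTower.proZero`: the pro-version.
-/

namespace Vale.Agent.P251.F

open LawRing Vale.Agent.P251.C Vale.Agent.P251.S

/-- Descent data at height `h`. -/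
structure TTower (p h : ℕ) [Fact p.Prime] (G : Type) [Group G] [TopologicalSpace G] where
  /-- the ring `T_{j+1}` -/
  T : ℕ → Type
  [ring : ∀ j, CommRing (T j)]
  [law : ∀ j, LawRing (T j)]
  [framed : ∀ j, Framed (T j)]
  [act : ∀ j, MulSemiringAction G (T j)]
  [lact : ∀ j, LawAction G (T j)]
  [disc : ∀ j, DiscMod G (T j)]
  hzero : ∀ j a, HZero G (T j) (a + 1)
  /-- transition maps -/
  red : ∀ {j j' : ℕ}, j ≤ j' → T j' →+* T j
  red_law : ∀ {j j' : ℕ} (hj : j ≤ j'), IsLawHom (red hj)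
  red_smul : ∀ {j j' : ℕ} (hj : j ≤ j') (γ : G) (t : T j'), red hj (γ • t) = γ • red hj t
  red_self : ∀ (j : ℕ) (t : T j), red (le_refl j) t = t
  red_red : ∀ {j j' j'' : ℕ} (hj : j ≤ j') (hj' : j' ≤ j'') (t : T j''),
    red hj (red hj' t) = red (hj.trans hj') t
  /-- the map `v_h⁻¹ Laz/(p, I_h^{j+1}) → T_{j+1}` -/
  ι : ∀ j, NN p h (j + 1) →+* T j
  ι_law : ∀ j, IsLawHom (ι j)
  /-- index set of a basis of `k` over `F_p` -/
  I : Type
  [fin : Fintype I]
  /-- the basis -/
  b : ∀ j, I → T j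
  i₀ : I
  inv : ∀ j, InvBasis G (ι j) (b j) i₀

attribute [instance] TTower.ring TTower.law TTower.framed TTower.act TTower.lact TTower.disc
  TTower.fin

section NNred

variable (p h : ℕ) [Fact p.Prime]

theorem NN.hom_ext {j : ℕ} {B : Type} [CommRing B] {x y : NN p h j →+* B}
    (hxy : (LawRing.law (N := NN p h j)).map x = (LawRing.law (N := NN p h j)).map y) : x = y :=
  epi_NN p h j B x y hxy

theorem NN.red_red {j j' j'' : ℕ} (hj : j ≤ j') (hj' : j' ≤ j'') :
    (NN.red p h hj).comp (NN.red p h hj') = NN.red p h (hj.trans hj') := by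
  apply NN.hom_ext
  rw [← Law.map_map, (isLawHom_NN_red p h hj').law, (isLawHom_NN_red p h hj).law,
    (isLawHom_NN_red p h (hj.trans hj')).law]

theorem NN.red_self (j : ℕ) : NN.red p h (le_refl j) = RingHom.id _ := by
  apply NN.hom_ext
  rw [(isLawHom_NN_red p h (le_refl j)).law, Law.map_id]

/-- The underlying element of the cobar complex. -/
noncomputable def tval {p h : ℕ} [Fact p.Prime] {w : ℤ} {s j : ℕ} (x : (I.towerN p h w).C s j) :
    Cob (NN p h (j + 1)) s := (show Cob.wt (NN p h (j + 1)) s w from x).1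

theorem tval_injective {w : ℤ} {s j : ℕ} :
    Function.Injective (tval : (I.towerN p h w).C s j → Cob (NN p h (j + 1)) s) :=
  Subtype.val_injective

theorem towerN_res (w : ℤ) (s : ℕ) {j j' : ℕ} (hj : j ≤ j') (z : (I.towerN p h w).C s j') :
    tval ((I.towerN p h w).res s hj z) =
      Cob.mapRing (NN.red p h (Nat.succ_le_succ hj)) s (tval z) := by
  induction hj with
  | refl =>
    rw [TowerCx.res_self, NN.red_self]
    exact (MvPolynomial.map_id _).symm
  | step hj ih =>
    rw [TowerCx.res_succ (I.towerN p h w) s hj z, ih]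
    change Cob.mapRing _ s (Cob.mapRing (NN.red p h (Nat.le_succ _)) s _) = _
    rw [Cob.mapRing_mapRing, NN.red_red]
    rfl

end NNred

namespace TTower

variable {p h : ℕ} [Fact p.Prime] {G : Type} [Group G] [TopologicalSpace G]
  (X : TTower p h G)

theorem ι_red {j j' : ℕ} (hj : j ≤ j') :
    (X.red hj).comp (X.ι j') = (X.ι j).comp (NN.red p h (Nat.succ_le_succ hj)) := by
  apply NN.hom_ext
  rw [← Law.map_map, (X.ι_law j').law, (X.red_law hj).law, ← Law.map_map,
    (isLawHom_NN_red p h _).law, (X.ι_law j).law]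

/-- The module `Prim (T j) w`. -/
abbrev M (w : ℤ) (j : ℕ) : Type := Prim (X.T j) w

/-- transition maps of the modules -/
noncomputable def f (w : ℤ) {j j' : ℕ} (hj : j ≤ j') : X.M w j' →+[G] X.M w j :=
  primMap (X.red_law hj) (X.red_smul hj) w

theorem f_self (w : ℤ) (j : ℕ) (x : X.M w j) : X.f w (le_refl j) x = x := by
  apply Subtype.val_injective
  apply Subtype.val_injective
  change Cob.mapRing (X.red (le_refl j)) 0 x.1.1 = x.1.1
  have : X.red (le_refl j) = RingHom.id _ := RingHom.ext (X.red_self j)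
  rw [this]
  exact MvPolynomial.map_id _

theorem f_f (w : ℤ) {j j' j'' : ℕ} (hj : j ≤ j') (hj' : j' ≤ j'') (x : X.M w j'') :
    X.f w hj (X.f w hj' x) = X.f w (hj.trans hj') x := by
  apply Subtype.val_injective
  apply Subtype.val_injective
  change Cob.mapRing (X.red hj) 0 (Cob.mapRing (X.red hj') 0 x.1.1) =
    Cob.mapRing (X.red (hj.trans hj')) 0 x.1.1
  rw [Cob.mapRing_mapRing]
  have : (X.red hj).comp (X.red hj') = X.red (hj.trans hj') :=
    RingHom.ext fun t => X.red_red hj hj' t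
  rw [this]

variable [IsTopologicalGroup G] [CompactSpace G]

/-- If `H^{s+1}(G; M_{j'}) → H^{s+1}(G; M_j)` is zero in weight `w` then so is the map on the
cohomology of the cobar complexes. -/
theorem cobdy {j j' : ℕ} (hj : j ≤ j') (w : ℤ) (s : ℕ)
    (hM : HMapZero G (s + 1) (X.f w hj)) (z : Cob (NN p h (j' + 1)) (s + 1))
    (hw : Cob.IsWt w z) (hdz : Cob.d (s + 1) z = 0) :
    ∃ y : Cob (NN p h (j + 1)) s, Cob.IsWt w y ∧
      Cob.d s y = Cob.mapRing (NN.red p h (Nat.succ_le_succ hj)) (s + 1) z :=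
  descent_N (X.red_law hj) (X.red_smul hj) (X.hzero j) (X.ι_law j') (X.inv j').fix (X.ι_law j)
    (X.inv j) (isLawHom_NN_red p h _) (X.ι_red hj) w s hM z hw hdz

theorem vanish (j : ℕ) (w : ℤ) (s : ℕ) (hM : HZero G (X.M w j) (s + 1))
    (z : Cob (NN p h (j + 1)) (s + 1)) (hw : Cob.IsWt w z) (hdz : Cob.d (s + 1) z = 0) :
    ∃ y : Cob (NN p h (j + 1)) s, Cob.IsWt w y ∧ Cob.d s y = z := by
  obtain ⟨y, hy, hdy⟩ := X.cobdy (le_refl j) w s (hM.hmapZero _) z hw hdz
  refine ⟨y, hy, ?_⟩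
  rw [hdy, NN.red_self]
  exact MvPolynomial.map_id _

theorem proZero (w : ℤ) (s : ℕ)
    (hM : ∀ j, ∃ j', ∃ hj : j ≤ j', HMapZero G (s + 1) (X.f w hj)) :
    (I.towerN p h w).ProZero s := by
  intro j
  obtain ⟨j', hj, hM⟩ := hM j
  refine ⟨j', hj, fun z hz => ?_⟩
  obtain ⟨y, hy, hdy⟩ := X.cobdy hj w s hM (tval z)
    (show Cob.wt (NN p h (j' + 1)) (s + 1) w from z).2 (congrArg Subtype.val hz)
  refine ⟨(show Cob.wt (NN p h (j + 1)) s w from ⟨y, hy⟩), ?_⟩
  apply tval_injective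
  rw [towerN_res]
  exact hdy

end TTower

end Vale.Agent.P251.F
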