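import Vale.Agent.P251.F.Hom

/-!
# P251, part F: transport of a formal group law along an invertible series

Light copy of the material of P217 (bundle B1).
-/

namespace Vale.Agent.P251.F

open MvPowerSeries Vale.Agent.P217

section Transport

variable {R S : Type*} [CommRing R] [CommRing S] {σ τ : Type*}

theorem cc_subst_X0 {f : PowerSeries R} (hf : PowerSeries.constantCoeff f = 0) (s : σ) :
    constantCoeff (PowerSeries.subst (X s : MvPowerSeries σ R) f : MvPowerSeries σ R) = 0 :=
  constantCoeff_subst_eq_zero (hasSubst_of_cc (by simp)).const (by simp) hf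

/-- coefficient of `X` in `G(X,Y)` is the linear coefficient of `G(X,0)` -/
theorem coeff_single_zero_eq (G : MvPowerSeries (Fin 2) R) (n : ℕ) :
    coeff (Finsupp.single 0 n) G =
      PowerSeries.coeff n (subst ![PowerSeries.X, 0] G : PowerSeries R) := by
  rw [PowerSeries.coeff, coeff_subst, finsum_eq_single _ (Finsupp.single 0 n)]
  · simp [PowerSeries.coeff_X_pow, ← PowerSeries.coeff_def rfl]
  · intro d hd
    by_cases hd₁ : d 1 = 0
    · have : d 0 ≠ n := by
        intro h0
        apply hd
        ext i
        fin_cases i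
        · simpa only [Nat.succ_eq_add_one, Nat.reduceAdd, Fin.zero_eta, Fin.isValue, Finsupp.single_eq_same] using h0
        · simpa only [Nat.succ_eq_add_one, Nat.reduceAdd, Fin.mk_one, Fin.isValue, ne_eq, one_ne_zero,     not_false_eq_true, Finsupp.single_eq_of_ne] using hd₁
      simp only [Nat.succ_eq_add_one, Nat.reduceAdd, ← PowerSeries.coeff_def rfl, Finsupp.single_eq_same, Finsupp.prod_pow, Fin.prod_univ_two, Fin.isValue, Matrix.cons_val_zero, Matrix.cons_val_one, Matrix.cons_val_fin_one, hd₁, pow_zero, mul_one, PowerSeries.coeff_X_pow, Ne.symm this, ↓reduceIte, smul_eq_mul, mul_zero]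
    · simp only [Nat.succ_eq_add_one, Nat.reduceAdd, Finsupp.prod_pow, Fin.prod_univ_two, Fin.isValue, Matrix.cons_val_zero, Matrix.cons_val_one, Matrix.cons_val_fin_one, ne_eq, hd₁, not_false_eq_true, zero_pow, mul_zero, coeff_zero, smul_eq_mul]
  · exact HasSubst.X_zero

theorem coeff_single_one_eq (G : MvPowerSeries (Fin 2) R) (n : ℕ) :
    coeff (Finsupp.single 1 n) G =
      PowerSeries.coeff n (subst ![0, PowerSeries.X] G : PowerSeries R) := by
  rw [PowerSeries.coeff, coeff_subst, finsum_eq_single _ (Finsupp.single 1 n)]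
  · simp [PowerSeries.coeff_X_pow, ← PowerSeries.coeff_def rfl]
  · intro d hd
    by_cases hd₁ : d 0 = 0
    · have : d 1 ≠ n := by
        intro h0
        apply hd
        ext i
        fin_cases i
        · simpa only [Nat.succ_eq_add_one, Nat.reduceAdd, Fin.zero_eta, Fin.isValue, ne_eq, zero_ne_one,     not_false_eq_true, Finsupp.single_eq_of_ne] using hd₁
        · simpa only [Nat.succ_eq_add_one, Nat.reduceAdd, Fin.mk_one, Fin.isValue, Finsupp.single_eq_same] using h0
      simp only [Nat.succ_eq_add_one, Nat.reduceAdd, ← PowerSeries.coeff_def rfl, Finsupp.single_eq_same, Finsupp.prod_pow, Fin.prod_univ_two, Fin.isValue, Matrix.cons_val_zero, hd₁, pow_zero, Matrix.cons_val_one, Matrix.cons_val_fin_one, one_mul, PowerSeries.coeff_X_pow, Ne.symm this, ↓reduceIte, smul_eq_mul, mul_zero]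
    · simp only [Nat.succ_eq_add_one, Nat.reduceAdd, Finsupp.prod_pow, Fin.prod_univ_two, Fin.isValue, Matrix.cons_val_zero, ne_eq, hd₁, not_false_eq_true, zero_pow, Matrix.cons_val_one, Matrix.cons_val_fin_one, zero_mul, coeff_zero, smul_eq_mul, mul_zero]
  · exact HasSubst.zero_X

/-- the series `u(F(v(X), v(Y)))`. -/
noncomputable def transSeries (F : FormalGroup R) (u v : PowerSeries R) :
    MvPowerSeries (Fin 2) R :=
  PowerSeries.subst (subst ![PowerSeries.subst (X 0 : MvPowerSeries (Fin 2) R) v,
    PowerSeries.subst (X 1 : MvPowerSeries (Fin 2) R) v] F.toPowerSeries :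
      MvPowerSeries (Fin 2) R) u

theorem hasSubst_FG {F : FormalGroup R} {x y : MvPowerSeries σ R} (hx : PowerSeries.HasSubst x)
    (hy : PowerSeries.HasSubst y) :
    PowerSeries.HasSubst (subst ![x, y] F.toPowerSeries : MvPowerSeries σ R) :=
  IsNilpotent_subst (hasSubst_pair hx hy) (by rw [F.zero_constantCoeff]; exact IsNilpotent.zero)

theorem subst_transSeries {F : FormalGroup R} {u v : PowerSeries R}
    (hv : PowerSeries.constantCoeff v = 0) {x y : MvPowerSeries σ R}
    (hx : PowerSeries.HasSubst x) (hy : PowerSeries.HasSubst y) :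
    (subst ![x, y] (transSeries F u v) : MvPowerSeries σ R) =
      PowerSeries.subst (subst ![PowerSeries.subst x v, PowerSeries.subst y v] F.toPowerSeries :
        MvPowerSeries σ R) u := by
  have hxy := hasSubst_pair hx hy
  have hX0 : PowerSeries.HasSubst (X 0 : MvPowerSeries (Fin 2) R) := hasSubst_of_cc (by simp)
  have hX1 : PowerSeries.HasSubst (X 1 : MvPowerSeries (Fin 2) R) := hasSubst_of_cc (by simp)
  have h0 := subst_hasSubst hv hX0
  have h1 := subst_hasSubst hv hX1
  have hF := hasSubst_FG (F := F) h0 h1
  rw [transSeries, PowerSeries.subst, subst_comp_subst_apply hF.const hxy,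
    subst_pair_subst h0 h1 hxy]
  rw [PowerSeries.subst, PowerSeries.subst, subst_comp_subst_apply hX0.const hxy,
    subst_comp_subst_apply hX1.const hxy]
  simp only [subst_X hxy]
  rfl

/-- transport of structure -/
noncomputable def transport (F : FormalGroup R) (u v : PowerSeries R)
    (hu : PowerSeries.constantCoeff u = 0) (hv : PowerSeries.constantCoeff v = 0)
    (huv : PowerSeries.subst v u = (PowerSeries.X : PowerSeries R))
    (hvu : PowerSeries.subst u v = (PowerSeries.X : PowerSeries R)) : FormalGroup R where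
  toPowerSeries := transSeries F u v
  zero_constantCoeff := by
    have hX0 : PowerSeries.HasSubst (X 0 : MvPowerSeries (Fin 2) R) := hasSubst_of_cc (by simp)
    have hX1 : PowerSeries.HasSubst (X 1 : MvPowerSeries (Fin 2) R) := hasSubst_of_cc (by simp)
    have h0 := subst_hasSubst hv hX0
    have h1 := subst_hasSubst hv hX1
    have hF := hasSubst_FG (F := F) h0 h1
    rw [transSeries]
    refine constantCoeff_subst_eq_zero hF.const (fun _ => ?_) hu
    refine constantCoeff_subst_eq_zero (hasSubst_pair h0 h1) (fun s => ?_) F.zero_constantCoeff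
    fin_cases s
    · exact cc_subst_X0 hv _
    · exact cc_subst_X0 hv _
  lin_coeff_X := by
    have hXs : PowerSeries.HasSubst (PowerSeries.X : PowerSeries R) :=
      hasSubst_of_cc PowerSeries.constantCoeff_X
    have h0s : PowerSeries.HasSubst (0 : PowerSeries R) := hasSubst_of_cc (by simp)
    rw [coeff_single_zero_eq]
    have e := subst_transSeries (F := F) (u := u) hv hXs h0s
    have e2 : (PowerSeries.subst (0 : PowerSeries R) v : PowerSeries R) = 0 :=
      PowerSeries.subst_zero_of_constantCoeff_zero hv
    have e3 : (PowerSeries.subst (PowerSeries.X : PowerSeries R) v : PowerSeries R) = v :=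
      PowerSeries.X_subst v
    rw [e, e2, e3, F.add_zero (hasSubst_of_cc hv), huv, PowerSeries.coeff_one_X]
  lin_coeff_Y := by
    have hXs : PowerSeries.HasSubst (PowerSeries.X : PowerSeries R) :=
      hasSubst_of_cc PowerSeries.constantCoeff_X
    have h0s : PowerSeries.HasSubst (0 : PowerSeries R) := hasSubst_of_cc (by simp)
    rw [coeff_single_one_eq]
    have e := subst_transSeries (F := F) (u := u) hv h0s hXs
    have e2 : (PowerSeries.subst (0 : PowerSeries R) v : PowerSeries R) = 0 :=
      PowerSeries.subst_zero_of_constantCoeff_zero hv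
    have e3 : (PowerSeries.subst (PowerSeries.X : PowerSeries R) v : PowerSeries R) = v :=
      PowerSeries.X_subst v
    rw [e, e2, e3, F.zero_add (hasSubst_of_cc hv), huv, PowerSeries.coeff_one_X]
  assoc := by
    have hX : ∀ s : Fin 3, PowerSeries.HasSubst (X s : MvPowerSeries (Fin 3) R) :=
      fun s => hasSubst_of_cc (by simp)
    have hvX : ∀ s : Fin 3, PowerSeries.HasSubst
        (PowerSeries.subst (X s : MvPowerSeries (Fin 3) R) v : MvPowerSeries (Fin 3) R) :=
      fun s => subst_hasSubst hv (hX s)
    have cancel : ∀ z : MvPowerSeries (Fin 3) R, PowerSeries.HasSubst z →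
        (PowerSeries.subst (PowerSeries.subst z u : MvPowerSeries (Fin 3) R) v :
          MvPowerSeries (Fin 3) R) = z := by
      intro z hz
      rw [← PowerSeries.subst_comp_subst_apply (hasSubst_of_cc hu) hz, hvu,
        PowerSeries.subst_X hz]
    have h01 := subst_transSeries (F := F) (u := u) hv (hX 0) (hX 1)
    have h12 := subst_transSeries (F := F) (u := u) hv (hX 1) (hX 2)
    rw [h01, h12]
    have hF01 := hasSubst_FG (F := F) (hvX 0) (hvX 1)
    have hF12 := hasSubst_FG (F := F) (hvX 1) (hvX 2)
    rw [subst_transSeries hv (subst_hasSubst hu hF01) (hX 2),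
      subst_transSeries hv (hX 0) (subst_hasSubst hu hF12), cancel _ hF01, cancel _ hF12,
      F.assoc' (hvX 0) (hvX 1) (hvX 2)]

theorem isHom_transport (F : FormalGroup R) (u v : PowerSeries R)
    (hu : PowerSeries.constantCoeff u = 0) (hv : PowerSeries.constantCoeff v = 0)
    (huv : PowerSeries.subst v u = (PowerSeries.X : PowerSeries R))
    (hvu : PowerSeries.subst u v = (PowerSeries.X : PowerSeries R)) :
    IsHom F (transport F u v hu hv huv hvu) u := by
  have hX0 : PowerSeries.HasSubst (X 0 : MvPowerSeries (Fin 2) R) := hasSubst_of_cc (by simp)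
  have hX1 : PowerSeries.HasSubst (X 1 : MvPowerSeries (Fin 2) R) := hasSubst_of_cc (by simp)
  have cancel : ∀ z : MvPowerSeries (Fin 2) R, PowerSeries.HasSubst z →
      (PowerSeries.subst (PowerSeries.subst z u : MvPowerSeries (Fin 2) R) v :
        MvPowerSeries (Fin 2) R) = z := by
    intro z hz
    rw [← PowerSeries.subst_comp_subst_apply (hasSubst_of_cc hu) hz, hvu,
      PowerSeries.subst_X hz]
  refine IsHom.ofPtL hu ?_
  have e := subst_transSeries (F := F) (u := u) hv (subst_hasSubst hu hX0)
    (subst_hasSubst hu hX1)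
  rw [cancel _ hX0, cancel _ hX1] at e
  exact e.symm

theorem isComm_transport (F : FormalGroup R) [F.IsComm] (u v : PowerSeries R)
    (hu : PowerSeries.constantCoeff u = 0) (hv : PowerSeries.constantCoeff v = 0)
    (huv : PowerSeries.subst v u = (PowerSeries.X : PowerSeries R))
    (hvu : PowerSeries.subst u v = (PowerSeries.X : PowerSeries R)) :
    (transport F u v hu hv huv hvu).IsComm := by
  have hX0 : PowerSeries.HasSubst (X 0 : MvPowerSeries (Fin 2) R) := hasSubst_of_cc (by simp)
  have hX1 : PowerSeries.HasSubst (X 1 : MvPowerSeries (Fin 2) R) := hasSubst_of_cc (by simp)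
  constructor
  have e := subst_transSeries (F := F) (u := u) hv hX1 hX0
  rw [F.comm' (subst_hasSubst hv hX1) (subst_hasSubst hv hX0)] at e
  exact e.symm

/-- Transport of a formal group law along an invertible series. -/
theorem exists_transport (F : FormalGroup R) [F.IsComm] (u : PowerSeries R)
    (hu : PowerSeries.constantCoeff u = 0) (hu1 : IsUnit (PowerSeries.coeff 1 u)) :
    ∃ G : FormalGroup R, G.IsComm ∧ IsIso F G u := by
  have hv := PowerSeries.constantCoeff_substInvOfIsUnit u hu1
  have h1 := PowerSeries.subst_substInvOfIsUnit_right u hu hu1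
  have h2 := PowerSeries.subst_substInvOfIsUnit_left u hu hu1
  exact ⟨transport F u (PowerSeries.substInvOfIsUnit u hu1) hu hv h1 h2,
    isComm_transport F u _ hu hv h1 h2, isHom_transport F u _ hu hv h1 h2, hu1⟩

/-- the target of an isomorphism is determined by the source and the series. -/
theorem _root_.Vale.Agent.P217.IsIso.targetL {F G G' : FormalGroup R} {u : PowerSeries R} (h : IsIso F G u)
    (h' : IsIso F G' u) : G = G' := by
  obtain ⟨v, hv, hvu, huv⟩ := h.symmL
  have hX0 : PowerSeries.HasSubst (X 0 : MvPowerSeries (Fin 2) R) := hasSubst_of_cc (by simp)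
  have hX1 : PowerSeries.HasSubst (X 1 : MvPowerSeries (Fin 2) R) := hasSubst_of_cc (by simp)
  have cancel : ∀ z : MvPowerSeries (Fin 2) R, PowerSeries.HasSubst z →
      (PowerSeries.subst (PowerSeries.subst z v : MvPowerSeries (Fin 2) R) u :
        MvPowerSeries (Fin 2) R) = z := by
    intro z hz
    rw [← PowerSeries.subst_comp_subst_apply (hasSubst_of_cc hv.1.1) hz, huv,
      PowerSeries.subst_X hz]
  have e := h.1.substL (subst_hasSubst hv.1.1 hX0) (subst_hasSubst hv.1.1 hX1)
  have e' := h'.1.substL (subst_hasSubst hv.1.1 hX0) (subst_hasSubst hv.1.1 hX1)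
  rw [cancel _ hX0, cancel _ hX1] at e e'
  have id2 : ∀ P : MvPowerSeries (Fin 2) R, subst ![X 0, X 1] P = P := by
    intro P
    have : (![X 0, X 1] : Fin 2 → MvPowerSeries (Fin 2) R) = X := by
      funext s; fin_cases s <;> rfl
    rw [this, subst_self]
    rfl
  rw [id2] at e e'
  exact FormalGroup.ext (e.symm.trans e')

end Transport

end Vale.Agent.P251.F
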