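import Vale.Agent.P251.F.LazPoly
import Vale.Agent.P251.F.Inv
import Mathlib.RingTheory.MvPolynomial.Ideal

/-!
# P251, part F: the elements `v_k` as polynomial generators modulo `p`

For a law `F` over a ring in which `p = 0`, `yF p F n` is `v_k(F)` if `n + 2 = p ^ k` and the
generator `xC F n` otherwise. The `yF p F n` are again coordinates for laws: for every sequence
`y : ℕ → B` there is exactly one law `F` with `yF p F n = y n` for all `n`.
-/

namespace Vale.Agent.P251.F

open Vale.Agent.P217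

variable {A B : Type*} [CommRing A] [CommRing B]

/-- a law is determined by its generators `xC F n`. -/
theorem law_ext_xC {F G : Law B} (h : ∀ n, xC F n = xC G n) : F = G := by
  have h1 : (Laz.lift F).comp Laz.polyHom = (Laz.lift G).comp Laz.polyHom := by
    apply MvPolynomial.ringHom_ext
    · intro r
      simp
    · intro n
      rw [RingHom.comp_apply, RingHom.comp_apply, Laz.polyHom_X, Laz.x, map_xC, map_xC,
        Laz.univ_map_lift, Laz.univ_map_lift, h]
  have h2 : Laz.lift F = Laz.lift G := by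
    ext x
    obtain ⟨y, rfl⟩ := Laz.polyHom_surjective x
    exact congrFun (congrArg DFunLike.coe h1) y
  exact Laz.lift_injective h2

/-- the law with prescribed generators. -/
noncomputable def lawOfX (x : ℕ → B) : Law B :=
  Laz.univ.map ((MvPolynomial.aeval x : MvPolynomial ℕ ℤ →ₐ[ℤ] B).toRingHom.comp
    Laz.polyEquiv.symm.toRingHom)

@[simp] theorem xC_lawOfX (x : ℕ → B) (n : ℕ) : xC (lawOfX x) n = x n := by
  rw [lawOfX, ← map_xC]
  change MvPolynomial.aeval x (Laz.polyEquiv.symm (Laz.x n)) = x n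
  rw [Laz.polyEquiv_symm_x, MvPolynomial.aeval_X]

theorem lawOfX_xC (F : Law B) : lawOfX (xC F) = F := law_ext_xC fun n => xC_lawOfX _ n

theorem map_lawOfX (φ : A →+* B) (x : ℕ → A) : (lawOfX x).map φ = lawOfX fun n => φ (x n) :=
  law_ext_xC fun n => by rw [← map_xC, xC_lawOfX, xC_lawOfX]

open Classical in
/-- `v_k(F)` if `n + 2 = p ^ k`, the generator `xC F n` otherwise. -/
noncomputable def yF (p : ℕ) (F : Law B) (n : ℕ) : B :=
  if ∃ k, n + 2 = p ^ k then PowerSeries.coeff (n + 2) (multSeries F.toFG p) else xC F n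

theorem yF_eq_vv {p : ℕ} (F : Law B) {n k : ℕ} (h : n + 2 = p ^ k) : yF p F n = vv p k F := by
  rw [yF, if_pos ⟨k, h⟩, vv, h]

theorem yF_eq_xC {p : ℕ} (F : Law B) {n : ℕ} (h : ¬ ∃ k, n + 2 = p ^ k) : yF p F n = xC F n :=
  if_neg h

theorem two_le_pow {p : ℕ} (hp : p.Prime) {k : ℕ} (hk : k ≠ 0) : 2 ≤ p ^ k :=
  hp.two_le.trans (Nat.le_self_pow hk p)

/-- `v_k` is the generator with index `p ^ k - 2`. -/
theorem yF_pow_sub {p : ℕ} (hp : p.Prime) (F : Law B) {k : ℕ} (hk : k ≠ 0) :
    yF p F (p ^ k - 2) = vv p k F :=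
  yF_eq_vv F (Nat.sub_add_cancel (two_le_pow hp hk))

theorem map_yF (p : ℕ) (φ : A →+* B) (F : Law A) (n : ℕ) :
    φ (yF p F n) = yF p (F.map φ) n := by
  by_cases h : ∃ k, n + 2 = p ^ k
  · obtain ⟨k, hk⟩ := h
    rw [yF_eq_vv F hk, yF_eq_vv _ hk, vv_map]
  · rw [yF_eq_xC F h, yF_eq_xC _ h, map_xC]

open Classical in
/-- the sign in the leading term of `yF`. -/
noncomputable def yc (p : ℕ) (R : Type*) [CommRing R] (n : ℕ) : R :=
  if ∃ k, n + 2 = p ^ k then -1 else 1

theorem isUnit_yc (p : ℕ) (R : Type*) [CommRing R] (n : ℕ) : IsUnit (yc p R n) := by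
  unfold yc
  split_ifs
  · exact isUnit_one.neg
  · exact isUnit_one

/-- The leading term of `yF` in terms of `xC`. -/
theorem yF_sub_mem {p : ℕ} (hp : p.Prime) (hB : (p : B) = 0) (F : Law B) (n : ℕ) :
    yF p F n - yc p B n * xC F n ∈ subx F n := by
  by_cases h : ∃ k, n + 2 = p ^ k
  · obtain ⟨k, hk⟩ := h
    have hk0 : k ≠ 0 := by
      rintro rfl
      rw [pow_zero] at hk
      omega
    have h1 := coeff_mulS_sub_mem F n p
    set T := ∑ j ∈ Finset.range p, ∑ i ∈ Finset.Ioo 0 (n + 2), cC (n + 2) i * j ^ i with hT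
    have h2 : dC (n + 2) * T + p = p ^ (n + 2) := dC_mul_sum (by omega) p
    have h3 : T + 1 = p ^ (n + 1) := by
      have h4 : dC (n + 2) = p := by rw [hk]; exact dC_pow hp hk0
      rw [h4] at h2
      have h5 : p * (T + 1) = p * p ^ (n + 1) := by
        rw [← pow_succ', mul_add, mul_one]
        exact h2
      exact Nat.eq_of_mul_eq_mul_left hp.pos h5
    have h6 : (T : B) = -1 := by
      have h7 : ((T + 1 : ℕ) : B) = 0 := by
        rw [h3, Nat.cast_pow, hB, zero_pow (Nat.succ_ne_zero n)]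
      rw [Nat.cast_add, Nat.cast_one] at h7
      linear_combination h7
    rw [nsmul_eq_mul, h6] at h1
    rw [yF, if_pos ⟨k, hk⟩, yc, if_pos ⟨k, hk⟩]
    exact h1
  · rw [yF_eq_xC F h, yc, if_neg h, one_mul, sub_self]
    exact Subring.zero_mem _

/-! ### the polynomial ring over `𝔽_p` -/

section ZMod

variable (p : ℕ) [hp : Fact p.Prime]

/-- `Laz → 𝔽_p[X_0, X_1, …]`, `x n ↦ X n`. -/
noncomputable def toX : Laz →+* MvPolynomial ℕ (ZMod p) :=
  (MvPolynomial.map (Int.castRingHom (ZMod p))).comp Laz.polyEquiv.symm.toRingHom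

/-- the law over `𝔽_p[X_0, X_1, …]` with generators `X n`. -/
noncomputable def xLaw : Law (MvPolynomial ℕ (ZMod p)) := Laz.univ.map (toX p)

theorem xC_xLaw (n : ℕ) : xC (xLaw p) n = MvPolynomial.X n := by
  rw [xLaw, ← map_xC]
  change MvPolynomial.map _ (Laz.polyEquiv.symm (Laz.x n)) = _
  rw [Laz.polyEquiv_symm_x, MvPolynomial.map_X]

theorem subx_xLaw_le (n : ℕ) {x : MvPolynomial ℕ (ZMod p)} (hx : x ∈ subx (xLaw p) n) :
    x ∈ below (ZMod p) n := by
  refine closure_le_below (k := ZMod p) n ?_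
  have h : (xC (xLaw p)) = fun i => (MvPolynomial.X i : MvPolynomial ℕ (ZMod p)) :=
    funext (xC_xLaw p)
  rwa [subx, h] at hx

/-- the triangular endomorphism `X n ↦ yF p (xLaw p) n`. -/
noncomputable def yθ : MvPolynomial ℕ (ZMod p) →ₐ[ZMod p] MvPolynomial ℕ (ZMod p) :=
  MvPolynomial.aeval (yF p (xLaw p))

theorem yθ_bijective : Function.Bijective (yθ p) := by
  refine bijective_of_triangular (c := fun n => yc p (ZMod p) n) (fun n => isUnit_yc p _ n)
    (s := fun n => yF p (xLaw p) n - MvPolynomial.C (yc p (ZMod p) n) * MvPolynomial.X n)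
    (fun n => ?_) (fun n => ?_)
  · have hB : ((p : ℕ) : MvPolynomial ℕ (ZMod p)) = 0 := by
      rw [← map_natCast (MvPolynomial.C (σ := ℕ) (R := ZMod p)), CharP.cast_eq_zero, map_zero]
    have h := subx_xLaw_le p n (yF_sub_mem hp.out hB (xLaw p) n)
    have h1 : yc p (MvPolynomial ℕ (ZMod p)) n = MvPolynomial.C (yc p (ZMod p) n) := by
      unfold yc
      split_ifs
      · rw [map_neg, map_one]
      · rw [map_one]
    rwa [h1, xC_xLaw] at h
  · rw [yθ, MvPolynomial.aeval_X]
    ring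

/-- `Laz → 𝔽_p[Y_0, Y_1, …]` with `v_k ↦ Y_{p^k - 2}` (`k ≥ 1`), `x n ↦ Y n` if `n + 2` is not a
power of `p`. -/
noncomputable def toY : Laz →+* MvPolynomial ℕ (ZMod p) :=
  (AlgEquiv.ofBijective (yθ p) (yθ_bijective p)).symm.toAlgHom.toRingHom.comp (toX p)

theorem yθ_toY (a : Laz) : yθ p (toY p a) = toX p a :=
  (AlgEquiv.ofBijective (yθ p) (yθ_bijective p)).apply_symm_apply (toX p a)

theorem toX_surjective : Function.Surjective (toX p) :=
  (MvPolynomial.map_surjective _ (ZMod.ringHom_surjective _)).comp Laz.polyEquiv.symm.surjective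

theorem toY_surjective : Function.Surjective (toY p) :=
  (AlgEquiv.ofBijective (yθ p) (yθ_bijective p)).symm.surjective.comp (toX_surjective p)

theorem ker_toX : RingHom.ker (toX p) = Ideal.span {(p : Laz)} := by
  ext a
  rw [RingHom.mem_ker, Ideal.mem_span_singleton]
  change MvPolynomial.map (Int.castRingHom (ZMod p)) (Laz.polyEquiv.symm a) = 0 ↔ _
  obtain ⟨b, rfl⟩ := Laz.polyEquiv.surjective a
  rw [RingEquiv.symm_apply_apply]
  constructor
  · intro h
    have h1 : (MvPolynomial.C (p : ℤ) : MvPolynomial ℕ ℤ) ∣ b := by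
      rw [MvPolynomial.C_dvd_iff_dvd_coeff]
      intro i
      have h2 := congrArg (MvPolynomial.coeff i) h
      rw [MvPolynomial.coeff_map, MvPolynomial.coeff_zero] at h2
      exact (ZMod.intCast_zmod_eq_zero_iff_dvd _ p).1 h2
    obtain ⟨c, rfl⟩ := h1
    refine ⟨Laz.polyEquiv c, ?_⟩
    rw [map_mul]
    congr 1
    simp
  · rintro ⟨c, hc⟩
    obtain ⟨d, rfl⟩ := Laz.polyEquiv.surjective c
    have : b = (p : MvPolynomial ℕ ℤ) * d := by
      apply Laz.polyEquiv.injective
      rw [hc, map_mul, map_natCast]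
    rw [this, map_mul, map_natCast, ← map_natCast (MvPolynomial.C (σ := ℕ) (R := ZMod p)),
      CharP.cast_eq_zero, map_zero, zero_mul]

theorem ker_toY : RingHom.ker (toY p) = Ideal.span {(p : Laz)} := by
  rw [← ker_toX]
  ext a
  rw [RingHom.mem_ker, RingHom.mem_ker, ← yθ_toY]
  exact (map_eq_zero_iff (yθ p) (yθ_bijective p).1).symm

/-- the law over `𝔽_p[Y_0, Y_1, …]` with `yF p (yLaw p) n = Y n`. -/
noncomputable def yLaw : Law (MvPolynomial ℕ (ZMod p)) := Laz.univ.map (toY p)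

@[simp] theorem yF_yLaw (n : ℕ) : yF p (yLaw p) n = MvPolynomial.X n := by
  apply (yθ_bijective p).1
  rw [yLaw, ← map_yF, yθ_toY, map_yF, yθ, MvPolynomial.aeval_X]
  rfl

theorem toY_v {k : ℕ} (hk : k ≠ 0) : toY p (Laz.v p k) = MvPolynomial.X (p ^ k - 2) := by
  rw [Laz.v, ← vv_map, ← yF_pow_sub hp.out _ hk]
  exact yF_yLaw p _

theorem toY_x {n : ℕ} (h : ¬ ∃ k, n + 2 = p ^ k) : toY p (Laz.x n) = MvPolynomial.X n := by
  rw [Laz.x, map_xC, ← yF_eq_xC _ h]
  exact yF_yLaw p _

/-- Every law over a ring of characteristic `p` is classified by its `yF`. -/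
theorem lift_eq_comp_toY [CharP B p] (F : Law B) :
    Laz.lift F = (MvPolynomial.eval₂Hom (ZMod.castHom dvd_rfl B) (yF p F)).comp (toY p) := by
  set χ : MvPolynomial ℕ (ZMod p) →+* B :=
    MvPolynomial.eval₂Hom (ZMod.castHom dvd_rfl B) (xC F) with hχ
  have h1 : χ.comp (toX p) = Laz.lift F := by
    apply Laz.equiv.injective
    change Laz.univ.map (χ.comp (toX p)) = Laz.univ.map (Laz.lift F)
    rw [Laz.univ_map_lift, ← Law.map_map]
    refine law_ext_xC fun n => ?_
    rw [← map_xC]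
    change χ (xC (xLaw p) n) = _
    rw [xC_xLaw, hχ, MvPolynomial.eval₂Hom_X']
  have h2 : χ.comp (yθ p : MvPolynomial ℕ (ZMod p) →+* MvPolynomial ℕ (ZMod p)) =
      MvPolynomial.eval₂Hom (ZMod.castHom dvd_rfl B) (yF p F) := by
    apply MvPolynomial.ringHom_ext
    · intro r
      rw [RingHom.comp_apply, RingHom.coe_coe, ← MvPolynomial.algebraMap_eq, AlgHom.commutes,
        MvPolynomial.algebraMap_eq, hχ, MvPolynomial.eval₂Hom_C, MvPolynomial.eval₂Hom_C]
    · intro n
      rw [RingHom.comp_apply, RingHom.coe_coe, yθ, MvPolynomial.aeval_X, map_yF,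
        MvPolynomial.eval₂Hom_X', xLaw, Law.map_map, h1, Laz.univ_map_lift]
  rw [← h1, ← h2, RingHom.comp_assoc]
  congr 1
  exact RingHom.ext fun a => (yθ_toY p a).symm

variable {p}

/-- A law over a ring in which `p = 0` is determined by its `yF`. -/
theorem law_ext_yF (hB : (p : B) = 0) {F G : Law B} (h : ∀ n, yF p F n = yF p G n) : F = G := by
  rcases subsingleton_or_nontrivial B with h1 | h1
  · exact law_ext_xC fun n => Subsingleton.elim _ _
  have : CharP B p := (CharP.charP_iff_prime_eq_zero hp.out).2 hB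
  apply Laz.lift_injective
  rw [lift_eq_comp_toY p F, lift_eq_comp_toY p G, funext h]

/-- Over a ring in which `p = 0` there is a law with prescribed `yF`. -/
theorem exists_law_yF (hB : (p : B) = 0) (y : ℕ → B) : ∃ F : Law B, ∀ n, yF p F n = y n := by
  rcases subsingleton_or_nontrivial B with h1 | h1
  · exact ⟨addLaw B, fun n => Subsingleton.elim _ _⟩
  have : CharP B p := (CharP.charP_iff_prime_eq_zero hp.out).2 hB
  refine ⟨(yLaw p).map (MvPolynomial.eval₂Hom (ZMod.castHom dvd_rfl B) y), fun n => ?_⟩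
  rw [← map_yF, yF_yLaw, MvPolynomial.eval₂Hom_X']

/-- The law with prescribed `yF`. -/
noncomputable def lawOfY (hB : (p : B) = 0) (y : ℕ → B) : Law B := (exists_law_yF hB y).choose

@[simp] theorem yF_lawOfY (hB : (p : B) = 0) (y : ℕ → B) (n : ℕ) :
    yF p (lawOfY hB y) n = y n := (exists_law_yF hB y).choose_spec n

theorem eq_lawOfY (hB : (p : B) = 0) (F : Law B) : F = lawOfY hB (yF p F) :=
  law_ext_yF hB fun n => by rw [yF_lawOfY]

theorem map_lawOfY (φ : A →+* B) (hA : (p : A) = 0) (hB : (p : B) = 0) (y : ℕ → A) :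
    (lawOfY hA y).map φ = lawOfY hB fun n => φ (y n) :=
  law_ext_yF hB fun n => by rw [← map_yF, yF_lawOfY, yF_lawOfY]

end ZMod

end Vale.Agent.P251.F
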