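import Vale.Agent.P251.F.VGen

/-!
# P251, part F: the higher `v_i` after a change of coordinates

Let `p = 0` in `B` and let `F` be a law with `v_0 = … = v_{h-1} = 0`, `q = p ^ h`, `v = v_h(F)`.
For a strict series `f` the coefficient of `x^{q (n+2)}` in the `p`-series of `f • F` is
`v^{n+2} c_{n+1}(f) - v c_{n+1}(f)^q` up to polynomials in the coefficients of `[p]_F` and the
`c_k(f)`, `k ≤ n`.
-/

namespace Vale.Agent.P251.F

open MvPowerSeries Vale.Agent.P217 Finsupp

section Ord

variable {τ R : Type*} [CommRing R]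

theorem ordI_pow_mul {M : ℕ} {f : MvPowerSeries τ R} (hf : f ∈ ordI τ R M) (n : ℕ) :
    f ^ n ∈ ordI τ R (M * n) := by
  induction n with
  | zero => exact mem_ordI_zero _
  | succ n ih => rw [pow_succ, Nat.mul_succ]; exact ordI_mul ih hf

theorem psubst_mem_ordI_mul {a : MvPowerSeries τ R} {q : ℕ} (hq : 1 ≤ q) (ha : a ∈ ordI τ R q)
    {k : ℕ} {f : PowerSeries R} (hf : f ∈ ordI Unit R k) :
    PowerSeries.subst a f ∈ ordI τ R (q * k) := by
  have hs := hasSubst_of_mem (ordI_anti hq ha)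
  obtain ⟨g, rfl⟩ := PowerSeries.X_pow_dvd_iff.2 (mem_ordI_unit.1 hf)
  rw [PowerSeries.subst_mul hs, PowerSeries.subst_pow hs, PowerSeries.subst_X hs]
  exact Ideal.mul_mem_right _ _ (ordI_pow_mul ha k)

theorem pow_sub_pow_mem_mul {a b : MvPowerSeries τ R} {M : ℕ} (ha : a ∈ ordI τ R M)
    (hb : b ∈ ordI τ R M) (hab : a - b ∈ ordI τ R (M + 1)) (n : ℕ) :
    a ^ n - b ^ n ∈ ordI τ R (M * n + 1) := by
  induction n with
  | zero => rw [pow_zero, pow_zero, sub_self]; exact Ideal.zero_mem _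
  | succ n ih =>
    have h1 : a ^ (n + 1) - b ^ (n + 1) = (a ^ n - b ^ n) * a + b ^ n * (a - b) := by ring
    rw [h1]
    refine Ideal.add_mem _ ?_ ?_
    · have h2 := ordI_mul ih ha
      rwa [show M * n + 1 + M = M * (n + 1) + 1 by ring] at h2
    · have h2 := ordI_mul (ordI_pow_mul hb n) hab
      rwa [show M * n + (M + 1) = M * (n + 1) + 1 by ring] at h2

end Ord

variable {B : Type*} [CommRing B]

theorem inv_val_sub_mem {g : InvSeries B} {c : B} {n : ℕ}
    (hg : g.val - (PowerSeries.X + PowerSeries.C c * PowerSeries.X ^ (n + 2)) ∈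
      ordI Unit B (n + 3)) :
    (g⁻¹).val - (PowerSeries.X - PowerSeries.C c * PowerSeries.X ^ (n + 2)) ∈
      ordI Unit B (n + 3) := by
  have h1 := psubst_expand (g⁻¹).val_mem hg
  have h3 : PowerSeries.subst (g⁻¹).val g.val = (PowerSeries.X : PowerSeries B) := g.inv_subst_val
  rw [h3] at h1
  have h2 : (g⁻¹).val - PowerSeries.X ∈ ordI Unit B 2 := by
    have h4 := ordI_anti (show 2 ≤ n + 2 + 1 by omega) h1
    have h5 : MvPowerSeries.C c * (g⁻¹).val ^ (n + 2) ∈ ordI Unit B 2 :=
      Ideal.mul_mem_left _ _ (ordI_anti (by omega) (ordI_pow (g⁻¹).val_mem (n + 2)))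
    have h6 : (g⁻¹).val - PowerSeries.X = -((PowerSeries.X -
      ((g⁻¹).val + MvPowerSeries.C c * (g⁻¹).val ^ (n + 2))) +
        MvPowerSeries.C c * (g⁻¹).val ^ (n + 2)) := by ring
    rw [h6]
    exact Ideal.neg_mem_iff _ |>.2 (Ideal.add_mem _ h4 h5)
  have h7 := pow_sub_pow_mem (g⁻¹).val_mem psX_mem h2 (n + 2)
  have h8 : (g⁻¹).val - (PowerSeries.X - PowerSeries.C c * PowerSeries.X ^ (n + 2)) =
      -((PowerSeries.X - ((g⁻¹).val + MvPowerSeries.C c * (g⁻¹).val ^ (n + 2))) +
        MvPowerSeries.C c * ((g⁻¹).val ^ (n + 2) - PowerSeries.X ^ (n + 2))) := by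
    change (g⁻¹).val - (PowerSeries.X - PowerSeries.C c * PowerSeries.X ^ (n + 2)) =
      -((PowerSeries.X - ((g⁻¹).val + PowerSeries.C c * (g⁻¹).val ^ (n + 2))) +
        PowerSeries.C c * ((g⁻¹).val ^ (n + 2) - PowerSeries.X ^ (n + 2)))
    ring
  rw [h8]
  exact Ideal.neg_mem_iff _ |>.2 (Ideal.add_mem _ h1 (Ideal.mul_mem_left _ _ h7))

/-- The `m`-series of `f • F` is `f ∘ [m]_F ∘ f⁻¹`. -/
theorem multSeries_smul_subst (f : InvSeries B) (F : Law B) (m : ℕ) :
    multSeries (f • F).toFG m = (PowerSeries.subst (PowerSeries.subst (f⁻¹).val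
      (multSeries F.toFG m) : PowerSeries B) f.val : PowerSeries B) := by
  have h := congrArg (PowerSeries.subst (f⁻¹).val) (smul_multSeries f F m)
  have hcc : PowerSeries.constantCoeff (multSeries F.toFG m) = 0 :=
    (isHom_multSeries F.toFG m).1
  rw [PowerSeries.subst_comp_subst_apply (hasSubst_of_cc hcc) (f⁻¹).hs,
    PowerSeries.subst_comp_subst_apply f.hs (f⁻¹).hs, f.inv_subst_val, PowerSeries.X_subst] at h
  exact h.symm

/-- The leading change of the `p`-series under a change of coordinates `x + c x^{n+2} + …`. -/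
theorem multSeries_smul_sub_mem {p : ℕ} [hp : Fact p.Prime] [CharP B p] {F : Law B} {h : ℕ}
    {W : PowerSeries B} (hW0 : PowerSeries.constantCoeff W = 0)
    (hW : multSeries F.toFG p =
      (PowerSeries.subst (PowerSeries.X ^ (p ^ h) : PowerSeries B) W : PowerSeries B))
    {g : InvSeries B} {c : B} {n : ℕ}
    (hg : g.val - (PowerSeries.X + PowerSeries.C c * PowerSeries.X ^ (n + 2)) ∈
      ordI Unit B (n + 3)) :
    multSeries (g • F).toFG p - (multSeries F.toFG p +
      PowerSeries.C (PowerSeries.coeff 1 W ^ (n + 2) * c -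
        PowerSeries.coeff 1 W * c ^ (p ^ h)) * PowerSeries.X ^ (p ^ h * (n + 2))) ∈
      ordI Unit B (p ^ h * (n + 2) + 1) := by
  set q := p ^ h with hq
  have hq1 : 1 ≤ q := Nat.pos_of_ne_zero (pow_ne_zero h hp.out.ne_zero)
  set w := PowerSeries.coeff 1 W with hw
  have hP : CharP (PowerSeries B) p := charP_of_injective_ringHom PowerSeries.C_injective p
  set u : PowerSeries B := (g⁻¹).val with hu
  have hu1 : u ∈ ordI Unit B 1 := (g⁻¹).val_mem
  have hr := inv_val_sub_mem hg
  set r : PowerSeries B := u - (PowerSeries.X - PowerSeries.C c * PowerSeries.X ^ (n + 2)) with hrd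
  have huq : u ^ q = PowerSeries.X ^ q - PowerSeries.C (c ^ q) * PowerSeries.X ^ (q * (n + 2)) +
      r ^ q := by
    have h1 : u = (PowerSeries.X - PowerSeries.C c * PowerSeries.X ^ (n + 2)) + r := by
      rw [hrd]; ring
    conv_lhs => rw [h1]
    rw [hq, add_pow_char_pow, sub_pow_char_pow, mul_pow, ← map_pow, ← pow_mul, mul_comm (n + 2)]
  have hrq : r ^ q ∈ ordI Unit B (q * (n + 2) + 1) := by
    refine ordI_anti ?_ (ordI_pow_mul hr q)
    nlinarith
  have hXq : (PowerSeries.X ^ q : PowerSeries B) ∈ ordI Unit B q := ordI_pow psX_mem q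
  have huq1 : u ^ q ∈ ordI Unit B q := ordI_pow hu1 q
  -- the linear and higher parts of `W`
  set W2 : PowerSeries B := W - PowerSeries.C w * PowerSeries.X with hW2
  have hW2m : W2 ∈ ordI Unit B 2 := by
    rw [mem_ordI_unit]
    intro k hk
    rw [hW2, map_sub, PowerSeries.coeff_C_mul, PowerSeries.coeff_X]
    rcases k with _ | k
    · rw [PowerSeries.coeff_zero_eq_constantCoeff_apply, hW0, if_neg (by omega), mul_zero,
        sub_zero]
    · obtain rfl : k = 0 := by omega
      rw [if_pos rfl, mul_one, hw, sub_self]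
  have hWe : ∀ a : PowerSeries B, a ∈ ordI Unit B 1 →
      (PowerSeries.subst a W : PowerSeries B) = PowerSeries.C w * a + PowerSeries.subst a W2 := by
    intro a ha
    have hs := hasSubst_of_mem ha
    have h1 : W = PowerSeries.C w * PowerSeries.X + W2 := by rw [hW2]; ring
    conv_lhs => rw [h1]
    rw [PowerSeries.subst_add hs, PowerSeries.subst_mul hs, PowerSeries.subst_X hs,
      PowerSeries.subst_C]
    rfl
  have hXq1 : (PowerSeries.X ^ q : PowerSeries B) ∈ ordI Unit B 1 := ordI_anti hq1 hXq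
  have huq2 : u ^ q ∈ ordI Unit B 1 := ordI_anti hq1 huq1
  set P := multSeries F.toFG p with hPd
  -- `z = P ∘ u`
  set z : PowerSeries B := PowerSeries.subst u P with hz
  have hzW : z = PowerSeries.subst (u ^ q) W := by
    rw [hz, hW, PowerSeries.subst_comp_subst_apply (hasSubst_of_mem hXq1) (hasSubst_of_mem hu1),
      PowerSeries.subst_pow (hasSubst_of_mem hu1), PowerSeries.subst_X (hasSubst_of_mem hu1)]
  have hCX : PowerSeries.C (c ^ q) * PowerSeries.X ^ (q * (n + 2)) ∈
      ordI Unit B (q * (n + 2)) :=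
    Ideal.mul_mem_left _ _ (ordI_pow psX_mem _)
  have hd : u ^ q - PowerSeries.X ^ q ∈ ordI Unit B (q * (n + 2)) := by
    have h1 : u ^ q - PowerSeries.X ^ q =
        r ^ q - PowerSeries.C (c ^ q) * PowerSeries.X ^ (q * (n + 2)) := by rw [huq]; ring
    rw [h1]
    exact Ideal.sub_mem _ (ordI_anti (Nat.le_succ _) hrq) hCX
  have hqn : q * (n + 2) = (q * (n + 2) - 1) + 1 := by
    have : 1 ≤ q * (n + 2) := by nlinarith
    omega
  have hz1 : z - P + PowerSeries.C (w * c ^ q) * PowerSeries.X ^ (q * (n + 2)) ∈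
      ordI Unit B (q * (n + 2) + 1) := by
    have h1 := psubst_sub_mem_ordI (N := q * (n + 2) - 1) huq2 hXq1 (by rwa [← hqn]) hW2m
    rw [show q * (n + 2) - 1 + 2 = q * (n + 2) + 1 by omega] at h1
    have h2 : z - P + PowerSeries.C (w * c ^ q) * PowerSeries.X ^ (q * (n + 2)) =
        (PowerSeries.subst (u ^ q) W2 - PowerSeries.subst (PowerSeries.X ^ q) W2 :
          PowerSeries B) + PowerSeries.C w * r ^ q := by
      rw [hzW, hW, hWe _ huq2, hWe _ hXq1]
      conv_lhs => rw [show PowerSeries.C w * u ^ q = PowerSeries.C w * (PowerSeries.X ^ q -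
        PowerSeries.C (c ^ q) * PowerSeries.X ^ (q * (n + 2)) + r ^ q) by rw [← huq]]
      rw [map_mul]
      ring
    rw [h2]
    exact Ideal.add_mem _ h1 (Ideal.mul_mem_left _ _ hrq)
  -- `z = w x^q + …`
  have hz0 : z - PowerSeries.C w * PowerSeries.X ^ q ∈ ordI Unit B (q + 1) := by
    have h1 : z - PowerSeries.C w * PowerSeries.X ^ q =
        PowerSeries.C w * (u ^ q - PowerSeries.X ^ q) + PowerSeries.subst (u ^ q) W2 := by
      rw [hzW, hWe _ huq2]; ring
    rw [h1]
    refine Ideal.add_mem _ (Ideal.mul_mem_left _ _ (ordI_anti (by nlinarith) hd)) ?_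
    exact ordI_anti (by omega) (psubst_mem_ordI_mul hq1 huq1 hW2m)
  have hCq : PowerSeries.C w * PowerSeries.X ^ q ∈ ordI Unit B q := Ideal.mul_mem_left _ _ hXq
  have hzq : z ∈ ordI Unit B q := by
    have h1 : z = (z - PowerSeries.C w * PowerSeries.X ^ q) +
      PowerSeries.C w * PowerSeries.X ^ q := by ring
    rw [h1]
    exact Ideal.add_mem _ (ordI_anti (Nat.le_succ q) hz0) hCq
  have hzp := pow_sub_pow_mem_mul hzq hCq hz0 (n + 2)
  -- the series `g`
  set s : PowerSeries B := g.val - (PowerSeries.X + PowerSeries.C c * PowerSeries.X ^ (n + 2))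
    with hs
  have hzs := hasSubst_of_mem (ordI_anti hq1 hzq)
  have hgz : (PowerSeries.subst z g.val : PowerSeries B) =
      z + PowerSeries.C c * z ^ (n + 2) + PowerSeries.subst z s := by
    have h1 : g.val = PowerSeries.X + PowerSeries.C c * PowerSeries.X ^ (n + 2) + s := by
      rw [hs]; ring
    conv_lhs => rw [h1]
    rw [PowerSeries.subst_add hzs, PowerSeries.subst_add hzs, PowerSeries.subst_mul hzs,
      PowerSeries.subst_pow hzs, PowerSeries.subst_X hzs, PowerSeries.subst_C]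
    rfl
  have hsz := psubst_mem_ordI_mul hq1 hzq hg
  have hsz1 : (PowerSeries.subst z s : PowerSeries B) ∈ ordI Unit B (q * (n + 2) + 1) :=
    ordI_anti (by nlinarith) hsz
  rw [multSeries_smul_subst]
  change (PowerSeries.subst z g.val : PowerSeries B) - _ ∈ _
  rw [hgz]
  have hfin : z + PowerSeries.C c * z ^ (n + 2) + PowerSeries.subst z s - (P +
      PowerSeries.C (w ^ (n + 2) * c - w * c ^ q) * PowerSeries.X ^ (q * (n + 2))) =
      (z - P + PowerSeries.C (w * c ^ q) * PowerSeries.X ^ (q * (n + 2))) +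
      PowerSeries.C c * (z ^ (n + 2) - (PowerSeries.C w * PowerSeries.X ^ q) ^ (n + 2)) +
      PowerSeries.subst z s := by
    have hCw : (PowerSeries.C w) ^ (n + 2) = PowerSeries.C (w ^ (n + 2)) :=
      (map_pow PowerSeries.C w (n + 2)).symm
    rw [mul_pow, hCw, ← pow_mul, map_sub, map_mul, map_mul]
    ring
  rw [hfin]
  exact Ideal.add_mem _ (Ideal.add_mem _ hz1 (Ideal.mul_mem_left _ _ hzp)) hsz1

/-- The coefficients of `f ∘ P ∘ f⁻¹` lie in a subring containing those of `f` and `P`. -/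
theorem coeff_multSeries_smul_mem (S : Subring B) {F : Law B} {p : ℕ}
    (hF : ∀ k, PowerSeries.coeff k (multSeries F.toFG p) ∈ S) {f : InvSeries B}
    (hf : f ∈ strict B) (hfS : ∀ k, f.c k ∈ S) (k : ℕ) :
    PowerSeries.coeff k (multSeries (f • F).toFG p) ∈ S := by
  set f' : InvSeries S := strictMk fun n => ⟨f.c (n + 1), hfS (n + 1)⟩ with hf'
  have h1 : InvSeries.map S.subtype f' = f := by
    rw [hf', map_strictMk]
    exact strictMk_c hf
  set P' : PowerSeries S := PowerSeries.mk fun k => ⟨_, hF k⟩ with hP'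
  have h2 : PowerSeries.map S.subtype P' = multSeries F.toFG p := by
    ext k
    rw [PowerSeries.coeff_map, hP', PowerSeries.coeff_mk]
    rfl
  have hcc : PowerSeries.constantCoeff P' = 0 := by
    apply Subtype.val_injective
    have h3 := (isHom_multSeries F.toFG p).1
    rw [← h2, ← PowerSeries.coeff_zero_eq_constantCoeff_apply, PowerSeries.coeff_map,
      PowerSeries.coeff_zero_eq_constantCoeff_apply] at h3
    exact h3
  have h4 : PowerSeries.HasSubst (PowerSeries.subst (f'⁻¹).val P' : PowerSeries S) :=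
    hasSubst_of_cc (HT_constantCoeff_subst_of_zero (fun _ => (f'⁻¹).cc) P' |>.trans hcc)
  have h3 : multSeries (f • F).toFG p = PowerSeries.map S.subtype
      (PowerSeries.subst (PowerSeries.subst (f'⁻¹).val P' : PowerSeries S) f'.val) := by
    have h5 : PowerSeries.map S.subtype (PowerSeries.subst (PowerSeries.subst (f'⁻¹).val P' :
        PowerSeries S) f'.val) = PowerSeries.subst (PowerSeries.map S.subtype
          (PowerSeries.subst (f'⁻¹).val P')) (PowerSeries.map S.subtype f'.val) :=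
      PowerSeries.map_subst h4 _
    have h6 : PowerSeries.map S.subtype (PowerSeries.subst (f'⁻¹).val P') =
        PowerSeries.subst (PowerSeries.map S.subtype (f'⁻¹).val)
          (PowerSeries.map S.subtype P') :=
      PowerSeries.map_subst (f'⁻¹).hs _
    rw [h5, h6, h2, ← InvSeries.map_val, ← InvSeries.map_val, map_inv, h1, multSeries_smul_subst]
  rw [h3, PowerSeries.coeff_map]
  exact Subtype.mem _

/-- **The higher `v_i` after a strict change of coordinates.** -/
theorem coeff_multSeries_smul_sub_mem {p : ℕ} [hp : Fact p.Prime] (hB : (p : B) = 0) {h : ℕ}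
    {F : Law B} (hF : ∀ i < h, vv p i F = 0) (S : Subring B)
    (hFS : ∀ k, PowerSeries.coeff k (multSeries F.toFG p) ∈ S) {f : InvSeries B}
    (hf : f ∈ strict B) (n : ℕ) (hfS : ∀ k ≤ n, f.c k ∈ S) :
    PowerSeries.coeff (p ^ h * (n + 2)) (multSeries (f • F).toFG p) -
      (vv p h F ^ (n + 2) * f.c (n + 1) - vv p h F * f.c (n + 1) ^ (p ^ h)) ∈ S := by
  rcases subsingleton_or_nontrivial B with hB1 | hB1
  · rw [Subsingleton.elim (PowerSeries.coeff (p ^ h * (n + 2)) (multSeries (f • F).toFG p) -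
      (vv p h F ^ (n + 2) * f.c (n + 1) - vv p h F * f.c (n + 1) ^ (p ^ h))) 0]
    exact S.zero_mem
  have hchar : CharP B p := (CharP.charP_iff_prime_eq_zero hp.out).2 hB
  -- truncation of `f`
  set f' : InvSeries B := strictMk fun k => if k < n then f.c (k + 1) else 0 with hf'
  have hf's : f' ∈ strict B := strictMk_mem _
  have hf'c : ∀ k ≤ n, f.c k = f'.c k := by
    intro k hk
    rcases k with _ | k
    · rw [mem_strict.1 hf, mem_strict.1 hf's]
    · rw [hf', c_succ_strictMk, if_pos (by omega)]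
  have hf'0 : f'.c (n + 1) = 0 := by rw [hf', c_succ_strictMk, if_neg (lt_irrefl n)]
  have hf'S : ∀ k, f'.c k ∈ S := by
    intro k
    rcases k with _ | k
    · rw [mem_strict.1 hf's]
      exact S.one_mem
    · rw [hf', c_succ_strictMk]
      split_ifs with hk
      · exact hfS _ (by omega)
      · exact S.zero_mem
  set g : InvSeries B := f * f'⁻¹ with hg
  have h1 := mul_inv_sub_mem hf's hf'c
  rw [hf'0, sub_zero, ← hg] at h1
  have h2 : g • (f' • F) = f • F := by rw [hg, mul_smul, inv_smul_smul]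
  -- the series `W`
  have hF' : ∀ i < h, vv p i (f' • F) = 0 := (vv_smul_of_zero p h F f' hF).1
  have hv : vv p h (f' • F) = vv p h F := by
    have h3 := (vv_smul_of_zero p h F f' hF).2
    rwa [mem_strict.1 hf's, one_pow, mul_one, one_mul] at h3
  obtain ⟨W, hW, hWhom⟩ := exists_height' p (isHom_multSeries (f' • F).toFG p) h hF'
  have hW1 : PowerSeries.coeff 1 W = vv p h F := by
    rw [← hv, vv]
    conv_rhs => rw [hW]
    have hpp : p ^ h ≠ 0 := pow_ne_zero h hp.out.ne_zero
    rw [PowerSeries.coeff_subst_X_pow hpp, if_pos dvd_rfl, Nat.div_self (Nat.pos_of_ne_zero hpp),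
      Algebra.algebraMap_self, RingHom.id_apply]
  have h4 := multSeries_smul_sub_mem hWhom.1 hW h1
  rw [h2, mem_ordI_unit] at h4
  have h5 := h4 _ (Nat.lt_succ_self _)
  rw [map_sub, map_add, PowerSeries.coeff_C_mul, PowerSeries.coeff_X_pow, if_pos rfl, mul_one,
    hW1] at h5
  have h6 : PowerSeries.coeff (p ^ h * (n + 2)) (multSeries (f • F).toFG p) -
      (vv p h F ^ (n + 2) * f.c (n + 1) - vv p h F * f.c (n + 1) ^ (p ^ h)) =
      PowerSeries.coeff (p ^ h * (n + 2)) (multSeries (f' • F).toFG p) := by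
    linear_combination h5
  rw [h6]
  exact coeff_multSeries_smul_mem S hFS hf's hf'S _

/-- The case `n + 2 = p ^ j`: `v_{h+j}(f • F) = v^{p^j} b - v b^q + lower`, `b = c_{p^j-1}(f)`. -/
theorem vv_add_smul_sub_mem {p : ℕ} [hp : Fact p.Prime] (hB : (p : B) = 0) {h : ℕ}
    {F : Law B} (hF : ∀ i < h, vv p i F = 0) (S : Subring B)
    (hFS : ∀ k, PowerSeries.coeff k (multSeries F.toFG p) ∈ S) {f : InvSeries B}
    (hf : f ∈ strict B) {j : ℕ} (hj : j ≠ 0) (hfS : ∀ k < p ^ j - 1, f.c k ∈ S) :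
    vv p (h + j) (f • F) - (vv p h F ^ (p ^ j) * f.c (p ^ j - 1) -
      vv p h F * f.c (p ^ j - 1) ^ (p ^ h)) ∈ S := by
  have h2 := two_le_pow hp.out hj
  have h1 := coeff_multSeries_smul_sub_mem hB hF S hFS hf (p ^ j - 2) (fun k hk => hfS k (by omega))
  rw [show p ^ j - 2 + 2 = p ^ j by omega, show p ^ j - 2 + 1 = p ^ j - 1 by omega, ← pow_add] at h1
  exact h1

end Vale.Agent.P251.F
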