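import Vale.Agent.P251.F.EndHonda
import Vale.Agent.P251.F.PadicRing
import Vale.Agent.P251.F.GroupSide
import Vale.Agent.P251.I.C

/-!
# P251, part F: the automorphism group of a Honda law is virtually uniform

For `H` over a field `k` with `p^h` elements satisfying `HondaOver p h H`, the group `AutF H`
satisfies `VirtUnif p (h * h)`, has no elements of order `p` if `p - 1` does not divide `h`, and
its finite `p`-subgroups have order dividing `p` if `h = p - 1`.
-/

namespace Vale.Agent.P251.F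

open MvPowerSeries Vale.Agent.P217

section General

variable {R : Type*} [CommRing R] {H : FormalGroup R} [H.IsComm]

/-- an endomorphism with invertible linear coefficient as an automorphism. -/
def EndF.toAut (f : EndF H) (hf : IsUnit (f.cf 1)) : AutF H := AutF.mk f.val ⟨f.isHom, hf⟩

theorem EndF.toAut_toEnd (f : EndF H) (hf : IsUnit (f.cf 1)) : AutF.toEnd (f.toAut hf) = f := rfl

end General

namespace HondaOver

variable {p h : ℕ} [hp : Fact p.Prime] {k : Type*} [Field k] [CharP k p] {H : FormalGroup k}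
  [H.IsComm] (hH : HondaOver p h H) (hh : 1 ≤ h)

/-- the endomorphism ring as a complete ring with uniformizer. -/
noncomputable def CD : CSRing p h (EndF H) k where
  __ := hH.D
  h_pos := hh
  p_eq := hH.p_eq
  complete := EndF.exists_limit hH.frob hH.teich

theorem CD_toSRing : (hH.CD hh).toSRing = hH.D := rfl

theorem D_r (f : EndF H) : hH.D.r f = f.cf 1 := rfl

include hH in
/-- the strict automorphisms. -/
theorem mem_congr_one_iff {σ : AutF H} : σ ∈ AutF.congr H (p ^ 1) ↔ σ.cf 1 = 1 := by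
  rw [hH.mem_congr_iff, SRing.mem_I_one, map_sub, map_one, sub_eq_zero]
  rfl

include hH in
theorem pow_mem_congr {n : ℕ} (hn : 1 ≤ n) (hh : 1 ≤ h) {σ : AutF H}
    (hσ : σ ∈ AutF.congr H (p ^ n)) : σ ^ p ∈ AutF.congr H (p ^ (n + 1)) := by
  rw [hH.mem_congr_iff] at hσ ⊢
  have h1 := hH.D.pow_p_sub_one_mem hn hσ hH.p_eq
  have h2 : AutF.toEnd (σ ^ p) = AutF.toEnd σ ^ p := map_pow AutF.toEnd σ p
  rw [h2]
  refine hH.D.I_anti ?_ h1
  rw [le_min_iff]
  have h3 := hp.out.two_le
  constructor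
  · omega
  · nlinarith

include hH in
theorem pow_pow_mem (hh : 1 ≤ h) {σ : AutF H} (hσ : σ ∈ AutF.congr H (p ^ 1)) (j : ℕ) :
    σ ^ (p ^ j) ∈ AutF.congr H (p ^ (1 + j)) := by
  induction j with
  | zero => simpa only [pow_zero, pow_one, add_zero] using hσ
  | succ j ih =>
    rw [pow_succ, pow_mul, ← add_assoc]
    exact hH.pow_mem_congr (by omega) hh ih

/-- elements of `p`-power order are strict. -/
theorem cf_one_of_pow {σ : AutF H} {m : ℕ} (hσ : σ ^ (p ^ m) = 1) : σ.cf 1 = 1 := by
  have h1 : (σ.cf 1) ^ (p ^ m) = 1 := by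
    have h2 : ∀ n : ℕ, (σ ^ n).cf 1 = (σ.cf 1) ^ n := by
      intro n
      induction n with
      | zero => rw [pow_zero, pow_zero, AutF.cf_one_one]
      | succ n ih => rw [pow_succ, pow_succ, AutF.cf_one_mul, ih]
    rw [← h2, hσ, AutF.cf_one_one]
  have h3 : (σ.cf 1 - 1) ^ (p ^ m) = 0 := by
    rw [sub_pow_char_pow, h1, one_pow, sub_self]
  exact sub_eq_zero.1 (pow_eq_zero_iff (pow_ne_zero _ hp.out.ne_zero) |>.1 h3)

/-- elements of order `p` for `h = p - 1`: the coefficients of `σ` below `x^p` are those of `x`,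
the coefficient of `x^p` does not vanish. -/
theorem lead_of_orderOf (hd : h = p - 1) {σ : AutF H} (hσ : orderOf σ = p) :
    ∃ g : EndF H, AutF.toEnd σ - 1 = g * hH.D.S ∧ g.cf 1 ≠ 0 := by
  have h1 : AutF.toEnd σ ≠ 1 := by
    intro h2
    have h3 : σ = 1 := AutF.toEnd_injective h2
    rw [h3, orderOf_one] at hσ
    exact hp.out.one_lt.ne hσ
  have h2 : AutF.toEnd σ ^ p = 1 := by
    have h2 : AutF.toEnd (σ ^ p) = AutF.toEnd σ ^ p := map_pow AutF.toEnd σ p
    rw [← h2, ← hσ, pow_orderOf_eq_one, map_one]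
  obtain ⟨m, g, hg, hgr, hm⟩ := hH.D.exists_of_pow_eq_one h1 h2 hH.p_eq
  have hp2 := hp.out.two_le
  have hm1 : m = 1 := by
    have : (p - 1) * m = (p - 1) * 1 := by rw [hm, mul_one, hd]
    exact Nat.eq_of_mul_eq_mul_left (by omega) this
  subst hm1
  refine ⟨g, ?_, hgr⟩
  rw [hg, pow_one]

section Index

variable [Finite k] (hk : Nat.card k = p ^ h)

/-- the linear coefficient as a homomorphism to the units. -/
noncomputable def lcUnits (H : FormalGroup k) [H.IsComm] : AutF H →* kˣ :=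
  (Units.map (EndF.lc H : EndF H →* k)).comp (AutF.toUnits (H := H)).toMonoidHom

omit [CharP k p] hp [Finite k] in
theorem lcUnits_val (σ : AutF H) : ((lcUnits H σ : kˣ) : k) = σ.cf 1 := rfl

include hH in
theorem ker_lcUnits : (lcUnits H).ker = AutF.congr H (p ^ 1) := by
  ext σ
  rw [MonoidHom.mem_ker, hH.mem_congr_one_iff, ← Units.val_inj, lcUnits_val, Units.val_one]

include hH hk in
theorem index_coprime (hh : 1 ≤ h) : p.Coprime (AutF.congr H (p ^ 1)).index := by
  rw [← hH.ker_lcUnits, Subgroup.index_ker]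
  have h1 : Nat.card (lcUnits H).range ∣ Nat.card kˣ := Subgroup.card_subgroup_dvd_card _
  rw [Nat.card_units, hk] at h1
  refine Nat.Coprime.coprime_dvd_right h1 ?_
  rw [hp.out.coprime_iff_not_dvd]
  intro h2
  have h3 : p ∣ p ^ h := dvd_pow_self p (by omega)
  have h4 : 1 ≤ p ^ h := Nat.one_le_pow _ _ hp.out.pos
  have h5 := (Nat.dvd_sub_iff_right h4 h3).1 h2
  exact hp.out.one_lt.ne' (Nat.dvd_one.1 h5)

include hH in
theorem relIndex_eq (hh : 1 ≤ h) :
    ∃ j : ℕ, (AutF.congr H (p ^ h)).relIndex (AutF.congr H (p ^ 1)) = p ^ j := by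
  have hUo : IsOpen ((AutF.congr H (p ^ h)).subgroupOf (AutF.congr H (p ^ 1)) :
      Set (AutF.congr H (p ^ 1))) := (AutF.isOpen_congr (p ^ h)).preimage continuous_subtype_val
  haveI := Subgroup.quotient_finite_of_isOpen' (AutF.congr H (p ^ 1))
    ((AutF.congr H (p ^ h)).subgroupOf (AutF.congr H (p ^ 1))) (AutF.isOpen_congr _) hUo
  haveI : ((AutF.congr H (p ^ h)).subgroupOf (AutF.congr H (p ^ 1))).Normal := inferInstance
  have h1 : IsPGroup p (AutF.congr H (p ^ 1) ⧸
      (AutF.congr H (p ^ h)).subgroupOf (AutF.congr H (p ^ 1))) := by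
    intro q
    obtain ⟨σ, rfl⟩ := QuotientGroup.mk_surjective q
    refine ⟨h, ?_⟩
    rw [← QuotientGroup.mk_pow, QuotientGroup.eq_one_iff, Subgroup.mem_subgroupOf,
      Subgroup.coe_pow]
    have h2 := hH.pow_pow_mem hh σ.2 h
    exact Agr.mono (Nat.pow_le_pow_right hp.out.pos (by omega)) h2
  obtain ⟨j, hj⟩ := IsPGroup.iff_card.1 h1
  exact ⟨j, hj⟩

end Index

section Unif

variable [Finite k] (hk : Nat.card k = p ^ h)

include hH hk in
theorem exists_homeo (hh : 1 ≤ h) : ∃ e : (Fin (h * h) → ℤ_[p]) ≃ₜ EndF H,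
    (∀ a a', e (a + a') = e a + e a') ∧
      (∀ (c : ℤ_[p]) a, e (c • a) = (hH.CD hh).iotaHom c * e a) := by
  letI : Algebra (ZMod p) k := ZMod.algebra k p
  have hfin : Module.finrank (ZMod p) k = h := by
    have h1 := Module.natCard_eq_pow_finrank (K := ZMod p) (V := k)
    rw [hk, Nat.card_zmod] at h1
    exact (Nat.pow_right_injective hp.out.two_le h1).symm
  let b : Module.Basis (Fin h) (ZMod p) k := Module.finBasisOfFinrankEq (ZMod p) k hfin
  obtain ⟨e, he1, he2⟩ := (hH.CD hh).exists_homeo b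
    (fun a => EndF.mk _ (hH.teich a)) (fun a => by
      change PowerSeries.coeff 1 (PowerSeries.C a * PowerSeries.X) = a
      rw [PowerSeries.coeff_C_mul, PowerSeries.coeff_one_X, mul_one])
    (fun U => EndF.isOpen_iff_I hH.frob hH.teich)
  refine ⟨(Homeomorph.piCongrLeft (Y := fun _ : Fin (h * h) => ℤ_[p])
    finProdFinEquiv).symm.trans e, ?_, ?_⟩
  · intro a a'
    exact he1 _ _
  · intro c a
    exact he2 c _

theorem one_add_p_mul_isUnit (x : EndF H) : IsUnit ((1 + (p : EndF H) * x).cf 1) := by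
  have h1 : (1 + (p : EndF H) * x).cf 1 = 1 := by
    have h2 : EndF.lc H (1 + (p : EndF H) * x) = 1 := by
      rw [map_add, map_one, map_mul, map_natCast, CharP.cast_eq_zero, zero_mul, add_zero]
    exact h2
  rw [h1]
  exact isUnit_one

/-- the automorphism `1 + p x`. -/
noncomputable def onePlus (x : EndF H) : AutF H :=
  (1 + (p : EndF H) * x).toAut (one_add_p_mul_isUnit (p := p) x)

theorem onePlus_toEnd (x : EndF H) : AutF.toEnd (onePlus (p := p) x) = 1 + (p : EndF H) * x := rfl

theorem onePlus_mul (x y : EndF H) : onePlus (p := p) x * onePlus (p := p) y =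
    onePlus (p := p) (x + y + (p : EndF H) * (x * y)) := by
  apply AutF.toEnd_injective
  rw [map_mul, onePlus_toEnd, onePlus_toEnd, onePlus_toEnd]
  have h1 : (p : EndF H) * x * ((p : EndF H) * y) = (p : EndF H) * ((p : EndF H) * (x * y)) := by
    rw [mul_assoc, ← mul_assoc x, ← (Nat.cast_commute p x).eq, mul_assoc]
  rw [add_mul, one_mul, mul_add ((p : EndF H) * x), mul_one, h1, mul_add, mul_add]
  abel

theorem onePlus_continuous : Continuous (onePlus (p := p) : EndF H → AutF H) := by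
  refine coeffTop_continuous fun f m => ⟨m, fun g hg => ?_⟩
  exact EndF.agr_add (Agr.refl _ _ _) (EndF.agr_mul (Agr.refl _ _ _) hg)

include hH in
theorem onePlus_injective : Function.Injective (onePlus (p := p) : EndF H → AutF H) := by
  intro x y hxy
  have h1 := congrArg AutF.toEnd hxy
  rw [onePlus_toEnd, onePlus_toEnd] at h1
  have h2 := add_left_cancel h1
  have h3 : (p : EndF H) * (x - y) = 0 := by rw [mul_sub, h2, sub_self]
  exact sub_eq_zero.1 (hH.D.p_reg hH.p_eq h3)

include hH in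
theorem onePlus_mem (x : EndF H) : onePlus (p := p) x ∈ AutF.congr H (p ^ h) := by
  rw [hH.mem_congr_iff, onePlus_toEnd, add_sub_cancel_left, hH.D.p_mul_eq hH.p_eq]
  exact hH.D.mul_S_pow_mem x h

include hH in
theorem exists_onePlus {σ : AutF H} (hσ : σ ∈ AutF.congr H (p ^ h)) :
    ∃ x, onePlus (p := p) x = σ := by
  rw [hH.mem_congr_iff] at hσ
  obtain ⟨g, hg⟩ := hσ
  refine ⟨g, AutF.toEnd_injective ?_⟩
  rw [onePlus_toEnd, hH.D.p_mul_eq hH.p_eq, ← hg, add_sub_cancel]

include hH hk in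
/-- **uniformity.** -/
theorem isUnif (hh : 1 ≤ h) : I.IsUnif p (h * h) (AutF.congr H (p ^ h)) := by
  obtain ⟨e, he1, he2⟩ := hH.exists_homeo hk hh
  -- the bijection
  let f0 : EndF H → AutF.congr H (p ^ h) := fun x => ⟨onePlus (p := p) x, hH.onePlus_mem x⟩
  have hf0 : Function.Bijective f0 := by
    constructor
    · intro x y hxy
      exact hH.onePlus_injective (congrArg Subtype.val hxy)
    · rintro ⟨σ, hσ⟩
      obtain ⟨x, hx⟩ := hH.exists_onePlus hσ
      exact ⟨x, Subtype.ext hx⟩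
  have hf0c : Continuous (Equiv.ofBijective f0 hf0) :=
    onePlus_continuous.subtype_mk _
  let f1 : EndF H ≃ₜ AutF.congr H (p ^ h) := hf0c.homeoOfEquivCompactToT2
  have hf1 : ∀ x, ((f1 x : AutF.congr H (p ^ h)) : AutF H) = onePlus (p := p) x := fun x => rfl
  -- the inverse of `e` is linear
  have hs1 : ∀ x y, e.symm (x + y) = e.symm x + e.symm y := by
    intro x y
    apply e.injective
    rw [he1, e.apply_symm_apply, e.apply_symm_apply, e.apply_symm_apply]
  have hs2 : ∀ (c : ℤ_[p]) x, e.symm ((hH.CD hh).iotaHom c * x) = c • e.symm x := by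
    intro c x
    apply e.injective
    rw [he2, e.apply_symm_apply, e.apply_symm_apply]
  let B : (Fin (h * h) → ℤ_[p]) →ₗ[ℤ_[p]] (Fin (h * h) → ℤ_[p]) →ₗ[ℤ_[p]]
      (Fin (h * h) → ℤ_[p]) := LinearMap.mk₂ ℤ_[p] (fun a b => e.symm (e a * e b))
    (fun a a' b => by rw [he1, add_mul, hs1])
    (fun c a b => by rw [he2, mul_assoc, hs2])
    (fun a b b' => by rw [he1, mul_add, hs1])
    (fun c a b => by rw [he2, ← mul_assoc, ← (hH.CD hh).iota_comm, mul_assoc, hs2])
  have hB : ∀ a b, B a b = e.symm (e a * e b) := fun _ _ => rfl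
  refine ⟨B, f1.symm.trans e.symm, fun x y => ?_⟩
  obtain ⟨x, rfl⟩ := f1.surjective x
  obtain ⟨y, rfl⟩ := f1.surjective y
  have h1 : f1 x * f1 y = f1 (x + y + (p : EndF H) * (x * y)) := by
    apply Subtype.ext
    rw [Subgroup.coe_mul, hf1, hf1, hf1, onePlus_mul]
  rw [h1, Homeomorph.trans_apply, Homeomorph.trans_apply, Homeomorph.trans_apply,
    f1.symm_apply_apply, f1.symm_apply_apply, f1.symm_apply_apply, hB, e.apply_symm_apply,
    e.apply_symm_apply, hs1, hs1, ← hs2, map_natCast]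

/-- **The automorphism group of a Honda law over a field with `p^h` elements is virtually
uniform of dimension `h^2`.** -/
noncomputable def virtUnif_sq (hh : 1 ≤ h) : I.VirtUnif p (h * h) (AutF H) where
  S := AutF.congr H (p ^ 1)
  U := AutF.congr H (p ^ h)
  S_normal := inferInstance
  U_normal := inferInstance
  le := fun σ hσ => Agr.mono (Nat.pow_le_pow_right hp.out.pos hh) hσ
  isOpen := AutF.isOpen_congr _
  coprime := hH.index_coprime hk hh
  relIndex := hH.relIndex_eq hh
  unif := hH.isUnif hk hh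

end Unif

end HondaOver

end Vale.Agent.P251.F
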