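import Vale.Agent.P251.F.ActE
import Vale.Agent.P251.F.Aut
import Vale.Agent.P251.F.AutRep
import Vale.Agent.P251.F.CoInd
import Vale.Agent.P251.F.Cob
import Vale.Agent.P251.F.CobLoc
import Vale.Agent.P251.F.Cocycle
import Vale.Agent.P251.F.CoeffTop
import Vale.Agent.P251.F.Compare
import Vale.Agent.P251.F.Compare2
import Vale.Agent.P251.F.CpCoord
import Vale.Agent.P251.F.CpFinal
import Vale.Agent.P251.F.CpSeries
import Vale.Agent.P251.F.CycCap
import Vale.Agent.P251.F.CycE
import Vale.Agent.P251.F.Deform
import Vale.Agent.P251.F.Detect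
import Vale.Agent.P251.F.DetectT
import Vale.Agent.P251.F.DoubleChase
import Vale.Agent.P251.F.EJ
import Vale.Agent.P251.F.ElemP
import Vale.Agent.P251.F.EndHonda
import Vale.Agent.P251.F.F1p
import Vale.Agent.P251.F.F3Homot
import Vale.Agent.P251.F.F3Laz
import Vale.Agent.P251.F.F3Line
import Vale.Agent.P251.F.F3Main
import Vale.Agent.P251.F.F3Maps
import Vale.Agent.P251.F.F3Norm
import Vale.Agent.P251.F.F3Prism
import Vale.Agent.P251.F.F3Proof
import Vale.Agent.P251.F.F3Pt
import Vale.Agent.P251.F.F3Root
import Vale.Agent.P251.F.F3Series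
import Vale.Agent.P251.F.F3Sparse
import Vale.Agent.P251.F.F3Typ
import Vale.Agent.P251.F.F3Zp
import Vale.Agent.P251.F.F3w
import Vale.Agent.P251.F.F4Conj
import Vale.Agent.P251.F.F4Flat
import Vale.Agent.P251.F.F4Local
import Vale.Agent.P251.F.Framed
import Vale.Agent.P251.F.FrobAct
import Vale.Agent.P251.F.FrobThick
import Vale.Agent.P251.F.GCob
import Vale.Agent.P251.F.GDataOf
import Vale.Agent.P251.F.GDescent
import Vale.Agent.P251.F.Grade
import Vale.Agent.P251.F.GroupFinal
import Vale.Agent.P251.F.GroupSide
import Vale.Agent.P251.F.Height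
import Vale.Agent.P251.F.Hom
import Vale.Agent.P251.F.Honda
import Vale.Agent.P251.F.HondaLift
import Vale.Agent.P251.F.HondaMain
import Vale.Agent.P251.F.Inv
import Vale.Agent.P251.F.InvBasis
import Vale.Agent.P251.F.IsoRep
import Vale.Agent.P251.F.IsoTorsor
import Vale.Agent.P251.F.KGen
import Vale.Agent.P251.F.LCTensor
import Vale.Agent.P251.F.LTAct
import Vale.Agent.P251.F.LTBase
import Vale.Agent.P251.F.LTCyc
import Vale.Agent.P251.F.LTFS
import Vale.Agent.P251.F.LTFinal
import Vale.Agent.P251.F.LTTower
import Vale.Agent.P251.F.LawE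
import Vale.Agent.P251.F.LawHom
import Vale.Agent.P251.F.Laz
import Vale.Agent.P251.F.LazGen
import Vale.Agent.P251.F.LazI
import Vale.Agent.P251.F.LazPoly
import Vale.Agent.P251.F.LazReg
import Vale.Agent.P251.F.LazWt
import Vale.Agent.P251.F.MainFS
import Vale.Agent.P251.F.MainFV
import Vale.Agent.P251.F.OInv
import Vale.Agent.P251.F.Ord
import Vale.Agent.P251.F.PadicRing
import Vale.Agent.P251.F.Pt
import Vale.Agent.P251.F.RJ
import Vale.Agent.P251.F.RJBasis
import Vale.Agent.P251.F.SRing
import Vale.Agent.P251.F.Series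
import Vale.Agent.P251.F.Sparse1
import Vale.Agent.P251.F.Sparse2
import Vale.Agent.P251.F.Sparse3
import Vale.Agent.P251.F.Sparse4
import Vale.Agent.P251.F.Sparse5
import Vale.Agent.P251.F.Sparse6
import Vale.Agent.P251.F.Sparse7
import Vale.Agent.P251.F.Stone
import Vale.Agent.P251.F.T1
import Vale.Agent.P251.F.T1Coc
import Vale.Agent.P251.F.TTower
import Vale.Agent.P251.F.TensorBasis
import Vale.Agent.P251.F.ThickFlat
import Vale.Agent.P251.F.Torsor
import Vale.Agent.P251.F.TorsorMap
import Vale.Agent.P251.F.Tower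
import Vale.Agent.P251.F.Transport
import Vale.Agent.P251.F.Triang
import Vale.Agent.P251.F.TwistFlat
import Vale.Agent.P251.F.VGen
import Vale.Agent.P251.F.VTwist
import Vale.Agent.P251.F.Vanish
import Vale.Agent.P251.F.VirtUnif
import Vale.Agent.P251.F.WtProj

/-!
# P251, part F: all files together

This file imports every file of part F (no name clashes), and records the final theorems.
-/

open Vale.Agent.P251

example : I.Lazard_statement := F.lazard_statement
example : I.LazInj_statement := F.lazInj_statement
example : I.LazReg_statement := F.lazReg_statement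
example : I.F3_statement := F.F3_holds
example : I.F3w_statement := F.F3w
example : I.T1_statement := F.T1
example : I.BCocycle_statement := F.BCocycle
example : I.FD_statement := F.FD
example : I.FV_statement := F.FV
example : I.FS_statement := F.FS
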