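/-
P251, part F (F11): cup powers of `b` are non-zero in the cohomology of `v_h⁻¹ Laz/I_h`,
`h = p - 1` (statement `FD_statement` of `I/F.lean`).  Author: helper982.

Evaluation on chains `H → H → … → H` of powers of an automorphism of order `p` of the Honda law.
-/
import Vale.Agent.P251.F.DetectT
import Vale.Agent.P251.F.CycCap
import Vale.Agent.P251.F.GroupFinal
import Vale.Agent.P251.F.HondaMain

namespace Vale.Agent.P251.F

open MvPowerSeries Vale.Agent.P217 Cob Vale.Agent.P251.I

/-- A point of a law ring with strict automorphisms indexed by `ZMod p`. -/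
structure CycRep (p : ℕ) (N : Type) [CommRing N] [LawRing N] (k : Type) [CommRing k] where
  /-- the point -/
  pt : N →+* k
  /-- the automorphisms -/
  g : ZMod p → InvSeries k
  strict : ∀ a, g a ∈ Vale.Agent.P251.F.strict k
  zero : g 0 = 1
  add : ∀ a b, g (a + b) = g a * g b
  fix : ∀ a, LawRing.act (g a) pt = pt

namespace CycRep

variable {p : ℕ} {N : Type} [CommRing N] [LawRing N] {k : Type} [CommRing k] (R : CycRep p N k)
  {n m : ℕ}

theorem g_sub (a b c : ZMod p) : R.g (a - c) * (R.g (b - c))⁻¹ = R.g (a - b) := by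
  rw [mul_inv_eq_iff_eq_mul, ← R.add]
  congr 1
  ring

/-- The chain with vertices indexed by elements of `ZMod p`. -/
noncomputable def ch (a : Fin (n + 1) → ZMod p) : Chain N n k where
  pt := R.pt
  g i := R.g (a i - a 0)
  strict _ := R.strict _
  zero := by rw [sub_self, R.zero]

theorem ch_res (α : Fin (m + 1) → Fin (n + 1)) (a : Fin (n + 1) → ZMod p) :
    (R.ch a).res α = R.ch (fun i => a (α i)) := by
  ext1
  · exact R.fix _
  · funext i
    exact R.g_sub _ _ _

theorem ch_add (a : Fin (n + 1) → ZMod p) (c : ZMod p) : R.ch (fun i => a i + c) = R.ch a := by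
  ext1
  · rfl
  · funext i
    change R.g (a i + c - (a 0 + c)) = R.g (a i - a 0)
    rw [add_sub_add_right_eq_sub]

/-- The function on `ZMod p ^ (n + 1)` attached to a cochain. -/
noncomputable def E (z : Cob N n) (a : Fin (n + 1) → ZMod p) : k := ev (R.ch a) z

theorem E_d (z : Cob N n) : R.E (Cob.d n z) = Cyc.dd (R.E z) := by
  funext a
  rw [E, ev_d]
  unfold Cyc.dd
  refine Finset.sum_congr rfl fun i _ => ?_
  rw [R.ch_res]
  rfl

theorem E_inv [Fact p.Prime] (z : Cob N n) : Cyc.Inv (R.E z) := by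
  intro c a
  rw [E, R.ch_add]
  rfl

theorem E_cup {a b : ℕ} (x : Cob N a) (y : Cob N b) (u : Fin (a + b + 1) → ZMod p) :
    R.E (Cob.cup x y) u = R.E x (fun i => u (Cob.front a b i)) *
      R.E y (fun i => u (Cob.back a b i)) := by
  rw [E, ev_cup, R.ch_res, R.ch_res]
  rfl

/-- Restriction along a morphism of law rings. -/
noncomputable def pre {M : Type} [CommRing M] [LawRing M] {φ : M →+* N} (hφ : IsLawHom φ) :
    CycRep p M k where
  pt := R.pt.comp φ
  g := R.g
  strict := R.strict
  zero := R.zero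
  add := R.add
  fix a := by rw [← hφ.act, R.fix]

theorem E_mapRing {M : Type} [CommRing M] [LawRing M] {φ : M →+* N} (hφ : IsLawHom φ)
    (z : Cob M n) : R.E (Cob.mapRing φ n z) = (R.pre hφ).E z := by
  funext a
  rw [E, Cob.ev_mapRing]
  rfl

section Prime

variable [Fact p.Prime]

theorem val_cupPow (b : Cob N 2) : ∀ K : ℕ,
    Cyc.val K (R.E (cupPow b K)) = Cyc.cval (R.E b) ^ K
  | 0 => by
    rw [pow_zero]
    change ev _ (1 : Cob N 0) = 1
    rw [map_one]
  | K + 1 => by
    rw [pow_succ, ← val_cupPow b K]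
    refine Cyc.val_cup K (R.E_inv b) fun x => ?_
    exact R.E_cup (cupPow b K) b x

/-- A cochain of degree one which is a cocycle is additive. -/
theorem E_cocycle {t : Cob N 1} (ht : Cob.d 1 t = 0) (κ : ZMod p →+* k) (a : Fin 2 → ZMod p) :
    R.E t a = κ (a 1 - a 0) * R.E t ![0, 1] := by
  set e : ZMod p → k := fun x => R.E t ![0, x] with he
  have h1 : ∀ x y : ZMod p, R.E t ![x, y] = e (y - x) := by
    intro x y
    rw [he]
    dsimp only
    rw [← R.E_inv t (-x) ![x, y]]
    congr 1
    funext i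
    fin_cases i
    · change x + -x = 0
      ring
    · change y + -x = y - x
      ring
  have h2 : ∀ x y : ZMod p, e (x + y) = e x + e y := by
    intro x y
    have h := congrFun (R.E_d t) ![0, x, x + y]
    rw [ht, E, map_zero] at h
    unfold Cyc.dd at h
    rw [Fin.sum_univ_three] at h
    have e0 : (fun j => ![(0 : ZMod p), x, x + y] ((0 : Fin 3).succAbove j)) = ![x, x + y] := by
      funext j; fin_cases j <;> rfl
    have e1 : (fun j => ![(0 : ZMod p), x, x + y] ((1 : Fin 3).succAbove j)) = ![0, x + y] := by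
      funext j; fin_cases j <;> rfl
    have e2 : (fun j => ![(0 : ZMod p), x, x + y] ((2 : Fin 3).succAbove j)) = ![0, x] := by
      funext j; fin_cases j <;> rfl
    rw [e0, e1, e2, h1, h1, h1] at h
    have z1 : x + y - x = y := by ring
    rw [z1, sub_zero, sub_zero] at h
    have v0 : ((0 : Fin 3) : ℕ) = 0 := rfl
    have v1 : ((1 : Fin 3) : ℕ) = 1 := rfl
    have v2 : ((2 : Fin 3) : ℕ) = 2 := rfl
    rw [v0, v1, v2, pow_zero, pow_one, one_smul, neg_one_smul, neg_one_sq, one_smul] at h
    linear_combination h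
  have h0 : e 0 = 0 := by
    have := h2 0 0
    rw [add_zero] at this
    linear_combination -this
  have h3 : ∀ m : ℕ, e (m : ZMod p) = (m : k) * e 1 := by
    intro m
    induction m with
    | zero => rw [Nat.cast_zero, Nat.cast_zero, zero_mul, h0]
    | succ m ih => rw [Nat.cast_succ, h2, ih, Nat.cast_succ]; ring
  have h4 : ∀ x : ZMod p, e x = κ x * e 1 := by
    intro x
    have h5 := h3 x.val
    rw [ZMod.natCast_zmod_val] at h5
    rw [h5]
    congr 1
    rw [← map_natCast κ, ZMod.natCast_zmod_val]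
  have h6 : a = ![a 0, a 1] := by
    funext i; fin_cases i <;> rfl
  rw [h6, h1, h4]
  rfl

theorem choose_div (p : ℕ) [hp : Fact p.Prime] : p.choose (p - 1) / p = 1 := by
  have h1 : p.choose (p - 1) = p := by
    have := Nat.choose_symm (n := p) (k := 1) hp.out.one_lt.le
    rw [this, Nat.choose_one_right]
  rw [h1]
  exact Nat.div_self hp.out.pos

/-- The value of the class `b` on the generating cycle. -/
theorem cval_bcls (κ : ZMod p →+* k) {t : Cob Laz 1} (R : CycRep p Laz k)
    (ht : Cob.d 1 t = 0) :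
    Cyc.cval (R.E (bcls p t)) = - (R.E t ![0, 1]) ^ p := by
  have hp : p.Prime := Fact.out
  set β := R.E t ![0, 1] with hβ
  have hterm : ∀ (i : ℕ) (u : ZMod p), R.E (Cob.cup (t ^ i) (t ^ (p - i))) ![0, u, u + 1] =
      κ (u ^ i) * (β ^ i * β ^ (p - i)) := by
    intro i u
    have e1 : R.E (Cob.cup (t ^ i) (t ^ (p - i))) ![0, u, u + 1] =
        R.E (t ^ i) ![0, u] * R.E (t ^ (p - i)) ![u, u + 1] := by
      have h := R.E_cup (a := 1) (b := 1) (t ^ i) (t ^ (p - i)) ![0, u, u + 1]
      have f1 : (fun i => ![(0 : ZMod p), u, u + 1] (Cob.front 1 1 i)) = ![0, u] := by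
        funext j; fin_cases j <;> rfl
      have f2 : (fun i => ![(0 : ZMod p), u, u + 1] (Cob.back 1 1 i)) = ![u, u + 1] := by
        funext j; fin_cases j <;> rfl
      rw [f1, f2] at h
      exact h
    have e2 : ∀ (j : ℕ) (a : Fin 2 → ZMod p), R.E (t ^ j) a = (R.E t a) ^ j := by
      intro j a
      exact map_pow (ev (R.ch a)) t j
    rw [e1, e2, e2, R.E_cocycle ht κ, R.E_cocycle ht κ ![u, u + 1]]
    change (κ (u - 0) * β) ^ i * (κ (u + 1 - u) * β) ^ (p - i) = _
    rw [sub_zero, add_sub_cancel_left, map_one, one_mul, mul_pow, map_pow, mul_assoc]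
  unfold Cyc.cval
  have h1 : ∀ u : ZMod p, R.E (bcls p t) ![0, u, u + 1] =
      ∑ i ∈ Finset.Ioo 0 p, ((p.choose i / p : ℕ) : ℤ) • (κ (u ^ i) * (β ^ i * β ^ (p - i))) := by
    intro u
    rw [E, bcls, map_sum]
    refine Finset.sum_congr rfl fun i _ => ?_
    rw [map_zsmul]
    congr 1
    exact hterm i u
  rw [Finset.sum_congr rfl fun u _ => h1 u, Finset.sum_comm]
  have h2 : ∀ i ∈ Finset.Ioo 0 p, ∑ u : ZMod p, ((p.choose i / p : ℕ) : ℤ) •
      (κ (u ^ i) * (β ^ i * β ^ (p - i))) = if i = p - 1 then - β ^ p else 0 := by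
    intro i hi
    rw [Finset.mem_Ioo] at hi
    rw [← Finset.smul_sum, ← Finset.sum_mul, ← map_sum]
    have h3 : β ^ i * β ^ (p - i) = β ^ p := by
      rw [← pow_add]
      congr 1
      omega
    rw [h3]
    split_ifs with h
    · subst h
      have h4 : ∑ u : ZMod p, u ^ (p - 1) = -1 := by
        have := FiniteField.sum_pow_lt_card_sub_one (ZMod p)
        have h5 : ∀ u : ZMod p, u ^ (p - 1) = if u = 0 then 0 else 1 := by
          intro u
          split_ifs with hu
          · rw [hu, zero_pow (by have := hp.two_le; omega)]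
          · exact ZMod.pow_card_sub_one_eq_one hu
        rw [Finset.sum_congr rfl fun u _ => h5 u, Finset.sum_ite, Finset.sum_const_zero,
          zero_add, Finset.sum_const, Finset.filter_ne', Finset.card_erase_of_mem
          (Finset.mem_univ _), Finset.card_univ, ZMod.card, nsmul_eq_mul, mul_one,
          Nat.cast_sub hp.one_lt.le, CharP.cast_eq_zero, Nat.cast_one, zero_sub]
      rw [h4, choose_div, map_neg, map_one]
      simp
    · have h4 : ∑ u : ZMod p, u ^ i = 0 := by
        apply FiniteField.sum_pow_lt_card_sub_one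
        rw [ZMod.card]
        omega
      rw [h4, map_zero, zero_mul, smul_zero]
  rw [Finset.sum_congr rfl h2, Finset.sum_ite_eq' (Finset.Ioo 0 p) (p - 1), if_pos]
  rw [Finset.mem_Ioo]
  have := hp.two_le
  omega

end Prime

end CycRep

/-! ### the automorphism of order `p` -/

section Concrete

variable {p : ℕ} [hp : Fact p.Prime] {k : Type} [Field k] [CharP k p]

/-- The cyclic representation attached to an automorphism of order `p`. -/
noncomputable def CycRep.ofAut {N : Type} [CommRing N] [LawRing N] (hN : LawRing.Epi N)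
    (x : N →+* k) (H : Law k) (hx : (LawRing.law (N := N)).map x = H) (σ : AutF H.toFG)
    (hσ : orderOf σ = p) (hs : σ.cf 1 = 1) : CycRep p N k where
  pt := x
  g a := InvSeries.ofIso (F := H) (G := H) (σ ^ a.val).isIso
  strict a := by
    have h : ∀ m : ℕ, (σ ^ m).cf 1 = 1 := by
      intro m
      induction m with
      | zero => rw [pow_zero]; exact AutF.cf_one_one
      | succ m ih => rw [pow_succ, AutF.cf_one_mul, ih, hs, one_mul]
    exact h a.val
  zero := by
    apply InvSeries.ext
    change (σ ^ (0 : ZMod p).val).val = PowerSeries.X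
    rw [ZMod.val_zero, pow_zero]
    rfl
  add a b := by
    apply InvSeries.ext
    change (σ ^ (a + b).val).val = (σ ^ a.val * σ ^ b.val).val
    rw [ZMod.val_add, ← pow_add]
    congr 1
    have h := pow_mod_orderOf σ (a.val + b.val)
    rw [hσ] at h
    exact h
  fix a := by
    apply hN
    rw [LawRing.law_act, hx]
    exact InvSeries.ofIso_smul _

/-- The point of `v_h⁻¹ Laz/I_h` given by a law of height `h`. -/
noncomputable def NNpt (h : ℕ) (H : Law k) (h0 : ∀ i < h, vv p i H = 0) (h1 : vv p h H ≠ 0) :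
    NN p h 1 →+* k :=
  IsLocalization.Away.lift (S := NN p h 1) (Ideal.Quotient.mk (Laz.IJ p h 1) (Laz.v p h))
    (g := Ideal.Quotient.lift (Laz.IJ p h 1) (Laz.lift H) (by
      refine (Laz.IJ_vanish_iff p h 1 (Laz.lift H)).2 ⟨CharP.cast_eq_zero k p, ?_⟩
      rw [pow_one, Laz.univ_map_lift, Ih, Ideal.span_eq_bot]
      rintro _ ⟨i, hi, rfl⟩
      exact h0 i hi))
    (by
      rw [Ideal.Quotient.lift_mk, Laz.lift_v]
      exact isUnit_iff_ne_zero.2 h1)

theorem law_NNpt (h : ℕ) (H : Law k) (h0 : ∀ i < h, vv p i H = 0) (h1 : vv p h H ≠ 0) :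
    (LawRing.law (N := NN p h 1)).map (NNpt h H h0 h1) = H := by
  change ((Laz.univ.map _).map _).map _ = _
  rw [Law.map_map, NNpt, IsLocalization.Away.lift_comp, Law.map_map, Ideal.Quotient.lift_comp_mk,
    Laz.univ_map_lift]

/-- A law whose coefficients vanish unless the total degree is `1` or at least `N` is additive up
to degree `N - 1`. -/
theorem sub_X_add_X_mem {B : Type} [CommRing B] (F : Law B) {N : ℕ}
    (hF : ∀ d : Fin 2 →₀ ℕ, d.degree < N → d.degree ≠ 1 → coeff d F.ps = 0) :
    F.ps - (X 0 + X 1) ∈ ordI (Fin 2) B N := by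
  intro d hd
  rw [map_sub, map_add]
  by_cases h1 : d.degree = 1
  · obtain ⟨i, rfl⟩ : ∃ i : Fin 2, d = Finsupp.single i 1 := by
      have h2 : d 0 + d 1 = 1 := by
        rw [Finsupp.degree_eq_sum, Fin.sum_univ_two] at h1
        exact h1
      rcases Nat.add_eq_one_iff.1 h2 with ⟨a, b⟩ | ⟨a, b⟩
      · refine ⟨1, ?_⟩
        ext i
        fin_cases i
        · simpa using a
        · simpa using b
      · refine ⟨0, ?_⟩
        ext i
        fin_cases i
        · simpa using a
        · simpa using b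
    fin_cases i
    · change coeff (Finsupp.single 0 1) F.ps - (coeff (Finsupp.single 0 1) (X 0) +
        coeff (Finsupp.single 0 1) (X 1)) = 0
      rw [F.toFG.lin_coeff_X, coeff_index_single_self_X, coeff_index_single_X]
      simp
    · change coeff (Finsupp.single 1 1) F.ps - (coeff (Finsupp.single 1 1) (X 0) +
        coeff (Finsupp.single 1 1) (X 1)) = 0
      rw [F.toFG.lin_coeff_Y, coeff_index_single_self_X, coeff_index_single_X]
      simp
  · rw [hF d hd h1, coeff_X, coeff_X, if_neg, if_neg]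
    · simp
    · rintro rfl
      exact h1 (by simp)
    · rintro rfl
      exact h1 (by simp)

/-- The value of `t_1` on the generator. -/
theorem ev_t1_aut (hp2 : p ≠ 2) {t : Cob Laz 1} (ht : IsT1 p t) (κ : ZMod p →+* k)
    (Ht : Law ℤ_[p]) (hHt : ∀ d : Fin 2 →₀ ℕ, coeff d Ht.ps ≠ 0 →
      ∃ j, d 0 + d 1 = 1 + (p ^ (p - 1) - 1) * j)
    (c : Chain Laz 1 k) (hc : Laz.univ.map c.pt = Ht.map (κ.comp PadicInt.toZMod))
    (hg : ∀ i < p, PowerSeries.coeff i (c.g 1).val = if i = 1 then 1 else 0) :
    ev c t = - PowerSeries.coeff p (c.g 1).val := by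
  have hp3 : 3 ≤ p := by
    have := hp.out.two_le
    omega
  -- the lifting ring
  let B : Type := MvPolynomial k ℤ_[p]
  let φ : B →+* k := MvPolynomial.eval₂Hom (κ.comp PadicInt.toZMod) (fun a : k => a)
  have hφC : φ.comp MvPolynomial.C = κ.comp PadicInt.toZMod :=
    MvPolynomial.eval₂Hom_comp_C (κ.comp PadicInt.toZMod) (fun a : k => a)
  have hφX : ∀ a : k, φ (MvPolynomial.X a) = a := fun a => by
    change MvPolynomial.eval₂Hom (κ.comp PadicInt.toZMod) (fun a : k => a) (MvPolynomial.X a) = a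
    rw [MvPolynomial.eval₂Hom_X']
  let F : Law B := Ht.map (MvPolynomial.C : ℤ_[p] →+* MvPolynomial k ℤ_[p])
  let f : InvSeries B := strictMk fun n => if n + 2 < p then 0 else
    MvPolynomial.X (PowerSeries.coeff (n + 2) (c.g 1).val)
  have hfs : f ∈ Vale.Agent.P251.F.strict B := strictMk_mem _
  let c' : Chain Laz 1 B :=
    { pt := Laz.lift F
      g := ![1, f]
      strict := by
        intro i
        fin_cases i
        · exact (Vale.Agent.P251.F.strict B).one_mem
        · exact hfs
      zero := rfl }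
  have h1 : c'.map φ = c := by
    ext1
    · change φ.comp (Laz.lift F) = c.pt
      rw [Laz.comp_lift, Law.map_map, hφC, ← hc, Laz.lift_map_univ]
    · funext i
      fin_cases i
      · change InvSeries.map φ 1 = c.g 0
        rw [c.zero, map_one]
      · change InvSeries.map φ f = c.g 1
        rw [map_strictMk]
        have : (fun n => φ (if n + 2 < p then 0 else
            MvPolynomial.X (PowerSeries.coeff (n + 2) (c.g 1).val))) =
            fun n => (c.g 1).c (n + 1) := by
          funext n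
          split_ifs with h
          · rw [map_zero]
            change 0 = PowerSeries.coeff (n + 2) (c.g 1).val
            rw [hg _ h, if_neg (by omega)]
          · rw [hφX]
            rfl
        rw [this]
        exact strictMk_c (c.strict 1)
  rw [← h1, ev_map]
  have hreg : ∀ x : B, (p : B) * x = 0 → x = 0 := by
    intro x hx
    rcases mul_eq_zero.1 hx with h | h
    · exfalso
      have : (p : B) ≠ 0 := Nat.cast_ne_zero.2 hp.out.ne_zero
      exact this h
    · exact h
  have hF : (Laz.univ.map c'.pt).ps - (X 0 + X 1) ∈ ordI (Fin 2) B (p + 1) := by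
    change (Laz.univ.map (Laz.lift F)).ps - (X 0 + X 1) ∈ ordI (Fin 2) B (p + 1)
    rw [Laz.univ_map_lift]
    refine sub_X_add_X_mem F fun d hd hd1 => ?_
    change coeff d (MvPowerSeries.map _ Ht.ps) = 0
    rw [coeff_map]
    by_contra hne
    have h2 : coeff d Ht.ps ≠ 0 := fun h0 => hne (by rw [h0, map_zero])
    obtain ⟨j, hj⟩ := hHt d h2
    have h3 : d.degree = d 0 + d 1 := by rw [Finsupp.degree_eq_sum, Fin.sum_univ_two]
    have h4 : p ^ 2 ≤ p ^ (p - 1) := Nat.pow_le_pow_right hp.out.pos (by omega)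
    have h5 : p * 2 ≤ p ^ 2 := by rw [pow_two]; exact Nat.mul_le_mul_left p hp.out.two_le
    rcases Nat.eq_zero_or_pos j with hj0 | hj0
    · rw [hj0, mul_zero, add_zero] at hj
      exact hd1 (h3.trans hj)
    · have h6 : (p ^ (p - 1) - 1) * 1 ≤ (p ^ (p - 1) - 1) * j := Nat.mul_le_mul_left _ hj0
      omega
  have hf : (c'.g 1).val - (PowerSeries.X + PowerSeries.C
      (MvPolynomial.X (PowerSeries.coeff p (c.g 1).val) : B) * PowerSeries.X ^ p) ∈
      ordI Unit B (p + 1) := by
    rw [mem_ordI_unit]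
    intro i hi
    rw [map_sub, map_add, PowerSeries.coeff_C_mul, PowerSeries.coeff_X_pow, PowerSeries.coeff_X]
    change PowerSeries.coeff i f.val - _ = 0
    rcases i with _ | _ | n
    · rw [PowerSeries.coeff_zero_eq_constantCoeff_apply, f.cc, if_neg (by omega),
        if_neg (by omega)]
      simp
    · have : PowerSeries.coeff (0 + 1) f.val = 1 := c_zero_strictMk _
      rw [this, if_pos (by omega), if_neg (by omega)]
      simp
    · have : PowerSeries.coeff (n + 1 + 1) f.val = if n + 2 < p then 0 else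
          MvPolynomial.X (PowerSeries.coeff (n + 2) (c.g 1).val) := c_succ_strictMk _ _
      rw [this, if_neg (show ¬ n + 1 + 1 = 1 by omega)]
      by_cases hn : n + 2 < p
      · rw [if_pos hn, if_neg (by omega)]
        simp
      · have hn' : n + 2 = p := by omega
        rw [if_neg hn, if_pos (by omega), hn', mul_one, zero_add, sub_self]
  rw [ev_t1 p hreg ht c' hF _ hf, map_mul, hφX, map_sub, map_pow, map_natCast, CharP.cast_eq_zero,
    zero_pow (by omega), map_one, h1]
  ring

end Concrete

/-- **Detection**: all cup powers of `b` are non-zero in the cohomology of `v_h⁻¹ Laz/I_h`,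
`h = p - 1`. -/
theorem FD : FD_statement := by
  intro p hp hp2 t ht K ⟨y, hy⟩
  have hh : 1 ≤ p - 1 := by have := hp.out.two_le; omega
  let k : Type := GaloisField p (p - 1)
  have hk : Nat.card k = p ^ (p - 1) := GaloisField.card p (p - 1) (by omega)
  have hfin : Finite k := Nat.finite_of_card_ne_zero (by
    rw [hk]; exact pow_ne_zero _ hp.out.ne_zero)
  let κ : ZMod p →+* k := algebraMap (ZMod p) k
  obtain ⟨Γ, hΓ⟩ := exists_isHonda (p := p) hh
  obtain ⟨Hl, hHl, hlog⟩ := hΓ.exists_logL hh
  have hcomm : Hl.IsComm := IsHonda.lift_commL hlog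
  let Ht : Law ℤ_[p] := ⟨Hl, hcomm⟩
  let H : Law k := Ht.map (κ.comp PadicInt.toZMod)
  have hH : H.toFG = Γ.map κ := by
    rw [← hHl]
    apply FormalGroup.ext
    ext d
    rfl
  have hover : HondaOver p (p - 1) H.toFG := by
    rw [hH]
    exact hondaOver_of_isHonda hΓ hh hk κ
  obtain ⟨σ, hσ, hσ1, hσ2⟩ := hover.exists_orderOf_cf hp2 hk
  have hmult : ∀ i, vv p i H = if i = p - 1 then 1 else 0 := by
    intro i
    rw [vv, hover.mult, PowerSeries.coeff_X_pow]
    have : p ^ i = p ^ (p - 1) ↔ i = p - 1 :=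
      ⟨fun h => Nat.pow_right_injective hp.out.two_le h, fun h => by rw [h]⟩
    simp only [this]
  have h0 : ∀ i < p - 1, vv p i H = 0 := fun i hi => by
    rw [hmult, if_neg (by omega)]
  have h1 : vv p (p - 1) H ≠ 0 := by
    rw [hmult, if_pos rfl]
    exact one_ne_zero
  have hs1 : σ.cf 1 = 1 := by
    rw [hσ1 1 hp.out.one_lt, if_pos rfl]
  let R : CycRep p (NN p (p - 1) 1) k := CycRep.ofAut (epi_NN p (p - 1) 1)
    (NNpt (p - 1) H h0 h1) H (law_NNpt (p - 1) H h0 h1) σ hσ hs1
  have hlaz : IsLawHom (LawRing.ofLaz (NN p (p - 1) 1)) := LawRing.isLawHom_ofLaz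
  let R' : CycRep p Laz k := R.pre hlaz
  have hc : Laz.univ.map R'.pt = Ht.map (κ.comp PadicInt.toZMod) := by
    change Laz.univ.map ((NNpt (p - 1) H h0 h1).comp (Laz.lift LawRing.law)) = H
    rw [← Law.map_map, Laz.univ_map_lift, law_NNpt]
  have hg1 : (R'.g 1).val = σ.val := by
    change (σ ^ (1 : ZMod p).val).val = σ.val
    have : Fact (1 < p) := ⟨hp.out.one_lt⟩
    rw [ZMod.val_one, pow_one]
  have hgg : ((R'.ch ![0, 1]).g 1).val = σ.val := by
    change (R'.g (1 - 0)).val = σ.val
    rw [sub_zero, hg1]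
  have hβ : R'.E t ![0, 1] = - σ.cf p := by
    have h2 := ev_t1_aut hp2 ht κ Ht (fun d hd => lift_coeff_eq_zero hh hlog d hd)
      (R'.ch ![0, 1]) hc (fun i hi => by rw [hgg]; exact hσ1 i hi)
    rw [CycRep.E, h2, hgg]
    rfl
  have hval := Cyc.val_dd (k := k) K (R.E_inv y)
  rw [← R.E_d, hy] at hval
  have hval' : Cyc.val (K + 1) (R.E (n := 2 * (K + 1)) (Cob.mapRing
    (LawRing.ofLaz (NN p (p - 1) 1)) (2 * (K + 1)) (cupPow (bcls p t) (K + 1)))) = 0 := hval
  rw [R.E_mapRing hlaz] at hval'
  change Cyc.val (K + 1) (R'.E (cupPow (bcls p t) (K + 1))) = 0 at hval'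
  rw [R'.val_cupPow, CycRep.cval_bcls κ R' (BCocycle p hp2 t ht).2.1, hβ] at hval'
  have h3 := pow_eq_zero_iff (by omega) |>.1 hval'
  have h4 := pow_eq_zero_iff hp.out.ne_zero |>.1 (neg_eq_zero.1 h3)
  exact hσ2 (neg_eq_zero.1 h4)

end Vale.Agent.P251.F
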