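import Vale.Agent.P251.F.F3Maps
import Vale.Agent.P251.F.F3Root

/-! # P251 / F / F3Series : the natural strict series `ft F` with `ft(ηx) = [η]_F(ft(x))` -/

noncomputable section

namespace Vale.Agent.P251.F.F3

open MvPowerSeries

variable {p : ℕ} [hpp : Fact p.Prime] {R : Type*} [CommRing R] {S : Type*} [CommRing S]
  {σ τ : Type*}

/-- ring homomorphisms from `ℤ_p` to a ring in which `p` is nilpotent are unique -/
theorem padic_hom_unique [PNil p R] (f g : ℤ_[p] →+* R) : f = g := by
  ext a
  obtain ⟨n, hn⟩ := Pt.exists_appr a (expo p R)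
  obtain ⟨c, hc⟩ := Ideal.mem_span_singleton.1 hn
  have ha : a = n + (p : ℤ_[p]) ^ expo p R * c := by rw [← hc]; ring
  rw [ha, map_add, map_add, map_mul, map_mul, map_pow, map_pow, map_natCast, map_natCast,
    map_natCast, map_natCast, pow_expo]
  simp

variable (p R) in
/-- the ring homomorphism `ℤ_p → R` if `p` is nilpotent in `R` -/
def rho [PNil p R] : ℤ_[p] →+* R :=
  (ZMod.castHom (n := p ^ expo p R) (m := ringChar R)
    (ringChar.dvd (by rw [Nat.cast_pow]; exact pow_expo)) R).comp
      (PadicInt.toZModPow (expo p R))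

theorem map_rho [PNil p R] [PNil p S] (φ : R →+* S) (a : ℤ_[p]) : φ (rho p R a) = rho p S a :=
  congrArg (fun f : ℤ_[p] →+* S => f a) (padic_hom_unique (φ.comp (rho p R)) (rho p S))

theorem rho_of_mem [PNil p R] {a : ℤ_[p]} {n N : ℕ} (hN : expo p R ≤ N)
    (h : a - n ∈ Ideal.span {(p : ℤ_[p]) ^ N}) : rho p R a = n := by
  obtain ⟨c, hc⟩ := Ideal.mem_span_singleton.1 h
  have ha : a = n + (p : ℤ_[p]) ^ N * c := by rw [← hc]; ring
  rw [ha, map_add, map_mul, map_pow, map_natCast, map_natCast]
  obtain ⟨k, rfl⟩ := Nat.exists_eq_add_of_le hN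
  rw [pow_add, pow_expo]
  simp

namespace Pt

variable {F G : FormalGroup R}

/-- the linear coefficient of a point in one variable -/
def lin (f : Pt F Unit) : R := PowerSeries.coeff 1 (f.val : PowerSeries R)

theorem lin_congr {f g : Pt F Unit} (h : EqMod 2 f.val g.val) : f.lin = g.lin :=
  h (Finsupp.single () 1) (by simp)

theorem lin_ptX : (ptX F).lin = 1 := by simp [lin]

theorem lin_zero : (0 : Pt F Unit).lin = 0 := by simp [lin]

theorem lin_add (f g : Pt F Unit) : (f + g).lin = f.lin + g.lin := by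
  have h := eqMod_add_linear (eqMod_one_iff.2 f.const) (eqMod_one_iff.2 g.const)
  have h1 := h (Finsupp.single () 1) (by simp)
  rw [map_add] at h1
  exact h1

theorem lin_sum [F.IsComm] {ι : Type*} (s : Finset ι) (f : ι → Pt F Unit) :
    (∑ i ∈ s, f i).lin = ∑ i ∈ s, (f i).lin := by
  classical
  induction s using Finset.induction_on with
  | empty => simpa using lin_zero
  | insert a s ha ih => rw [Finset.sum_insert ha, Finset.sum_insert ha, lin_add, ih]

theorem lin_nsmul (n : ℕ) (f : Pt F Unit) : (n • f).lin = n * f.lin := by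
  induction n with
  | zero => simpa using lin_zero
  | succ n ih => rw [succ_nsmul, lin_add, ih]; push_cast; ring

theorem lin_zsmul [PNil p R] (a : ℤ_[p]) (f : Pt F Unit) : (a • f).lin = rho p R a * f.lin := by
  obtain ⟨n, hn⟩ := exists_appr a (expo p R * 2)
  rw [lin_congr (eqMod_zsmul a f le_rfl hn), lin_nsmul, rho_of_mem (by omega) hn]

end Pt

/-! ### the series `[a]_F` -/

section series

variable [PNil p R] (F G : FormalGroup R)

/-- the series `[a]_F(x)`, `a ∈ ℤ_p` -/
def pser (a : ℤ_[p]) : PowerSeries R := (a • Pt.ptX F).val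

theorem constantCoeff_pser (a : ℤ_[p]) : PowerSeries.constantCoeff (pser F a) = 0 :=
  (a • Pt.ptX F).const

theorem coeff_one_pser (a : ℤ_[p]) : PowerSeries.coeff 1 (pser F a) = rho p R a := by
  have := Pt.lin_zsmul a (Pt.ptX F)
  rwa [Pt.lin_ptX, mul_one] at this

variable {F G}

theorem subst_const {f : MvPowerSeries σ R} (g : PowerSeries R) :
    PowerSeries.subst f g = MvPowerSeries.subst (fun _ : Unit => f) g := rfl

/-- `a • f` is the value of the series `[a]_F` at `f`. -/
theorem val_zsmul (a : ℤ_[p]) (f : Pt F σ) :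
    (a • f).val = PowerSeries.subst f.val (pser F a) := by
  have h := congrArg Pt.val
    (Pt.substHom_zsmul F (fun _ : Unit => f.val) (fun _ => f.const) a (Pt.ptX F))
  rw [Pt.val_substHom] at h
  rw [pser, subst_const, h]
  congr 1
  have h2 : Pt.substHom F (fun _ : Unit => f.val) (fun _ => f.const) (Pt.ptX F) = f := by
    apply Pt.ext
    rw [Pt.val_substHom, Pt.val_ptX]
    exact PowerSeries.subst_X f.hasSubst
  rw [h2]

theorem pser_one [F.IsComm] : pser F (1 : ℤ_[p]) = PowerSeries.X := by
  rw [pser, one_smul]; rfl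

theorem pser_mul [F.IsComm] (a b : ℤ_[p]) :
    pser F (a * b) = PowerSeries.subst (pser F b) (pser F a) := by
  rw [pser, mul_smul, val_zsmul]; rfl

theorem pser_add [F.IsComm] (a b : ℤ_[p]) :
    pser F (a + b) = MvPowerSeries.subst ![pser F a, pser F b] F.toPowerSeries := by
  rw [pser, add_smul]; rfl

theorem pser_natCast (n : ℕ) : pser F (n : ℤ_[p]) = (n • Pt.ptX F).val := by
  rw [pser, Pt.natCast_zsmul]

/-- `[a]_F(F(f,g)) = F([a]_F f, [a]_F g)` -/
theorem subst_pser_add [F.IsComm] (a : ℤ_[p]) (f g : Pt F σ) :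
    PowerSeries.subst (F.toPowerSeries.subst ![f.val, g.val]) (pser F a) =
      F.toPowerSeries.subst ![PowerSeries.subst f.val (pser F a),
        PowerSeries.subst g.val (pser F a)] := by
  have h := congrArg Pt.val (smul_add a f g)
  rw [val_zsmul, Pt.val_add, Pt.val_add, val_zsmul, val_zsmul] at h
  exact h

/-- homomorphisms commute with `[a]` -/
theorem subst_pser_hom (a : ℤ_[p]) (g : PowerSeries R) (h0 : PowerSeries.constantCoeff g = 0)
    (hg : ∀ f f' : Pt F Unit, PowerSeries.subst (F.toPowerSeries.subst ![f.val, f'.val]) g =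
      G.toPowerSeries.subst ![PowerSeries.subst f.val g, PowerSeries.subst f'.val g]) :
    PowerSeries.subst (pser F a) g = PowerSeries.subst g (pser G a) := by
  have h : PowerSeries.subst (pser F a) g = (a • Pt.mapHom g h0 hg (Pt.ptX F)).val :=
    congrArg Pt.val (Pt.mapHom_zsmul g h0 hg a (Pt.ptX F))
  rw [val_zsmul] at h
  rw [h]
  congr 1
  exact PowerSeries.X_subst g

/-- base change -/
theorem map_pser [PNil p S] (φ : R →+* S) (a : ℤ_[p]) :
    PowerSeries.map φ (pser F a) = pser (F.map φ) a := by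
  have h := congrArg Pt.val (Pt.baseHom_zsmul φ F a (Pt.ptX F))
  rw [Pt.val_baseHom] at h
  have h2 : Pt.baseHom φ F (Pt.ptX F) = Pt.ptX (F.map φ) := by
    apply Pt.ext
    rw [Pt.val_baseHom, Pt.val_ptX, Pt.val_ptX]
    exact PowerSeries.map_X φ
  rw [h2] at h
  exact h

end series

/-! ### the series `ft F` -/

variable (p) in
/-- a primitive `(p-1)`-st root of unity of `ℤ_p` -/
def eta : ℤ_[p] := Classical.choose (exists_eta p)

theorem eta_pow : (eta p) ^ (p - 1) = 1 := (Classical.choose_spec (exists_eta p)).1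

theorem isUnit_eta_pow_sub_one {i : ℕ} (h : ¬ (p - 1) ∣ i) : IsUnit ((eta p) ^ i - 1) :=
  (Classical.choose_spec (exists_eta p)).2 i h

variable (p) in
/-- `1 / (p - 1)` in `ℤ_p` -/
def invPred : ℤ_[p] := Ring.inverse ((p - 1 : ℕ) : ℤ_[p])

theorem invPred_mul : invPred p * ((p - 1 : ℕ) : ℤ_[p]) = 1 := by
  apply Ring.inverse_mul_cancel
  have hp2 := hpp.out.two_le
  rw [isUnit_iff_toZMod, map_natCast]
  intro h
  rw [ZMod.natCast_eq_zero_iff] at h
  have := Nat.le_of_dvd (by omega) h
  omega

section ft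

variable (F : FormalGroup R)

/-- the substitution `x ↦ c x` on points -/
def scal (c : R) : Pt F Unit →+ Pt F Unit :=
  Pt.substHom F (fun _ => (PowerSeries.C c * PowerSeries.X : PowerSeries R)) (fun _ => by
    have : PowerSeries.constantCoeff (PowerSeries.C c * PowerSeries.X : PowerSeries R) = 0 := by
      simp
    exact this)

variable {F}

theorem val_scal (c : R) (f : Pt F Unit) : (scal F c f).val =
    PowerSeries.subst (PowerSeries.C c * PowerSeries.X : PowerSeries R) f.val := rfl

theorem hasSubst_CX (c : R) :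
    PowerSeries.HasSubst (PowerSeries.C c * PowerSeries.X : PowerSeries R) :=
  PowerSeries.HasSubst.of_constantCoeff_zero' (by simp)

theorem scal_zsmul [PNil p R] (c : R) (a : ℤ_[p]) (f : Pt F Unit) : scal F c (a • f) = a • scal F c f :=
  Pt.substHom_zsmul F _ _ a f

theorem subst_CX_CX (c d : R) :
    PowerSeries.subst (PowerSeries.C c * PowerSeries.X : PowerSeries R)
      (PowerSeries.C d * PowerSeries.X : PowerSeries R) = PowerSeries.C (c * d) * PowerSeries.X := by
  rw [PowerSeries.subst_mul (hasSubst_CX c), PowerSeries.subst_X (hasSubst_CX c),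
    PowerSeries.subst_C, map_mul]
  have : (MvPowerSeries.C d : PowerSeries R) = PowerSeries.C d := rfl
  rw [this]
  ring

theorem scal_scal (c d : R) (f : Pt F Unit) : scal F c (scal F d f) = scal F (c * d) f := by
  apply Pt.ext
  rw [val_scal, val_scal, val_scal,
    PowerSeries.subst_comp_subst_apply (hasSubst_CX d) (hasSubst_CX c), subst_CX_CX]

theorem scal_one (f : Pt F Unit) : scal F 1 f = f := by
  apply Pt.ext
  rw [val_scal, map_one, one_mul]
  exact PowerSeries.X_subst f.val

theorem lin_scal_ptX (c : R) : (scal F c (Pt.ptX F)).lin = c := by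
  rw [Pt.lin, val_scal, Pt.val_ptX, PowerSeries.subst_X (hasSubst_CX c)]
  simp

variable [PNil p R] [F.IsComm]

variable (p F) in
/-- the series `ft F` with `ft(ηx) = [η]_F(ft(x))`, as a point -/
def ftPt : Pt F Unit :=
  invPred p • ∑ k ∈ Finset.range (p - 1),
    (eta p) ^ (p - 1 - k) • scal F (rho p R (eta p) ^ k) (Pt.ptX F)

theorem rho_eta_pow : rho p R (eta p) ^ (p - 1) = 1 := by
  rw [← map_pow, eta_pow, map_one]

theorem lin_ftPt : (ftPt p F).lin = 1 := by
  rw [ftPt, Pt.lin_zsmul, Pt.lin_sum]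
  have h : ∀ k ∈ Finset.range (p - 1),
      ((eta p) ^ (p - 1 - k) • scal F (rho p R (eta p) ^ k) (Pt.ptX F)).lin = 1 := by
    intro k hk
    rw [Finset.mem_range] at hk
    rw [Pt.lin_zsmul, lin_scal_ptX, map_pow, ← pow_add, Nat.sub_add_cancel hk.le, rho_eta_pow]
  rw [Finset.sum_congr rfl h, Finset.sum_const, Finset.card_range, nsmul_one, ← map_natCast
    (rho p R), ← map_mul, invPred_mul, map_one]

/-- `ft(ηx) = [η]_F(ft(x))` -/
theorem scal_ftPt : scal F (rho p R (eta p)) (ftPt p F) = eta p • ftPt p F := by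
  have hp2 := hpp.out.two_le
  rw [ftPt, scal_zsmul, map_sum, smul_comm (eta p) (invPred p)]
  have h1 : ∀ k, scal F (rho p R (eta p))
      ((eta p) ^ (p - 1 - k) • scal F (rho p R (eta p) ^ k) (Pt.ptX F)) =
      (eta p) ^ (p - 1 - k) • scal F (rho p R (eta p) ^ (k + 1)) (Pt.ptX F) := by
    intro k
    rw [scal_zsmul, scal_scal, ← pow_succ']
  congr 1
  rw [Finset.smul_sum]
  simp_rw [h1]
  obtain ⟨m, hm⟩ : ∃ m, p - 1 = m + 1 := ⟨p - 2, by omega⟩
  have hη := eta_pow (p := p)
  have hρ := rho_eta_pow (p := p) (R := R)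
  rw [hm] at hη hρ ⊢
  rw [Finset.sum_range_succ, Finset.sum_range_succ']
  refine congrArg₂ (· + ·) ?_ ?_
  · refine Finset.sum_congr rfl fun k hk => ?_
    rw [Finset.mem_range] at hk
    rw [smul_smul, ← pow_succ']
    congr 2
    omega
  · rw [smul_smul, ← pow_succ', pow_zero, Nat.sub_zero, hρ, pow_succ (eta p) (m + 1), hη, one_mul,
      Nat.add_sub_cancel_left, pow_one]

variable (p F) in
/-- the series `ft F` with `ft(ηx) = [η]_F(ft(x))` -/
def ft : PowerSeries R := (ftPt p F).val

theorem constantCoeff_ft : PowerSeries.constantCoeff (ft p F) = 0 := (ftPt p F).const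

theorem coeff_one_ft : PowerSeries.coeff 1 (ft p F) = 1 := lin_ftPt

/-- `ft(ηx) = [η]_F(ft(x))` -/
theorem ft_eta : PowerSeries.subst (PowerSeries.C (rho p R (eta p)) * PowerSeries.X : PowerSeries R)
    (ft p F) = PowerSeries.subst (ft p F) (pser F (eta p)) := by
  have h := congrArg Pt.val (scal_ftPt (p := p) (F := F))
  rw [val_scal, val_zsmul] at h
  exact h

end ft

end Vale.Agent.P251.F.F3

end
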