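import Vale.Agent.P251.F.Deform

/-!
# P251, part F: the law `F_E` over `k[u_1, …, u_{h-1}]`

For a law `H` of height `≥ h` over a ring `k` with `p = 0`: `lawE` has `v_i = u_i` for
`0 < i < h`, the same other coordinates `yF` as `H` (so `v_i = v_i(H)` for `i ≥ h`) and
reduces to `H` modulo the `u_i`.
-/

namespace Vale.Agent.P251.F

open MvPowerSeries Vale.Agent.P217 Finsupp

variable {k : Type*} [CommRing k] {p : ℕ} [hp : Fact p.Prime]

theorem natCast_mvPolynomial_eq_zero {k σ : Type*} [CommRing k] {p : ℕ} (hk : (p : k) = 0) :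
    ((p : ℕ) : MvPolynomial σ k) = 0 := by
  rw [← map_natCast (MvPolynomial.C (σ := σ) (R := k)), hk, map_zero]

/-- the values `u_1, …, u_{h-1}`. -/
noncomputable def lawEu (k : Type*) [CommRing k] (h : ℕ) (i : ℕ) : MvPolynomial (Fin (h - 1)) k :=
  if hi : i - 1 < h - 1 then MvPolynomial.X ⟨i - 1, hi⟩ else 0

/-- The law `F_E` over `k[u_1, …, u_{h-1}]`; the variable `X i` is `u_{i+1}`. -/
noncomputable def lawE (hk : (p : k) = 0) (h : ℕ) (H : Law k) :
    Law (MvPolynomial (Fin (h - 1)) k) :=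
  deform (natCast_mvPolynomial_eq_zero hk) H {i | i ≠ 0 ∧ i < h} (lawEu k h)

variable (hk : (p : k) = 0) (h : ℕ) (H : Law k)

theorem vv_lawE (i : Fin (h - 1)) : vv p (i + 1) (lawE hk h H) = MvPolynomial.X i := by
  rw [lawE, vv_deform_of_mem _ _ _ _ (show (i : ℕ) + 1 ∈ {i | i ≠ 0 ∧ i < h} from
    ⟨Nat.succ_ne_zero _, by have := i.2; omega⟩) (Nat.succ_ne_zero _), lawEu]
  have h1 : (i : ℕ) + 1 - 1 < h - 1 := i.2
  rw [dif_pos h1]
  rfl

theorem vv_lawE_of_le {i : ℕ} (hi0 : i ≠ 0) (hi : h ≤ i) :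
    vv p i (lawE hk h H) = MvPolynomial.C (vv p i H) := by
  rw [lawE, vv_deform_of_notMem _ _ _ _ (fun hh => absurd hh.2 (not_lt.2 hi)) hi0,
    MvPolynomial.algebraMap_eq]

theorem vv_lawE_self (hh : h ≠ 0) :
    vv p h (lawE hk h H) = MvPolynomial.C (vv p h H) := vv_lawE_of_le hk h H hh le_rfl

theorem Ih_lawE : Ih p h (lawE hk h H) = Ideal.span (Set.range MvPolynomial.X) := by
  apply le_antisymm
  · rw [Ih, Ideal.span_le]
    rintro _ ⟨i, hi, rfl⟩
    rcases i with _ | i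
    · rw [vv_zero, natCast_mvPolynomial_eq_zero hk]
      exact Ideal.zero_mem _
    · have h1 := vv_lawE hk h H ⟨i, by omega⟩
      exact h1 ▸ Ideal.subset_span ⟨_, rfl⟩
  · rw [Ideal.span_le]
    rintro _ ⟨i, rfl⟩
    rw [← vv_lawE hk h H i]
    exact vv_mem_Ih (by have := i.2; omega) _

/-- `F_E` reduces to `H`. -/
theorem lawE_map_constantCoeff (hH : ∀ i < h, vv p i H = 0) :
    (lawE hk h H).map MvPolynomial.constantCoeff = H := by
  have h1 := deform_map_eq_map (natCast_mvPolynomial_eq_zero (σ := Fin (h - 1)) hk) H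
    {i | i ≠ 0 ∧ i < h} (lawEu k h) MvPolynomial.constantCoeff (fun i hi _ => by
      rw [hH i hi.2, map_zero, map_zero, lawEu]
      split_ifs
      · exact MvPolynomial.constantCoeff_X (R := k) _
      · exact map_zero _)
  have h2 : (MvPolynomial.constantCoeff (σ := Fin (h - 1)) (R := k)).comp
      (algebraMap k (MvPolynomial (Fin (h - 1)) k)) = RingHom.id k := by
    ext a
    simp
  rw [h2, Law.map_id] at h1
  exact h1

omit hp in
theorem pow_sub_one_eq_one {ζ : kˣ} (hζ : ζ ^ (p - 1) = 1) (i : ℕ) : ζ ^ (p ^ i - 1) = 1 := by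
  obtain ⟨m, hm⟩ : p - 1 ∣ p ^ i - 1 := by
    have := Nat.sub_dvd_pow_sub_pow p 1 i
    rwa [one_pow] at this
  rw [hm, pow_mul, hζ, one_pow]

/-- Typicality: `ζ x` with `ζ ^ (p-1) = 1` is an automorphism of `F_E` if it is one of `H`. -/
theorem lin_smul_lawE {ζ : kˣ} (hζ : ζ ^ (p - 1) = 1) (hH : InvSeries.lin ζ • H = H) :
    InvSeries.lin (Units.map ((MvPolynomial.C : k →+* MvPolynomial (Fin (h - 1)) k) :
      k →* MvPolynomial (Fin (h - 1)) k) ζ) • lawE hk h H = lawE hk h H := by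
  refine lin_smul_deform _ H _ _ ζ hH fun i _ _ => ?_
  rw [← map_pow, ← Units.val_pow_eq_pow_val, pow_sub_one_eq_one hζ, Units.val_one, map_one,
    one_mul]

/-- Vanishing of coordinates in weights not divisible by `p - 1`. -/
theorem yF_lawE_eq_zero (hH : ∀ n, ¬ p - 1 ∣ n + 1 → yF p H n = 0) (n : ℕ)
    (hn : ¬ p - 1 ∣ n + 1) : yF p (lawE hk h H) n = 0 :=
  yF_deform_eq_zero _ H _ _ (fun i _ => by
    have := Nat.sub_dvd_pow_sub_pow p 1 i
    rwa [one_pow] at this) hH n hn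

include hk in
/-- all together -/
theorem exists_lawE (hH : ∀ i < h, vv p i H = 0) :
    ∃ F : Law (MvPolynomial (Fin (h - 1)) k),
      (∀ i : Fin (h - 1), vv p (i + 1) F = MvPolynomial.X i) ∧
      (∀ i, i ≠ 0 → h ≤ i → vv p i F = MvPolynomial.C (vv p i H)) ∧
      Ih p h F = Ideal.span (Set.range MvPolynomial.X) ∧
      F.map MvPolynomial.constantCoeff = H ∧
      ∀ ζ : kˣ, ζ ^ (p - 1) = 1 → InvSeries.lin ζ • H = H →
        InvSeries.lin (Units.map ((MvPolynomial.C : k →+* MvPolynomial (Fin (h - 1)) k) :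
          k →* MvPolynomial (Fin (h - 1)) k) ζ) • F = F :=
  ⟨lawE hk h H, vv_lawE hk h H, fun _ => vv_lawE_of_le hk h H, Ih_lawE hk h H,
    lawE_map_constantCoeff hk h H hH, fun _ hζ hζH => lin_smul_lawE hk h H hζ hζH⟩

end Vale.Agent.P251.F
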